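import Crest.Agent.R166.Defs

/-! # The fibres of the pairing model -/

set_option autoImplicit false
set_option linter.unusedVariables false
set_option linter.unusedSectionVars false

namespace Crest.Agent.R166

open Crest.ProbabilityR.RandomMatrix

theorem G1_mem_iff {n d : ℕ} (G : SimpleGraph (Fin n)) :
    G ∈ regularGraphs n d ↔ ∀ v, Nat.card {w // G.Adj v w} = d := by
  classical
  unfold regularGraphs
  simp only [Finset.mem_filter, Finset.mem_univ, true_and]
  refine forall_congr' fun v => ?_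
  rw [Nat.card_eq_fintype_card, Fintype.card_subtype]

theorem G1_mem {n D : ℕ} (π : Pairing n D) : graphOf π ∈ regularGraphs n (D + 1) := by
  rw [G1_mem_iff]
  intro v
  have : Function.Bijective
      (fun i : Fin (D + 1) => (⟨(π.1 (v, i)).1, ⟨i, rfl⟩⟩ : {w // (graphOf π).Adj v w})) := by
    constructor
    · intro i j h
      exact π.2.2.2 v i j (congrArg Subtype.val h)
    · rintro ⟨w, i, rfl⟩
      exact ⟨i, rfl⟩
  rw [← Nat.card_eq_of_bijective _ this]
  simp

/-- the neighbour lists of a pairing -/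
def G1_nb {n D : ℕ} (G : SimpleGraph (Fin n)) (π : {π : Pairing n D // graphOf π = G}) :
    ∀ x, Fin (D + 1) ↪ {y // G.Adj x y} := fun x =>
  ⟨fun i => ⟨(π.1.1 (x, i)).1, π.2.le (show (graphOf π.1).Adj x _ from ⟨i, rfl⟩)⟩, fun i j h =>
    π.1.2.2.2 x i j (congrArg Subtype.val h)⟩

theorem G1_nb_inj {n D : ℕ} (G : SimpleGraph (Fin n)) :
    Function.Injective (G1_nb (D := D) G) := by
  intro π π' h
  have h1 : ∀ x i, (π.1.1 (x, i)).1 = (π'.1.1 (x, i)).1 := fun x i =>
    congrArg Subtype.val (DFunLike.congr_fun (congrFun h x) i)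
  refine Subtype.ext (Subtype.ext (Equiv.ext fun ⟨x, i⟩ => Prod.ext (h1 x i) ?_))
  refine π'.1.2.2.2 (π'.1.1 (x, i)).1 _ _ ?_
  rw [Prod.mk.eta, π'.1.2.1, ← h1, ← h1 x i, Prod.mk.eta, π.1.2.1]

theorem G1_nb_surj {n D : ℕ} {G : SimpleGraph (Fin n)} (hG : G ∈ regularGraphs n (D + 1)) :
    Function.Surjective (G1_nb (D := D) G) := by
  classical
  intro e
  rw [G1_mem_iff] at hG
  have hs : ∀ x, Function.Surjective (e x) := fun x =>
    ((Nat.bijective_iff_injective_and_card (e x)).mpr ⟨(e x).injective, by rw [hG x]; simp⟩).2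
  have hadj : ∀ x i, G.Adj x (e x i).1 := fun x i => (e x i).2
  have hinj : ∀ x i j, (e x i).1 = (e x j).1 → i = j := fun x i j h =>
    (e x).injective (Subtype.ext h)
  have hsur : ∀ x y, G.Adj x y → ∃ i, (e x i).1 = y := fun x y h => by
    obtain ⟨i, hi⟩ := hs x ⟨y, h⟩
    exact ⟨i, congrArg Subtype.val hi⟩
  generalize hnb : (fun x i => (e x i).1 : Fin n → Fin (D + 1) → Fin n) = nb
  have hnb' : ∀ x i, (e x i).1 = nb x i := fun x i => congrFun (congrFun hnb x) i
  simp only [hnb'] at hadj hinj hsur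
  choose j hj using fun x i => hsur (nb x i) x (hadj x i).symm
  have hinv : Function.Involutive fun h : HE n D => ((nb h.1 h.2, j h.1 h.2) : HE n D) := by
    rintro ⟨x, i⟩
    refine Prod.ext (hj x i) (hinj x _ _ ?_)
    have := hj (nb x i) (j x i)
    rw [hj x i] at this
    exact this
  refine ⟨⟨⟨hinv.toPerm, hinv, fun h => (hadj h.1 h.2).ne', hinj⟩, ?_⟩, ?_⟩
  · ext x y
    constructor
    · rintro ⟨i, rfl⟩
      exact hadj x i
    · exact hsur x y
  · funext x
    ext i
    exact congrArg Fin.val (hnb' x i).symm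

theorem G1_card_fiber {n D : ℕ} {G : SimpleGraph (Fin n)} (hG : G ∈ regularGraphs n (D + 1)) :
    Nat.card {π : Pairing n D // graphOf π = G} = (D + 1).factorial ^ n := by
  classical
  rw [Nat.card_eq_of_bijective _ ⟨G1_nb_inj G, G1_nb_surj hG⟩, Nat.card_pi]
  rw [G1_mem_iff] at hG
  have : ∀ x, Nat.card (Fin (D + 1) ↪ {y // G.Adj x y}) = (D + 1).factorial := fun x => by
    rw [Nat.card_eq_fintype_card, Fintype.card_embedding_eq, ← Nat.card_eq_fintype_card, hG x,
      Fintype.card_fin, Nat.descFactorial_self]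
  rw [Finset.prod_congr rfl fun x _ => this x, Finset.prod_const, Finset.card_univ,
    Fintype.card_fin]

theorem G1_sum (n D : ℕ) (F : SimpleGraph (Fin n) → ℝ) :
    ∑ π : Pairing n D, F (graphOf π) =
      ((D + 1).factorial : ℝ) ^ n * ∑ G ∈ regularGraphs n (D + 1), F G := by
  classical
  rw [← Finset.sum_fiberwise_of_maps_to (s := Finset.univ) (t := regularGraphs n (D + 1))
    (g := graphOf) (fun π _ => G1_mem π), Finset.mul_sum]
  refine Finset.sum_congr rfl fun G hG => ?_
  rw [Finset.sum_congr rfl (g := fun _ => F G)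
    (fun π hπ => by rw [(Finset.mem_filter.mp hπ).2]), Finset.sum_const, nsmul_eq_mul,
    ← Fintype.card_subtype, ← Nat.card_eq_fintype_card, G1_card_fiber hG]
  push_cast
  rfl

theorem G1_avg (n D : ℕ) (F : SimpleGraph (Fin n) → ℝ) :
    regularAverage n (D + 1) F = avg fun π : Pairing n D => F (graphOf π) := by
  have h1 := G1_sum n D fun _ => 1
  simp only [Finset.sum_const, Finset.card_univ, nsmul_eq_mul, mul_one] at h1
  unfold regularAverage avg
  rw [G1_sum, h1, mul_div_mul_left]
  positivity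

theorem G1_nonempty (n D : ℕ) :
    (regularGraphs n (D + 1)).Nonempty ↔ Nonempty (Pairing n D) := by
  constructor
  · rintro ⟨G, hG⟩
    have h := G1_card_fiber hG
    have : Nat.card {π : Pairing n D // graphOf π = G} ≠ 0 := by
      rw [h]; positivity
    obtain ⟨⟨π, -⟩⟩ := (Nat.card_ne_zero.mp this).1
    exact ⟨π⟩
  · rintro ⟨π⟩
    exact ⟨_, G1_mem π⟩

open Classical in
theorem G1_adj {n D : ℕ} (π : Pairing n D) : (graphOf π).adjMatrix ℝ = adj π.1 := by
  ext x y
  rw [SimpleGraph.adjMatrix_apply]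
  unfold adj
  rw [Matrix.of_apply]
  split_ifs with h
  · obtain ⟨i, hi⟩ := h
    rw [Finset.sum_eq_single i, if_pos hi]
    · intro j _ hj
      rw [if_neg]
      intro h
      exact hj (π.2.2.2 x j i (h.trans hi.symm))
    · intro h
      exact absurd (Finset.mem_univ i) h
  · refine (Finset.sum_eq_zero fun i _ => if_neg fun hi => h ⟨i, hi⟩).symm

end Crest.Agent.R166
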