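import Crest.Agent.R166.Gauss3
import Crest.Agent.R166.G1Aux49

/-! # The pairing model and regular graphs -/

set_option autoImplicit false
set_option linter.unusedVariables false
set_option linter.unusedSectionVars false

open MeasureTheory ProbabilityTheory Filter Topology Matrix
open scoped ENNReal BoundedContinuousFunction

namespace Crest.Agent.R166

open Crest.ProbabilityR.RandomMatrix in
theorem regularAverage_eq (n D : ℕ) (F : SimpleGraph (Fin n) → ℝ) :
    regularAverage n (D + 1) F = avg fun π : Pairing n D => F (graphOf π) :=
  G1_avg n D F

open Crest.ProbabilityR.RandomMatrix in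
theorem regularGraphs_nonempty_iff (n D : ℕ) :
    (regularGraphs n (D + 1)).Nonempty ↔ Nonempty (Pairing n D) :=
  G1_nonempty n D

open Classical in
theorem adjMatrix_graphOf {n D : ℕ} (π : Pairing n D) : (graphOf π).adjMatrix ℝ = adj π.1 :=
  G1_adj π

end Crest.Agent.R166
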