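import Crest.Agent.R166.Gauss3

/-! # Counting simple pairings -/

set_option autoImplicit false
set_option linter.unusedVariables false
set_option linter.unusedSectionVars false

open MeasureTheory ProbabilityTheory Filter Topology Matrix
open scoped ENNReal BoundedContinuousFunction

namespace Crest.Agent.R166

section G2
open Finset Equiv

variable {H V : Type} [Fintype H] [DecidableEq H] [DecidableEq V]

variable (H) in
/-- fixed point free involutions -/
def g2AP : Finset (Perm H) := univ.filter fun π => (∀ h, π (π h) = h) ∧ ∀ h, π h ≠ h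

theorem g2_mem {π : Perm H} : π ∈ g2AP H ↔ (∀ h, π (π h) = h) ∧ ∀ h, π h ≠ h := by simp [g2AP]

/-- a half-edge on a loop or a multiple edge -/
def g2Bad (v : H → V) (π : Perm H) (h : H) : Prop :=
  v (π h) = v h ∨ ∃ g, g ≠ h ∧ v g = v h ∧ v (π g) = v (π h)

instance (v : H → V) (π : Perm H) (h : H) : Decidable (g2Bad v π h) := by
  unfold g2Bad; infer_instance

/-- the number of bad half-edges -/
def g2b (v : H → V) (π : Perm H) : ℕ := #(univ.filter (g2Bad v π))

/-- a switching -/
def g2sw (p q : H) (π : Perm H) : Perm H := swap p q * π * swap p q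

theorem g2sw_apply (p q : H) (π : Perm H) (g : H) : g2sw p q π g = swap p q (π (swap p q g)) := rfl

theorem g2sw_sw (p q : H) (π : Perm H) : g2sw p q (g2sw p q π) = π := by
  ext g; simp [g2sw_apply]

theorem g2sw_mem (p q : H) {π : Perm H} (h : π ∈ g2AP H) : g2sw p q π ∈ g2AP H := by
  rw [g2_mem] at h ⊢
  refine ⟨fun g => by simp [g2sw_apply, h.1], fun g e => h.2 (swap p q g) ?_⟩
  rw [g2sw_apply] at e
  simpa using congrArg (swap p q) e

theorem g2sw_val {π : Perm H} (hπ : π ∈ g2AP H) {h a : H} (h1 : a ≠ h) (h2 : π a ≠ h) :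
    g2sw (π h) a π h = a ∧ g2sw (π h) a π a = h ∧ g2sw (π h) a π (π h) = π a ∧
      g2sw (π h) a π (π a) = π h ∧
      ∀ g, g ≠ h → g ≠ π h → g ≠ a → g ≠ π a → g2sw (π h) a π g = π g := by
  obtain ⟨i1, i2⟩ := g2_mem.1 hπ
  have e1 : swap (π h) a h = h := swap_apply_of_ne_of_ne (i2 h).symm h1.symm
  have e2 : swap (π h) a (π a) = π a :=
    swap_apply_of_ne_of_ne (fun e => h1 (π.injective e)) (i2 a)
  refine ⟨by rw [g2sw_apply, e1, swap_apply_left], by rw [g2sw_apply, swap_apply_right, i1, e1],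
    by rw [g2sw_apply, swap_apply_left, e2], by rw [g2sw_apply, e2, i1, swap_apply_right],
    fun g a1 a2 a3 a4 => ?_⟩
  rw [g2sw_apply, swap_apply_of_ne_of_ne a2 a3, swap_apply_of_ne_of_ne
    (fun e => a1 (π.injective e)) (fun e => a4 (by rw [← e, i1]))]

/-- half-edges at distance at most one -/
def g2W (v : H → V) (π : Perm H) (p : H) : Finset H :=
  univ.filter fun q => v q = v p ∨ ∃ g, v g = v p ∧ v q = v (π g)

variable {v : H → V} {d : ℕ}

theorem g2W_card (hv : ∀ x, #(univ.filter fun h => v h = x) ≤ d) (π : Perm H) (p : H) :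
    #(g2W v π p) ≤ d + d * d := by
  have h1 : g2W v π p ⊆ (univ.filter fun h => v h = v p) ∪
      (univ.filter fun h => v h = v p).biUnion fun g => univ.filter fun h => v h = v (π g) := by
    intro q hq
    simpa [g2W] using hq
  exact (card_le_card h1).trans ((card_union_le _ _).trans (add_le_add (hv _)
    ((card_biUnion_le_card_mul _ _ _ fun g _ => hv _).trans (Nat.mul_le_mul_right _ (hv _)))))

theorem g2_card_pre (π : Perm H) (s : Finset H) : #(univ.filter fun a => π a ∈ s) ≤ #s :=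
  card_le_card_of_injOn π (fun a ha => by simpa using ha) π.injective.injOn

theorem g2_count (hv : ∀ x, #(univ.filter fun h => v h = x) ≤ d) (h : H) :
    #((g2AP H).filter (g2Bad v · h)) * (Fintype.card H - 2 * d) ≤ #(g2AP H) * (d + d * d) := by
  refine card_mul_le_card_mul
    (fun π π' => ∃ a, v a ≠ v h ∧ v (π a) ≠ v h ∧ π' = g2sw (π h) a π) (fun π hπ => ?_)
    fun π' hπ' => ?_
  · have hπ' := (mem_filter.1 hπ).1
    have h1 : univ ⊆ (univ.filter fun a => v a ≠ v h ∧ v (π a) ≠ v h) ∪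
        ((univ.filter fun a => v a = v h) ∪
          univ.filter fun a => π a ∈ univ.filter fun a => v a = v h) := by
      intro a _
      simp only [mem_union, mem_filter, mem_univ, true_and]
      tauto
    have h2 := (card_le_card h1).trans ((card_union_le _ _).trans (add_le_add le_rfl
      ((card_union_le _ _).trans (add_le_add (hv _) ((g2_card_pre _ _).trans (hv _))))))
    rw [card_univ] at h2
    refine le_trans (by omega) (card_le_card_of_injOn
      (s := univ.filter fun a => v a ≠ v h ∧ v (π a) ≠ v h) (fun a => g2sw (π h) a π)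
      (fun a ha => ?_) fun a ha a' ha' e => ?_)
    · simp only [coe_filter, mem_univ, true_and, Set.mem_setOf_eq] at ha
      exact mem_coe.2 (mem_bipartiteAbove _ |>.2 ⟨g2sw_mem _ _ hπ', a, ha.1, ha.2, rfl⟩)
    · simp only [coe_filter, mem_univ, true_and, Set.mem_setOf_eq] at ha ha'
      have e' : g2sw (π h) a π = g2sw (π h) a' π := e
      rw [← (g2sw_val hπ' (ne_of_apply_ne v ha.1) (ne_of_apply_ne v ha.2)).1, e',
        (g2sw_val hπ' (ne_of_apply_ne v ha'.1) (ne_of_apply_ne v ha'.2)).1]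
  · refine le_trans (card_le_card_of_injOn (fun π => π h) (fun π hπ => ?_)
      fun π₁ h₁ π₂ h₂ e => ?_) (g2W_card hv π' h)
    · obtain ⟨h0, a, h1, h2, rfl⟩ := (mem_bipartiteBelow _).1 (mem_coe.1 hπ)
      obtain ⟨h3, h4⟩ := mem_filter.1 h0
      simp only [g2W, coe_filter, mem_univ, true_and, Set.mem_setOf_eq]
      rcases h4 with h4 | ⟨g, g1, g2, g3⟩
      · exact Or.inl h4
      by_cases g4 : g = π h
      · exact Or.inl (g4 ▸ g2)
      refine Or.inr ⟨g, g2, ?_⟩
      rw [(g2sw_val h3 (ne_of_apply_ne v h1) (ne_of_apply_ne v h2)).2.2.2.2 g g1 g4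
        (fun e => h1 (e ▸ g2)) (fun e => h2 (e ▸ g2)), g3]
    · obtain ⟨h0, a, h1, h2, e1⟩ := (mem_bipartiteBelow _).1 (mem_coe.1 h₁)
      obtain ⟨h0', a', h1', h2', e2⟩ := (mem_bipartiteBelow _).1 (mem_coe.1 h₂)
      have e' : π₁ h = π₂ h := e
      have e3 : a = a' := by
        rw [← (g2sw_val (mem_filter.1 h0).1 (ne_of_apply_ne v h1) (ne_of_apply_ne v h2)).1, ← e1,
          e2, (g2sw_val (mem_filter.1 h0').1 (ne_of_apply_ne v h1') (ne_of_apply_ne v h2')).1]
      rw [← g2sw_sw (π₁ h) a π₁, ← e1, e2, e', e3, g2sw_sw]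

theorem g2_markov (hv : ∀ x, #(univ.filter fun h => v h = x) ≤ d) (hM : 4 * d < Fintype.card H) :
    #(g2AP H) ≤ 2 * #((g2AP H).filter fun π => g2b v π ≤ 4 * (d + d * d)) := by
  have h1 : ∑ π ∈ g2AP H, g2b v π = ∑ h, #((g2AP H).filter (g2Bad v · h)) := by
    simp only [g2b, card_filter]
    exact sum_comm
  have h2 : (∑ π ∈ g2AP H, g2b v π) * (Fintype.card H - 2 * d) ≤
      2 * (#(g2AP H) * (d + d * d)) * (Fintype.card H - 2 * d) := by
    rw [h1, sum_mul]
    refine (sum_le_card_nsmul _ _ _ fun h _ => g2_count hv h).trans ?_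
    rw [smul_eq_mul, card_univ, mul_right_comm]
    exact Nat.mul_le_mul_right _ (by omega)
  have h3 := Nat.le_of_mul_le_mul_right h2 (by omega)
  have h4 : #((g2AP H).filter fun π => ¬ g2b v π ≤ 4 * (d + d * d)) * (4 * (d + d * d) + 1) ≤
      ∑ π ∈ g2AP H, g2b v π := by
    rw [← smul_eq_mul]
    exact (card_nsmul_le_sum _ (g2b v) _ fun π hπ => not_le.1 (mem_filter.1 hπ).2).trans
      (sum_le_sum_of_subset (filter_subset _ _))
  have h5 := card_filter_add_card_filter_not (s := g2AP H) fun π => g2b v π ≤ 4 * (d + d * d)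
  have h6 : 2 * #((g2AP H).filter fun π => ¬ g2b v π ≤ 4 * (d + d * d)) ≤ #(g2AP H) := by
    refine Nat.le_of_mul_le_mul_right (c := 4 * (d + d * d) + 1) ?_ (Nat.succ_pos _)
    nlinarith
  omega

theorem g2_desc (hv : ∀ x, #(univ.filter fun h => v h = x) ≤ d) {π : Perm H} (hπ : π ∈ g2AP H)
    (h0 : 0 < g2b v π) (hM : 4 * (d + d * d) + g2b v π < Fintype.card H) :
    ∃ p q, g2b v (g2sw p q π) < g2b v π := by
  obtain ⟨h, hh⟩ := card_pos.1 h0
  obtain ⟨i1, i2⟩ := g2_mem.1 hπ
  have hW : #(g2W v π h ∪ g2W v π (π h)) ≤ 2 * (d + d * d) :=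
    (card_union_le _ _).trans (by linarith [g2W_card hv π h, g2W_card hv π (π h)])
  obtain ⟨a, -, ha⟩ := exists_mem_notMem_of_card_lt_card (t := univ)
    (s := ((g2W v π h ∪ g2W v π (π h)) ∪ univ.filter fun a => π a ∈ g2W v π h ∪ g2W v π (π h)) ∪
      univ.filter (g2Bad v π))
    (((card_union_le _ _).trans (add_le_add ((card_union_le _ _).trans
      (add_le_add hW ((g2_card_pre _ _).trans hW))) le_rfl)).trans_lt (by
        rw [card_univ]; unfold g2b at hM; omega))
  simp only [g2W, g2Bad, mem_union, mem_filter, mem_univ, true_and, not_or, not_exists,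
    not_and] at ha
  obtain ⟨⟨⟨⟨a1, a2⟩, a3, a4⟩, ⟨a5, a6⟩, a7, a8⟩, a9, -⟩ := ha
  obtain ⟨b1, b2, b3, b4, b5⟩ := g2sw_val hπ (ne_of_apply_ne v a1) (ne_of_apply_ne v a5)
  refine ⟨π h, a, lt_of_le_of_lt (card_le_card ?_) (card_erase_lt_of_mem hh)⟩
  intro g hg
  simp only [mem_erase, mem_filter, mem_univ, true_and] at hg ⊢
  generalize g2sw (π h) a π = ρ at *
  have key : ∀ g g', g' = h ∨ g' = π h ∨ g' = a ∨ g' = π a → g ≠ g' → v g = v g' →
      v (ρ g) ≠ v (ρ g') := by
    intro g g' c1 c2 c3 c4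
    by_cases c : g = h ∨ g = π h ∨ g = a ∨ g = π a
    · clear a2 a4 a6 a8 b5 i1 i2 hW hg hh hM h0 hv hπ
      rcases c1 with c1 | c1 | c1 | c1 <;> rcases c with c | c | c | c <;>
        rw [c, c1] at c2 c3 c4 <;> simp only [b1, b2, b3, b4] at c4 <;> grind
    rw [b5 g (by tauto) (by tauto) (by tauto) (by tauto)] at c4
    rcases c1 with c1 | c1 | c1 | c1 <;> rw [c1] at c3 c4
    · exact a2 g c3 (b1 ▸ c4.symm)
    · exact a8 g c3 (b3 ▸ c4.symm)
    · exact a2 (π g) (b2 ▸ c4) (by rw [i1, c3])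
    · exact a8 (π g) (b4 ▸ c4) (by rw [i1, c3])
  by_cases c : g = h ∨ g = π h ∨ g = a ∨ g = π a
  · exfalso
    rcases hg with hg | ⟨g', e1, e2, e3⟩
    · clear key a2 a4 a6 a8 b5 i1 i2 hW hh hM h0 hv hπ
      rcases c with c | c | c | c <;> rw [c] at hg <;> simp only [b1, b2, b3, b4] at hg <;> grind
    · exact key g' g c e1 e2 e3
  have c' := b5 g (by tauto) (by tauto) (by tauto) (by tauto)
  refine ⟨by tauto, ?_⟩
  rcases hg with hg | ⟨g', e1, e2, e3⟩
  · exact Or.inl (c' ▸ hg)
  by_cases c1 : g' = h ∨ g' = π h ∨ g' = a ∨ g' = π a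
  · exact absurd e3.symm (key g g' c1 e1.symm e2.symm)
  · exact Or.inr ⟨g', e1, e2, by
      rw [← c', ← e3, b5 g' (by tauto) (by tauto) (by tauto) (by tauto)]⟩

theorem g2_main (hv : ∀ x, #(univ.filter fun h => v h = x) ≤ d)
    (hM : 8 * (d + d * d) < Fintype.card H) : #(g2AP H) ≤
      2 * ((Fintype.card H ^ 2) ^ (4 * (d + d * d)) * #((g2AP H).filter fun π => g2b v π ≤ 0)) := by
  have h1 : ∀ k, k ≤ 4 * (d + d * d) → #((g2AP H).filter fun π => g2b v π ≤ k) ≤
      (Fintype.card H ^ 2) ^ k * #((g2AP H).filter fun π => g2b v π ≤ 0) := by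
    intro k
    induction k with
    | zero => simp
    | succ k ih =>
      intro hk
      have h2 : ((g2AP H).filter fun π => g2b v π ≤ k + 1) ⊆
          ((univ : Finset (H × H)) ×ˢ (g2AP H).filter fun π => g2b v π ≤ k).image
            fun z => g2sw z.1.1 z.1.2 z.2 := by
        intro π hπ
        obtain ⟨h3, h4⟩ := mem_filter.1 hπ
        obtain ⟨p, q, h5⟩ : ∃ p q, g2b v (g2sw p q π) ≤ k := by
          rcases Nat.eq_zero_or_pos (g2b v π) with h0 | h0
          · obtain ⟨p⟩ := Fintype.card_pos_iff.1 (show 0 < Fintype.card H by omega)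
            refine ⟨p, p, ?_⟩
            have : g2sw p p π = π := by ext g; simp [g2sw_apply]
            rw [this]; omega
          · obtain ⟨p, q, h5⟩ := g2_desc hv h3 h0 (by omega)
            exact ⟨p, q, by omega⟩
        exact mem_image.2 ⟨((p, q), g2sw p q π),
          mem_product.2 ⟨mem_univ _, mem_filter.2 ⟨g2sw_mem _ _ h3, h5⟩⟩, g2sw_sw _ _ _⟩
      refine ((card_le_card h2).trans card_image_le).trans ?_
      rw [card_product, card_univ, Fintype.card_prod, ← sq, pow_succ' _ k, mul_assoc]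
      exact Nat.mul_le_mul_left _ (ih (by omega))
  exact (g2_markov hv (by omega)).trans (Nat.mul_le_mul_left _ (h1 _ le_rfl))

end G2

open Classical in
/-- all pairings (loops and multiple edges allowed) -/
noncomputable def allPairings (n D : ℕ) : Finset (Equiv.Perm (HE n D)) :=
  Finset.univ.filter fun π => (∀ h, π (π h) = h) ∧ ∀ h, π h ≠ h

theorem count_simple (D : ℕ) : ∃ C : ℕ, ∀ᶠ n in atTop,
    (allPairings n D).card ≤ n ^ C * Fintype.card (Pairing n D) := by
  classical
  refine ⟨4 * (4 * ((D + 1) + (D + 1) * (D + 1))) + 1, ?_⟩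
  filter_upwards [eventually_gt_atTop (8 * ((D + 1) + (D + 1) * (D + 1)))] with n hn
  have hM : Fintype.card (HE n D) = n * (D + 1) := by simp
  have hM1 : n ≤ n * (D + 1) := Nat.le_mul_of_pos_right _ (Nat.succ_pos _)
  have hv : ∀ x : Fin n, (Finset.univ.filter fun h : HE n D => h.1 = x).card ≤ D + 1 := fun x => by
    refine (Finset.card_le_card_of_injOn (t := Finset.univ) Prod.snd (fun _ _ => by simp)
      fun a ha b hb h => ?_).trans (by simp)
    simp only [Finset.coe_filter, Finset.mem_univ, true_and, Set.mem_setOf_eq] at ha hb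
    exact Prod.ext (ha.trans hb.symm) h
  have h1 := g2_main (v := (Prod.fst : HE n D → Fin n)) hv (by rw [hM]; omega)
  have h2 : (g2AP (HE n D)).filter (fun π => g2b Prod.fst π ≤ 0) ⊆
      Finset.univ.image fun π : Pairing n D => π.1 := by
    intro π hπ
    obtain ⟨h3, h4⟩ := Finset.mem_filter.1 hπ
    have h5 : ∀ h, ¬ g2Bad Prod.fst π h := fun h hb =>
      Finset.filter_eq_empty_iff.1 (Finset.card_eq_zero.1 (Nat.le_zero.1 h4)) (Finset.mem_univ h) hb
    refine Finset.mem_image.2 ⟨⟨π, (g2_mem.1 h3).1, fun h e => h5 h (Or.inl e), fun x i j e => ?_⟩,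
      Finset.mem_univ _, rfl⟩
    by_contra hij
    exact h5 (x, j) (Or.inr ⟨(x, i), fun e' => hij (congrArg Prod.snd e'), rfl, e⟩)
  have h3 := (Finset.card_le_card h2).trans Finset.card_image_le
  have h4 : allPairings n D = g2AP (HE n D) := by
    ext π; simp [allPairings, g2_mem]
  rw [h4]
  refine h1.trans ?_
  rw [← mul_assoc]
  refine Nat.mul_le_mul ?_ h3
  rw [pow_succ' n, hM, show 4 * (4 * ((D + 1) + (D + 1) * (D + 1))) =
    2 * 2 * (4 * ((D + 1) + (D + 1) * (D + 1))) from rfl, pow_mul n, pow_mul n]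
  refine Nat.mul_le_mul (by omega) (Nat.pow_le_pow_left (Nat.pow_le_pow_left ?_ _) _)
  rw [sq]
  exact Nat.mul_le_mul_left _ (by omega)

theorem pairing_nonempty (D : ℕ) : ∀ᶠ n in atTop, Even (n * (D + 1)) → Nonempty (Pairing n D) := by
  obtain ⟨C, hC⟩ := count_simple D
  filter_upwards [hC] with n hn ⟨m, hm⟩
  have e : HE n D ≃ Fin m × Bool := Fintype.equivOfCardEq (by simp [hm, mul_two])
  have h1 : e.symm.permCongr ((Equiv.refl _).prodCongr (Function.Involutive.toPerm not Bool.not_not)) ∈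
      allPairings n D := by
    simp only [allPairings, Finset.mem_filter, Finset.mem_univ, true_and]
    refine ⟨fun h => by simp [Prod.map], fun h hh => ?_⟩
    have := congrArg (fun z => (e z).2) hh
    simp at this
  have h2 := (Finset.card_pos.2 ⟨_, h1⟩).trans_le hn
  exact Fintype.card_pos_iff.1 (Nat.pos_of_mul_pos_left h2)

end Crest.Agent.R166
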