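import Crest.Agent.R166.Gauss3

/-! # Star resampling -/

set_option autoImplicit false
set_option linter.unusedVariables false
set_option linter.unusedSectionVars false

open MeasureTheory ProbabilityTheory Filter Topology Matrix
open scoped ENNReal BoundedContinuousFunction

namespace Crest.Agent.R166

theorem g3_conj_conj {n D : ℕ} {τ : Equiv.Perm (HE n D)} (hτ : τ * τ = 1)
    (π : Equiv.Perm (HE n D)) : conjP τ (conjP τ π) = π := by
  have h : τ⁻¹ = τ := inv_eq_of_mul_eq_one_right hτ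
  simp only [conjP, h, ← mul_assoc, hτ, one_mul]
  rw [mul_assoc, hτ, mul_one]

theorem g3_invol {n D : ℕ} {τ : Equiv.Perm (HE n D)} (hτ : τ * τ = 1) :
    Function.Involutive (switchP τ) := by
  intro π
  by_cases h : IsSP (conjP τ π.1)
  · have e : switchP τ π = ⟨conjP τ π.1, h⟩ := dif_pos h
    have h' : IsSP (conjP τ (conjP τ π.1)) := by
      rw [g3_conj_conj hτ]
      exact π.2
    rw [e]
    exact (dif_pos h').trans (Subtype.ext (g3_conj_conj hτ π.1))
  · have e : switchP τ π = π := dif_neg h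
    rw [e, e]

/-- exchangeability under an involutive switching -/
theorem avg_switchP {n D : ℕ} {τ : Equiv.Perm (HE n D)} (hτ : τ * τ = 1) (F : Pairing n D → ℝ) :
    (avg fun π => F (switchP τ π)) = avg F := by
  unfold avg
  rw [← Equiv.sum_comp ((g3_invol hτ).toPerm _) F]
  rfl

/-! ### star resampling -/

open Classical in
noncomputable def starFn {n D : ℕ} (o : Fin n) (α : Fin (D + 1) → HE n D) (h : HE n D) : HE n D :=
  if h.1 = o then α h.2 else if hx : ∃ i, α i = h then (o, hx.choose) else h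

open Classical in
/-- the product of the transpositions `(o, i) ↔ α i` -/
noncomputable def starSw {n D : ℕ} (o : Fin n) (α : Fin (D + 1) → HE n D) : Equiv.Perm (HE n D) :=
  if hI : Function.Involutive (starFn o α) then hI.toPerm _ else 1

/-- `o`, `c_i = (π (o,i)).1`, `a_i = (α i).1`, `b_i = (π (α i)).1` -/
def starPts {n D : ℕ} (π : Equiv.Perm (HE n D)) (o : Fin n) (α : Fin (D + 1) → HE n D) :
    Option (Fin 3 × Fin (D + 1)) → Fin n
  | none => o
  | some (k, i) => if k = 0 then (π (o, i)).1 else if k = 1 then (α i).1 else (π (α i)).1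

def StarOK {n D : ℕ} (π : Equiv.Perm (HE n D)) (o : Fin n) (α : Fin (D + 1) → HE n D) : Prop :=
  Function.Injective (starPts π o α) ∧ ∀ i j, (π ((α i).1, j)).1 ≠ (π (o, i)).1

theorem starSw_sq {n D : ℕ} (o : Fin n) (α : Fin (D + 1) → HE n D) :
    starSw o α * starSw o α = 1 := by
  unfold starSw
  split_ifs with hI
  · exact Equiv.ext hI
  · exact mul_one 1

theorem g3_inj_iff {n D : ℕ} (π : Equiv.Perm (HE n D)) (o : Fin n) (α : Fin (D + 1) → HE n D) :
    Function.Injective (starPts π o α) ↔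
      (∀ i, (π (o, i)).1 ≠ o ∧ (α i).1 ≠ o ∧ (π (α i)).1 ≠ o) ∧
      ∀ i j, (π (o, i)).1 ≠ (α j).1 ∧ (π (o, i)).1 ≠ (π (α j)).1 ∧ (α i).1 ≠ (π (α j)).1 ∧
        ((π (o, i)).1 = (π (o, j)).1 → i = j) ∧ ((α i).1 = (α j).1 → i = j) ∧
        ((π (α i)).1 = (π (α j)).1 → i = j) := by
  constructor
  · intro h
    refine ⟨fun i => ⟨fun e => ?_, fun e => ?_, fun e => ?_⟩,
      fun i j => ⟨fun e => ?_, fun e => ?_, fun e => ?_, fun e => ?_, fun e => ?_, fun e => ?_⟩⟩
    · simpa using @h (some (0, i)) none e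
    · simpa using @h (some (1, i)) none e
    · simpa using @h (some (2, i)) none e
    · simpa using @h (some (0, i)) (some (1, j)) e
    · simpa using @h (some (0, i)) (some (2, j)) e
    · simpa using @h (some (1, i)) (some (2, j)) e
    · simpa using @h (some (0, i)) (some (0, j)) e
    · simpa using @h (some (1, i)) (some (1, j)) e
    · simpa using @h (some (2, i)) (some (2, j)) e
  · rintro ⟨h1, h2⟩ (_ | ⟨k, i⟩) (_ | ⟨l, j⟩) e
    · rfl
    · fin_cases l
      exacts [absurd e.symm (h1 j).1, absurd e.symm (h1 j).2.1, absurd e.symm (h1 j).2.2]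
    · fin_cases k
      exacts [absurd e (h1 i).1, absurd e (h1 i).2.1, absurd e (h1 i).2.2]
    · fin_cases k <;> fin_cases l
      · rw [(h2 i j).2.2.2.1 e]
      · exact absurd e (h2 i j).1
      · exact absurd e (h2 i j).2.1
      · exact absurd e.symm (h2 j i).1
      · rw [(h2 i j).2.2.2.2.1 e]
      · exact absurd e (h2 i j).2.2.1
      · exact absurd e.symm (h2 j i).2.1
      · exact absurd e.symm (h2 j i).2.2.1
      · rw [(h2 i j).2.2.2.2.2 e]

theorem g3_sw {n D : ℕ} {o : Fin n} {α : Fin (D + 1) → HE n D} (h1 : ∀ i, (α i).1 ≠ o)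
    (h2 : ∀ i j, (α i).1 = (α j).1 → i = j) :
    (∀ i, starSw o α (o, i) = α i) ∧ (∀ i, starSw o α (α i) = (o, i)) ∧
      ∀ a : HE n D, a.1 ≠ o → (∀ i, α i ≠ a) → starSw o α a = a := by
  have e1 : ∀ i, starFn o α (o, i) = α i := fun i => if_pos rfl
  have e2 : ∀ i, starFn o α (α i) = (o, i) := fun i => by
    have hx : ∃ j, α j = α i := ⟨i, rfl⟩
    rw [starFn, if_neg (h1 i), dif_pos hx, h2 _ _ (congrArg Prod.fst hx.choose_spec)]
  have e3 : ∀ a : HE n D, a.1 ≠ o → (∀ i, α i ≠ a) → starFn o α a = a := fun a ha hb => by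
    rw [starFn, if_neg ha, dif_neg (not_exists.2 hb)]
  have hI : Function.Involutive (starFn o α) := by
    rintro ⟨x, i⟩
    by_cases ha : x = o
    · rw [ha, e1, e2]
    · by_cases hb : ∃ j, α j = (x, i)
      · obtain ⟨j, hj⟩ := hb
        rw [← hj, e2, e1]
      · rw [e3 _ ha (not_exists.1 hb), e3 _ ha (not_exists.1 hb)]
  have e : ∀ a, starSw o α a = starFn o α a := fun a => by
    rw [starSw, dif_pos hI]
    rfl
  simp only [e]
  exact ⟨e1, e2, e3⟩

theorem g3_conj {n D : ℕ} {π : Pairing n D} {o : Fin n} {α : Fin (D + 1) → HE n D}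
    (h : StarOK π.1 o α) :
    (∀ i, conjP (starSw o α) π.1 (o, i) = π.1 (α i) ∧ conjP (starSw o α) π.1 (α i) = π.1 (o, i) ∧
      conjP (starSw o α) π.1 (π.1 (α i)) = (o, i) ∧ conjP (starSw o α) π.1 (π.1 (o, i)) = α i) ∧
    ∀ a : HE n D, (∀ i, a ≠ (o, i) ∧ a ≠ α i ∧ a ≠ π.1 (o, i) ∧ a ≠ π.1 (α i)) →
      conjP (starSw o α) π.1 a = π.1 a := by
  obtain ⟨h1, h2⟩ := (g3_inj_iff _ _ _).1 h.1
  obtain ⟨s1, s2, s3⟩ := g3_sw (fun i => (h1 i).2.1) fun i j => (h2 i j).2.2.2.2.1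
  have e : ∀ a, conjP (starSw o α) π.1 a = starSw o α (π.1 (starSw o α a)) := fun a => by
    rw [conjP, inv_eq_of_mul_eq_one_right (starSw_sq o α)]
    rfl
  have s4 : ∀ i, starSw o α (π.1 (α i)) = π.1 (α i) := fun i =>
    s3 _ (h1 i).2.2 fun j hj => (h2 j i).2.2.1 (congrArg Prod.fst hj)
  have s5 : ∀ i, starSw o α (π.1 (o, i)) = π.1 (o, i) := fun i =>
    s3 _ (h1 i).1 fun j hj => (h2 i j).1 (congrArg Prod.fst hj).symm
  refine ⟨fun i => ⟨?_, ?_, ?_, ?_⟩, fun a ha => ?_⟩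
  · rw [e, s1, s4]
  · rw [e, s2, s5]
  · rw [e, s4, π.2.1, s2]
  · rw [e, s5, π.2.1, s1]
  · rw [e, s3 a (fun h => (ha a.2).1 (Prod.ext h rfl)) fun i hi => (ha i).2.1 hi.symm]
    refine s3 _ (fun h => (ha (π.1 a).2).2.2.1 ?_) fun i hi => (ha i).2.2.2 ?_
    · rw [← h, Prod.mk.eta, π.2.1]
    · rw [hi, π.2.1]

theorem g3_cases {n D : ℕ} (π : Equiv.Perm (HE n D)) (o : Fin n) (α : Fin (D + 1) → HE n D)
    (a : HE n D) : (∃ i, a = (o, i)) ∨ (∃ i, a = α i) ∨ (∃ i, a = π (o, i)) ∨ (∃ i, a = π (α i)) ∨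
      ∀ i, a ≠ (o, i) ∧ a ≠ α i ∧ a ≠ π (o, i) ∧ a ≠ π (α i) := by
  by_contra hh
  simp only [not_or, not_exists] at hh
  exact hh.2.2.2.2 fun i => ⟨hh.1 i, hh.2.1 i, hh.2.2.1 i, hh.2.2.2.1 i⟩

theorem g3_isSP {n D : ℕ} {π : Pairing n D} {o : Fin n} {α : Fin (D + 1) → HE n D}
    (h : StarOK π.1 o α) : IsSP (conjP (starSw o α) π.1) := by
  obtain ⟨h1, h2⟩ := (g3_inj_iff _ _ _).1 h.1
  obtain ⟨c1, c2⟩ := g3_conj h
  have h3 : ∀ i (b : HE n D), b.1 = (α i).1 → (π.1 b).1 ≠ (π.1 (o, i)).1 := fun i b hb => by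
    have := h.2 i b.2
    rwa [← hb] at this
  set π' := conjP (starSw o α) π.1 with hπ'
  have key : ∀ a b : HE n D, a.1 = b.1 → (π' a).1 = (π' b).1 →
      (∀ i, b ≠ (o, i) ∧ b ≠ α i ∧ b ≠ π.1 (o, i) ∧ b ≠ π.1 (α i)) → a = b := by
    intro a b e1 e2 hb
    rw [c2 b hb] at e2
    rcases g3_cases π.1 o α a with ⟨i, rfl⟩ | ⟨i, rfl⟩ | ⟨i, rfl⟩ | ⟨i, rfl⟩ | ha
    · exact absurd (show b = (o, b.2) from Prod.ext e1.symm rfl) (hb b.2).1
    · rw [(c1 i).2.1] at e2
      exact absurd e2.symm (h3 i b e1.symm)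
    · rw [(c1 i).2.2.2] at e2
      have := h3 i (π.1 b) e2.symm
      rw [π.2.1] at this
      exact absurd e1.symm this
    · rw [(c1 i).2.2.1] at e2
      refine absurd ?_ (hb (π.1 b).2).2.2.1
      rw [show o = (π.1 b).1 from e2, Prod.mk.eta, π.2.1]
    · rw [c2 a ha] at e2
      refine Prod.ext e1 (π.2.2.2 b.1 a.2 b.2 ?_)
      rw [Prod.mk.eta, ← e1, Prod.mk.eta, e2]
  refine ⟨fun a => ?_, fun a => ?_, fun x i j e => ?_⟩
  · have : π' * π' = 1 := by
      have hπ : π.1 * π.1 = 1 := Equiv.ext π.2.1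
      rw [hπ', conjP, conj_mul, hπ, mul_one, mul_inv_cancel]
    exact congrArg (fun f : Equiv.Perm (HE n D) => f a) this
  · rcases g3_cases π.1 o α a with ⟨i, rfl⟩ | ⟨i, rfl⟩ | ⟨i, rfl⟩ | ⟨i, rfl⟩ | ha
    · rw [(c1 i).1]
      exact (h1 i).2.2
    · rw [(c1 i).2.1]
      exact (h2 i i).1
    · rw [(c1 i).2.2.2]
      exact (h2 i i).1.symm
    · rw [(c1 i).2.2.1]
      exact (h1 i).2.2.symm
    · rw [c2 a ha]
      exact π.2.2.1 a
  · suffices H : ∀ a b : HE n D, a.1 = b.1 → (π' a).1 = (π' b).1 → a = b from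
      congrArg Prod.snd (H (x, i) (x, j) rfl e)
    intro a b e1 e2
    rcases g3_cases π.1 o α b with ⟨j, rfl⟩ | ⟨j, rfl⟩ | ⟨j, rfl⟩ | ⟨j, rfl⟩ | hb
    · obtain ⟨y, i⟩ := a
      obtain rfl : y = o := e1
      rw [(c1 i).1, (c1 j).1] at e2
      rw [(h2 i j).2.2.2.2.2 e2]
    · rcases g3_cases π.1 o α a with ⟨i, rfl⟩ | ⟨i, rfl⟩ | ⟨i, rfl⟩ | ⟨i, rfl⟩ | ha
      · exact absurd e1.symm (h1 j).2.1
      · rw [(h2 i j).2.2.2.2.1 e1]
      · exact absurd e1 (h2 i j).1
      · exact absurd e1.symm (h2 j i).2.2.1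
      · exact (key _ _ e1.symm e2.symm ha).symm
    · rcases g3_cases π.1 o α a with ⟨i, rfl⟩ | ⟨i, rfl⟩ | ⟨i, rfl⟩ | ⟨i, rfl⟩ | ha
      · exact absurd e1.symm (h1 j).1
      · exact absurd e1.symm (h2 j i).1
      · rw [(h2 i j).2.2.2.1 e1]
      · exact absurd e1.symm (h2 j i).2.1
      · exact (key _ _ e1.symm e2.symm ha).symm
    · rcases g3_cases π.1 o α a with ⟨i, rfl⟩ | ⟨i, rfl⟩ | ⟨i, rfl⟩ | ⟨i, rfl⟩ | ha
      · exact absurd e1.symm (h1 j).2.2
      · exact absurd e1 (h2 i j).2.2.1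
      · exact absurd e1 (h2 i j).2.1
      · rw [(h2 i j).2.2.2.2.2 e1]
      · exact (key _ _ e1.symm e2.symm ha).symm
    · exact key _ _ e1 e2 hb

theorem StarOK.spec {n D : ℕ} {π : Pairing n D} {o : Fin n} {α : Fin (D + 1) → HE n D}
    (h : StarOK π.1 o α) :
    let π' := (switchP (starSw o α) π).1
    π' = conjP (starSw o α) π.1 ∧ StarOK π' o α ∧ switchP (starSw o α) (switchP (starSw o α) π) = π ∧
    (∀ i, π' (o, i) = π.1 (α i) ∧ π' (α i) = π.1 (o, i) ∧ π' (π.1 (α i)) = (o, i) ∧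
      π' (π.1 (o, i)) = α i) ∧
    (∀ a : HE n D, (∀ i, a ≠ (o, i) ∧ a ≠ α i ∧ a ≠ π.1 (o, i) ∧ a ≠ π.1 (α i)) → π' a = π.1 a) := by
  intro π'
  have e : π' = conjP (starSw o α) π.1 := congrArg Subtype.val (dif_pos (g3_isSP h))
  obtain ⟨h1, h2⟩ := (g3_inj_iff _ _ _).1 h.1
  obtain ⟨c1, c2⟩ := g3_conj h
  rw [← e] at c1 c2
  refine ⟨e, ⟨(g3_inj_iff _ _ _).2 ⟨fun i => ?_, fun i j => ?_⟩, fun i j => ?_⟩,
    g3_invol (starSw_sq o α) π, c1, c2⟩
  · rw [(c1 i).1, (c1 i).2.1]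
    exact ⟨(h1 i).2.2, (h1 i).2.1, (h1 i).1⟩
  · rw [(c1 i).1, (c1 i).2.1, (c1 j).1, (c1 j).2.1]
    exact ⟨(h2 j i).2.2.1.symm, (h2 j i).2.1.symm, (h2 j i).1.symm, (h2 i j).2.2.2.2.2,
      (h2 i j).2.2.2.2.1, (h2 i j).2.2.2.1⟩
  · rw [(c1 i).1]
    by_cases hj : ((α i).1, j) = α i
    · rw [hj, (c1 i).2.1]
      exact (h2 i i).2.1
    · rw [c2 ((α i).1, j) fun k => ⟨fun e => (h1 i).2.1 (congrArg Prod.fst e), fun e => hj ?_,
        fun e => (h2 k i).1 (congrArg Prod.fst e).symm,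
        fun e => (h2 i k).2.2.1 (congrArg Prod.fst e :)⟩]
      · exact fun e => hj (Prod.ext rfl (π.2.2.2 (α i).1 j (α i).2 e))
      · exact e.trans (congrArg α ((h2 i k).2.2.2.2.1 (congrArg Prod.fst e :)).symm)

/-- symmetric elementary matrix of the edge `x y` -/
def edgeM {n : ℕ} (x y : Fin n) : Matrix (Fin n) (Fin n) ℝ :=
  Matrix.single x y 1 + Matrix.single y x 1

theorem g3_adj {n D : ℕ} (π : Equiv.Perm (HE n D)) :
    adj π = ∑ h : HE n D, Matrix.single h.1 (π h).1 (1 : ℝ) := by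
  ext x y
  rw [Matrix.sum_apply, Fintype.sum_prod_type, Finset.sum_eq_single x]
  · simp [adj, Matrix.single_apply]
  · intro x' _ hx
    simp [hx]
  · simp

theorem StarOK.adj_eq {n D : ℕ} {π : Pairing n D} {o : Fin n} {α : Fin (D + 1) → HE n D}
    (h : StarOK π.1 o α) :
    adj (switchP (starSw o α) π).1 = adj π.1 + ∑ i, (edgeM o (π.1 (α i)).1 +
      edgeM (α i).1 (π.1 (o, i)).1 - edgeM o (π.1 (o, i)).1 - edgeM (α i).1 (π.1 (α i)).1) := by
  obtain ⟨-, -, -, c1, c2⟩ := h.spec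
  obtain ⟨h1, h2⟩ := (g3_inj_iff _ _ _).1 h.1
  set π' := (switchP (starSw o α) π).1
  let S : (Fin (D + 1) ⊕ Fin (D + 1)) ⊕ (Fin (D + 1) ⊕ Fin (D + 1)) → HE n D :=
    Sum.elim (Sum.elim (fun i => (o, i)) α) (Sum.elim (fun i => π.1 (o, i)) fun i => π.1 (α i))
  have hS : Function.Injective S := by
    rintro ((i | i) | (i | i)) ((j | j) | (j | j)) e <;> have e1 := congrArg Prod.fst e
    · rw [show i = j from congrArg Prod.snd e]
    · exact absurd e1.symm (h1 j).2.1
    · exact absurd e1.symm (h1 j).1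
    · exact absurd e1.symm (h1 j).2.2
    · exact absurd e1 (h1 i).2.1
    · rw [(h2 i j).2.2.2.2.1 e1]
    · exact absurd e1.symm (h2 j i).1
    · exact absurd e1 (h2 i j).2.2.1
    · exact absurd e1 (h1 i).1
    · exact absurd e1 (h2 i j).1
    · rw [(h2 i j).2.2.2.1 e1]
    · exact absurd e1 (h2 i j).2.1
    · exact absurd e1 (h1 i).2.2
    · exact absurd e1.symm (h2 j i).2.2.1
    · exact absurd e1.symm (h2 j i).2.1
    · rw [(h2 i j).2.2.2.2.2 e1]
  have h3 := Fintype.sum_of_injective S hS _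
    (fun a => Matrix.single a.1 (π' a).1 (1 : ℝ) - Matrix.single a.1 (π.1 a).1 (1 : ℝ))
    (fun a ha => by
      rw [c2 a fun i => ⟨fun e => ha ⟨.inl (.inl i), e.symm⟩, fun e => ha ⟨.inl (.inr i), e.symm⟩,
        fun e => ha ⟨.inr (.inl i), e.symm⟩, fun e => ha ⟨.inr (.inr i), e.symm⟩⟩, sub_self])
    fun _ => rfl
  rw [← sub_eq_iff_eq_add', g3_adj, g3_adj, ← Finset.sum_sub_distrib, ← h3]
  simp only [Fintype.sum_sum_type, S, Sum.elim_inl, Sum.elim_inr, ← Finset.sum_add_distrib]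
  refine Finset.sum_congr rfl fun i _ => ?_
  rw [(c1 i).1, (c1 i).2.1, (c1 i).2.2.1, (c1 i).2.2.2, π.2.1, π.2.1]
  simp only [edgeM]
  abel

/-- removing the star at `o` leaves no entry in row `o` -/
theorem adj_sub_star {n D : ℕ} (π : Pairing n D) (o y : Fin n) :
    (adj π.1 - ∑ i, edgeM o (π.1 (o, i)).1) o y = 0 := by
  rw [Matrix.sub_apply, Matrix.sum_apply, sub_eq_zero, adj, Matrix.of_apply]
  refine Finset.sum_congr rfl fun i _ => ?_
  have := π.2.2.1 (o, i)
  simp [edgeM, Matrix.single_apply, this]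

open Classical in
theorem g3_frac {ι X : Type} [Fintype ι] [DecidableEq ι] [Fintype X] (x₀ : X) (i : ι)
    (B : (ι → X) → Finset X) {m : ℝ} (hB : ∀ α, ((B α).card : ℝ) ≤ m) :
    frac (fun α : ι → X => α i ∈ B (Function.update α i x₀)) ≤ m / Fintype.card X := by
  have : Nonempty X := ⟨x₀⟩
  have hX : (0 : ℝ) < Fintype.card X := Nat.cast_pos.2 Fintype.card_pos
  have hA : (0 : ℝ) < Fintype.card (ι → X) := Nat.cast_pos.2 Fintype.card_pos
  have hI : Function.Involutive fun p : (ι → X) × X => (Function.update p.1 i p.2, p.1 i) := by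
    intro p
    simp
  have h1 := Equiv.sum_comp (hI.toPerm _) fun p : (ι → X) × X =>
    if p.2 ∈ B (Function.update p.1 i x₀) then (1 : ℝ) else 0
  simp only [Function.Involutive.coe_toPerm, Function.update_idem, Fintype.sum_prod_type] at h1
  have h2 : ∑ α : ι → X, ∑ x : X, (if x ∈ B (Function.update α i x₀) then (1 : ℝ) else 0) ≤
      Fintype.card (ι → X) * m := by
    refine (Finset.sum_le_card_nsmul _ _ m fun α _ => ?_).trans_eq (by simp)
    simpa using hB (Function.update α i x₀)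
  rw [frac, avg, div_le_div_iff₀ hA hX, mul_comm, mul_comm m]
  refine le_trans (le_of_eq ?_) (h1.trans_le h2)
  rw [Finset.mul_sum]
  refine Finset.sum_congr rfl fun α _ => ?_
  split_ifs <;> simp

open Classical in
theorem g3_union {A ι : Type} [Fintype A] [Fintype ι] {P : A → Prop} {Q : ι → A → Prop}
    (h : ∀ a, P a → ∃ i, Q i a) : frac P ≤ ∑ i, frac (Q i) := by
  simp only [frac, avg]
  rw [← Finset.sum_div, Finset.sum_comm]
  refine div_le_div_of_nonneg_right (Finset.sum_le_sum fun a _ => ?_) (Nat.cast_nonneg _)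
  split_ifs with hp
  · obtain ⟨i, hi⟩ := h a hp
    refine le_trans (le_of_eq (if_pos hi).symm) (Finset.single_le_sum
      (f := fun i => if Q i a then (1 : ℝ) else 0) (fun j _ => ?_) (Finset.mem_univ i))
    split_ifs <;> norm_num
  · refine Finset.sum_nonneg fun j _ => ?_
    split_ifs <;> norm_num

theorem frac_not_starOK (D : ℕ) : ∃ C : ℝ, ∀ (n : ℕ) (π : Pairing n D) (o : Fin n),
    frac (fun α : Fin (D + 1) → HE n D => ¬ StarOK π.1 o α) ≤ C / n := by
  classical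
  set m : ℕ := Fintype.card (Option (Fin 3 × Fin (D + 1))) + Fintype.card (Fin (D + 1) × Fin (D + 1))
  refine ⟨(D + 1 : ℕ) * (2 * m), fun n π o => ?_⟩
  let W : (Fin (D + 1) → HE n D) → Finset (Fin n) := fun β =>
    Finset.univ.image (starPts π.1 o β) ∪
      Finset.univ.image fun p : Fin (D + 1) × Fin (D + 1) => (π.1 ((π.1 (o, p.1)).1, p.2)).1
  let B : (Fin (D + 1) → HE n D) → Finset (HE n D) := fun β =>
    (W β ×ˢ Finset.univ) ∪ (W β ×ˢ Finset.univ).image π.1
  have hW : ∀ β, (W β).card ≤ m := fun β =>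
    (Finset.card_union_le _ _).trans (add_le_add Finset.card_image_le Finset.card_image_le)
  have hB : ∀ β, ((B β).card : ℝ) ≤ 2 * m * (D + 1 : ℕ) := fun β => by
    have h1 : (W β ×ˢ (Finset.univ : Finset (Fin (D + 1)))).card ≤ m * (D + 1) := by
      rw [Finset.card_product, Finset.card_univ, Fintype.card_fin]
      exact Nat.mul_le_mul_right _ (hW β)
    have h2 : (B β).card ≤ 2 * m * (D + 1) :=
      (Finset.card_union_le _ _).trans ((add_le_add h1 (Finset.card_image_le.trans h1)).trans_eq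
        (by ring))
    exact_mod_cast h2
  refine (g3_union (Q := fun i α => α i ∈ B (Function.update α i (o, 0))) fun α hα => ?_).trans ?_
  · by_contra hh
    rw [not_exists] at hh
    have ha : ∀ i, (α i).1 ∉ W (Function.update α i (o, 0)) := fun i hi =>
      hh i (Finset.mem_union_left _ (Finset.mem_product.2 ⟨hi, Finset.mem_univ _⟩))
    have hb : ∀ i, (π.1 (α i)).1 ∉ W (Function.update α i (o, 0)) := fun i hi =>
      hh i (Finset.mem_union_right _ (Finset.mem_image.2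
        ⟨π.1 (α i), Finset.mem_product.2 ⟨hi, Finset.mem_univ _⟩, π.2.1 _⟩))
    have w1 : ∀ β q, starPts π.1 o β q ∈ W β := fun β q =>
      Finset.mem_union_left _ (Finset.mem_image_of_mem _ (Finset.mem_univ q))
    have w2 : ∀ β i j, (π.1 ((π.1 (o, i)).1, j)).1 ∈ W β := fun β i j =>
      Finset.mem_union_right _ (Finset.mem_image.2 ⟨(i, j), Finset.mem_univ _, rfl⟩)
    have w3 : ∀ i j, j ≠ i → (α j).1 ∈ W (Function.update α i (o, 0)) := fun i j hij => by
      have := w1 (Function.update α i (o, 0)) (some (1, j))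
      simpa [starPts, hij] using this
    have w4 : ∀ i j, j ≠ i → (π.1 (α j)).1 ∈ W (Function.update α i (o, 0)) := fun i j hij => by
      have := w1 (Function.update α i (o, 0)) (some (2, j))
      simpa [starPts, hij] using this
    refine hα ⟨(g3_inj_iff _ _ _).2 ⟨fun i => ⟨π.2.2.1 (o, i), fun e => ha i ?_, fun e => hb i ?_⟩,
      fun i j => ⟨fun e => ha j ?_, fun e => hb j ?_, fun e => ?_, π.2.2.2 o i j, fun e => ?_,
        fun e => ?_⟩⟩, fun i j e => ha i ?_⟩
    · rw [e]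
      exact w1 _ none
    · rw [e]
      exact w1 _ none
    · rw [← e]
      exact w1 _ (some (0, i))
    · rw [← e]
      exact w1 _ (some (0, i))
    · by_cases hij : i = j
      · exact π.2.2.1 (α j) (hij ▸ e.symm)
      · exact hb j (e ▸ w3 j i hij)
    · by_contra hij
      exact ha j (e ▸ w3 j i hij)
    · by_contra hij
      exact hb j (e ▸ w4 j i hij)
    · have := w2 (Function.update α i (o, 0)) i (π.1 ((α i).1, j)).2
      rwa [← e, Prod.mk.eta, π.2.1] at this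
  · refine (Finset.sum_le_card_nsmul _ _ _ fun i _ => g3_frac (o, 0) i B hB).trans_eq ?_
    simp only [Finset.card_univ, Fintype.card_fin, Fintype.card_prod, nsmul_eq_mul, Nat.cast_mul]
    have : ((D + 1 : ℕ) : ℝ) ≠ 0 := by positivity
    rw [mul_div_mul_right _ _ this, ← mul_div_assoc]

/-- exact exchangeability on the valid configurations -/
theorem avg_star {n D : ℕ} (o : Fin n) (α : Fin (D + 1) → HE n D)
    (F : Pairing n D → Pairing n D → ℝ) :
    (avg fun π => by classical exact if StarOK π.1 o α then F π (switchP (starSw o α) π) else 0) =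
      avg fun π => by classical exact if StarOK π.1 o α then F (switchP (starSw o α) π) π else 0 := by
  classical
  have hI : Function.Involutive fun π : Pairing n D =>
      if StarOK π.1 o α then switchP (starSw o α) π else π := by
    intro π
    by_cases h : StarOK π.1 o α
    · simp only [if_pos h, if_pos h.spec.2.1, h.spec.2.2.1]
    · simp only [if_neg h]
  unfold avg
  rw [← Equiv.sum_comp (hI.toPerm _)]
  congr 1
  refine Finset.sum_congr rfl fun π _ => ?_
  rw [Function.Involutive.coe_toPerm]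
  by_cases h : StarOK π.1 o α
  · simp only [if_pos h, if_pos h.spec.2.1, h.spec.2.2.1]
  · simp only [if_neg h]

end Crest.Agent.R166
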