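import Crest.Agent.R166.G3

/-! # Edge switching -/

set_option autoImplicit false
set_option linter.unusedVariables false
set_option linter.unusedSectionVars false

open MeasureTheory ProbabilityTheory Filter Topology Matrix
open scoped ENNReal BoundedContinuousFunction

namespace Crest.Agent.R166

/-! ### edge switching -/

/-- edges `{a₁, b₁}`, `{a₂, b₂}` (`aᵢ = hᵢ.1`) become `{a₁, b₂}`, `{a₂, b₁}` under `swap h₁ h₂` -/
def EdgeOK {n D : ℕ} (π : Equiv.Perm (HE n D)) (h₁ h₂ : HE n D) : Prop :=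
  Function.Injective (fun q : Fin 2 × Fin 2 => ends π (if q.1 = 0 then h₁ else h₂) q.2) ∧
    (∀ j, (π (h₁.1, j)).1 ≠ (π h₂).1) ∧ ∀ j, (π (h₂.1, j)).1 ≠ (π h₁).1

theorem g4_edgeOK_iff {n D : ℕ} (π : Equiv.Perm (HE n D)) (h₁ h₂ : HE n D) :
    EdgeOK π h₁ h₂ ↔ (h₁.1 ≠ (π h₁).1 ∧ h₁.1 ≠ h₂.1 ∧ h₁.1 ≠ (π h₂).1 ∧ (π h₁).1 ≠ h₂.1 ∧
      (π h₁).1 ≠ (π h₂).1 ∧ h₂.1 ≠ (π h₂).1) ∧ (∀ g, g.1 = h₁.1 → (π g).1 ≠ (π h₂).1) ∧
      ∀ g, g.1 = h₂.1 → (π g).1 ≠ (π h₁).1 := by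
  unfold EdgeOK
  refine and_congr ?_ (and_congr ?_ ?_)
  · simp only [Function.Injective, Prod.forall, Fin.forall_fin_two, ends]
    simp
    tauto
  · exact ⟨fun h g hg => by rw [← hg] at h; exact h g.2, fun h j => h _ rfl⟩
  · exact ⟨fun h g hg => by rw [← hg] at h; exact h g.2, fun h j => h _ rfl⟩

theorem g4_isSP_iff {n D : ℕ} (π : Equiv.Perm (HE n D)) :
    IsSP π ↔ (∀ h, π (π h) = h) ∧ (∀ h, (π h).1 ≠ h.1) ∧
      ∀ a b, a.1 = b.1 → (π a).1 = (π b).1 → a = b := by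
  unfold IsSP
  refine and_congr_right fun _ => and_congr_right fun _ => ⟨?_, ?_⟩
  · rintro h ⟨x, i⟩ ⟨y, j⟩ (rfl : x = y) e
    rw [h x i j e]
  · intro h x i j e
    exact (Prod.ext_iff.1 (h (x, i) (x, j) rfl e)).2

theorem g4_conj_apply {n D : ℕ} (π : Equiv.Perm (HE n D)) (h₁ h₂ a : HE n D) :
    conjP (Equiv.swap h₁ h₂) π a = Equiv.swap h₁ h₂ (π (Equiv.swap h₁ h₂ a)) := by
  simp [conjP]

theorem g4_switch_invol {n D : ℕ} (h₁ h₂ : HE n D) :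
    Function.Involutive (switchP (Equiv.swap h₁ h₂)) := by
  intro π
  by_cases h : IsSP (conjP (Equiv.swap h₁ h₂) π.1)
  · have e : conjP (Equiv.swap h₁ h₂) (conjP (Equiv.swap h₁ h₂) π.1) = π.1 := by
      ext1 a
      simp [g4_conj_apply]
    have e1 : switchP (Equiv.swap h₁ h₂) π = ⟨_, h⟩ := dif_pos h
    rw [e1, switchP, dif_pos (by rw [e]; exact π.2)]
    exact Subtype.ext e
  · have e1 : switchP (Equiv.swap h₁ h₂) π = π := dif_neg h
    rw [e1, e1]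

theorem g4_adj_eq {n D : ℕ} (π : Equiv.Perm (HE n D)) :
    adj π = ∑ h : HE n D, Matrix.single h.1 (π h).1 (1 : ℝ) := by
  ext x y
  simp only [adj, Matrix.of_apply, Matrix.sum_apply, Fintype.sum_prod_type, Matrix.single_apply]
  rw [Finset.sum_eq_single x]
  · simp
  · intro b _ hb
    simp [hb]
  · simp

theorem EdgeOK.spec {n D : ℕ} {π : Pairing n D} {h₁ h₂ : HE n D} (h : EdgeOK π.1 h₁ h₂) :
    let π' := (switchP (Equiv.swap h₁ h₂) π).1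
    π' = conjP (Equiv.swap h₁ h₂) π.1 ∧ EdgeOK π' h₁ h₂ ∧
    π' h₁ = π.1 h₂ ∧ π' h₂ = π.1 h₁ ∧ π' (π.1 h₂) = h₁ ∧ π' (π.1 h₁) = h₂ ∧
    (∀ a : HE n D, a ≠ h₁ → a ≠ h₂ → a ≠ π.1 h₁ → a ≠ π.1 h₂ → π' a = π.1 a) ∧
    adj π' = adj π.1 + edgeM h₁.1 (π.1 h₂).1 + edgeM h₂.1 (π.1 h₁).1 -
      edgeM h₁.1 (π.1 h₁).1 - edgeM h₂.1 (π.1 h₂).1 := by
  obtain ⟨⟨d1, d2, d3, d4, d5, d6⟩, n1, n2⟩ := (g4_edgeOK_iff _ _ _).1 h
  obtain ⟨p1, p2, p3⟩ := (g4_isSP_iff _).1 π.2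
  have n3 : ∀ g, g.1 = (π.1 h₂).1 → (π.1 g).1 ≠ h₁.1 := fun g hg e => n1 _ e (by rw [p1, hg])
  have n4 : ∀ g, g.1 = (π.1 h₁).1 → (π.1 g).1 ≠ h₂.1 := fun g hg e => n2 _ e (by rw [p1, hg])
  have e12 : h₁ ≠ h₂ := fun e => d2 (by rw [e])
  have e11 : π.1 h₁ ≠ h₁ := fun e => d1 (by rw [e])
  have e21 : π.1 h₂ ≠ h₁ := fun e => d3 (by rw [e])
  have e12' : π.1 h₁ ≠ h₂ := fun e => d4 (by rw [e])
  have e22 : π.1 h₂ ≠ h₂ := fun e => d6 (by rw [e])
  have ekk : π.1 h₁ ≠ π.1 h₂ := fun e => d5 (by rw [e])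
  set ρ := conjP (Equiv.swap h₁ h₂) π.1 with hρ
  have c1 : ρ h₁ = π.1 h₂ := by
    rw [hρ, g4_conj_apply, Equiv.swap_apply_left, Equiv.swap_apply_of_ne_of_ne e21 e22]
  have c2 : ρ h₂ = π.1 h₁ := by
    rw [hρ, g4_conj_apply, Equiv.swap_apply_right, Equiv.swap_apply_of_ne_of_ne e11 e12']
  have c3 : ρ (π.1 h₂) = h₁ := by
    rw [hρ, g4_conj_apply, Equiv.swap_apply_of_ne_of_ne e21 e22, p1, Equiv.swap_apply_right]
  have c4 : ρ (π.1 h₁) = h₂ := by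
    rw [hρ, g4_conj_apply, Equiv.swap_apply_of_ne_of_ne e11 e12', p1, Equiv.swap_apply_left]
  have c5 : ∀ a : HE n D, a ≠ h₁ → a ≠ h₂ → a ≠ π.1 h₁ → a ≠ π.1 h₂ → ρ a = π.1 a := by
    intro a a1 a2 a3 a4
    rw [hρ, g4_conj_apply, Equiv.swap_apply_of_ne_of_ne a1 a2, Equiv.swap_apply_of_ne_of_ne]
    · intro e; exact a3 (by rw [← e, p1])
    · intro e; exact a4 (by rw [← e, p1])
  have hcase : ∀ a : HE n D, a = h₁ ∨ a = h₂ ∨ a = π.1 h₁ ∨ a = π.1 h₂ ∨ ρ a = π.1 a := by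
    intro a
    by_contra hc
    simp only [not_or] at hc
    exact hc.2.2.2.2 (c5 a hc.1 hc.2.1 hc.2.2.1 hc.2.2.2.1)
  have hsp : IsSP ρ := by
    refine (g4_isSP_iff _).2 ⟨fun a => ?_, fun a => ?_, fun a b hab e => ?_⟩
    · simp [hρ, g4_conj_apply, p1]
    · rcases hcase a with rfl | rfl | rfl | rfl | ha
      · rw [c1]; exact d3.symm
      · rw [c2]; exact d4
      · rw [c4]; exact d4.symm
      · rw [c3]; exact d3
      · rw [ha]; exact p2 a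
    · rcases hcase a with ha | ha | ha | ha | ha <;> rcases hcase b with hb | hb | hb | hb | hb <;>
        grind
  have hsw : (switchP (Equiv.swap h₁ h₂) π).1 = ρ := by
    rw [switchP, dif_pos hsp]
  intro π'
  rw [show π' = ρ from hsw]
  refine ⟨rfl, ?_, c1, c2, c3, c4, c5, ?_⟩
  · rw [g4_edgeOK_iff, c1, c2]
    refine ⟨⟨d3, d2, d1, d6.symm, d5.symm, d4.symm⟩, fun g hg => ?_, fun g hg => ?_⟩
    · by_cases g1 : g = h₁
      · rw [g1, c1]; exact d5.symm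
      · rw [c5 g g1 (by grind) (by grind) (by grind)]
        exact fun e => g1 (p3 _ _ hg e)
    · by_cases g1 : g = h₂
      · rw [g1, c2]; exact d5
      · rw [c5 g (by grind) g1 (by grind) (by grind)]
        exact fun e => g1 (p3 _ _ hg e)
  · have h1 : adj ρ - adj π.1 = ∑ a ∈ ({h₁, h₂, π.1 h₁, π.1 h₂} : Finset (HE n D)),
        (Matrix.single a.1 (ρ a).1 (1 : ℝ) - Matrix.single a.1 (π.1 a).1 (1 : ℝ)) := by
      rw [g4_adj_eq, g4_adj_eq, ← Finset.sum_sub_distrib]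
      refine (Finset.sum_subset (Finset.subset_univ _) fun a _ ha => ?_).symm
      simp only [Finset.mem_insert, Finset.mem_singleton, not_or] at ha
      rw [c5 a ha.1 ha.2.1 ha.2.2.1 ha.2.2.2, sub_self]
    rw [Finset.sum_insert (by simp [e12, e11.symm, e21.symm]),
      Finset.sum_insert (by simp [e12'.symm, e22.symm]), Finset.sum_pair ekk, c1, c2, c3, c4, p1,
      p1, sub_eq_iff_eq_add] at h1
    rw [h1]
    simp only [edgeM]
    abel

theorem frac_not_edgeOK (D : ℕ) : ∃ C : ℝ, ∀ (n : ℕ) (π : Pairing n D) (h₁ : HE n D),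
    frac (fun h₂ : HE n D => ¬ EdgeOK π.1 h₁ h₂) ≤ C / n := by
  classical
  refine ⟨4 * (D + 1), fun n π h₁ => ?_⟩
  obtain ⟨p1, p2, p3⟩ := (g4_isSP_iff _).1 π.2
  have hn : (0 : ℝ) < n := by exact_mod_cast Fin.pos h₁.1
  set B : Finset (Fin n) := Finset.univ.image (fun j => (π.1 (h₁.1, j)).1) ∪
    Finset.univ.image (fun j => (π.1 ((π.1 h₁).1, j)).1) with hB
  have hBc : B.card ≤ 2 * (D + 1) := by
    refine (Finset.card_union_le _ _).trans ?_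
    have h1 := Finset.card_image_le (s := Finset.univ) (f := fun j => (π.1 (h₁.1, j)).1)
    have h2 := Finset.card_image_le (s := Finset.univ) (f := fun j => (π.1 ((π.1 h₁).1, j)).1)
    simp only [Finset.card_univ, Fintype.card_fin] at h1 h2
    omega
  have m1 : ∀ g : HE n D, g.1 = h₁.1 → (π.1 g).1 ∈ B := fun g hg =>
    Finset.mem_union_left _ (Finset.mem_image.2 ⟨g.2, Finset.mem_univ _, by rw [← hg]⟩)
  have m2 : ∀ g : HE n D, g.1 = (π.1 h₁).1 → (π.1 g).1 ∈ B := fun g hg =>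
    Finset.mem_union_right _ (Finset.mem_image.2 ⟨g.2, Finset.mem_univ _, by rw [← hg]⟩)
  have m3 : h₁.1 ∈ B := by simpa [p1] using m2 _ rfl
  have m4 : (π.1 h₁).1 ∈ B := m1 _ rfl
  have hbad : ∀ h₂ : HE n D, ¬ EdgeOK π.1 h₁ h₂ → h₂.1 ∈ B ∨ (π.1 h₂).1 ∈ B := by
    intro h₂ hb
    by_contra hc
    rw [not_or] at hc
    refine hb ((g4_edgeOK_iff _ _ _).2 ⟨⟨(p2 _).symm, fun e => hc.1 (e ▸ m3),
      fun e => hc.2 (e ▸ m3), fun e => hc.1 (e ▸ m4), fun e => hc.2 (e ▸ m4), (p2 _).symm⟩,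
      fun g hg e => hc.2 (e ▸ m1 g hg), fun g hg e => hc.1 ?_⟩)
    have := m2 _ e
    rwa [p1, hg] at this
  have s1 : ∑ h : HE n D, (if h.1 ∈ B then (1 : ℝ) else 0) = B.card * (D + 1) := by
    rw [Fintype.sum_prod_type_right]
    simp [mul_comm]
  have s2 : ∑ h : HE n D, (if (π.1 h).1 ∈ B then (1 : ℝ) else 0) = B.card * (D + 1) := by
    rw [← s1]
    exact Equiv.sum_comp π.1 fun h => if h.1 ∈ B then (1 : ℝ) else 0
  unfold frac avg
  have hcard : (Fintype.card (HE n D) : ℝ) = n * (D + 1) := by simp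
  rw [hcard, div_le_div_iff₀ (by positivity) hn]
  refine (mul_le_mul_of_nonneg_right (Finset.sum_le_sum (g := fun h : HE n D =>
    (if h.1 ∈ B then (1 : ℝ) else 0) + if (π.1 h).1 ∈ B then (1 : ℝ) else 0) fun h _ => ?_)
    hn.le).trans ?_
  · have := hbad h
    split_ifs with a1 a2 a3 <;> first | (norm_num; done) | (exfalso; tauto)
  · rw [Finset.sum_add_distrib, s1, s2]
    have : (B.card : ℝ) ≤ 2 * (D + 1) := by exact_mod_cast hBc
    have h3 : (0 : ℝ) ≤ n * (D + 1) := by positivity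
    nlinarith

theorem avg_edge {n D : ℕ} (h₁ h₂ : HE n D) (F : Pairing n D → Pairing n D → ℝ) :
    (avg fun π => by
      classical exact if EdgeOK π.1 h₁ h₂ then F π (switchP (Equiv.swap h₁ h₂) π) else 0) =
    avg fun π => by
      classical exact if EdgeOK π.1 h₁ h₂ then F (switchP (Equiv.swap h₁ h₂) π) π else 0 := by
  classical
  have hinv := g4_switch_invol h₁ h₂
  unfold avg
  congr 1
  rw [← Equiv.sum_comp hinv.toPerm]
  refine Finset.sum_congr rfl fun π _ => ?_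
  simp only [Function.Involutive.coe_toPerm, hinv π]
  have : EdgeOK (switchP (Equiv.swap h₁ h₂) π).1 h₁ h₂ ↔ EdgeOK π.1 h₁ h₂ := by
    refine ⟨fun h => ?_, fun h => h.spec.2.1⟩
    have := h.spec.2.1
    rwa [hinv π] at this
  simp only [this]

end Crest.Agent.R166
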