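import Crest.Agent.R166.Gauss3

/-! # Balls -/

set_option autoImplicit false
set_option linter.unusedVariables false
set_option linter.unusedSectionVars false

open MeasureTheory ProbabilityTheory Filter Topology Matrix
open scoped ENNReal BoundedContinuousFunction

namespace Crest.Agent.R166

/-! ### balls, tree-likeness -/

/-- the exploration from `h` only reads `π` at vertices it visits -/
theorem vtx_congr {n D : ℕ} {π π' : Equiv.Perm (HE n D)} {h : HE n D} {k : ℕ}
    (H : ∀ l : List (Fin D), l.length < k → ∀ i, (l = [] → i ≠ h.2) →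
      π' (vtx π h l, i) = π (vtx π h l, i)) :
    ∀ l : List (Fin D), l.length ≤ k → vtx π' h l = vtx π h l := by
  induction k generalizing h with
  | zero =>
    intro l hl
    obtain rfl : l = [] := List.length_eq_zero_iff.1 (Nat.le_zero.1 hl)
    rfl
  | succ k ih =>
    rintro (_ | ⟨c, l⟩) hl
    · rfl
    · have e : π' (h.1, h.2.succAbove c) = π (h.1, h.2.succAbove c) :=
        H [] (Nat.succ_pos k) _ fun _ => Fin.succAbove_ne _ _
      change vtx π' (π' (h.1, h.2.succAbove c)) l = vtx π (π (h.1, h.2.succAbove c)) l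
      rw [e]
      refine ih (fun l' hl' i _ => ?_) l (Nat.le_of_succ_le_succ hl)
      exact H (c :: l') (Nat.succ_lt_succ hl') i fun e => absurd e (List.cons_ne_nil _ _)

theorem G5_card_fib (n D : ℕ) (v : Fin n) :
    (Finset.univ.filter fun h : HE n D => h.1 = v).card ≤ D + 1 := by
  have : (Finset.univ.filter fun h : HE n D => h.1 = v) ⊆
      Finset.univ.image fun i : Fin (D + 1) => ((v, i) : HE n D) := by
    intro h hh
    rw [Finset.mem_filter] at hh
    exact Finset.mem_image.2 ⟨h.2, Finset.mem_univ _, by rw [← hh.2]⟩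
  refine (Finset.card_le_card this).trans (Finset.card_image_le.trans ?_)
  simp

/-- few half-edges see a given vertex within depth `k` -/
theorem card_sees_le (D k : ℕ) : ∃ C : ℕ, ∀ (n : ℕ) (π : Equiv.Perm (HE n D)) (v : Fin n),
    (by classical exact (Finset.univ.filter fun h : HE n D =>
      ∃ l : List (Fin D), l.length ≤ k ∧ vtx π h l = v).card) ≤ C := by
  classical
  induction k with
  | zero =>
    refine ⟨D + 1, fun n π v => le_trans (Finset.card_le_card fun h hh => ?_) (G5_card_fib n D v)⟩
    rw [Finset.mem_filter] at hh ⊢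
    obtain ⟨-, l, hl, e⟩ := hh
    obtain rfl : l = [] := List.length_eq_zero_iff.1 (Nat.le_zero.1 hl)
    exact ⟨Finset.mem_univ _, e⟩
  | succ k ih =>
    obtain ⟨C, hC⟩ := ih
    refine ⟨D + 1 + C * (D + 1), fun n π v => ?_⟩
    have hs : (Finset.univ.filter fun h : HE n D =>
        ∃ l : List (Fin D), l.length ≤ k + 1 ∧ vtx π h l = v) ⊆
        (Finset.univ.filter fun h : HE n D => h.1 = v) ∪
          (Finset.univ.filter fun h : HE n D =>
            ∃ l : List (Fin D), l.length ≤ k ∧ vtx π h l = v).biUnion fun h' =>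
              Finset.univ.filter fun h : HE n D => h.1 = (π.symm h').1 := by
      intro h hh
      obtain ⟨-, l, hl, e⟩ := Finset.mem_filter.1 hh
      rcases l with _ | ⟨c, l⟩
      · exact Finset.mem_union_left _ (Finset.mem_filter.2 ⟨Finset.mem_univ _, e⟩)
      · refine Finset.mem_union_right _ (Finset.mem_biUnion.2 ⟨π (h.1, h.2.succAbove c),
          Finset.mem_filter.2 ⟨Finset.mem_univ _, l, Nat.le_of_succ_le_succ hl, e⟩,
          Finset.mem_filter.2 ⟨Finset.mem_univ _, ?_⟩⟩)
        rw [Equiv.symm_apply_apply]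
    refine le_trans (le_of_eq (by congr!)) ((Finset.card_le_card hs).trans
      ((Finset.card_union_le _ _).trans (add_le_add (G5_card_fib n D v) ?_)))
    refine (Finset.card_biUnion_le_card_mul _ _ (D + 1) fun h' _ => G5_card_fib n D _).trans ?_
    exact Nat.mul_le_mul_right _ (le_trans (le_of_eq (by congr!)) (hC n π v))

/-- a tree-like star gives branches that never come back to the edge -/
theorem TreeLike.branch {n D : ℕ} {π : Pairing n D} {h : HE n D} {k : ℕ}
    (H : TreeLike π.1 h.1 (k + 1)) (l : List (Fin D)) (hl : l.length ≤ k) :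
    vtx π.1 h l ≠ (π.1 h).1 ∧ (l ≠ [] → vtx π.1 h l ≠ h.1) := by
  rcases l with _ | ⟨c, l⟩
  · exact ⟨(π.2.2.1 h).symm, fun e => absurd rfl e⟩
  · have hl' : l.length ≤ k + 1 := by
      rw [List.length_cons] at hl
      omega
    refine ⟨fun e => ?_, fun _ => H.1 (h.2.succAbove c) l hl'⟩
    exact Fin.succAbove_ne _ _ (H.2 (h.2.succAbove c) h.2 l [] hl' (Nat.zero_le _) e).1

theorem measurable_envH {n D : ℕ} (π : Equiv.Perm (HE n D)) (h : HE n D) :
    Continuous fun ω : Fin n → J => envH π ω h :=
  continuous_pi fun l => continuous_apply (vtx π h l)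

end Crest.Agent.R166
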