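import Crest.Agent.R166.G3
import Crest.Agent.R166.G5

/-! # Tree-likeness -/

set_option autoImplicit false
set_option linter.unusedVariables false
set_option linter.unusedSectionVars false

open MeasureTheory ProbabilityTheory Filter Topology Matrix
open scoped ENNReal BoundedContinuousFunction

namespace Crest.Agent.R166

theorem G6_avg_mono {A : Type} [Fintype A] {f g : A → ℝ} (h : ∀ a, f a ≤ g a) :
    avg f ≤ avg g := by
  unfold avg
  exact div_le_div_of_nonneg_right (Finset.sum_le_sum fun a _ => h a) (Nat.cast_nonneg _)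

theorem G6_avg_add {A : Type} [Fintype A] (f g : A → ℝ) :
    (avg fun a => f a + g a) = avg f + avg g := by
  unfold avg
  rw [Finset.sum_add_distrib, add_div]

theorem G6_avg_sum {A I : Type} [Fintype A] (s : Finset I) (f : I → A → ℝ) :
    (avg fun a => ∑ i ∈ s, f i a) = ∑ i ∈ s, avg (f i) := by
  unfold avg
  rw [Finset.sum_comm, Finset.sum_div]

theorem G6_avg_const_mul {A : Type} [Fintype A] (c : ℝ) (f : A → ℝ) :
    (avg fun a => c * f a) = c * avg f := by
  unfold avg
  rw [← Finset.mul_sum, mul_div_assoc]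

theorem G6_avg_const {A : Type} [Fintype A] [Nonempty A] (c : ℝ) : (avg fun _ : A => c) = c := by
  unfold avg
  have : (Fintype.card A : ℝ) ≠ 0 := by exact_mod_cast Fintype.card_ne_zero
  simp only [Finset.sum_const, Finset.card_univ, nsmul_eq_mul]
  field_simp

theorem G6_avg_le {A : Type} [Fintype A] {f : A → ℝ} {c : ℝ} (hc : 0 ≤ c) (h : ∀ a, f a ≤ c) :
    avg f ≤ c := by
  rcases isEmpty_or_nonempty A with hA | hA
  · simp [avg, hc]
  · exact (G6_avg_mono h).trans (G6_avg_const c).le

theorem G6_avg_comm {A B : Type} [Fintype A] [Fintype B] (f : A → B → ℝ) :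
    (avg fun a => avg fun b => f a b) = avg fun b => avg fun a => f a b := by
  unfold avg
  simp only [← Finset.sum_div]
  rw [Finset.sum_comm, div_right_comm]

theorem G6_avg_equiv {A B : Type} [Fintype A] [Fintype B] (e : A ≃ B) (f : B → ℝ) :
    avg (fun a => f (e a)) = avg f := by
  unfold avg
  rw [Equiv.sum_comp e f, Fintype.card_congr e]

theorem G6_avg_prod {A B : Type} [Fintype A] [Fintype B] (f : A × B → ℝ) :
    avg f = avg fun a => avg fun b => f (a, b) := by
  unfold avg
  rw [Fintype.sum_prod_type, Fintype.card_prod, ← Finset.sum_div, div_div, Nat.cast_mul, mul_comm]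

theorem G6_avg_update {I A : Type} [Fintype I] [DecidableEq I] [Fintype A] [Nonempty A] (i : I)
    (f : (I → A) → ℝ) : avg f = avg fun α : I → A => avg fun a => f (Function.update α i a) := by
  let g : (I → A) × A → (I → A) × A := fun p => (Function.update p.1 i p.2, p.1 i)
  have hg : Function.Involutive g := by
    rintro ⟨α, a⟩
    simp [g]
  have h1 := G6_avg_equiv (hg.toPerm g) (fun p : (I → A) × A => f p.1)
  rw [G6_avg_prod (fun p : (I → A) × A => f p.1), G6_avg_prod] at h1
  simp only [G6_avg_const] at h1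
  exact h1.symm

theorem G6_frac_nonneg {A : Type} [Fintype A] (P : A → Prop) : 0 ≤ frac P := by
  unfold frac avg
  exact div_nonneg (Finset.sum_nonneg fun a _ => by split_ifs <;> norm_num) (Nat.cast_nonneg _)

theorem G6_frac_mono {A : Type} [Fintype A] {P Q : A → Prop} (h : ∀ a, P a → Q a) :
    frac P ≤ frac Q := by
  unfold frac
  refine G6_avg_mono fun a => ?_
  by_cases hp : P a
  · simp [hp, h a hp]
  · simp only [hp, if_false]; split_ifs <;> norm_num

theorem G6_frac_or {A : Type} [Fintype A] (P Q : A → Prop) :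
    frac (fun a => P a ∨ Q a) ≤ frac P + frac Q := by
  unfold frac
  rw [← G6_avg_add]
  refine G6_avg_mono fun a => ?_
  by_cases hp : P a <;> by_cases hq : Q a <;> simp [hp, hq]

theorem G6_frac_exists {A I : Type} [Fintype A] (s : Finset I) (P : I → A → Prop) :
    frac (fun a => ∃ i ∈ s, P i a) ≤ ∑ i ∈ s, frac (P i) := by
  classical
  unfold frac
  rw [← G6_avg_sum]
  refine G6_avg_mono fun a => ?_
  have hnn : ∀ i ∈ s, (0 : ℝ) ≤ if P i a then 1 else 0 := fun i _ => by split_ifs <;> norm_num
  by_cases h : ∃ i ∈ s, P i a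
  · obtain ⟨i, hi, hp⟩ := h
    have h2 := Finset.single_le_sum hnn hi
    have h3 : ∃ i ∈ s, P i a := ⟨i, hi, hp⟩
    simp only [hp, if_true] at h2
    simp only [h3, if_true]
    convert h2 using 2
  · simp only [h, if_false]
    exact Finset.sum_nonneg fun i _ => by split_ifs <;> norm_num

theorem G6_frac_update {I A : Type} [Fintype I] [DecidableEq I] [Fintype A] [Nonempty A] (i : I)
    (P : (I → A) → Prop) {ε : ℝ} (hε : 0 ≤ ε)
    (h : ∀ α : I → A, frac (fun a => P (Function.update α i a)) ≤ ε) : frac P ≤ ε := by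
  unfold frac
  rw [G6_avg_update i]
  exact G6_avg_le hε h

theorem G6_frac_card {A : Type} [Fintype A] (P : A → Prop) [DecidablePred P] :
    frac P = ((Finset.univ.filter P).card : ℝ) / Fintype.card A := by
  unfold frac avg
  congr 1
  rw [Finset.card_filter]
  push_cast
  refine Finset.sum_congr rfl fun a _ => ?_
  split_ifs <;> rfl

theorem G6_frac_equiv {A B : Type} [Fintype A] [Fintype B] (e : A ≃ B) (P : B → Prop) :
    frac (fun a => P (e a)) = frac P := by
  unfold frac
  exact G6_avg_equiv e (fun b => @ite ℝ (P b) (Classical.propDecidable _) 1 0)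

theorem G6_frac_fst {A B : Type} [Fintype A] [Fintype B] [Nonempty B] (P : A → Prop) :
    frac (fun p : A × B => P p.1) = frac P := by
  unfold frac
  rw [G6_avg_prod]
  exact congrArg avg (funext fun a => G6_avg_const (A := B)
    (@ite ℝ (P a) (Classical.propDecidable _) 1 0))

/-- the vertices seen from the half-edge `a` -/
def G6_Sees {n D : ℕ} (π : Equiv.Perm (HE n D)) (k : ℕ) (a : HE n D) (v : Fin n) : Prop :=
  a.1 = v ∨ ∃ l : List (Fin D), l.length ≤ k ∧ vtx π (π a) l = v

theorem G6_frac_sees (D k : ℕ) : ∃ C : ℝ, 0 ≤ C ∧ ∀ (n : ℕ) (π : Equiv.Perm (HE n D)) (v : Fin n),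
    frac (fun a => G6_Sees π k a v) ≤ C / n := by
  classical
  obtain ⟨C, hC⟩ := card_sees_le D k
  refine ⟨1 + C, by positivity, fun n π v => ?_⟩
  have hn : (0 : ℝ) < n := by exact_mod_cast v.pos
  refine (G6_frac_or _ _).trans ?_
  rw [add_div]
  refine add_le_add ?_ ?_
  · rw [G6_frac_fst (fun x : Fin n => x = v), G6_frac_card]
    simp [Finset.filter_eq']
  · have h1 : frac (fun a : HE n D => ∃ l : List (Fin D), l.length ≤ k ∧ vtx π (π a) l = v) =
        frac (fun a : HE n D => ∃ l : List (Fin D), l.length ≤ k ∧ vtx π a l = v) :=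
      G6_frac_equiv π (fun a : HE n D => ∃ l : List (Fin D), l.length ≤ k ∧ vtx π a l = v)
    rw [h1, G6_frac_card]
    have h2 := hC n π v
    have h3 : (n : ℝ) ≤ Fintype.card (HE n D) := by
      rw [Fintype.card_prod, Fintype.card_fin, Fintype.card_fin]
      exact_mod_cast Nat.le_mul_of_pos_right n (Nat.succ_pos D)
    refine div_le_div₀ (Nat.cast_nonneg _) ?_ hn h3
    exact_mod_cast (by convert h2)

theorem G6_seen_card (D k : ℕ) : ∃ M : ℕ, ∀ (n : ℕ) (π : Equiv.Perm (HE n D)) (a : HE n D),
    ∃ s : Finset (Fin n), s.card ≤ M ∧ ∀ v, G6_Sees π k a v → v ∈ s := by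
  classical
  have hfin : {l : List (Fin D) | l.length ≤ k}.Finite := List.finite_length_le (Fin D) k
  refine ⟨hfin.toFinset.card + 1, fun n π a => ⟨insert a.1 (hfin.toFinset.image (vtx π (π a))),
    ?_, ?_⟩⟩
  · exact (Finset.card_insert_le _ _).trans (Nat.succ_le_succ Finset.card_image_le)
  · rintro v (rfl | ⟨l, hl, rfl⟩)
    · exact Finset.mem_insert_self _ _
    · exact Finset.mem_insert_of_mem (Finset.mem_image_of_mem _ (hfin.mem_toFinset.2 hl))

theorem G6_frac_sees_set {n D k : ℕ} {C : ℝ} (hC0 : 0 ≤ C) {π : Equiv.Perm (HE n D)}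
    (hC : ∀ v, frac (fun a => G6_Sees π k a v) ≤ C / n) (s : Finset (Fin n)) {M : ℕ}
    (hs : s.card ≤ M) : frac (fun a => ∃ v ∈ s, G6_Sees π k a v) ≤ M * (C / n) := by
  refine (G6_frac_exists s fun v a => G6_Sees π k a v).trans ?_
  refine (Finset.sum_le_card_nsmul s _ (C / n) fun v _ => hC v).trans ?_
  rw [nsmul_eq_mul]
  exact mul_le_mul_of_nonneg_right (by exact_mod_cast hs) (by positivity)

/-- a tree-like star makes each branch injective one level deeper -/
theorem G6_clean {n D : ℕ} {π : Pairing n D} {h : HE n D} {k : ℕ} (H : TreeLike π.1 h.1 k) :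
    (∀ l : List (Fin D), l.length ≤ k + 1 → vtx π.1 h l ≠ (π.1 h).1) ∧
      ∀ l l' : List (Fin D), l.length ≤ k + 1 → l'.length ≤ k + 1 →
        vtx π.1 h l = vtx π.1 h l' → l = l' := by
  constructor
  · intro l hl
    cases l with
    | nil => exact (π.2.2.1 h).symm
    | cons c l =>
      intro he
      have := H.2 (h.2.succAbove c) h.2 l [] (by simpa using hl) (Nat.zero_le _) he
      exact Fin.succAbove_ne _ _ this.1
  · intro l l' hl hl' he
    cases l with
    | nil =>
      cases l' with
      | nil => rfl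
      | cons c' l' => exact absurd he.symm (H.1 _ l' (by simpa using hl'))
    | cons c l =>
      cases l' with
      | nil => exact absurd he (H.1 _ l (by simpa using hl))
      | cons c' l' =>
        have := H.2 (h.2.succAbove c) (h.2.succAbove c') l l' (by simpa using hl)
          (by simpa using hl') he
        rw [Fin.succAbove_right_injective this.1, this.2]

/-- the bad configurations of the resampling step -/
def G6_Bad {n D : ℕ} (π : Equiv.Perm (HE n D)) (k : ℕ) (o : Fin n) (α : Fin (D + 1) → HE n D) :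
    Prop :=
  (∃ i, ¬ TreeLike π (π (α i)).1 k) ∨
    (∃ i, G6_Sees π (k + 1) (α i) o ∨ ∃ j, G6_Sees π (k + 1) (α i) (π (o, j)).1) ∨
    ∃ i j, i ≠ j ∧ ∃ v, G6_Sees π (k + 1) (α i) v ∧ G6_Sees π (k + 1) (α j) v

theorem G6_step {n D k : ℕ} {π : Pairing n D} {o : Fin n} {α : Fin (D + 1) → HE n D}
    (hS : StarOK π.1 o α) (hB : ¬ G6_Bad π.1 k o α) :
    TreeLike (switchP (starSw o α) π).1 o (k + 1) := by
  obtain ⟨-, -, -, h4, h5⟩ := hS.spec
  set π' := (switchP (starSw o α) π).1 with hπ'
  unfold G6_Bad at hB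
  push Not at hB
  obtain ⟨hT, hO, hD⟩ := hB
  have hsee : ∀ i (l : List (Fin D)), l.length ≤ k + 1 →
      G6_Sees π.1 (k + 1) (α i) (vtx π.1 (π.1 (α i)) l) := fun i l hl => Or.inr ⟨l, hl, rfl⟩
  have hsame : ∀ i (l : List (Fin D)), l.length ≤ k + 1 →
      vtx π' (π.1 (α i)) l = vtx π.1 (π.1 (α i)) l := by
    intro i
    refine vtx_congr fun l hl i' hi' => h5 _ fun j => ⟨?_, ?_, ?_, ?_⟩
    · intro he
      apply (hO i).1
      have := hsee i l hl.le
      rwa [show vtx π.1 (π.1 (α i)) l = o from congrArg Prod.fst he] at this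
    · intro he
      have he1 : vtx π.1 (π.1 (α i)) l = (α j).1 := congrArg Prod.fst he
      by_cases hij : i = j
      · subst hij
        have := (G6_clean (hT i)).1 l hl.le
        rw [π.2.1] at this
        exact this he1
      · exact hD i j hij _ (hsee i l hl.le) (Or.inl he1.symm)
    · intro he
      apply (hO i).2 j
      have := hsee i l hl.le
      rwa [show vtx π.1 (π.1 (α i)) l = (π.1 (o, j)).1 from congrArg Prod.fst he] at this
    · intro he
      have he1 : vtx π.1 (π.1 (α i)) l = (π.1 (α j)).1 := congrArg Prod.fst he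
      by_cases hij : i = j
      · subst hij
        have hl0 : l = [] := (G6_clean (hT i)).2 l [] hl.le (Nat.zero_le _) he1
        exact hi' hl0 (congrArg Prod.snd he)
      · exact hD i j hij _ (hsee i l hl.le) (Or.inr ⟨[], Nat.zero_le _, he1.symm⟩)
  constructor
  · intro i l hl he
    rw [(h4 i).1, hsame i l hl] at he
    apply (hO i).1
    have := hsee i l hl
    rwa [he] at this
  · intro i i' l l' hl hl' he
    rw [(h4 i).1, (h4 i').1, hsame i l hl, hsame i' l' hl'] at he
    by_cases hij : i = i'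
    · subst hij
      exact ⟨rfl, (G6_clean (hT i)).2 l l' hl hl' he⟩
    · exact absurd (he ▸ hsee i' l' hl') (hD i i' hij _ (hsee i l hl))

theorem G6_frac_bad (D k : ℕ) : ∃ C : ℝ, 0 ≤ C ∧ ∀ (n : ℕ) (π : Equiv.Perm (HE n D)) (o : Fin n),
    frac (G6_Bad π k o) ≤ (D + 1) * frac (fun x => ¬ TreeLike π x k) + C / n := by
  classical
  obtain ⟨C, hC0, hC⟩ := G6_frac_sees D (k + 1)
  obtain ⟨M, hM⟩ := G6_seen_card D (k + 1)
  refine ⟨(D + 1) * ((D + 2 : ℕ) * C) + (D + 1) * ((D + 1) * (M * C)), by positivity,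
    fun n π o => ?_⟩
  have : Nonempty (HE n D) := ⟨(o, 0)⟩
  have hn : (0 : ℝ) < n := by exact_mod_cast o.pos
  have h1 : frac (fun α : Fin (D + 1) → HE n D => ∃ i, ¬ TreeLike π (π (α i)).1 k) ≤
      (D + 1) * frac (fun x => ¬ TreeLike π x k) := by
    have h0 := G6_frac_exists Finset.univ
      (fun i (α : Fin (D + 1) → HE n D) => ¬ TreeLike π (π (α i)).1 k)
    simp only [Finset.mem_univ, true_and] at h0
    refine h0.trans ((Finset.sum_le_card_nsmul _ _ (frac fun x => ¬ TreeLike π x k)
      fun i _ => ?_).trans (by simp))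
    refine G6_frac_update i _ (G6_frac_nonneg _) fun α => le_of_eq ?_
    simp only [Function.update_self]
    exact (G6_frac_equiv π (fun a : HE n D => ¬ TreeLike π a.1 k)).trans
      (G6_frac_fst fun x : Fin n => ¬ TreeLike π x k)
  have h2 : frac (fun α : Fin (D + 1) → HE n D => ∃ i, G6_Sees π (k + 1) (α i) o ∨
      ∃ j, G6_Sees π (k + 1) (α i) (π (o, j)).1) ≤ (D + 1) * ((D + 2 : ℕ) * (C / n)) := by
    have h0 := G6_frac_exists Finset.univ
      (fun i (α : Fin (D + 1) → HE n D) => G6_Sees π (k + 1) (α i) o ∨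
        ∃ j, G6_Sees π (k + 1) (α i) (π (o, j)).1)
    simp only [Finset.mem_univ, true_and] at h0
    refine h0.trans ((Finset.sum_le_card_nsmul _ _ ((D + 2 : ℕ) * (C / n))
      fun i _ => ?_).trans (by simp))
    refine G6_frac_update i _ (by positivity) fun α => ?_
    simp only [Function.update_self]
    refine le_trans (G6_frac_mono ?_) (G6_frac_sees_set hC0 (hC n π)
      (insert o (Finset.univ.image fun j => (π (o, j)).1)) ?_)
    · rintro a (h | ⟨j, h⟩)
      · exact ⟨o, Finset.mem_insert_self _ _, h⟩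
      · exact ⟨_, Finset.mem_insert_of_mem (Finset.mem_image_of_mem _ (Finset.mem_univ j)), h⟩
    · refine (Finset.card_insert_le _ _).trans (Nat.succ_le_succ (Finset.card_image_le.trans ?_))
      simp
  have h3 : frac (fun α : Fin (D + 1) → HE n D => ∃ i j, i ≠ j ∧
      ∃ v, G6_Sees π (k + 1) (α i) v ∧ G6_Sees π (k + 1) (α j) v) ≤
      (D + 1) * ((D + 1) * (M * (C / n))) := by
    have h0 := G6_frac_exists Finset.univ
      (fun i (α : Fin (D + 1) → HE n D) => ∃ j, i ≠ j ∧
        ∃ v, G6_Sees π (k + 1) (α i) v ∧ G6_Sees π (k + 1) (α j) v)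
    simp only [Finset.mem_univ, true_and] at h0
    refine h0.trans ((Finset.sum_le_card_nsmul _ _ ((D + 1) * (M * (C / n)))
      fun i _ => ?_).trans (by simp))
    have h0' := G6_frac_exists Finset.univ
      (fun j (α : Fin (D + 1) → HE n D) => i ≠ j ∧
        ∃ v, G6_Sees π (k + 1) (α i) v ∧ G6_Sees π (k + 1) (α j) v)
    simp only [Finset.mem_univ, true_and] at h0'
    refine h0'.trans ((Finset.sum_le_card_nsmul _ _ (M * (C / n))
      fun j _ => ?_).trans (by simp))
    refine G6_frac_update i _ (by positivity) fun α => ?_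
    obtain ⟨s, hs, hs'⟩ := hM n π (α j)
    refine le_trans (G6_frac_mono ?_) (G6_frac_sees_set hC0 (hC n π) s hs)
    rintro a ⟨hij, v, hv1, hv2⟩
    rw [Function.update_self] at hv1
    rw [Function.update_of_ne hij.symm] at hv2
    exact ⟨v, hs' v hv2, hv1⟩
  refine (G6_frac_or _ _).trans (add_le_add h1 ((G6_frac_or _ _).trans
    ((add_le_add h2 h3).trans (le_of_eq ?_))))
  ring

theorem G6_point {n D k : ℕ} (o : Fin n) (α : Fin (D + 1) → HE n D) :
    frac (fun π : Pairing n D => ¬ TreeLike π.1 o (k + 1)) ≤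
      frac (fun π : Pairing n D => ¬ StarOK π.1 o α) +
        frac (fun π : Pairing n D => G6_Bad π.1 k o α) := by
  classical
  have h1 := avg_star o α fun π _ => if ¬ TreeLike π.1 o (k + 1) then (1 : ℝ) else 0
  have h2 : frac (fun π : Pairing n D => ¬ TreeLike π.1 o (k + 1)) ≤
      frac (fun π : Pairing n D => ¬ StarOK π.1 o α) + avg fun π : Pairing n D =>
        if StarOK π.1 o α then (if ¬ TreeLike π.1 o (k + 1) then (1 : ℝ) else 0) else 0 := by
    unfold frac
    rw [← G6_avg_add]
    refine G6_avg_mono fun π => ?_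
    by_cases hs : StarOK π.1 o α <;> by_cases ht : TreeLike π.1 o (k + 1) <;> simp [hs, ht]
  refine h2.trans (add_le_add le_rfl ?_)
  refine le_of_eq_of_le (by convert h1) ?_
  unfold frac
  refine G6_avg_mono fun π => ?_
  by_cases hs : StarOK π.1 o α
  · by_cases hb : G6_Bad π.1 k o α
    · simp only [hs, hb, if_true]
      split_ifs <;> norm_num
    · simp [hs, hb, G6_step hs hb]
  · simp only [hs, if_false]
    split_ifs <;> norm_num

theorem treeLike_mean (D k : ℕ) : ∃ C : ℝ, ∀ n : ℕ,
    (avg fun π : Pairing n D => frac fun x => ¬ TreeLike π.1 x k) ≤ C / n := by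
  induction k with
  | zero =>
    refine ⟨0, fun n => ?_⟩
    rw [zero_div]
    refine G6_avg_le le_rfl fun π => ?_
    unfold frac
    refine G6_avg_le le_rfl fun x => ?_
    have : TreeLike π.1 x 0 := by
      constructor
      · intro i l hl
        obtain rfl : l = [] := List.length_eq_zero_iff.1 (Nat.le_zero.1 hl)
        exact π.2.2.1 (x, i)
      · intro i i' l l' hl hl' he
        obtain rfl : l = [] := List.length_eq_zero_iff.1 (Nat.le_zero.1 hl)
        obtain rfl : l' = [] := List.length_eq_zero_iff.1 (Nat.le_zero.1 hl')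
        exact ⟨π.2.2.2 x i i' he, rfl⟩
    simp [this]
  | succ k ih =>
    obtain ⟨C₁, hC₁⟩ := ih
    obtain ⟨C₂, hC₂⟩ := frac_not_starOK D
    obtain ⟨C₃, hC₃0, hC₃⟩ := G6_frac_bad D k
    refine ⟨|C₂| + ((D + 1) * |C₁| + C₃), fun n => ?_⟩
    have hn : (0 : ℝ) ≤ n := Nat.cast_nonneg n
    have hswap : (avg fun π : Pairing n D => frac fun x => ¬ TreeLike π.1 x (k + 1)) =
        avg fun x : Fin n => frac fun π : Pairing n D => ¬ TreeLike π.1 x (k + 1) := by
      unfold frac
      exact G6_avg_comm _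
    rw [hswap]
    refine G6_avg_le (by positivity) fun o => ?_
    have : Nonempty (HE n D) := ⟨(o, 0)⟩
    rw [← G6_avg_const (A := Fin (D + 1) → HE n D)
      (frac fun π : Pairing n D => ¬ TreeLike π.1 o (k + 1))]
    refine (G6_avg_mono fun α => G6_point o α).trans ?_
    rw [G6_avg_add, add_div]
    refine add_le_add ?_ ?_
    · have : (avg fun α : Fin (D + 1) → HE n D => frac fun π : Pairing n D => ¬ StarOK π.1 o α) =
          avg fun π : Pairing n D => frac fun α : Fin (D + 1) → HE n D => ¬ StarOK π.1 o α := by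
        unfold frac
        exact G6_avg_comm _
      rw [this]
      refine G6_avg_le (by positivity) fun π => (hC₂ n π o).trans ?_
      exact div_le_div_of_nonneg_right (le_abs_self _) hn
    · have : (avg fun α : Fin (D + 1) → HE n D => frac fun π : Pairing n D => G6_Bad π.1 k o α) =
          avg fun π : Pairing n D => frac (G6_Bad π.1 k o) := by
        unfold frac
        exact G6_avg_comm _
      rw [this]
      refine (G6_avg_mono fun π : Pairing n D => hC₃ n π.1 o).trans ?_
      rw [G6_avg_add, G6_avg_const_mul, add_div, mul_div_assoc]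
      refine add_le_add (mul_le_mul_of_nonneg_left ((hC₁ n).trans ?_) (by positivity))
        (G6_avg_le (by positivity) fun _ => le_rfl)
      exact div_le_div_of_nonneg_right (le_abs_self _) hn

end Crest.Agent.R166
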