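import Crest.Agent.R166.Spec1

/-! # Sorted eigenvalues and spectral sums -/

set_option autoImplicit false
set_option linter.unusedVariables false
set_option linter.unusedSectionVars false

open MeasureTheory ProbabilityTheory Filter Topology Matrix
open scoped ENNReal BoundedContinuousFunction

namespace Crest.Agent.R166

section
variable {n : ℕ} {H : Matrix (Fin n) (Fin n) ℝ}

/-- the reordering of the eigenvalues -/
noncomputable def Spec2_sig (n : ℕ) : Fin n ≃ Fin n :=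
  Fin.revPerm.trans ((finCongr (Fintype.card_fin n).symm).trans
    (Fintype.equivOfCardEq (Fintype.card_fin _)))

theorem Spec2_evs (hH : H.IsHermitian) (i : Fin n) : evs H i = hH.eigenvalues (Spec2_sig n i) := by
  rw [evs, dif_pos hH]
  simp [Spec2_sig, IsHermitian.eigenvalues]

theorem Spec2_herm (hH : H.IsSymm) : H.IsHermitian := herm_of_symm fun a b => hH.apply b a

theorem Spec2_dec {U : Matrix (Fin n) (Fin n) ℝ} {lam : Fin n → ℝ} (hU : Uᵀ * U = 1)
    (h : ∀ i, H *ᵥ U i = lam i • U i) : H = Uᵀ * diagonal lam * U := by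
  have : H * Uᵀ = Uᵀ * diagonal lam := by
    ext a i
    rw [mul_diagonal, mul_comm]
    exact congrFun (h i) a
  rw [← this, Matrix.mul_assoc, hU, Matrix.mul_one]

theorem Spec2_quad {U : Matrix (Fin n) (Fin n) ℝ} {lam : Fin n → ℝ} (hU : Uᵀ * U = 1)
    (h : ∀ i, H *ᵥ U i = lam i • U i) (x : Fin n → ℝ) :
    x ⬝ᵥ H *ᵥ x = ∑ j, lam j * (U j ⬝ᵥ x) ^ 2 := by
  rw [Spec2_dec hU h, ← mulVec_mulVec, ← mulVec_mulVec, dotProduct_mulVec, vecMul_transpose]
  refine Finset.sum_congr rfl fun j _ => ?_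
  rw [mulVec_diagonal]
  change (U j ⬝ᵥ x) * (lam j * (U j ⬝ᵥ x)) = _
  ring

theorem Spec2_res {U : Matrix (Fin n) (Fin n) ℝ} {lam : Fin n → ℝ} (hU : Uᵀ * U = 1)
    (hU' : U * Uᵀ = 1) (h : ∀ i, H *ᵥ U i = lam i • U i) {z : ℂ} (hz : z.im ≠ 0) :
    res H z = (cx U)ᵀ * diagonal (fun i => ((lam i : ℂ) - z)⁻¹) * cx U := by
  have e : (cx U)ᵀ * cx U = 1 := by rw [← cx_transpose, ← cx_mul, hU, cx_one]
  have e' : cx U * (cx U)ᵀ = 1 := by rw [← cx_transpose, ← cx_mul, hU', cx_one]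
  have d : cx (diagonal lam) - z • 1 = diagonal fun i => (lam i : ℂ) - z := by
    ext a b
    by_cases hab : a = b <;> simp [hab]
  have : cx H - z • 1 = (cx U)ᵀ * diagonal (fun i => (lam i : ℂ) - z) * cx U := by
    rw [← d, Matrix.mul_sub, Matrix.sub_mul, Matrix.mul_smul, Matrix.smul_mul, Matrix.mul_one, e,
      ← cx_transpose, ← cx_mul, ← cx_mul, ← Spec2_dec hU h]
  refine Matrix.inv_eq_right_inv ?_
  rw [this]
  simp only [Matrix.mul_assoc]
  rw [← Matrix.mul_assoc (cx U), e', Matrix.one_mul, ← Matrix.mul_assoc (diagonal _),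
    diagonal_mul_diagonal]
  simp only [mul_inv_cancel₀ (real_sub_ne hz _), diagonal_one, Matrix.one_mul, e]

theorem Spec2_apply (V : Matrix (Fin n) (Fin n) ℂ) (d : Fin n → ℂ) (x y : Fin n) :
    (Vᵀ * diagonal d * V) x y = ∑ i, V i x * V i y * d i := by
  rw [Matrix.mul_apply]
  refine Finset.sum_congr rfl fun i _ => ?_
  rw [mul_diagonal, transpose_apply]
  ring

theorem evs_mono (H : Matrix (Fin n) (Fin n) ℝ) : Monotone (evs H) := by
  unfold evs
  split_ifs with h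
  · intro i j hij
    refine h.eigenvalues₀_antitone ?_
    rw [Fin.le_def, Fin.val_cast, Fin.val_cast]
    exact Fin.rev_le_rev.2 hij
  · exact monotone_const

/-- an orthonormal eigenbasis matching `evs` (rows of `U`) -/
theorem exists_eigenbasis (hH : H.IsSymm) : ∃ U : Matrix (Fin n) (Fin n) ℝ,
    U * Uᵀ = 1 ∧ Uᵀ * U = 1 ∧ ∀ i, H *ᵥ U i = evs H i • U i := by
  have h := Spec2_herm hH
  have e : (Matrix.of fun i a => evec h a (Spec2_sig n i)) *
      (Matrix.of fun i a => evec h a (Spec2_sig n i))ᵀ = 1 := by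
    ext i j
    simp [Matrix.mul_apply, evec_col, Matrix.one_apply]
  refine ⟨_, e, mul_eq_one_comm.1 e, fun i => ?_⟩
  ext a
  rw [Spec2_evs h]
  exact mulVec_evec h a _

theorem res_eq_sum {U : Matrix (Fin n) (Fin n) ℝ} {lam : Fin n → ℝ} (hU : Uᵀ * U = 1)
    (hU' : U * Uᵀ = 1) (h : ∀ i, H *ᵥ U i = lam i • U i) {z : ℂ} (hz : z.im ≠ 0) (x y : Fin n) :
    res H z x y = ∑ i, ((U i x * U i y : ℝ) : ℂ) / ((lam i : ℂ) - z) := by
  rw [Spec2_res hU hU' h hz, Spec2_apply]
  simp [div_eq_mul_inv]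

theorem res_sq_eq_sum {U : Matrix (Fin n) (Fin n) ℝ} {lam : Fin n → ℝ} (hU : Uᵀ * U = 1)
    (hU' : U * Uᵀ = 1) (h : ∀ i, H *ᵥ U i = lam i • U i) {z : ℂ} (hz : z.im ≠ 0) (x y : Fin n) :
    (res H z * res H z) x y = ∑ i, ((U i x * U i y : ℝ) : ℂ) / ((lam i : ℂ) - z) ^ 2 := by
  have e' : cx U * (cx U)ᵀ = 1 := by rw [← cx_transpose, ← cx_mul, hU', cx_one]
  rw [Spec2_res hU hU' h hz]
  simp only [Matrix.mul_assoc]
  rw [← Matrix.mul_assoc (cx U), e', Matrix.one_mul, ← Matrix.mul_assoc (diagonal _),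
    diagonal_mul_diagonal, ← Matrix.mul_assoc, Spec2_apply]
  simp only [div_eq_mul_inv, mul_inv, sq, cx_apply, Complex.ofReal_mul]

theorem trace_res_evs (hH : H.IsSymm) {z : ℂ} (hz : z.im ≠ 0) :
    Matrix.trace (res H z) = ∑ i, 1 / ((evs H i : ℂ) - z) := by
  rw [trace_res (Spec2_herm hH) hz, ← (Spec2_sig n).sum_comp]
  simp only [Spec2_evs (Spec2_herm hH), one_div]

theorem sum_evs (hH : H.IsHermitian) (f : ℝ → ℝ) :
    ∑ i, f (evs H i) = ∑ i, f (hH.eigenvalues i) := by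
  simp only [Spec2_evs hH]
  exact (Spec2_sig n).sum_comp fun i => f (hH.eigenvalues i)

theorem Spec2_weyl {A B : Matrix (Fin n) (Fin n) ℝ} (hA : A.IsSymm) (hB : B.IsSymm) (i : Fin n) :
    evs A i ≤ evs B i + ∑ a, ∑ b, |A a b - B a b| := by
  obtain ⟨U, -, hU, hUe⟩ := exists_eigenbasis hA
  obtain ⟨V, -, hV, hVe⟩ := exists_eigenbasis hB
  obtain ⟨x, hx0, hx⟩ := Matrix.exists_mulVec_eq_zero_iff.2 (det_eq_zero_of_row_eq_zero
    (A := Matrix.of fun j => if j < i then U j else if i < j then V j else 0) i fun j => by simp)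
  have h1 : ∀ j < i, U j ⬝ᵥ x = 0 := fun j hj => by
    simpa [mulVec, Matrix.row, hj] using congrFun hx j
  have h2 : ∀ j, i < j → V j ⬝ᵥ x = 0 := fun j hj => by
    simpa [mulVec, Matrix.row, hj, hj.le.not_gt] using congrFun hx j
  have n1 := Spec2_quad (H := 1) (lam := 1) hU (by simp) x
  have n2 := Spec2_quad (H := 1) (lam := 1) hV (by simp) x
  simp only [one_mulVec, Pi.one_apply, one_mul] at n1 n2
  have q1 : evs A i * (x ⬝ᵥ x) ≤ x ⬝ᵥ A *ᵥ x := by
    rw [Spec2_quad hU hUe, n1, Finset.mul_sum]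
    refine Finset.sum_le_sum fun j _ => ?_
    rcases lt_or_ge j i with h | h
    · simp [h1 j h]
    · exact mul_le_mul_of_nonneg_right (evs_mono A h) (sq_nonneg _)
  have q2 : x ⬝ᵥ B *ᵥ x ≤ evs B i * (x ⬝ᵥ x) := by
    rw [Spec2_quad hV hVe, n2, Finset.mul_sum]
    refine Finset.sum_le_sum fun j _ => ?_
    rcases lt_or_ge i j with h | h
    · simp [h2 j h]
    · exact mul_le_mul_of_nonneg_right (evs_mono B h) (sq_nonneg _)
  have hs : ∀ a, x a * x a ≤ x ⬝ᵥ x := fun a =>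
    Finset.single_le_sum (f := fun a => x a * x a) (fun _ _ => mul_self_nonneg _)
      (Finset.mem_univ a)
  have q3 : x ⬝ᵥ A *ᵥ x - x ⬝ᵥ B *ᵥ x ≤ (∑ a, ∑ b, |A a b - B a b|) * (x ⬝ᵥ x) := by
    rw [← dotProduct_sub, ← sub_mulVec, Finset.sum_mul]
    refine Finset.sum_le_sum fun a _ => ?_
    rw [Finset.sum_mul]
    change x a * (∑ b, (A a b - B a b) * x b) ≤ _
    rw [Finset.mul_sum]
    refine Finset.sum_le_sum fun b _ => (le_abs_self _).trans ?_
    rw [mul_left_comm, abs_mul]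
    refine mul_le_mul_of_nonneg_left (abs_le.2 ⟨?_, ?_⟩) (abs_nonneg _)
    · nlinarith [hs a, hs b, sq_nonneg (x a + x b)]
    · nlinarith [hs a, hs b, sq_nonneg (x a - x b)]
  have hp : 0 < x ⬝ᵥ x := by
    obtain ⟨a, ha⟩ := Function.ne_iff.1 hx0
    exact (mul_self_pos.2 ha).trans_le (hs a)
  exact le_of_mul_le_mul_right (by linarith) hp

/-- Weyl: sorted eigenvalues are continuous on symmetric families -/
theorem continuous_evs {X : Type} [TopologicalSpace X] {A : X → Matrix (Fin n) (Fin n) ℝ}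
    (hA : Continuous A) (hs : ∀ t, (A t).IsSymm) : Continuous fun t => evs (A t) := by
  refine continuous_pi fun i => continuous_iff_continuousAt.2 fun t => ?_
  have hc : Continuous fun s => ∑ a, ∑ b, |A s a b - A t a b| :=
    continuous_finsetSum _ fun a _ => continuous_finsetSum _ fun b _ =>
      ((hA.matrix_elem a b).sub continuous_const).abs
  have h0 := hc.tendsto t
  simp only [sub_self, abs_zero, Finset.sum_const_zero] at h0
  refine tendsto_iff_dist_tendsto_zero.2 (squeeze_zero (fun _ => dist_nonneg) (fun s => ?_) h0)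
  have h1 := Spec2_weyl (hs s) (hs t) i
  have h2 := Spec2_weyl (hs t) (hs s) i
  simp only [abs_sub_comm (A t _ _)] at h2
  rw [Real.dist_eq, abs_le]
  constructor <;> linarith

end

end Crest.Agent.R166
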