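import Crest.Agent.R166.Spec2

/-! # The graph Hamiltonian -/

set_option autoImplicit false
set_option linter.unusedVariables false
set_option linter.unusedSectionVars false

open MeasureTheory ProbabilityTheory Filter Topology Matrix
open scoped ENNReal BoundedContinuousFunction

namespace Crest.Agent.R166

theorem adj_isSymm {n D : ℕ} {π : Equiv.Perm (HE n D)} (h : ∀ a, π (π a) = a) :
    (adj π).IsSymm := by
  have key : ∀ x y, adj π x y =
      ∑ a : HE n D, if a.1 = x ∧ (π a).1 = y then (1 : ℝ) else 0 := by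
    intro x y
    rw [Fintype.sum_prod_type, Finset.sum_eq_single x]
    · simp [adj]
    · intro b _ hb
      simp [hb]
    · simp
  ext x y
  rw [transpose_apply, key, key, ← Equiv.sum_comp π]
  refine Finset.sum_congr rfl fun a _ => ?_
  simp only [h, and_comm]

theorem ham_isSymm {n D : ℕ} {π : Equiv.Perm (HE n D)} (h : ∀ a, π (π a) = a) (s : ℝ)
    (ω : Fin n → J) : (ham s π ω).IsSymm := by
  exact (adj_isSymm h).add (isSymm_diagonal _)

theorem ham_mulVec {n D : ℕ} (π : Equiv.Perm (HE n D)) (s : ℝ) (ω : Fin n → J) (u : Fin n → ℝ)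
    (x : Fin n) : (ham s π ω *ᵥ u) x = ∑ i, u (π (x, i)).1 + s * (ω x : ℝ) * u x := by
  rw [ham, add_mulVec, Pi.add_apply, mulVec_diagonal]
  congr 1
  simp only [mulVec, dotProduct, adj, of_apply, Finset.sum_mul]
  rw [Finset.sum_comm]
  refine Finset.sum_congr rfl fun i _ => ?_
  simp

theorem continuous_ham {n D : ℕ} (π : Equiv.Perm (HE n D)) (s : ℝ) :
    Continuous fun ω : Fin n → J => ham s π ω := by
  refine continuous_const.add (Continuous.matrix_diagonal ?_)
  fun_prop

theorem measurable_res_ham {n D : ℕ} (s : ℝ) {z : ℂ} (hz : z.im ≠ 0) (x y : Fin n) :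
    Measurable fun o : Om n D => res (ham s o.1.1 o.2) z x y := by
  refine measurable_from_prod_countable_right fun π => ?_
  exact (continuous_res' (continuous_ham π.1 s) (fun ω => ham_isSymm π.2.1 s ω) hz x y).measurable

theorem measurable_evs_ham {n D : ℕ} (s : ℝ) :
    Measurable fun o : Om n D => evs (ham s o.1.1 o.2) := by
  refine measurable_from_prod_countable_right fun π => ?_
  exact (continuous_evs (continuous_ham π.1 s) (fun ω => ham_isSymm π.2.1 s ω)).measurable

theorem abs_evs_ham_le {n D : ℕ} {π : Equiv.Perm (HE n D)} (h : ∀ a, π (π a) = a) (s : ℝ)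
    (ω : Fin n → J) (i : Fin n) : |evs (ham s π ω) i| ≤ D + 1 + |s| := by
  obtain ⟨U, hU, -, hev⟩ := exists_eigenbasis (ham_isSymm h s ω)
  obtain ⟨x, -, hx⟩ := Finset.exists_max_image Finset.univ (fun x => |U i x|) ⟨i, Finset.mem_univ _⟩
  have hpos : 0 < |U i x| := by
    by_contra hc
    have h0 : ∀ y, U i y = 0 := fun y =>
      abs_nonpos_iff.1 ((hx y (Finset.mem_univ _)).trans (not_lt.1 hc))
    have := congrFun (congrFun hU i) i
    simp [Matrix.mul_apply, h0] at this
  have e := congrFun (hev i) x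
  rw [ham_mulVec, Pi.smul_apply, smul_eq_mul] at e
  have h1 : |∑ j, U i (π (x, j)).1| ≤ (D + 1) * |U i x| := by
    refine (Finset.abs_sum_le_sum_abs _ _).trans ?_
    refine (Finset.sum_le_sum fun j _ => hx (π (x, j)).1 (Finset.mem_univ _)).trans ?_
    simp
  have h2 : |s * (ω x : ℝ) * U i x| ≤ |s| * |U i x| := by
    rw [abs_mul, abs_mul]
    refine mul_le_mul_of_nonneg_right (mul_le_of_le_one_right (abs_nonneg _) ?_) (abs_nonneg _)
    exact abs_le.2 (ω x).2
  refine le_of_mul_le_mul_right ?_ hpos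
  rw [← abs_mul, ← e, add_mul _ |s|]
  exact (abs_add_le _ _).trans (add_le_add h1 h2)

end Crest.Agent.R166
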