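import Crest.Agent.R166.T0a
import Crest.Agent.R166.Spec

/-! # Locality of the Green function: approximate columns of the resolvent -/

set_option autoImplicit false
set_option linter.unusedVariables false
set_option linter.unusedSectionVars false

open MeasureTheory ProbabilityTheory Filter Topology Matrix
open scoped ENNReal BoundedContinuousFunction

namespace Crest.Agent.R166

noncomputable section

variable {n D : ℕ}

/-- child half-edge -/
def G7ch (π : Equiv.Perm (HE n D)) (h : HE n D) (c : Fin D) : HE n D :=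
  π (h.1, h.2.succAbove c)

/-- the point mass -/
def G7dl (y : Fin n) : Fin n → ℂ := fun v => if v = y then 1 else 0

/-- approximate column of the cavity resolvent -/
def G7phi (π : Equiv.Perm (HE n D)) (m : HE n D → ℂ) : ℕ → HE n D → Fin n → ℂ
  | 0, h => m h • G7dl h.1
  | l + 1, h => m h • (G7dl h.1 - ∑ c, G7phi π m l (G7ch π h c))

/-- its error -/
def G7err (π : Equiv.Perm (HE n D)) (m : HE n D → ℂ) : ℕ → HE n D → Fin n → ℂ
  | 0, h => m h • ∑ c, (m (G7ch π h c) • G7dl h.1 + G7dl (G7ch π h c).1)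
  | l + 1, h => -(m h • ∑ c, G7err π m l (G7ch π h c))

theorem G7_vtx_cons (π : Equiv.Perm (HE n D)) (h : HE n D) (c : Fin D) (l : List (Fin D)) :
    vtx π h (c :: l) = vtx π (G7ch π h c) l := rfl

theorem G7_mul_phi {π : Equiv.Perm (HE n D)} (hπ : ∀ a, π (π a) = a) {m : HE n D → ℂ}
    {L : Matrix (Fin n) (Fin n) ℂ} {V : Fin n → ℂ}
    (hL : ∀ y, L *ᵥ G7dl y = V y • G7dl y + ∑ i, G7dl (π (y, i)).1)
    (hm : ∀ h, m h * (V h.1 - ∑ c, m (G7ch π h c)) = 1) (l : ℕ) (h : HE n D) :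
    L *ᵥ G7phi π m l h = G7dl h.1 + m h • G7dl (π h).1 + G7err π m l h := by
  have hs : ∀ h : HE n D, ∑ i, G7dl (π (h.1, i)).1 =
      G7dl (π h).1 + ∑ c, G7dl (G7ch π h c).1 := fun h => by
    rw [Fin.sum_univ_succAbove _ h.2]; rfl
  induction l generalizing h with
  | zero =>
    rw [G7phi, G7err, Matrix.mulVec_smul, hL, hs, Finset.sum_add_distrib, ← Finset.sum_smul]
    funext v
    simp only [Pi.add_apply, Pi.smul_apply, smul_eq_mul]
    linear_combination G7dl h.1 v * hm h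
  | succ l ih =>
    rw [G7phi, G7err, Matrix.mulVec_smul, Matrix.mulVec_sub, Matrix.mulVec_sum, hL, hs]
    simp only [ih]
    have e : ∀ c, (π (G7ch π h c)).1 = h.1 := fun c => by rw [G7ch, hπ]
    simp only [e, Finset.sum_add_distrib, ← Finset.sum_smul]
    funext v
    simp only [Pi.add_apply, Pi.sub_apply, Pi.neg_apply, Pi.smul_apply, smul_eq_mul]
    linear_combination G7dl h.1 v * hm h

theorem G7_phi_supp (π : Equiv.Perm (HE n D)) (m : HE n D → ℂ) (l : ℕ) (h : HE n D) (v : Fin n)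
    (hv : G7phi π m l h v ≠ 0) : ∃ w : List (Fin D), w.length ≤ l ∧ vtx π h w = v := by
  induction l generalizing h with
  | zero =>
    refine ⟨[], le_rfl, ?_⟩
    by_contra hne
    apply hv
    have : v ≠ h.1 := fun e => hne e.symm
    simp [G7phi, G7dl, this]
  | succ l ih =>
    by_cases e : v = h.1
    · exact ⟨[], Nat.zero_le _, e.symm⟩
    · by_contra hne
      apply hv
      have : ∀ c, G7phi π m l (G7ch π h c) v = 0 := fun c => by
        by_contra hc
        obtain ⟨w, hw, e'⟩ := ih _ hc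
        exact hne ⟨c :: w, by simpa using hw, e'⟩
      simp [G7phi, G7dl, e, Finset.sum_apply, this]

theorem G7_err_supp (π : Equiv.Perm (HE n D)) (m : HE n D → ℂ) (l : ℕ) (h : HE n D) (v : Fin n)
    (hv : G7err π m l h v ≠ 0) : ∃ w : List (Fin D), w.length ≤ l + 1 ∧ vtx π h w = v := by
  induction l generalizing h with
  | zero =>
    by_contra hne
    apply hv
    have h1 : v ≠ h.1 := fun e => hne ⟨[], by simp, e.symm⟩
    have h2 : ∀ c, v ≠ (G7ch π h c).1 := fun c e => hne ⟨[c], by simp, e.symm⟩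
    simp [G7err, G7dl, h1, h2, Finset.sum_apply]
  | succ l ih =>
    by_contra hne
    apply hv
    have : ∀ c, G7err π m l (G7ch π h c) v = 0 := fun c => by
      by_contra hc
      obtain ⟨w, hw, e'⟩ := ih _ hc
      exact hne ⟨c :: w, by simpa using hw, e'⟩
    simp [G7err, Finset.sum_apply, this]

/-- injectivity of the branch up to depth `k` -/
def G7Inj (π : Equiv.Perm (HE n D)) (h : HE n D) (k : ℕ) : Prop :=
  ∀ w w' : List (Fin D), w.length ≤ k → w'.length ≤ k → vtx π h w = vtx π h w' → w = w'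

theorem G7Inj.child {π : Equiv.Perm (HE n D)} {h : HE n D} {k : ℕ} (H : G7Inj π h (k + 1))
    (c : Fin D) : G7Inj π (G7ch π h c) k := fun w w' hw hw' e => by
  have := H (c :: w) (c :: w') (by simpa using hw) (by simpa using hw') e
  simpa using this

theorem G7_phi_self {π : Equiv.Perm (HE n D)} (m : HE n D → ℂ) {l : ℕ} {h : HE n D}
    (H : G7Inj π h l) : G7phi π m l h h.1 = m h := by
  cases l with
  | zero => simp [G7phi, G7dl]
  | succ l =>
    have : ∀ c, G7phi π m l (G7ch π h c) h.1 = 0 := fun c => by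
      by_contra hc
      obtain ⟨w, hw, e'⟩ := G7_phi_supp π m l _ _ hc
      have := H (c :: w) [] (by simpa using hw) (by simp) e'
      simp at this
    simp [G7phi, G7dl, Finset.sum_apply, this]

theorem G7_sq_sum {κ : Type} [Fintype κ] (f : κ → ℂ)
    (hf : ∀ c c', f c ≠ 0 → f c' ≠ 0 → c = c') : ‖∑ c, f c‖ ^ 2 ≤ ∑ c, ‖f c‖ ^ 2 := by
  by_cases h : ∃ c, f c ≠ 0
  · obtain ⟨c, hc⟩ := h
    rw [Finset.sum_eq_single c (fun c' _ hne => by
      by_contra h'
      exact hne (hf _ _ h' hc)) (by simp)]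
    exact Finset.single_le_sum (f := fun c => ‖f c‖ ^ 2) (fun _ _ => by positivity)
      (Finset.mem_univ c)
  · push Not at h
    simp [h]

theorem G7_dl_sq (y : Fin n) : ∑ v, ‖G7dl y v‖ ^ 2 = 1 := by
  rw [Finset.sum_eq_single y (fun v _ hv => by simp [G7dl, hv]) (by simp)]
  simp [G7dl]

/-- decay of the error on an injective branch -/
theorem G7_err_sq {π : Equiv.Perm (HE n D)} {m : HE n D → ℂ} {η : ℝ} (hη : 0 < η)
    (hb : ∀ h, ‖m h‖ ≤ 1 / η) (h0 : ∀ h, 0 ≤ (m h).im)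
    (him : ∀ h, (m h).im = ‖m h‖ ^ 2 * (η + ∑ c, (m (G7ch π h c)).im)) (l : ℕ) (h : HE n D)
    (H : G7Inj π h (l + 1)) :
    ∑ v, ‖G7err π m l h v‖ ^ 2 ≤
      2 * D ^ 2 * (1 / η ^ 2 + 1) / η * (D / (η ^ 2 + D)) ^ l * (m h).im := by
  have hS0 : ∀ h, 0 ≤ ∑ c, (m (G7ch π h c)).im := fun h => Finset.sum_nonneg fun c _ => h0 _
  induction l generalizing h with
  | zero =>
    have h1 : ∀ v, ‖G7err π m 0 h v‖ ^ 2 ≤ ‖m h‖ ^ 2 * (D * ∑ c, 2 *
        (1 / η ^ 2 * ‖G7dl h.1 v‖ ^ 2 + ‖G7dl (G7ch π h c).1 v‖ ^ 2)) := fun v => by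
      simp only [G7err, Pi.smul_apply, smul_eq_mul, Finset.sum_apply, Pi.add_apply, norm_mul,
        mul_pow]
      refine mul_le_mul_of_nonneg_left ?_ (by positivity)
      calc ‖∑ c, (m (G7ch π h c) * G7dl h.1 v + G7dl (G7ch π h c).1 v)‖ ^ 2
          ≤ (∑ c, ‖m (G7ch π h c) * G7dl h.1 v + G7dl (G7ch π h c).1 v‖) ^ 2 := by
            gcongr; exact norm_sum_le _ _
        _ ≤ (Finset.univ : Finset (Fin D)).card *
            ∑ c, ‖m (G7ch π h c) * G7dl h.1 v + G7dl (G7ch π h c).1 v‖ ^ 2 :=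
            sq_sum_le_card_mul_sum_sq
        _ ≤ _ := by
            rw [Finset.card_univ, Fintype.card_fin]
            refine mul_le_mul_of_nonneg_left (Finset.sum_le_sum fun c _ => ?_) (by positivity)
            have a1 : ‖m (G7ch π h c) * G7dl h.1 v + G7dl (G7ch π h c).1 v‖ ≤
                1 / η * ‖G7dl h.1 v‖ + ‖G7dl (G7ch π h c).1 v‖ := by
              refine (norm_add_le _ _).trans ?_
              rw [norm_mul]
              gcongr
              exact hb _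
            calc _ ≤ (1 / η * ‖G7dl h.1 v‖ + ‖G7dl (G7ch π h c).1 v‖) ^ 2 := by gcongr
              _ ≤ 2 * ((1 / η * ‖G7dl h.1 v‖) ^ 2 + ‖G7dl (G7ch π h c).1 v‖ ^ 2) := by
                nlinarith [sq_nonneg (1 / η * ‖G7dl h.1 v‖ - ‖G7dl (G7ch π h c).1 v‖)]
              _ = _ := by rw [mul_pow, div_pow, one_pow]
    refine (Finset.sum_le_sum fun v _ => h1 v).trans ?_
    rw [← Finset.mul_sum, ← Finset.mul_sum, Finset.sum_comm]
    simp only [← Finset.mul_sum, Finset.sum_add_distrib, G7_dl_sq, Finset.sum_const,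
      Finset.card_univ, Fintype.card_fin, nsmul_eq_mul]
    have h2 : ‖m h‖ ^ 2 * η ≤ (m h).im := by
      rw [him h]
      exact mul_le_mul_of_nonneg_left (by linarith [hS0 h]) (by positivity)
    calc _ = 2 * D ^ 2 * (1 / η ^ 2 + 1) / η * (‖m h‖ ^ 2 * η) := by field_simp
      _ ≤ _ := by
        rw [pow_zero, mul_one]
        exact mul_le_mul_of_nonneg_left h2 (by positivity)
  | succ l ih =>
    have h1 : ∀ v, ‖G7err π m (l + 1) h v‖ ^ 2 ≤
        ‖m h‖ ^ 2 * ∑ c, ‖G7err π m l (G7ch π h c) v‖ ^ 2 := fun v => by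
      simp only [G7err, Pi.neg_apply, Pi.smul_apply, smul_eq_mul, Finset.sum_apply, norm_neg,
        norm_mul, mul_pow]
      refine mul_le_mul_of_nonneg_left (G7_sq_sum _ fun c c' hc hc' => ?_) (by positivity)
      obtain ⟨w, hw, e⟩ := G7_err_supp π m l _ _ hc
      obtain ⟨w', hw', e'⟩ := G7_err_supp π m l _ _ hc'
      have := H (c :: w) (c' :: w') (by simpa using hw) (by simpa using hw') (e.trans e'.symm)
      simp only [List.cons.injEq] at this
      exact this.1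
    refine (Finset.sum_le_sum fun v _ => h1 v).trans ?_
    rw [← Finset.mul_sum, Finset.sum_comm]
    have h2 := Finset.sum_le_sum fun c (_ : c ∈ Finset.univ) => ih (G7ch π h c) (H.child c)
    rw [← Finset.mul_sum] at h2
    have hS : ∑ c, (m (G7ch π h c)).im ≤ D / η := by
      calc _ ≤ ∑ c : Fin D, 1 / η := Finset.sum_le_sum fun c _ =>
            ((le_abs_self _).trans (Complex.abs_im_le_norm _)).trans (hb _)
        _ = _ := by simp [div_eq_mul_inv]
    set S := ∑ c, (m (G7ch π h c)).im with hSd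
    have h3 : S ≤ D / (η ^ 2 + D) * (η + S) := by
      rw [div_mul_eq_mul_div, le_div_iff₀ (by positivity)]
      rw [le_div_iff₀ hη] at hS
      nlinarith
    calc _ ≤ ‖m h‖ ^ 2 * (2 * D ^ 2 * (1 / η ^ 2 + 1) / η * (D / (η ^ 2 + D)) ^ l * S) :=
          mul_le_mul_of_nonneg_left h2 (by positivity)
      _ ≤ ‖m h‖ ^ 2 * (2 * D ^ 2 * (1 / η ^ 2 + 1) / η * (D / (η ^ 2 + D)) ^ l *
          (D / (η ^ 2 + D) * (η + S))) := by gcongr
      _ = _ := by rw [him h, ← hSd]; ring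

/-- pointwise bound on the resolvent applied to a vector -/
theorem G7_res_apply {H : Matrix (Fin n) (Fin n) ℝ} (hH : H.IsHermitian) {z : ℂ} (hz : 0 < z.im)
    (e : Fin n → ℂ) (v : Fin n) :
    ‖(res H z *ᵥ e) v‖ ^ 2 ≤ 1 / z.im ^ 2 * ∑ u, ‖e u‖ ^ 2 := by
  have h1 : ∑ u, ‖res H z v u‖ ^ 2 ≤ 1 / z.im ^ 2 := by
    have a := ward hH hz.ne' v
    have b := norm_res_le hH hz.ne' v v
    rw [abs_of_pos hz] at b
    have c : z.im * ∑ u, ‖res H z v u‖ ^ 2 ≤ z.im⁻¹ := by
      rw [a]; exact ((le_abs_self _).trans (Complex.abs_im_le_norm _)).trans b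
    rw [le_div_iff₀ (by positivity)]
    calc _ = z.im * (z.im * ∑ u, ‖res H z v u‖ ^ 2) := by ring
      _ ≤ z.im * z.im⁻¹ := mul_le_mul_of_nonneg_left c hz.le
      _ = 1 := mul_inv_cancel₀ hz.ne'
  calc ‖(res H z *ᵥ e) v‖ ^ 2 ≤ (∑ u, ‖res H z v u‖ * ‖e u‖) ^ 2 := by
        gcongr
        refine (norm_sum_le Finset.univ fun u => res H z v u * e u).trans (le_of_eq ?_)
        simp only [norm_mul]
    _ ≤ (∑ u, ‖res H z v u‖ ^ 2) * ∑ u, ‖e u‖ ^ 2 := Finset.sum_mul_sq_le_sq_mul_sq _ _ _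
    _ ≤ _ := mul_le_mul_of_nonneg_right h1 (by positivity)

theorem G7_col {π : Equiv.Perm (HE n D)} (hπ : ∀ a, π (π a) = a) (s : ℝ) (ω : Fin n → J) (z : ℂ)
    (y : Fin n) : (cx (ham s π ω) - z • (1 : Matrix (Fin n) (Fin n) ℂ)) *ᵥ G7dl y =
      (((s * (ω y : ℝ) : ℝ) : ℂ) - z) • G7dl y + ∑ i, G7dl (π (y, i)).1 := by
  funext v
  have hs : ham s π ω v y = ham s π ω y v := (ham_isSymm hπ s ω).apply y v
  simp only [Matrix.mulVec, dotProduct, G7dl, mul_ite, mul_one, mul_zero, Finset.sum_ite_eq',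
    Finset.mem_univ, if_true, Matrix.sub_apply, cx_apply, hs, Pi.add_apply, Pi.smul_apply,
    smul_eq_mul, Finset.sum_apply, Matrix.smul_apply]
  simp only [ham, adj, Matrix.add_apply, Matrix.of_apply, Matrix.diagonal_apply, Matrix.one_apply]
  push_cast
  have : ∀ i, (((if (π (y, i)).1 = v then (1 : ℝ) else 0) : ℝ) : ℂ) =
      if v = (π (y, i)).1 then 1 else 0 := fun i => by
    by_cases h : (π (y, i)).1 = v
    · simp [h]
    · simp [h, Ne.symm h]
  simp only [this]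
  by_cases h : v = y
  · subst h; simp; ring
  · simp [h, Ne.symm h]

theorem G7_res_dl (G : Matrix (Fin n) (Fin n) ℂ) (y v : Fin n) : (G *ᵥ G7dl y) v = G v y := by
  simp [Matrix.mulVec, dotProduct, G7dl]

theorem G7_den_ne {t z : ℂ} (ht : t.im = 0) (hz : 0 < z.im) {κ : Type} [Fintype κ] {m : κ → ℂ}
    (hm : ∀ c, 0 ≤ (m c).im) : z.im ≤ ‖t - z - ∑ c, m c‖ := by
  have h1 : (t - z - ∑ c, m c).im = -(z.im + ∑ c, (m c).im) := by
    simp only [Complex.sub_im, Complex.im_sum, ht]; ring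
  have h2 : 0 ≤ ∑ c, (m c).im := Finset.sum_nonneg fun c _ => hm c
  have h3 := Complex.abs_im_le_norm (t - z - ∑ c, m c)
  rw [h1, abs_neg, abs_of_pos (by linarith)] at h3
  linarith

/-- locality with an abstract bound `κ` on the error terms -/
theorem G7_core (s : ℝ) {z : ℂ} (hz : 0 < z.im) (π : Pairing n D) (ω : Fin n → J) (x : Fin n)
    {l : ℕ} (H : TreeLike π.1 x (l + 1)) {κ : ℝ} (hκ0 : 0 ≤ κ)
    (hκ : 2 * D ^ 2 * (1 / z.im ^ 2 + 1) / z.im * (D / (z.im ^ 2 + D)) ^ l / z.im ^ 3 ≤ κ ^ 2)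
    (a b : Option (Fin (D + 1))) :
    ‖res (ham s π.1 ω) z (starV π.1 x a) (starV π.1 x b) -
        gC (((s * (ω x : ℝ) : ℝ) : ℂ)) z (fun i => mT s z (envH π.1 ω (π.1 (x, i)))) a b‖ ≤
      ((D + 1) / z.im + (D + 1) / z.im ^ 2 + 1) * κ := by
  have hπ : ∀ a, π.1 (π.1 a) = a := π.2.1
  set m : HE n D → ℂ := fun h => mT s z (envH π.1 ω h) with hmd
  have hsub : ∀ h c, (envH π.1 ω h).sub c = envH π.1 ω (G7ch π.1 h c) := fun h c => rfl
  have hm0 : ∀ h, 0 ≤ (m h).im := fun h => (mT_im_pos hz _).le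
  have hmb : ∀ h, ‖m h‖ ≤ 1 / z.im := fun h => norm_mT_le hz _
  have hmi : ∀ h, (m h).im = ‖m h‖ ^ 2 * (z.im + ∑ c, (m (G7ch π.1 h c)).im) := fun h =>
    mT_im hz _
  set V : Fin n → ℂ := fun y => ((s * (ω y : ℝ) : ℝ) : ℂ) - z with hV
  have hne : ∀ {κ' : Type} [Fintype κ'] (y : Fin n) (f : κ' → HE n D),
      V y - ∑ c, m (f c) ≠ 0 := fun y f h0 => by
    have := G7_den_ne (t := ((s * (ω y : ℝ) : ℝ) : ℂ)) (Complex.ofReal_im _) hz
      (m := fun c => m (f c)) fun c => hm0 _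
    rw [show ((s * (ω y : ℝ) : ℝ) : ℂ) - z - ∑ c, m (f c) = 0 from h0, norm_zero] at this
    linarith
  have hmr : ∀ h, m h * (V h.1 - ∑ c, m (G7ch π.1 h c)) = 1 := fun h => by
    have e : m h = 1 / (V h.1 - ∑ c, m (G7ch π.1 h c)) := mT_rec hz _
    rw [e]
    exact one_div_mul_cancel (hne _ _)
  have hHs : (ham s π.1 ω).IsHermitian := herm_of_symm fun a b => (ham_isSymm hπ s ω).apply b a
  set G := res (ham s π.1 ω) z with hG
  set L := cx (ham s π.1 ω) - z • (1 : Matrix (Fin n) (Fin n) ℂ) with hLd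
  have hGL : ∀ u, G *ᵥ (L *ᵥ u) = u := fun u => by
    rw [Matrix.mulVec_mulVec, res_mul_sub hHs hz.ne', Matrix.one_mulVec]
  have hL : ∀ y, L *ᵥ G7dl y = V y • G7dl y + ∑ i, G7dl (π.1 (y, i)).1 := G7_col hπ s ω z
  have hinj : ∀ i, G7Inj π.1 (π.1 (x, i)) (l + 1) := fun i w w' hw hw' e =>
    (H.2 i i w w' hw hw' e).2
  have hinj' : ∀ i, G7Inj π.1 (π.1 (x, i)) l := fun i w w' hw hw' e =>
    hinj i w w' (by omega) (by omega) e
  -- the error terms
  set r : Fin (D + 1) → Fin n → ℂ := fun i => G *ᵥ G7err π.1 m l (π.1 (x, i)) with hr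
  have hrb : ∀ i v, ‖r i v‖ ≤ κ := fun i v => by
    refine (abs_le_of_sq_le_sq' ?_ hκ0).2
    refine (G7_res_apply hHs hz _ v).trans (le_trans ?_ hκ)
    have h1 := G7_err_sq hz hmb hm0 hmi l _ (hinj i)
    have h2 : (m (π.1 (x, i))).im ≤ 1 / z.im :=
      ((le_abs_self _).trans (Complex.abs_im_le_norm _)).trans (hmb _)
    calc _ ≤ 1 / z.im ^ 2 * (2 * D ^ 2 * (1 / z.im ^ 2 + 1) / z.im * (D / (z.im ^ 2 + D)) ^ l *
          (1 / z.im)) := by
          refine mul_le_mul_of_nonneg_left (h1.trans ?_) (by positivity)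
          exact mul_le_mul_of_nonneg_left h2 (by positivity)
      _ = _ := by field_simp
  set φ : Fin (D + 1) → Fin n → ℂ := fun i => G7phi π.1 m l (π.1 (x, i)) with hφ
  have hφeq : ∀ i v, φ i v = G v (π.1 (x, i)).1 + m (π.1 (x, i)) * G v x + r i v := fun i v => by
    have e := hGL (φ i)
    rw [G7_mul_phi hπ hL hmr, hπ, Matrix.mulVec_add, Matrix.mulVec_add, Matrix.mulVec_smul] at e
    have e' := congrFun e v
    simp only [Pi.add_apply, Pi.smul_apply, G7_res_dl, smul_eq_mul] at e'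
    exact e'.symm
  have hφx : ∀ i, φ i x = 0 := fun i => by
    by_contra hc
    obtain ⟨w, hw, e⟩ := G7_phi_supp _ _ _ _ _ hc
    exact H.1 i w (by omega) e
  have hφb : ∀ i j, φ j (π.1 (x, i)).1 = if i = j then m (π.1 (x, i)) else 0 := fun i j => by
    split_ifs with hij
    · subst hij; exact G7_phi_self m (hinj' i)
    · by_contra hc
      obtain ⟨w, hw, e⟩ := G7_phi_supp _ _ _ _ _ hc
      exact hij (H.2 j i w [] (by omega) (by simp) e).1.symm
  have hbx : ∀ i, (π.1 (x, i)).1 ≠ x := fun i => H.1 i [] (by simp)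
  set g : ℂ := 1 / (V x - ∑ j, m (π.1 (x, j))) with hg
  have hg1 : g * (V x - ∑ j, m (π.1 (x, j))) = 1 := one_div_mul_cancel (hne _ _)
  have hgb : ‖g‖ ≤ 1 / z.im := by
    rw [hg, norm_div, norm_one]
    exact one_div_le_one_div_of_le hz (G7_den_ne (t := ((s * (ω x : ℝ) : ℝ) : ℂ))
      (Complex.ofReal_im _) hz (m := fun j => m (π.1 (x, j))) fun c => hm0 _)
  -- the central column
  have hcol : ∀ v, G v x = g * (G7dl x v - ∑ j, φ j v) + g * ∑ j, r j v := fun v => by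
    have e := hGL (G7dl x)
    rw [hL, Matrix.mulVec_add, Matrix.mulVec_smul, Matrix.mulVec_sum] at e
    have e' := congrFun e v
    simp only [Pi.add_apply, Pi.smul_apply, G7_res_dl, smul_eq_mul, Finset.sum_apply] at e'
    simp only [hφeq, Finset.sum_add_distrib, ← Finset.sum_mul]
    linear_combination g * e' - G v x * hg1
  have hR : ∀ v, ‖g * ∑ j, r j v‖ ≤ (D + 1) / z.im * κ := fun v => by
    rw [norm_mul]
    have : ‖∑ j, r j v‖ ≤ (D + 1) * κ := by
      refine (norm_sum_le _ _).trans ((Finset.sum_le_sum fun j _ => hrb j v).trans (le_of_eq ?_))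
      simp
    calc _ ≤ 1 / z.im * ((D + 1) * κ) := mul_le_mul hgb this (norm_nonneg _) (by positivity)
      _ = _ := by ring
  have hxx : G x x = g + g * ∑ j, r j x := by
    rw [hcol x]; simp [hφx, G7dl]
  have hbx' : ∀ i, G (π.1 (x, i)).1 x =
      -(m (π.1 (x, i)) * g) + g * ∑ j, r j (π.1 (x, i)).1 := fun i => by
    rw [hcol]; simp [hφb, G7dl, hbx i, mul_comm]
  have k1 : (D + 1) / z.im * κ ≤ ((D + 1) / z.im + (D + 1) / z.im ^ 2 + 1) * κ :=
    mul_le_mul_of_nonneg_right (by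
      have : 0 ≤ ((D : ℝ) + 1) / z.im ^ 2 := by positivity
      linarith) hκ0
  have hgO : gO (((s * (ω x : ℝ) : ℝ) : ℂ)) z (fun i => m (π.1 (x, i))) = g := rfl
  change ‖G (starV π.1 x a) (starV π.1 x b) -
    gC (((s * (ω x : ℝ) : ℝ) : ℂ)) z (fun i => m (π.1 (x, i))) a b‖ ≤ _
  rcases a with _ | i <;> rcases b with _ | j <;> simp only [starV, gC, hgO]
  · rw [hxx, add_sub_cancel_left]; exact (hR x).trans k1
  · rw [hG, res_symm hHs hz.ne', ← hG, hbx', add_sub_cancel_left]; exact (hR _).trans k1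
  · rw [hbx', add_sub_cancel_left]; exact (hR _).trans k1
  · have e := hφeq j (π.1 (x, i)).1
    rw [hφb, hbx'] at e
    have e2 : G (π.1 (x, i)).1 (π.1 (x, j)).1 -
        ((if i = j then m (π.1 (x, i)) else 0) + m (π.1 (x, i)) * m (π.1 (x, j)) * g) =
        -(m (π.1 (x, j)) * (g * ∑ j, r j (π.1 (x, i)).1) + r j (π.1 (x, i)).1) := by
      linear_combination -e
    rw [e2, norm_neg]
    refine (norm_add_le _ _).trans ?_
    rw [norm_mul]
    have a1 := mul_le_mul (hmb (π.1 (x, j))) (hR (π.1 (x, i)).1) (norm_nonneg _) (by positivity)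
    have a2 := hrb j (π.1 (x, i)).1
    have a3 : 1 / z.im * ((D + 1) / z.im * κ) = (D + 1) / z.im ^ 2 * κ := by field_simp
    have a4 : 0 ≤ ((D : ℝ) + 1) / z.im * κ := by positivity
    nlinarith

/-- locality, uniformly in everything but the height -/
theorem G7_main (D : ℕ) {η ε : ℝ} (hη : 0 < η) (hε : 0 < ε) : ∃ k : ℕ,
    ∀ (s : ℝ) (z : ℂ), z.im = η →
    ∀ (n : ℕ) (π : Pairing n D) (ω : Fin n → J) (x : Fin n), TreeLike π.1 x k → ∀ a b,
      ‖res (ham s π.1 ω) z (starV π.1 x a) (starV π.1 x b) -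
        gC (((s * (ω x : ℝ) : ℝ) : ℂ)) z (fun i => mT s z (envH π.1 ω (π.1 (x, i)))) a b‖ ≤ ε := by
  set c : ℝ := (D + 1) / η + (D + 1) / η ^ 2 + 1 with hc
  have hc0 : 0 < c := by positivity
  have hq : (D : ℝ) / (η ^ 2 + D) < 1 := by
    rw [div_lt_one (by positivity)]
    have : 0 < η ^ 2 := by positivity
    linarith
  have ht := ((tendsto_pow_atTop_nhds_zero_of_lt_one (by positivity) hq).const_mul
    (2 * D ^ 2 * (1 / η ^ 2 + 1) / η)).div_const (η ^ 3)
  rw [mul_zero, zero_div] at ht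
  obtain ⟨l, hl⟩ := (ht.eventually (ge_mem_nhds (show (0 : ℝ) < (ε / c) ^ 2 by positivity))).exists
  refine ⟨l + 1, fun s z hz n π ω x H a b => ?_⟩
  subst hz
  refine (G7_core s hη π ω x H (κ := ε / c) (by positivity) hl a b).trans (le_of_eq ?_)
  rw [← hc]
  field_simp

end

end Crest.Agent.R166
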