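import Crest.Agent.R166.Gauss3

/-! # Cavity Green function at positive height -/

set_option autoImplicit false
set_option linter.unusedVariables false
set_option linter.unusedSectionVars false

open MeasureTheory ProbabilityTheory Filter Topology Matrix
open scoped ENNReal BoundedContinuousFunction

namespace Crest.Agent.R166

section
variable {D : ℕ} {s : ℝ} {z : ℂ}

theorem T0a_den (hz : 0 < z.im) (t : ℝ) {a : Fin D → ℂ} (ha : ∀ c, 0 ≤ (a c).im) :
    ((t : ℂ) - z - ∑ c, a c).im = -(z.im + ∑ c, (a c).im) ∧ (t : ℂ) - z - ∑ c, a c ≠ 0 ∧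
      z.im ≤ ‖(t : ℂ) - z - ∑ c, a c‖ := by
  have h1 : ((t : ℂ) - z - ∑ c, a c).im = -(z.im + ∑ c, (a c).im) := by
    simp only [Complex.sub_im, Complex.ofReal_im, Complex.im_sum]
    ring
  have h2 : 0 ≤ ∑ c, (a c).im := Finset.sum_nonneg fun c _ => ha c
  have h3 : z.im ≤ ‖(t : ℂ) - z - ∑ c, a c‖ := by
    refine le_trans ?_ (Complex.abs_im_le_norm _)
    rw [h1, abs_neg, abs_of_nonneg (by linarith)]
    linarith
  exact ⟨h1, norm_pos_iff.1 (hz.trans_le h3), h3⟩

theorem T0a_im (hz : 0 < z.im) (t : ℝ) {a : Fin D → ℂ} (ha : ∀ c, 0 ≤ (a c).im) :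
    (1 / ((t : ℂ) - z - ∑ c, a c)).im =
      ‖1 / ((t : ℂ) - z - ∑ c, a c)‖ ^ 2 * (z.im + ∑ c, (a c).im) := by
  rw [one_div, Complex.inv_im, (T0a_den hz t ha).1, neg_neg, norm_inv, inv_pow,
    Complex.normSq_eq_norm_sq, div_eq_inv_mul]

theorem T0a_norm (hz : 0 < z.im) (t : ℝ) {a : Fin D → ℂ} (ha : ∀ c, 0 ≤ (a c).im) :
    ‖1 / ((t : ℂ) - z - ∑ c, a c)‖ ≤ 1 / z.im := by
  rw [norm_div, norm_one]
  exact one_div_le_one_div_of_le hz (T0a_den hz t ha).2.2

theorem T0a_ge (hz : 0 < z.im) (v : J) {a : Fin D → ℂ} (ha : ∀ c, 0 ≤ (a c).im)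
    (hb : ∀ c, ‖a c‖ ≤ 1 / z.im) : z.im / (|s| + ‖z‖ + D / z.im) ^ 2 ≤
      (1 / (((s * (v : ℝ) : ℝ) : ℂ) - z - ∑ c, a c)).im := by
  have h2 : 0 ≤ ∑ c, (a c).im := Finset.sum_nonneg fun c _ => ha c
  have h3 := (T0a_den hz (s * (v : ℝ)) ha).2.2
  have h4 : ‖(((s * (v : ℝ) : ℝ) : ℂ) - z - ∑ c, a c)‖ ≤ |s| + ‖z‖ + D / z.im := by
    refine (norm_sub_le _ _).trans (add_le_add ((norm_sub_le _ _).trans (add_le_add ?_ le_rfl)) ?_)
    · rw [Complex.norm_real, Real.norm_eq_abs, abs_mul]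
      exact mul_le_of_le_one_right (abs_nonneg _) (abs_le.2 v.2)
    · refine (norm_sum_le _ _).trans ((Finset.sum_le_sum fun c _ => hb c).trans (le_of_eq ?_))
      simp [div_eq_mul_inv]
  rw [T0a_im hz _ ha, norm_div, norm_one, div_pow, one_pow, one_div, ← div_eq_inv_mul]
  have h5 := hz.trans_le h3
  gcongr
  linarith

theorem T0a_cs {ι : Type} [Fintype ι] {d : ι → ℂ} {x y : ι → ℝ} {δ : ℝ} (hδ : 0 ≤ δ)
    (hx : ∀ i, 0 ≤ x i) (hy : ∀ i, 0 ≤ y i) (h : ∀ i, ‖d i‖ ^ 2 ≤ δ * x i * y i) :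
    ‖∑ i, d i‖ ^ 2 ≤ δ * (∑ i, x i) * ∑ i, y i := by
  refine (pow_le_pow_left₀ (norm_nonneg _) (norm_sum_le _ _) 2).trans ?_
  rw [Finset.mul_sum Finset.univ x]
  exact Finset.sum_sq_le_sum_mul_sum_of_sq_le_mul _ (fun i _ => mul_nonneg hδ (hx i))
    (fun i _ => hy i) fun i _ => h i

theorem T0a_sub {z' : ℂ} (hz : 0 < z.im) (hz' : 0 < z'.im) (t : ℝ) {a a' : Fin D → ℂ}
    (ha : ∀ c, 0 ≤ (a c).im) (ha' : ∀ c, 0 ≤ (a' c).im) {δ : ℝ}
    (h : ‖(z - z') + ∑ c, (a c - a' c)‖ ^ 2 ≤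
      δ * (z.im + ∑ c, (a c).im) * (z'.im + ∑ c, (a' c).im)) :
    ‖1 / ((t : ℂ) - z - ∑ c, a c) - 1 / ((t : ℂ) - z' - ∑ c, a' c)‖ ^ 2 ≤
      δ * (1 / ((t : ℂ) - z - ∑ c, a c)).im * (1 / ((t : ℂ) - z' - ∑ c, a' c)).im := by
  have h1 := (T0a_den hz t ha).2.1
  have h2 := (T0a_den hz' t ha').2.1
  have e : 1 / ((t : ℂ) - z - ∑ c, a c) - 1 / ((t : ℂ) - z' - ∑ c, a' c) =
      1 / ((t : ℂ) - z - ∑ c, a c) * (1 / ((t : ℂ) - z' - ∑ c, a' c)) *
        ((z - z') + ∑ c, (a c - a' c)) := by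
    rw [Finset.sum_sub_distrib]
    field_simp
    ring
  rw [e, T0a_im hz t ha, T0a_im hz' t ha', norm_mul, norm_mul, mul_pow, mul_pow]
  refine (mul_le_mul_of_nonneg_left h (by positivity)).trans (le_of_eq ?_)
  ring

theorem T0a_mk (hz : 0 < z.im) (k : ℕ) (e : Env D) :
    0 ≤ (mk s z k e).im ∧ ‖mk s z k e‖ ≤ 1 / z.im := by
  induction k generalizing e with
  | zero => simp [mk, hz.le]
  | succ k ih =>
    have ha := fun c => (ih (e.sub c)).1
    refine ⟨?_, T0a_norm hz _ ha⟩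
    rw [mk, T0a_im hz _ ha]
    have h2 : 0 ≤ ∑ c, (mk s z k (e.sub c)).im := Finset.sum_nonneg fun c _ => ha c
    positivity

theorem T0a_contr (hz : 0 < z.im) : ∃ δ q : ℝ, 0 ≤ δ ∧ 0 ≤ q ∧ q < 1 ∧ ∀ (k a b : ℕ) (e : Env D),
    ‖mk s z (a + k + 1) e - mk s z (b + k + 1) e‖ ^ 2 ≤
      δ * q ^ k * (mk s z (a + k + 1) e).im * (mk s z (b + k + 1) e).im := by
  set μ := z.im / (|s| + ‖z‖ + D / z.im) ^ 2 with hμ
  have hz0 : 0 < ‖z‖ := hz.trans_le ((le_abs_self _).trans (Complex.abs_im_le_norm z))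
  have hμ0 : 0 < μ := by positivity
  set B : ℝ := D / z.im with hB
  have hB0 : 0 ≤ B := by positivity
  set q := B / (z.im + B) with hq
  have hq0 : 0 ≤ q := by positivity
  have hq1 : q < 1 := by rw [hq, div_lt_one (by positivity)]; linarith
  have hS : ∀ (j : ℕ) (e : Env D), ∑ c, (mk s z j (e.sub c)).im ≤
      q * (z.im + ∑ c, (mk s z j (e.sub c)).im) := by
    intro j e
    have h1 : ∑ c, (mk s z j (e.sub c)).im ≤ B := by
      refine (Finset.sum_le_sum fun c _ => ((le_abs_self _).trans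
        (Complex.abs_im_le_norm _)).trans (T0a_mk hz j (e.sub c)).2).trans (le_of_eq ?_)
      simp [hB, div_eq_mul_inv]
    rw [hq, div_mul_eq_mul_div, le_div_iff₀ (by positivity)]
    nlinarith
  refine ⟨(2 / z.im) ^ 2 / μ ^ 2, q ^ 2, by positivity, by positivity,
    pow_lt_one₀ hq0 hq1 two_ne_zero, fun k => ?_⟩
  induction k with
  | zero =>
    intro a b e
    have g : ∀ j, μ ≤ (mk s z (j + 0 + 1) e).im := fun j =>
      T0a_ge hz _ (fun c => (T0a_mk hz j (e.sub c)).1) fun c => (T0a_mk hz j (e.sub c)).2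
    calc _ ≤ (1 / z.im + 1 / z.im) ^ 2 :=
          pow_le_pow_left₀ (norm_nonneg _) ((norm_sub_le _ _).trans
            (add_le_add (T0a_mk hz _ e).2 (T0a_mk hz _ e).2)) 2
      _ = (2 / z.im) ^ 2 / μ ^ 2 * (q ^ 2) ^ 0 * μ * μ := by field_simp; ring
      _ ≤ _ := by
          have := (T0a_mk (s := s) hz (a + 0 + 1) e).1
          gcongr
          · exact g a
          · exact g b
  | succ k ih =>
    intro a b e
    have ha := fun c => (T0a_mk (s := s) hz (a + k + 1) (e.sub c)).1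
    have hb := fun c => (T0a_mk (s := s) hz (b + k + 1) (e.sub c)).1
    refine T0a_sub hz hz _ ha hb ?_
    rw [sub_self, zero_add]
    refine (T0a_cs (by positivity) ha hb fun c => ih a b (e.sub c)).trans ?_
    have h1 := hS (a + k + 1) e
    have h2 := hS (b + k + 1) e
    have h3 : 0 ≤ ∑ c, (mk s z (a + k + 1) (e.sub c)).im := Finset.sum_nonneg fun c _ => ha c
    have h4 : 0 ≤ ∑ c, (mk s z (b + k + 1) (e.sub c)).im := Finset.sum_nonneg fun c _ => hb c
    calc _ ≤ (2 / z.im) ^ 2 / μ ^ 2 * (q ^ 2) ^ k *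
          (q * (z.im + ∑ c, (mk s z (a + k + 1) (e.sub c)).im)) *
          (q * (z.im + ∑ c, (mk s z (b + k + 1) (e.sub c)).im)) := by gcongr
      _ = _ := by ring

theorem T0a_cauchy (hz : 0 < z.im) :
    UniformCauchySeqOn (fun k => mk (D := D) s z k) atTop Set.univ := by
  obtain ⟨δ, q, hδ, hq0, hq1, h⟩ := T0a_contr (D := D) (s := s) hz
  rw [Metric.uniformCauchySeqOn_iff]
  intro ε hε
  have h1 : Tendsto (fun k : ℕ => δ * q ^ k * (1 / z.im) * (1 / z.im)) atTop (𝓝 0) := by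
    have := (((tendsto_pow_atTop_nhds_zero_of_lt_one hq0 hq1).const_mul δ).mul_const
      (1 / z.im)).mul_const (1 / z.im)
    simpa using this
  obtain ⟨k, hk⟩ := (h1.eventually (gt_mem_nhds (pow_pos hε 2))).exists
  refine ⟨k + 1, fun m hm n hn e _ => ?_⟩
  obtain ⟨a, rfl⟩ : ∃ a, m = a + k + 1 := ⟨m - (k + 1), by omega⟩
  obtain ⟨b, rfl⟩ : ∃ b, n = b + k + 1 := ⟨n - (k + 1), by omega⟩
  rw [dist_eq_norm]
  refine lt_of_pow_lt_pow_left₀ 2 hε.le (((h k a b e).trans ?_).trans_lt hk)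
  have g := fun j => ((le_abs_self _).trans (Complex.abs_im_le_norm _)).trans
    (T0a_mk (s := s) hz j e).2
  have := (T0a_mk (s := s) hz (b + k + 1) e).1
  gcongr
  · exact g _
  · exact g _

theorem mk_tendstoUniformly (hz : 0 < z.im) :
    TendstoUniformly (fun k => mk (D := D) s z k) (mT s z) atTop := by
  have h := T0a_cauchy (D := D) (s := s) hz
  rw [← tendstoUniformlyOn_univ]
  exact h.tendstoUniformlyOn_of_tendsto fun e he => (h.cauchySeq he).tendsto_limUnder

theorem continuous_mk (hz : 0 < z.im) (k : ℕ) : Continuous (mk (D := D) s z k) := by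
  induction k with
  | zero => exact continuous_const
  | succ k ih =>
    have h1 : ∀ c : Fin D, Continuous fun e : Env D => e.sub c := fun c =>
      continuous_pi fun l => continuous_apply (c :: l)
    have h2 : Continuous fun e : Env D => ((s * (e [] : ℝ) : ℝ) : ℂ) :=
      Complex.continuous_ofReal.comp
        (continuous_const.mul (continuous_subtype_val.comp (continuous_apply [])))
    exact continuous_const.div ((h2.sub continuous_const).sub
      (continuous_finsetSum _ fun c _ => ih.comp (h1 c)))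
      fun e => (T0a_den hz _ fun c => (T0a_mk hz k (e.sub c)).1).2.1

theorem continuous_mT (hz : 0 < z.im) : Continuous (mT (D := D) s z) := by
  exact (mk_tendstoUniformly hz).continuous (Frequently.of_forall fun k => continuous_mk hz k)

theorem mk_congr (k : ℕ) {e e' : Env D} (h : ∀ l : List (Fin D), l.length < k → e l = e' l) :
    mk s z k e = mk s z k e' := by
  induction k generalizing e e' with
  | zero => rfl
  | succ k ih =>
    have h1 : ∀ c, mk s z k (e.sub c) = mk s z k (e'.sub c) := fun c =>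
      ih fun l hl => h (c :: l) (by simpa using hl)
    simp only [mk, h1, h [] (Nat.succ_pos k)]

/-- locality of the cavity function -/
theorem mT_local (hz : 0 < z.im) {ε : ℝ} (hε : 0 < ε) : ∃ k : ℕ, ∀ e e' : Env D,
    (∀ l : List (Fin D), l.length ≤ k → e l = e' l) → ‖mT s z e - mT s z e'‖ ≤ ε := by
  obtain ⟨k, hk⟩ := (Metric.tendstoUniformly_iff.1 (mk_tendstoUniformly (D := D) (s := s) hz)
    (ε / 2) (by positivity)).exists
  refine ⟨k, fun e e' h => ?_⟩
  have h1 := hk e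
  have h2 := hk e'
  rw [mk_congr k fun l hl => h l hl.le] at h1
  rw [← dist_eq_norm]
  linarith [dist_triangle_right (mT s z e) (mT s z e') (mk s z k e')]

theorem T0a_lim (hz : 0 < z.im) (e : Env D) :
    Tendsto (fun k => mk s z k e) atTop (𝓝 (mT s z e)) :=
  (mk_tendstoUniformly hz).tendsto_at e

theorem T0a_mT (hz : 0 < z.im) (e : Env D) : 0 ≤ (mT s z e).im :=
  ge_of_tendsto' ((Complex.continuous_im.tendsto _).comp (T0a_lim hz e))
    fun k => (T0a_mk hz k e).1

theorem mT_rec (hz : 0 < z.im) (e : Env D) :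
    mT s z e = 1 / (((s * (e [] : ℝ) : ℝ) : ℂ) - z - ∑ c, mT s z (e.sub c)) := by
  have h1 : Tendsto (fun k => mk s z (k + 1) e) atTop (𝓝 (mT s z e)) :=
    (T0a_lim hz e).comp (tendsto_add_atTop_nat 1)
  refine tendsto_nhds_unique h1 ?_
  exact tendsto_const_nhds.div (tendsto_const_nhds.sub
    (tendsto_finsetSum _ fun c _ => T0a_lim hz (e.sub c)))
    (T0a_den hz _ fun c => T0a_mT hz (e.sub c)).2.1

theorem mT_comb (hz : 0 < z.im) (v : J) (f : Fin D → Env D) :
    mT s z (comb v f) = 1 / (((s * (v : ℝ) : ℝ) : ℂ) - z - ∑ c, mT s z (f c)) := by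
  exact mT_rec hz (comb v f)

theorem mT_im (hz : 0 < z.im) (e : Env D) :
    (mT s z e).im = ‖mT s z e‖ ^ 2 * (z.im + ∑ c, (mT s z (e.sub c)).im) := by
  rw [mT_rec hz e]
  exact T0a_im hz _ fun c => T0a_mT hz (e.sub c)

theorem mT_im_pos (hz : 0 < z.im) (e : Env D) : 0 < (mT s z e).im := by
  have ha := fun c => T0a_mT (s := s) hz (e.sub c)
  have h1 : 0 < ‖mT s z e‖ := by
    rw [mT_rec hz e]
    exact norm_pos_iff.2 (one_div_ne_zero (T0a_den hz _ ha).2.1)
  have h2 : 0 ≤ ∑ c, (mT s z (e.sub c)).im := Finset.sum_nonneg fun c _ => ha c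
  rw [mT_im hz e]
  positivity

theorem norm_mT_le (hz : 0 < z.im) (e : Env D) : ‖mT s z e‖ ≤ 1 / z.im := by
  rw [mT_rec hz e]
  exact T0a_norm hz _ fun c => T0a_mT hz (e.sub c)

theorem mT_im_ge (hz : 0 < z.im) (e : Env D) :
    z.im / (|s| + ‖z‖ + D / z.im) ^ 2 ≤ (mT s z e).im := by
  rw [mT_rec hz e]
  exact T0a_ge hz _ (fun c => T0a_mT hz (e.sub c)) fun c => norm_mT_le hz (e.sub c)

theorem mT_lip {z' : ℂ} (hz : 0 < z.im) (hz' : 0 < z'.im) (e : Env D) :
    ‖mT s z e - mT s z' e‖ ^ 2 ≤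
      ‖z - z'‖ ^ 2 * ((mT s z e).im / z.im) * ((mT s z' e).im / z'.im) := by
  set δ := ‖z - z'‖ ^ 2 / (z.im * z'.im) with hδ
  have hδ0 : 0 ≤ δ := by positivity
  have key : ∀ (k : ℕ) (e : Env D),
      ‖mk s z k e - mk s z' k e‖ ^ 2 ≤ δ * (mk s z k e).im * (mk s z' k e).im := by
    intro k
    induction k with
    | zero => intro e; simp [mk]
    | succ k ih =>
      intro e
      have ha := fun c => (T0a_mk (s := s) hz k (e.sub c)).1
      have hb := fun c => (T0a_mk (s := s) hz' k (e.sub c)).1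
      refine T0a_sub hz hz' _ ha hb ?_
      have := T0a_cs (ι := Option (Fin D)) hδ0
        (d := fun o => o.elim (z - z') fun c => mk s z k (e.sub c) - mk s z' k (e.sub c))
        (x := fun o => o.elim z.im fun c => (mk s z k (e.sub c)).im)
        (y := fun o => o.elim z'.im fun c => (mk s z' k (e.sub c)).im)
        (by rintro (_ | c); exacts [hz.le, ha c]) (by rintro (_ | c); exacts [hz'.le, hb c])
        (by
          rintro (_ | c)
          · refine le_of_eq ?_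
            simp only [Option.elim_none, hδ]
            field_simp
          · exact ih (e.sub c))
      simpa only [Fintype.sum_option, Option.elim_none, Option.elim_some] using this
  have h1 := T0a_lim (s := s) hz e
  have h2 := T0a_lim (s := s) hz' e
  have h3 : ‖mT s z e - mT s z' e‖ ^ 2 ≤ δ * (mT s z e).im * (mT s z' e).im :=
    le_of_tendsto_of_tendsto' ((h1.sub h2).norm.pow 2)
      ((((Complex.continuous_im.tendsto _).comp h1).const_mul δ).mul
        ((Complex.continuous_im.tendsto _).comp h2)) fun k => key k e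
  refine h3.trans (le_of_eq ?_)
  rw [hδ]
  field_simp

theorem measurable_m0 (E : ℝ) : Measurable (m0 (D := D) s E) := by
  refine (StronglyMeasurable.limUnder (l := atTop) (f := fun j (e : Env D) => mT s (zj E j) e)
    fun j => ?_).measurable
  refine (continuous_mT ?_).measurable.stronglyMeasurable
  simp only [zj, Complex.add_im, Complex.ofReal_im, Complex.mul_im, Complex.ofReal_re,
    Complex.I_im, Complex.I_re]
  have : (0 : ℝ) < 2⁻¹ ^ j := by positivity
  linarith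

end

end Crest.Agent.R166
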