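import Crest.Agent.R166.Gauss3

/-! # Environment laws, edge and star matrices -/

set_option autoImplicit false
set_option linter.unusedVariables false
set_option linter.unusedSectionVars false

open MeasureTheory ProbabilityTheory Filter Topology Matrix
open scoped ENNReal BoundedContinuousFunction

namespace Crest.Agent.R166

theorem T0b_measurable_comb (D : ℕ) :
    Measurable fun p : J × (Fin D → Env D) => comb p.1 p.2 := by
  refine measurable_pi_lambda _ fun l => ?_
  cases l with
  | nil => exact measurable_fst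
  | cons c l => exact (measurable_pi_apply l).comp ((measurable_pi_apply c).comp measurable_snd)

theorem T0b_continuous_comb (D : ℕ) :
    Continuous fun p : J × (Fin D → Env D) => comb p.1 p.2 := by
  refine continuous_pi fun l => ?_
  cases l with
  | nil => exact continuous_fst
  | cons c l => exact (continuous_apply l).comp ((continuous_apply c).comp continuous_snd)

theorem T0b_prod {D : ℕ} {M : Type} [CommMonoid M] (s : Finset (List (Fin D)))
    (g : List (Fin D) → M) : ∏ l ∈ s, g l = (if [] ∈ s then g [] else 1) *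
      ∏ c, ∏ l ∈ s.preimage (List.cons c) List.cons_injective.injOn, g (c :: l) := by
  classical
  have h1 : ∀ c : Fin D, ∏ l ∈ s.preimage (List.cons c) List.cons_injective.injOn, g (c :: l) =
      ∏ l ∈ s, if l.head? = some c then g l else 1 := by
    intro c
    rw [Finset.prod_preimage', Finset.prod_filter]
    refine Finset.prod_congr rfl fun l _ => if_congr ?_ rfl rfl
    cases l <;> simp [eq_comm]
  have h2 : (if [] ∈ s then g [] else 1) = ∏ l ∈ s, if l = [] then g l else 1 := by
    rw [Finset.prod_ite_eq']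
  simp only [h1]
  rw [h2, Finset.prod_comm, ← Finset.prod_mul_distrib]
  refine Finset.prod_congr rfl fun l _ => ?_
  cases l <;> simp

theorem T0b_comb (D : ℕ) (β : Measure J) [IsProbabilityMeasure β] :
    MeasurePreserving (fun p : J × (Fin D → Env D) => comb p.1 p.2)
      (β.prod (Measure.pi fun _ : Fin D => envLaw D β)) (envLaw D β) := by
  classical
  refine ⟨T0b_measurable_comb D, ?_⟩
  refine Measure.eq_infinitePi _ fun s t ht => ?_
  rw [Measure.map_apply (T0b_measurable_comb D)
    (MeasurableSet.pi s.countable_toSet fun i _ => ht i)]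
  have h : (fun p : J × (Fin D → Env D) => comb p.1 p.2) ⁻¹' Set.pi s t =
      (if [] ∈ s then t [] else Set.univ) ×ˢ Set.pi Set.univ fun c : Fin D =>
        Set.pi (s.preimage (List.cons c) List.cons_injective.injOn) fun l => t (c :: l) := by
    ext ⟨v, f⟩
    simp only [Set.mem_preimage, Set.mem_pi, Finset.mem_coe, Set.mem_prod, Set.mem_univ,
      Finset.mem_preimage, forall_true_left]
    constructor
    · intro h
      refine ⟨?_, fun c l hl => h _ hl⟩
      split_ifs with h0
      · exact h _ h0
      · trivial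
    · rintro ⟨h1, h2⟩ l hl
      cases l with
      | nil => rwa [if_pos hl] at h1
      | cons c l => exact h2 c l hl
  rw [h, Measure.prod_prod, Measure.pi_pi, T0b_prod s fun l => β (t l)]
  congr 1
  · split_ifs <;> simp
  · exact Finset.prod_congr rfl fun c _ => Measure.infinitePi_pi _ fun l _ => ht _

theorem T0b_edge (D : ℕ) (β : Measure J) [IsProbabilityMeasure β] (j : Fin (D + 1)) :
    MeasurePreserving (fun σ : StarEnv D => (outEnv σ j, σ.2 j)) (starLaw D β)
      ((envLaw D β).prod (envLaw D β)) := by
  have h1 := (MeasurePreserving.id β).prod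
    (Measure.measurePreserving_swap.comp
      (measurePreserving_piFinSuccAbove (fun _ : Fin (D + 1) => envLaw D β) j))
  have h2 := (measurePreserving_prodAssoc β (Measure.pi fun _ : Fin D => envLaw D β)
    (envLaw D β)).symm
  have h3 := (T0b_comb D β).prod (MeasurePreserving.id (envLaw D β))
  exact h3.comp (h2.comp h1)

theorem T0b_one_sub_ne {m m' : ℂ} (hm : 0 < m.im) (hm' : 0 < m'.im) : 1 - m * m' ≠ 0 := by
  intro h
  have h1 := congrArg Complex.re h
  have h2 := congrArg Complex.im h
  simp only [Complex.sub_re, Complex.one_re, Complex.mul_re, Complex.zero_re, Complex.sub_im,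
    Complex.one_im, Complex.mul_im, Complex.zero_im] at h1 h2
  have h3 : m.re * (m.re * m'.im + m.im * m'.re) = 0 := by
    rw [show m.re * m'.im + m.im * m'.re = 0 by linarith, mul_zero]
  have h4 : m.re * m'.re = 1 + m.im * m'.im := by linarith
  have h5 : m.re ^ 2 * m'.im + m.im * (1 + m.im * m'.im) = 0 := by
    rw [← h4]; linarith
  have h6 : 0 < m.im * (1 + m.im * m'.im) := by positivity
  have h7 : 0 ≤ m.re ^ 2 * m'.im := by positivity
  linarith

theorem envLaw_comb (D : ℕ) (β : Measure J) [IsProbabilityMeasure β] :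
    (starLaw D β).map (fun σ => comb σ.1 fun c => σ.2 c.succ) = envLaw D β ∧
    (β.prod (Measure.pi fun _ : Fin D => envLaw D β)).map (fun p => comb p.1 p.2) = envLaw D β := by
  exact ⟨(measurePreserving_fst.comp (T0b_edge D β 0)).map_eq, (T0b_comb D β).map_eq⟩

theorem envLaw_split (D : ℕ) (β : Measure J) [IsProbabilityMeasure β] :
    (envLaw D β).map (fun e => (e [], fun c => e.sub c)) =
      β.prod (Measure.pi fun _ : Fin D => envLaw D β) := by
  have hm : Measurable fun e : Env D => (e [], fun c => e.sub c) :=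
    (measurable_pi_apply _).prodMk (measurable_pi_lambda _ fun c =>
      measurable_pi_lambda _ fun l => measurable_pi_apply _)
  conv_lhs => rw [← (T0b_comb D β).map_eq]
  rw [Measure.map_map hm (T0b_measurable_comb D)]
  exact Measure.map_id

theorem starLaw_edge (D : ℕ) (β : Measure J) [IsProbabilityMeasure β] (j : Fin (D + 1)) :
    (starLaw D β).map (fun σ => (outEnv σ j, σ.2 j)) = (envLaw D β).prod (envLaw D β) := by
  exact (T0b_edge D β j).map_eq

theorem continuous_outEnv {D : ℕ} (j : Fin (D + 1)) : Continuous fun σ : StarEnv D => outEnv σ j := by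
  exact (T0b_continuous_comb D).comp (continuous_fst.prodMk
    (continuous_pi fun c => (continuous_apply (j.succAbove c)).comp continuous_snd))

theorem envH_eq_outEnv {n D : ℕ} (π : Equiv.Perm (HE n D)) (ω : Fin n → J) (h : HE n D) :
    envH π ω h = outEnv (starH π ω h.1) h.2 := by
  funext l
  cases l <;> rfl

/-- the edge matrix read off the star: `gE (m_{o→j}) (m_{j→o})` is the block of `gC` -/
theorem gC_edge {D : ℕ} {t z : ℂ} {m : Fin (D + 1) → ℂ} (ht : t.im = 0) (hz : 0 ≤ z.im)
    (hm : ∀ i, 0 < (m i).im) (hD : 1 ≤ D) (j : Fin (D + 1)) (b c : Fin 2) :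
    gE (1 / (t - z - ∑ c, m (j.succAbove c))) (m j) b c =
      gC t z m (if b = 0 then none else some j) (if c = 0 then none else some j) := by
  have h0 : 0 ≤ ∑ c, (m (j.succAbove c)).im := Finset.sum_nonneg fun c _ => (hm _).le
  have h1 : 0 < ∑ c, (m (j.succAbove c)).im :=
    Finset.sum_pos (fun c _ => hm _) ⟨⟨0, hD⟩, Finset.mem_univ _⟩
  have hB : t - z - ∑ i, m i = (t - z - ∑ c, m (j.succAbove c)) - m j := by
    rw [Fin.sum_univ_succAbove m j]; ring
  have hA0 : (t - z - ∑ c, m (j.succAbove c)).im < 0 := by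
    rw [Complex.sub_im, Complex.sub_im, Complex.im_sum]; linarith
  have hgO : gO t z m = 1 / ((t - z - ∑ c, m (j.succAbove c)) - m j) := by rw [gO, hB]
  generalize t - z - ∑ c, m (j.succAbove c) = A at hA0 hgO ⊢
  have hA : A ≠ 0 := fun h => by simp [h] at hA0
  have hA' : A - m j ≠ 0 := fun h => by
    have h2 := congrArg Complex.im h
    rw [Complex.sub_im, Complex.zero_im] at h2
    linarith [hm j]
  have h3 : 1 - 1 / A * m j = (A - m j) / A := by field_simp
  fin_cases b <;> fin_cases c <;> simp only [gE, gC, hgO, h3] <;> simp <;> field_simp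
  ring

theorem imM_gE_posDef {m m' : ℂ} (hm : 0 < m.im) (hm' : 0 < m'.im) : (imM (gE m m')).PosDef := by
  have hN : 0 < Complex.normSq (1 - m * m') := Complex.normSq_pos.2 (T0b_one_sub_ne hm hm')
  refine Matrix.PosDef.of_dotProduct_mulVec_pos ?_ fun x hx => ?_
  · ext i j
    fin_cases i <;> fin_cases j <;> simp [imM, gE]
  have key : star x ⬝ᵥ (imM (gE m m') *ᵥ x) =
      (m.im * ((x 0 - m'.re * x 1) ^ 2 + (m'.im * x 1) ^ 2) +
        m'.im * ((x 1 - m.re * x 0) ^ 2 + (m.im * x 0) ^ 2)) / Complex.normSq (1 - m * m') := by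
    simp [dotProduct, mulVec, imM, gE, Fin.sum_univ_two, Complex.div_im]
    field_simp
    ring
  rw [key]
  refine div_pos ?_ hN
  have h1 : x 0 ≠ 0 ∨ x 1 ≠ 0 := by
    by_contra h
    push Not at h
    exact hx (funext fun i => by fin_cases i <;> simp [h.1, h.2])
  rcases h1 with h | h
  · have h2 : 0 < (m.im * x 0) ^ 2 := by positivity
    positivity
  · have h2 : 0 < (m'.im * x 1) ^ 2 := by positivity
    positivity

theorem chol_mul {S : Matrix (Fin 2) (Fin 2) ℝ} (hS : S.PosDef) :
    chol S * (chol S)ᵀ = S ∧ IsUnit (chol S).det := by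
  have h0 : 0 < S 0 0 := hS.diag_pos
  have hs : S 0 1 = S 1 0 := by simpa using hS.isHermitian.apply 1 0
  have hd := hS.det_pos
  rw [Matrix.det_fin_two, hs] at hd
  have h1 : 0 < S 1 1 - S 1 0 ^ 2 / S 0 0 := by
    rw [sub_pos, div_lt_iff₀ h0]; nlinarith
  have h2 : 0 < √(S 0 0) := Real.sqrt_pos.2 h0
  have h3 : 0 < √(S 1 1 - S 1 0 ^ 2 / S 0 0) := Real.sqrt_pos.2 h1
  have h4 := Real.mul_self_sqrt h0.le
  have h5 := Real.mul_self_sqrt h1.le
  constructor
  · ext i j
    fin_cases i <;> fin_cases j <;> simp [chol, Matrix.mul_apply, Fin.sum_univ_two]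
    · exact h4
    · rw [hs]; field_simp
    · field_simp
    · rw [h5, div_mul_div_comm, h4]; ring
  · rw [chol, Matrix.det_fin_two_of, zero_mul, sub_zero]
    exact (mul_pos h2 h3).ne'.isUnit

end Crest.Agent.R166
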