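import Crest.Agent.R166.G5
import Crest.Agent.R166.T0a
import Crest.Agent.R166.T0b
import Crest.Agent.R166.Spec
import Crest.Agent.R166.G7Aux

/-! # Locality of the Green function -/

set_option autoImplicit false
set_option linter.unusedVariables false
set_option linter.unusedSectionVars false

open MeasureTheory ProbabilityTheory Filter Topology Matrix
open scoped ENNReal BoundedContinuousFunction

namespace Crest.Agent.R166

/-- (LOC) at a fixed height the Green matrix of a tree-like star is the tree one -/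
theorem locality (D : ℕ) (s : ℝ) {z : ℂ} (hz : 0 < z.im) {ε : ℝ} (hε : 0 < ε) : ∃ k : ℕ,
    ∀ (n : ℕ) (π : Pairing n D) (ω : Fin n → J) (x : Fin n), TreeLike π.1 x k → ∀ a b,
      ‖res (ham s π.1 ω) z (starV π.1 x a) (starV π.1 x b) -
        gC (((s * (ω x : ℝ) : ℝ) : ℂ)) z (fun i => mT s z (envH π.1 ω (π.1 (x, i)))) a b‖ ≤ ε := by
  obtain ⟨k, hk⟩ := G7_main D hz hε
  exact ⟨k, hk s z rfl⟩

/-- the same, uniformly in the real part and in bounded disorder -/
theorem locality_unif (D : ℕ) {η A ε : ℝ} (hη : 0 < η) (hε : 0 < ε) : ∃ k : ℕ,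
    ∀ s E : ℝ, |s| ≤ A → |E| ≤ A →
    ∀ (n : ℕ) (π : Pairing n D) (ω : Fin n → J) (x : Fin n), TreeLike π.1 x k → ∀ a b,
      ‖res (ham s π.1 ω) (E + η * Complex.I) (starV π.1 x a) (starV π.1 x b) -
        gC (((s * (ω x : ℝ) : ℝ) : ℂ)) (E + η * Complex.I)
          (fun i => mT s (E + η * Complex.I) (envH π.1 ω (π.1 (x, i)))) a b‖ ≤ ε := by
  obtain ⟨k, hk⟩ := G7_main D hη hε
  exact ⟨k, fun s E _ _ => hk s _ (by simp)⟩

end Crest.Agent.R166
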