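import Crest.Agent.R166.G6
import Crest.Agent.R166.T0b

/-! # Law of large numbers for environments -/

set_option autoImplicit false
set_option linter.unusedVariables false
set_option linter.unusedSectionVars false

open MeasureTheory ProbabilityTheory Filter Topology Matrix
open scoped ENNReal BoundedContinuousFunction

namespace Crest.Agent.R166

/-! ### product measures and injective reindexing -/

theorem G8_indep {A X : Type} [Fintype A] [MeasurableSpace X] (β : Measure X)
    [IsProbabilityMeasure β] :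
    iIndepFun (fun (a : A) (ω : A → X) => ω a) (Measure.pi fun _ : A => β) :=
  iIndepFun_pi (X := fun _ : A => (id : X → X)) fun _ => aemeasurable_id

theorem G8_map_inj {A T X : Type} [Fintype A] [Fintype T] [MeasurableSpace X] (β : Measure X)
    [IsProbabilityMeasure β] {v : T → A} (hv : Function.Injective v) :
    (Measure.pi fun _ : A => β).map (fun ω t => ω (v t)) = Measure.pi fun _ : T => β := by
  have h := ((G8_indep (A := A) β).precomp hv).map_fun_eq_pi_map
    fun t => (measurable_pi_apply (v t)).aemeasurable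
  refine h.trans ?_
  congr 1
  funext t
  exact (measurePreserving_eval (fun _ : A => β) (v t)).map_eq

theorem G8_indepFun {A T X : Type} [Fintype A] [Fintype T] [MeasurableSpace X] (β : Measure X)
    [IsProbabilityMeasure β] {v v' : T → A} (h : ∀ t t', v t ≠ v' t') {g : (T → X) → ℝ}
    (hg : Measurable g) :
    IndepFun (fun ω : A → X => g fun t => ω (v t)) (fun ω => g fun t => ω (v' t))
      (Measure.pi fun _ : A => β) := by
  classical
  have hd : Disjoint (Finset.univ.image v) (Finset.univ.image v') := by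
    rw [Finset.disjoint_left]
    intro a ha ha'
    obtain ⟨t, -, rfl⟩ := Finset.mem_image.1 ha
    obtain ⟨t', -, e⟩ := Finset.mem_image.1 ha'
    exact h t t' e.symm
  have h1 := (G8_indep (A := A) β).indepFun_finset _ _ hd fun a => measurable_pi_apply a
  exact h1.comp
    (φ := fun y : {a // a ∈ Finset.univ.image v} → X =>
      g fun t => y ⟨v t, Finset.mem_image_of_mem _ (Finset.mem_univ t)⟩)
    (ψ := fun y : {a // a ∈ Finset.univ.image v'} → X =>
      g fun t => y ⟨v' t, Finset.mem_image_of_mem _ (Finset.mem_univ t)⟩)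
    (hg.comp (measurable_pi_lambda _ fun t => measurable_pi_apply _))
    (hg.comp (measurable_pi_lambda _ fun t => measurable_pi_apply _))

open Classical in
/-- second moment of an average of local centred variables -/
theorem G8_var {n : ℕ} (hn : 0 < n) {T X : Type} [Fintype T] [MeasurableSpace X] (β : Measure X)
    [IsProbabilityMeasure β] {g : (T → X) → ℝ} (hg : Measurable g) {M : ℝ} (hM : ∀ y, |g y| ≤ M)
    (h0 : ∫ y, g y ∂(Measure.pi fun _ : T => β) = 0) (v : Fin n → T → Fin n) (B : Fin n → Prop)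
    (hB : ∀ x, ¬ B x → Function.Injective (v x)) {N : ℕ}
    (hN : ∀ x, (Finset.univ.filter fun x' => ∃ t t', v x t = v x' t').card ≤ N) :
    ∫ ω, (avg fun x => g fun t => ω (v x t)) ^ 2 ∂(Measure.pi fun _ : Fin n => β) ≤
      M ^ 2 * (frac B + N / n) := by
  set P : Measure (Fin n → X) := Measure.pi fun _ => β with hP
  have hY : ∀ x, Measurable fun ω : Fin n → X => g fun t => ω (v x t) := fun x =>
    hg.comp (measurable_pi_lambda _ fun t => measurable_pi_apply _)
  have hb : ∀ y y', |g y * g y'| ≤ M ^ 2 := fun y y' => by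
    rw [abs_mul, sq]
    exact mul_le_mul (hM y) (hM y') (abs_nonneg _) ((abs_nonneg _).trans (hM y))
  have hI : ∀ x x', Integrable
      (fun ω : Fin n → X => (g fun t => ω (v x t)) * g fun t => ω (v x' t)) P := fun x x' =>
    Integrable.of_bound ((hY x).mul (hY x')).aestronglyMeasurable (M ^ 2)
      (ae_of_all _ fun ω => hb _ _)
  have hT : ∀ x x', ∫ ω, (g fun t => ω (v x t)) * (g fun t => ω (v x' t)) ∂P ≤
      M ^ 2 * ((if B x then 1 else 0) + if ∃ t t', v x t = v x' t' then 1 else 0) := by
    intro x x'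
    have h1 : ∫ ω, (g fun t => ω (v x t)) * (g fun t => ω (v x' t)) ∂P ≤ M ^ 2 := by
      refine (integral_mono (hI x x') (integrable_const (M ^ 2))
        fun ω => (le_abs_self _).trans (hb _ _)).trans ?_
      simp
    have h2 := sq_nonneg M
    split_ifs with hx hv hv
    · linarith
    · linarith
    · linarith
    · push Not at hv
      rw [(G8_indepFun β hv hg).integral_fun_mul_eq_mul_integral (hY x).aestronglyMeasurable
        (hY x').aestronglyMeasurable]
      have h3 : ∫ ω, (g fun t => ω (v x t)) ∂P = 0 := by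
        rw [← h0, ← G8_map_inj β (hB x hx), integral_map
          (measurable_pi_lambda _ fun t => measurable_pi_apply _).aemeasurable
          hg.aestronglyMeasurable]
      rw [h3]
      simp
  have hn' : (0 : ℝ) < n := by exact_mod_cast hn
  have e : ∀ ω : Fin n → X, (avg fun x => g fun t => ω (v x t)) ^ 2 =
      (∑ x, ∑ x', (g fun t => ω (v x t)) * g fun t => ω (v x' t)) / (n : ℝ) ^ 2 := fun ω => by
    rw [avg, div_pow, Fintype.card_fin, sq, Finset.sum_mul_sum]
  simp only [e]
  rw [integral_div, integral_finsetSum _ fun x _ => integrable_finsetSum _ fun x' _ => hI x x',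
    div_le_iff₀ (by positivity)]
  have h4 : ∀ x, ∫ ω, ∑ x', (g fun t => ω (v x t)) * (g fun t => ω (v x' t)) ∂P ≤
      M ^ 2 * (n * (if B x then 1 else 0) + N) := fun x => by
    rw [integral_finsetSum _ fun x' _ => hI x x']
    refine (Finset.sum_le_sum fun x' _ => hT x x').trans ?_
    rw [← Finset.mul_sum, Finset.sum_add_distrib, Finset.sum_const, Finset.card_univ,
      Fintype.card_fin, nsmul_eq_mul, Finset.sum_boole]
    refine mul_le_mul_of_nonneg_left (add_le_add_right ?_ _) (sq_nonneg M)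
    exact_mod_cast hN x
  refine (Finset.sum_le_sum fun x _ => h4 x).trans (le_of_eq ?_)
  rw [← Finset.mul_sum, Finset.sum_add_distrib, ← Finset.mul_sum, Finset.sum_const,
    Finset.card_univ, Fintype.card_fin, nsmul_eq_mul, frac, avg, Fintype.card_fin]
  field_simp

/-! ### truncation of star environments -/

/-- words of length at most `k` -/
noncomputable def G8_W (D k : ℕ) : Finset (List (Fin D)) :=
  (List.finite_length_le (Fin D) k).toFinset

theorem G8_mem_W {D k : ℕ} {l : List (Fin D)} : l ∈ G8_W D k ↔ l.length ≤ k := by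
  simp [G8_W]

/-- the sites of the star up to depth `k + 1` -/
abbrev G8_T (D k : ℕ) : Type := Option (Fin (D + 1) × G8_W D k)

/-- restriction to these sites -/
def G8_res {D : ℕ} (k : ℕ) (σ : StarEnv D) : G8_T D k → J
  | none => σ.1
  | some p => σ.2 p.1 p.2

/-- extension by `J0` -/
noncomputable def G8_ext {D : ℕ} (k : ℕ) (y : G8_T D k → J) : StarEnv D :=
  (y none, fun i l => if h : l ∈ G8_W D k then y (some (i, ⟨l, h⟩)) else J0)

/-- the vertices seen from `x` -/
def G8_v {n D : ℕ} (π : Equiv.Perm (HE n D)) (k : ℕ) (x : Fin n) : G8_T D k → Fin n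
  | none => x
  | some p => vtx π (π (x, p.1)) p.2

theorem G8_res_starH {n D : ℕ} (π : Equiv.Perm (HE n D)) (k : ℕ) (ω : Fin n → J) (x : Fin n) :
    G8_res k (starH π ω x) = fun t => ω (G8_v π k x t) := by
  funext t
  rcases t with _ | p <;> rfl

theorem G8_meas_res {D : ℕ} (k : ℕ) : Measurable (G8_res (D := D) k) := by
  refine measurable_pi_lambda _ fun t => ?_
  rcases t with _ | p
  · exact measurable_fst
  · exact (measurable_pi_apply _).comp ((measurable_pi_apply p.1).comp measurable_snd)

theorem G8_cont_ext {D : ℕ} (k : ℕ) : Continuous (G8_ext (D := D) k) := by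
  refine (continuous_apply _).prodMk (continuous_pi fun i => continuous_pi fun l => ?_)
  by_cases h : l ∈ G8_W D k
  · simp only [dif_pos h]
    exact continuous_apply _
  · simp only [dif_neg h]
    exact continuous_const

theorem G8_map_res (D k : ℕ) (β : Measure J) [IsProbabilityMeasure β] :
    (starLaw D β).map (G8_res k) = Measure.pi fun _ : G8_T D k => β := by
  refine (Measure.pi_eq fun s hs => ?_).symm
  have e : G8_res k ⁻¹' Set.univ.pi s = s none ×ˢ Set.univ.pi fun i : Fin (D + 1) =>
      (G8_W D k).restrict ⁻¹' Set.univ.pi fun l : G8_W D k => s (some (i, l)) := by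
    ext σ
    simp only [Set.mem_preimage, Set.mem_pi, Set.mem_univ, true_imp_iff, Set.mem_prod,
      Option.forall, Prod.forall]
    rfl
  rw [Measure.map_apply (G8_meas_res k) (.univ_pi hs), e, starLaw, Measure.prod_prod,
    Measure.pi_pi, Fintype.prod_option, Fintype.prod_prod_type]
  congr 1
  refine Finset.prod_congr rfl fun i _ => ?_
  rw [← Measure.map_apply (Finset.measurable_restrict _) (.univ_pi fun l => hs _), envLaw,
    Measure.infinitePi_map_restrict, Measure.pi_pi]

theorem G8_approx {D : ℕ} (f : C(StarEnv D, ℝ)) {ε : ℝ} (hε : 0 < ε) :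
    ∃ k, ∀ σ, |f σ - f (G8_ext k (G8_res k σ))| ≤ ε := by
  by_contra hc
  push Not at hc
  choose σ hσ using hc
  obtain ⟨τ, -, hτ⟩ := isCompact_univ.ultrafilter_le_nhds
    ((Ultrafilter.of (atTop : Filter ℕ)).map σ) (by simp)
  have hU : (Ultrafilter.of (atTop : Filter ℕ) : Filter ℕ) ≤ atTop := Ultrafilter.of_le _
  have h1 : Tendsto σ (Ultrafilter.of (atTop : Filter ℕ)) (𝓝 τ) := hτ
  have h2 : Tendsto (fun k => G8_ext k (G8_res k (σ k))) (Ultrafilter.of (atTop : Filter ℕ))
      (𝓝 τ) := by
    refine Tendsto.prodMk_nhds ((continuous_fst.tendsto τ).comp h1)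
      (tendsto_pi_nhds.2 fun i => tendsto_pi_nhds.2 fun l => ?_)
    have h3 : Tendsto (fun k => (σ k).2 i l) (Ultrafilter.of (atTop : Filter ℕ)) (𝓝 (τ.2 i l)) :=
      ((show Continuous fun ρ : StarEnv D => ρ.2 i l by fun_prop).tendsto τ).comp h1
    refine h3.congr' ((eventually_ge_atTop l.length).filter_mono hU |>.mono fun k hk => ?_)
    simp only [dif_pos (G8_mem_W.2 hk)]
    rfl
  have h4 := (((f.continuous.tendsto τ).comp h1).sub ((f.continuous.tendsto τ).comp h2)).abs
  rw [sub_self, abs_zero] at h4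
  exact absurd (ge_of_tendsto' h4 fun k => (hσ k).le) (not_le.2 hε)

theorem G8_inj {n D k : ℕ} {π : Equiv.Perm (HE n D)} {x : Fin n} (h : TreeLike π x k) :
    Function.Injective (G8_v π k x) := by
  rintro (_ | ⟨i, l, hl⟩) (_ | ⟨i', l', hl'⟩) e
  · rfl
  · exact absurd e.symm (h.1 i' l' (G8_mem_W.1 hl'))
  · exact absurd e (h.1 i l (G8_mem_W.1 hl))
  · obtain ⟨rfl, rfl⟩ := h.2 i i' l l' (G8_mem_W.1 hl) (G8_mem_W.1 hl') e
    rfl

open Classical in
theorem G8_count (D k : ℕ) : ∃ N : ℕ, ∀ (n : ℕ) (π : Equiv.Perm (HE n D)) (x : Fin n),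
    (Finset.univ.filter fun x' => ∃ t t', G8_v π k x t = G8_v π k x' t').card ≤ N := by
  obtain ⟨C, hC⟩ := card_sees_le D k
  refine ⟨Fintype.card (G8_T D k) * (C + 1), fun n π x => ?_⟩
  have hs : (Finset.univ.filter fun x' => ∃ t t', G8_v π k x t = G8_v π k x' t') ⊆
      Finset.univ.biUnion fun t : G8_T D k => insert (G8_v π k x t)
        ((Finset.univ.filter fun h : HE n D => ∃ l : List (Fin D), l.length ≤ k ∧
          vtx π h l = G8_v π k x t).image fun h => (π.symm h).1) := by
    intro x' hx'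
    obtain ⟨t, t', e⟩ := (Finset.mem_filter.1 hx').2
    refine Finset.mem_biUnion.2 ⟨t, Finset.mem_univ _, Finset.mem_insert.2 ?_⟩
    rcases t' with _ | ⟨i, l, hl⟩
    · exact Or.inl e.symm
    · refine Or.inr (Finset.mem_image.2 ⟨π (x', i), Finset.mem_filter.2
        ⟨Finset.mem_univ _, l, G8_mem_W.1 hl, e.symm⟩, ?_⟩)
      rw [Equiv.symm_apply_apply]
  refine (Finset.card_le_card hs).trans (Finset.card_biUnion_le_card_mul _ _ _ fun t _ => ?_)
  refine (Finset.card_insert_le _ _).trans (Nat.succ_le_succ (Finset.card_image_le.trans ?_))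
  convert hC n π (G8_v π k x t)

theorem G8_avg_mono {A : Type} [Fintype A] {f g : A → ℝ} (h : ∀ a, f a ≤ g a) : avg f ≤ avg g :=
  div_le_div_of_nonneg_right (Finset.sum_le_sum fun a _ => h a) (Nat.cast_nonneg _)

theorem G8_avg_const_le {A : Type} [Fintype A] {c : ℝ} (hc : 0 ≤ c) : (avg fun _ : A => c) ≤ c := by
  rw [avg, Finset.sum_const, Finset.card_univ, nsmul_eq_mul, mul_comm, mul_div_assoc]
  exact mul_le_of_le_one_right hc (div_self_le_one _)

theorem G8_abs_avg_le {A : Type} [Fintype A] {f : A → ℝ} {c : ℝ} (hc : 0 ≤ c)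
    (h : ∀ a, |f a| ≤ c) : |avg f| ≤ c := by
  refine le_trans ?_ ((G8_avg_mono h).trans (G8_avg_const_le hc))
  rw [avg, avg, abs_div, Nat.abs_cast]
  exact div_le_div_of_nonneg_right (Finset.abs_sum_le_sum_abs _ _) (Nat.cast_nonneg _)

instance G8_fin (n D : ℕ) (β : Measure J) [IsProbabilityMeasure β] :
    IsFiniteMeasure (POm n D β) := by
  unfold POm; infer_instance

/-- Chebyshev's inequality for local centred functions -/
theorem G8_cheb (D k : ℕ) (β : Measure J) [IsProbabilityMeasure β] {g : (G8_T D k → J) → ℝ}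
    (hg : Measurable g) {M : ℝ} (hM : ∀ y, |g y| ≤ M)
    (h0 : ∫ y, g y ∂(Measure.pi fun _ => β) = 0) {δ ε : ℝ} (hδ : 0 < δ) (hε : 0 < ε) :
    ∀ᶠ n in atTop, POm n D β {o | δ ≤ |avg fun x => g (G8_res k (starH o.1.1 o.2 x))|} ≤
      ENNReal.ofReal ε := by
  obtain ⟨C, hC⟩ := treeLike_mean D k
  obtain ⟨N, hN⟩ := G8_count D k
  have hM0 : 0 ≤ M := (abs_nonneg _).trans (hM fun _ => J0)
  have ht : Tendsto (fun n : ℕ => M ^ 2 * (C + N) / δ ^ 2 / n) atTop (𝓝 0) :=
    tendsto_const_div_atTop_nhds_zero_nat _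
  filter_upwards [ht.eventually (ge_mem_nhds hε), eventually_gt_atTop 0] with n h1 hn
  obtain ⟨F, hF⟩ : ∃ F : Om n D → ℝ,
      F = fun o => (avg fun x => g fun t => o.2 (G8_v o.1.1 k x t)) ^ 2 := ⟨_, rfl⟩
  have hm : ∀ π : Pairing n D, Measurable fun ω => F (π, ω) := fun π => by
    have hY : ∀ x, Measurable fun ω : Fin n → J => g fun t => ω (G8_v π.1 k x t) := fun x =>
      hg.comp (measurable_pi_lambda _ fun t => measurable_pi_apply _)
    simp only [hF, avg]
    exact ((Finset.measurable_sum _ fun x _ => hY x).div_const _).pow_const 2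
  have hb : ∀ o, ‖F o‖ ≤ M ^ 2 := fun o => by
    rw [hF, Real.norm_eq_abs, abs_pow]
    exact pow_le_pow_left₀ (abs_nonneg _) (G8_abs_avg_le hM0 fun x => hM _) 2
  have hFi : Integrable F (POm n D β) :=
    Integrable.of_bound (measurable_from_prod_countable_right hm).aestronglyMeasurable (M ^ 2)
      (ae_of_all _ hb)
  have h2 := mul_meas_ge_le_integral_of_nonneg (μ := POm n D β)
    (ae_of_all _ fun o => by rw [hF]; exact sq_nonneg _) hFi (δ ^ 2)
  have h3 : ∫ o, F o ∂(POm n D β) ≤ M ^ 2 * (C + N) / n := by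
    rw [integral_POm β F (fun π => Integrable.of_bound (hm π).aestronglyMeasurable (M ^ 2)
      (ae_of_all _ fun ω => hb _)) hm]
    have h6 : ∀ π : Pairing n D, ∫ ω, F (π, ω) ∂(Measure.pi fun _ => β) ≤
        M ^ 2 * (frac (fun x => ¬ TreeLike π.1 x k) + N / n) := fun π => by
      simp only [hF]
      exact G8_var hn β hg hM h0 (G8_v π.1 k) (fun x => ¬ TreeLike π.1 x k)
        (fun x hx => G8_inj (not_not.1 hx)) (hN n π.1)
    refine (G8_avg_mono h6).trans ?_
    have h4 := G8_avg_const_le (A := Pairing n D) (c := (N : ℝ) / n) (by positivity)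
    have h5 := mul_le_mul_of_nonneg_left (add_le_add (hC n) h4) (sq_nonneg M)
    refine le_trans (le_of_eq ?_) (h5.trans (le_of_eq (by ring)))
    simp only [avg, ← Finset.mul_sum, Finset.sum_add_distrib]
    ring
  have e : {o : Om n D | δ ≤ |avg fun x => g (G8_res k (starH o.1.1 o.2 x))|} =
      {o | δ ^ 2 ≤ F o} := by
    ext o
    simp only [Set.mem_ofPred_eq, hF, G8_res_starH]
    rw [← sq_abs (avg _), pow_le_pow_iff_left₀ hδ.le (abs_nonneg _) two_ne_zero]
  rw [e, ← ENNReal.ofReal_toReal (measure_ne_top _ _)]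
  refine ENNReal.ofReal_le_ofReal (le_trans ?_ h1)
  rw [div_right_comm, le_div_iff₀ (by positivity), mul_comm]
  exact h2.trans h3

theorem G8_integrable {X : Type} [TopologicalSpace X] [CompactSpace X] [MeasurableSpace X]
    [OpensMeasurableSpace X] (μ : Measure X) [IsFiniteMeasure μ] {f : X → ℝ}
    (hf : Continuous f) : Integrable f μ :=
  (BoundedContinuousFunction.mkOfCompact ⟨f, hf⟩).integrable μ

/-- (ENV) law of large numbers for the star environments -/
theorem env_lln (D : ℕ) (β : Measure J) [IsProbabilityMeasure β] (f : C(StarEnv D, ℝ)) {ε : ℝ}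
    (hε : 0 < ε) : ∀ᶠ n in atTop,
      POm n D β {o | ε < |(avg fun x => f (starH o.1.1 o.2 x)) - ∫ σ, f σ ∂(starLaw D β)|} ≤
        ENNReal.ofReal ε := by
  have hε3 : 0 < ε / 3 := by positivity
  obtain ⟨k, hk⟩ := G8_approx f hε3
  have hc : Continuous fun y => f (G8_ext k y) := f.continuous.comp (G8_cont_ext k)
  set m : ℝ := ∫ y, f (G8_ext k y) ∂(Measure.pi fun _ : G8_T D k => β) with hm
  have h0 : ∫ y, (f (G8_ext k y) - m) ∂(Measure.pi fun _ : G8_T D k => β) = 0 := by
    rw [integral_sub (G8_integrable _ hc) (integrable_const _)]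
    simp [hm]
  have h1 : |m - ∫ σ, f σ ∂(starLaw D β)| ≤ ε / 3 := by
    have hi : Integrable (fun σ => f (G8_ext k (G8_res k σ))) (starLaw D β) :=
      Integrable.of_bound (hc.measurable.comp (G8_meas_res k)).aestronglyMeasurable ‖f‖
        (ae_of_all _ fun σ => f.norm_coe_le_norm _)
    rw [hm, ← G8_map_res, integral_map (G8_meas_res k).aemeasurable hc.aestronglyMeasurable,
      ← integral_sub hi (G8_integrable _ f.continuous)]
    rw [← Real.norm_eq_abs]
    refine (norm_integral_le_of_norm_le_const (C := ε / 3) (ae_of_all _ fun σ => ?_)).trans ?_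
    · rw [Real.norm_eq_abs, abs_sub_comm]
      exact hk σ
    · simp
  filter_upwards [G8_cheb D k β (hc.measurable.sub_const m) (M := ‖f‖ + |m|)
    (fun y => (abs_sub _ _).trans (add_le_add_left (f.norm_coe_le_norm _) _)) h0 hε3 hε,
    eventually_gt_atTop 0] with n hn hn0
  refine le_trans (measure_mono fun o ho => ?_) hn
  have h2 : |avg fun x => f (starH o.1.1 o.2 x) - f (G8_ext k (G8_res k (starH o.1.1 o.2 x)))| ≤
      ε / 3 := G8_abs_avg_le hε3.le fun x => hk _
  have hn' : (n : ℝ) ≠ 0 := by positivity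
  have e : (avg fun x => f (starH o.1.1 o.2 x)) - ∫ σ, f σ ∂(starLaw D β) =
      (avg fun x => f (starH o.1.1 o.2 x) - f (G8_ext k (G8_res k (starH o.1.1 o.2 x)))) +
      (avg fun x => f (G8_ext k (G8_res k (starH o.1.1 o.2 x))) - m) +
      (m - ∫ σ, f σ ∂(starLaw D β)) := by
    simp only [avg, Finset.sum_sub_distrib, Finset.sum_const, Finset.card_univ, Fintype.card_fin,
      nsmul_eq_mul]
    field_simp
    ring
  have h3 : ε < |(avg fun x => f (starH o.1.1 o.2 x)) - ∫ σ, f σ ∂(starLaw D β)| := ho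
  rw [e] at h3
  have h4 := h3.trans_le (abs_add_three _ _ _)
  show ε / 3 ≤ |avg fun x => f (G8_ext k (G8_res k (starH o.1.1 o.2 x))) - m|
  linarith

/-- edge version -/
theorem env_lln_edge (D : ℕ) (β : Measure J) [IsProbabilityMeasure β] (f : C(Env D × Env D, ℝ))
    {ε : ℝ} (hε : 0 < ε) : ∀ᶠ n in atTop,
      POm n D β {o | ε < |(avg fun h : HE n D => f (envH o.1.1 o.2 h, envH o.1.1 o.2 (o.1.1 h))) -
        ∫ e, f e ∂((envLaw D β).prod (envLaw D β))|} ≤ ENNReal.ofReal ε := by
  have hc : ∀ j : Fin (D + 1), Continuous fun σ : StarEnv D => (outEnv σ j, σ.2 j) := fun j =>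
    (continuous_outEnv j).prodMk ((continuous_apply j).comp continuous_snd)
  let F : C(StarEnv D, ℝ) := ⟨fun σ => avg fun j : Fin (D + 1) => f (outEnv σ j, σ.2 j),
    (continuous_finsetSum _ fun j _ => f.continuous.comp (hc j)).div_const _⟩
  have h1 : ∫ σ, F σ ∂(starLaw D β) = ∫ e, f e ∂((envLaw D β).prod (envLaw D β)) := by
    have h2 : ∀ j : Fin (D + 1), ∫ σ, f (outEnv σ j, σ.2 j) ∂(starLaw D β) =
        ∫ e, f e ∂((envLaw D β).prod (envLaw D β)) := fun j => by
      rw [← starLaw_edge D β j, integral_map (hc j).measurable.aemeasurable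
        f.continuous.aestronglyMeasurable]
    simp only [F, ContinuousMap.coe_mk, avg]
    have h3 : ∀ j : Fin (D + 1), Integrable (fun σ => f (outEnv σ j, σ.2 j)) (starLaw D β) :=
      fun j => G8_integrable _ (f.continuous.comp (hc j))
    rw [integral_div, integral_finsetSum _ fun j _ => h3 j]
    simp only [h2, Finset.sum_const, Finset.card_univ, nsmul_eq_mul, Fintype.card_fin]
    field_simp
  filter_upwards [env_lln D β F hε] with n hn
  refine le_trans (le_of_eq ?_) hn
  congr 1
  ext o
  have e : (avg fun h : HE n D => f (envH o.1.1 o.2 h, envH o.1.1 o.2 (o.1.1 h))) =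
      avg fun x => F (starH o.1.1 o.2 x) := by
    rw [avg_prod]
    refine congrArg avg (funext fun x => congrArg avg (funext fun j => ?_))
    rw [envH_eq_outEnv o.1.1 o.2 (x, j)]
    rfl
  rw [Set.mem_ofPred_eq, Set.mem_ofPred_eq, h1, e]

end Crest.Agent.R166
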