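import Crest.Agent.R166.PartT0
import Crest.Agent.R166.Spec
import Crest.Agent.R166.G1
import Crest.Agent.R166.G2
import Crest.Agent.R166.G3
import Crest.Agent.R166.G4
import Crest.Agent.R166.G5
import Crest.Agent.R166.G6
import Crest.Agent.R166.G7
import Crest.Agent.R166.G8

/-! Part G -/
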