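import Crest.Agent.R166.T0a

/-! # Reference pairs on the band -/

set_option autoImplicit false
set_option linter.unusedVariables false
set_option linter.unusedSectionVars false

open MeasureTheory ProbabilityTheory Filter Topology Matrix
open scoped ENNReal BoundedContinuousFunction

namespace Crest.Agent.R166

/-- clean cavity value at `Im z > 0` -/
noncomputable def mz (D : ℕ) (z : ℂ) : ℂ := mT (D := D) 0 z fun _ => J0

theorem T0c_rec {D : ℕ} {z : ℂ} (hz : 0 < z.im) : mz D z = 1 / (-z - D * mz D z) := by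
  have h := mT_rec (D := D) (s := 0) hz (fun _ => J0)
  have h2 : ∀ c : Fin D, mT (D := D) 0 z (Env.sub c fun _ => J0) = mz D z := fun c => rfl
  simp only [h2, Finset.sum_const, Finset.card_univ, Fintype.card_fin, nsmul_eq_mul, zero_mul,
    Complex.ofReal_zero, zero_sub] at h
  exact h

theorem T0c_im {D : ℕ} {z : ℂ} (hz : 0 < z.im) :
    (mz D z).im = ‖mz D z‖ ^ 2 * (z.im + D * (mz D z).im) := by
  have h := mT_im (D := D) (s := 0) hz (fun _ => J0)
  have h2 : ∀ c : Fin D, mT (D := D) 0 z (Env.sub c fun _ => J0) = mz D z := fun c => rfl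
  simp only [h2, Finset.sum_const, Finset.card_univ, Fintype.card_fin, nsmul_eq_mul] at h
  exact h

theorem T0c_pos {D : ℕ} {z : ℂ} (hz : 0 < z.im) : 0 < (mz D z).im := mT_im_pos hz _

theorem T0c_eqn {D : ℕ} {z : ℂ} (hz : 0 < z.im) : D * mz D z ^ 2 + z * mz D z + 1 = 0 := by
  have h := T0c_rec (D := D) hz
  have h0 : -z - D * mz D z ≠ 0 := by
    intro h0
    rw [h0, div_zero] at h
    have := T0c_pos (D := D) hz
    rw [h] at this
    simp at this
  rw [eq_div_iff h0] at h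
  linear_combination -h

theorem T0c_nsq {D : ℕ} {z : ℂ} (hz : 0 < z.im) : D * ‖mz D z‖ ^ 2 ≤ 1 := by
  have h := T0c_im (D := D) hz
  have h1 := T0c_pos (D := D) hz
  have h2 : 0 ≤ ‖mz D z‖ ^ 2 * z.im := by positivity
  refine le_of_mul_le_mul_right ?_ h1
  nlinarith

theorem T0c_gap {D : ℕ} {m : ℂ} {c : ℝ} (hc : 0 ≤ c) (h1 : c ≤ m.im) (h2 : D * ‖m‖ ^ 2 ≤ 1) :
    2 * D * c ^ 2 ≤ ‖1 - D * m ^ 2‖ := by
  refine le_trans ?_ (Complex.re_le_norm _)
  rw [Complex.sq_norm, Complex.normSq_apply] at h2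
  have h3 : c ^ 2 ≤ m.im ^ 2 := pow_le_pow_left₀ hc h1 2
  have h4 : (0 : ℝ) ≤ D := Nat.cast_nonneg D
  have h5 := mul_le_mul_of_nonneg_left h3 h4
  simp only [sq, Complex.sub_re, Complex.one_re, Complex.mul_re, Complex.natCast_re,
    Complex.natCast_im, zero_mul, sub_zero] at *
  nlinarith

theorem T0c_norm_le {D : ℕ} (hD : 2 ≤ D) {z : ℂ} (hz : 0 < z.im) : ‖mz D z‖ ≤ 1 := by
  have h := T0c_nsq (D := D) hz
  have hD' : (2 : ℝ) ≤ D := by exact_mod_cast hD
  have h0 := norm_nonneg (mz D z)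
  by_contra hc
  push Not at hc
  nlinarith

theorem T0c_cs {P y b η u v : ℝ} (hP : 0 ≤ P) (hy : 0 ≤ y) (hb : 0 ≤ b) (hη : 0 ≤ η) (hu : 0 ≤ u)
    (hv : 0 ≤ v) (h1 : P ^ 2 ≤ b * u) (h2 : y ^ 2 ≤ η * v) : (P + y) ^ 2 ≤ (η + b) * (u + v) := by
  have h3 : (2 * P * y) ^ 2 ≤ (b * v + η * u) ^ 2 := by
    have := mul_le_mul h1 h2 (sq_nonneg _) (mul_nonneg hb hu)
    nlinarith [sq_nonneg (b * v - η * u)]
  have h4 := (abs_le.1 (abs_le_of_sq_le_sq h3 (by positivity))).2
  nlinarith

theorem T0c_small {D : ℕ} {z : ℂ} (hz : 0 < z.im) (s : ℝ) (e : Env D) :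
    ‖mT s z e - mz D z‖ ^ 2 ≤ (s / z.im) ^ 2 * ((mT s z e).im * (mz D z).im) := by
  have hm := T0c_pos (D := D) hz
  set γ : Env D → ℝ := fun e => ‖mT s z e - mz D z‖ ^ 2 / ((mT s z e).im * (mz D z).im) with hγ
  have hpos : ∀ e : Env D, 0 < (mT s z e).im * (mz D z).im :=
    fun e => mul_pos (mT_im_pos hz e) hm
  have hbdd : BddAbove (Set.range γ) := by
    have hz0 : 0 < ‖z‖ := norm_pos_iff.2 fun h => by simp [h] at hz
    refine ⟨(2 / z.im) ^ 2 / (z.im / (|s| + ‖z‖ + D / z.im) ^ 2 * (mz D z).im), ?_⟩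
    rintro _ ⟨e, rfl⟩
    have h1 : ‖mT s z e - mz D z‖ ≤ 2 / z.im := by
      have h2 := norm_mT_le (s := s) hz e
      have h3 : ‖mz D z‖ ≤ 1 / z.im := norm_mT_le hz _
      refine (norm_sub_le _ _).trans ?_
      calc _ ≤ 1 / z.im + 1 / z.im := add_le_add h2 h3
        _ = 2 / z.im := by ring
    have h2 := mT_im_ge (s := s) hz e
    simp only [hγ]
    gcongr
  set X := ⨆ e, γ e with hX
  have hle : ∀ e, γ e ≤ X := fun e => le_ciSup hbdd e
  have hγ0 : ∀ e, 0 ≤ γ e := fun e => div_nonneg (sq_nonneg _) (hpos e).le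
  have hX0 : 0 ≤ X := (hγ0 e).trans (hle e)
  have hkey : ∀ e : Env D, γ e * (z.im + ∑ c, (mT s z (e.sub c)).im) ≤
      X * ∑ c, (mT s z (e.sub c)).im + s ^ 2 / z.im := by
    intro e
    set a := ∑ c, (mT s z (e.sub c)).im with ha
    have ha0 : 0 ≤ a := Finset.sum_nonneg fun c _ => (mT_im_pos hz _).le
    have hM0 : mT s z e ≠ 0 := fun h => by
      have := mT_im_pos (s := s) hz e
      rw [h] at this
      simp at this
    have hm0 : mz D z ≠ 0 := fun h => by rw [h] at hm; simp at hm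
    have hr := mT_rec (s := s) hz e
    have hd : ((s * (e [] : ℝ) : ℝ) : ℂ) - z - ∑ c, mT s z (e.sub c) ≠ 0 := fun h => by
      rw [h, div_zero] at hr
      exact hM0 hr
    rw [eq_div_iff hd] at hr
    have hq := T0c_eqn (D := D) hz
    have hdiff : mT s z e - mz D z = mT s z e * mz D z *
        (∑ c, (mT s z (e.sub c) - mz D z) - ((s * (e [] : ℝ) : ℝ) : ℂ)) := by
      rw [Finset.sum_sub_distrib]
      simp only [Finset.sum_const, Finset.card_univ, Fintype.card_fin, nsmul_eq_mul]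
      linear_combination (mz D z) * hr + (mT s z e) * hq
    have h1 : ‖∑ c, (mT s z (e.sub c) - mz D z) - ((s * (e [] : ℝ) : ℝ) : ℂ)‖ ≤
        ∑ c, ‖mT s z (e.sub c) - mz D z‖ + |s| := by
      refine (norm_sub_le _ _).trans (add_le_add (norm_sum_le _ _) ?_)
      rw [Complex.norm_real, Real.norm_eq_abs, abs_mul]
      exact mul_le_of_le_one_right (abs_nonneg _) (abs_le.2 (e []).2)
    have h2 : (∑ c, ‖mT s z (e.sub c) - mz D z‖) ^ 2 ≤ D * (mz D z).im * (X * a) := by
      refine sq_sum_le_card_mul_sum_sq.trans ?_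
      rw [Finset.card_univ, Fintype.card_fin, mul_assoc]
      refine mul_le_mul_of_nonneg_left ?_ (Nat.cast_nonneg _)
      rw [ha, Finset.mul_sum, Finset.mul_sum]
      refine Finset.sum_le_sum fun c _ => ?_
      have := hle (e.sub c)
      simp only [hγ] at this
      rw [div_le_iff₀ (hpos _)] at this
      linarith
    have h3 : |s| ^ 2 ≤ z.im * (s ^ 2 / z.im) := by
      rw [sq_abs, mul_div_cancel₀ _ hz.ne']
    have h4 := T0c_cs (Finset.sum_nonneg fun c _ => norm_nonneg _) (abs_nonneg s) (by positivity)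
      hz.le (by positivity) (by positivity) h2 h3
    have h5 := (pow_le_pow_left₀ (norm_nonneg _) h1 2).trans h4
    have h6 := mT_im (s := s) hz e
    have h7 := T0c_im (D := D) hz
    have hb : 0 < z.im + D * (mz D z).im := by positivity
    have hA : 0 < z.im + a := by positivity
    have hn1 : 0 < ‖mT s z e‖ := norm_pos_iff.2 hM0
    have hn2 : 0 < ‖mz D z‖ := norm_pos_iff.2 hm0
    have h8 : γ e = ‖∑ c, (mT s z (e.sub c) - mz D z) - ((s * (e [] : ℝ) : ℝ) : ℂ)‖ ^ 2 /
        ((z.im + a) * (z.im + D * (mz D z).im)) := by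
      simp only [hγ]
      rw [hdiff, norm_mul, norm_mul, h6, ← ha]
      conv_lhs => rw [h7]
      field_simp
    rw [h8, div_mul_eq_mul_div, div_le_iff₀ (mul_pos hA hb)]
    have := mul_le_mul_of_nonneg_right h5 hA.le
    nlinarith
  have hXle : X ≤ (s / z.im) ^ 2 := by
    by_contra hc
    push Not at hc
    have hδ : 0 < z.im * X - s ^ 2 / z.im := by
      rw [div_pow, div_lt_iff₀ (by positivity)] at hc
      rw [sub_pos, div_lt_iff₀ hz]
      nlinarith
    have hW : 0 < z.im + D / z.im := by positivity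
    have : X ≤ X - (z.im * X - s ^ 2 / z.im) / (z.im + D / z.im) := by
      haveI : Nonempty (Env D) := ⟨e⟩
      refine ciSup_le fun e => ?_
      have h1 := hkey e
      set a := ∑ c, (mT s z (e.sub c)).im with ha
      have ha0 : 0 ≤ a := Finset.sum_nonneg fun c _ => (mT_im_pos hz _).le
      have ha1 : a ≤ D / z.im := by
        refine (Finset.sum_le_card_nsmul _ _ (1 / z.im) fun c _ => ?_).trans ?_
        · exact (Complex.im_le_norm _).trans (norm_mT_le hz _)
        · rw [Finset.card_univ, Fintype.card_fin, nsmul_eq_mul, mul_one_div]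
      have hA : 0 < z.im + a := by positivity
      have h2 : (z.im * X - s ^ 2 / z.im) / (z.im + D / z.im) ≤
          (z.im * X - s ^ 2 / z.im) / (z.im + a) := by gcongr
      have h3 : γ e ≤ X - (z.im * X - s ^ 2 / z.im) / (z.im + a) := by
        rw [le_sub_iff_add_le, ← le_sub_iff_add_le', div_le_iff₀ hA]
        nlinarith
      linarith
    have := div_pos hδ hW
    linarith
  have := (hle e).trans hXle
  simp only [hγ] at this
  rwa [div_le_iff₀ (hpos e)] at this

theorem ref_band {D : ℕ} (hD : 2 ≤ D) {κ : ℝ} (hκ : 0 < κ) : ∃ c₀ η₁ C : ℝ, 0 < c₀ ∧ 0 < η₁ ∧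
    η₁ ≤ 1 ∧ ∀ E : ℝ, E ^ 2 ≤ 4 * D - κ → Ref D c₀ E (mc D E) ∧ ∀ η : ℝ, 0 < η → η ≤ η₁ →
      Ref D c₀ (E + η * Complex.I) (mz D (E + η * Complex.I)) ∧
      ‖mz D (E + η * Complex.I) - mc D E‖ ≤ C * η ∧ ∀ η' : ℝ, 0 < η' → η' ≤ η₁ →
        ‖mz D (E + η * Complex.I) - mz D (E + η' * Complex.I)‖ ≤ C * |η - η'| := by
  have hD' : (2 : ℝ) ≤ D := by exact_mod_cast hD
  have hD0 : (0 : ℝ) < D := by linarith
  have hDc : (D : ℂ) ≠ 0 := by exact_mod_cast (by omega : D ≠ 0)
  have hk : 0 < √κ := Real.sqrt_pos.2 hκ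
  have hkk : √κ * √κ = κ := Real.mul_self_sqrt hκ.le
  refine ⟨min (√κ / (4 * D)) (2 * D * (√κ / (4 * D)) ^ 2), min 1 (κ / (8 * D)), 2 / √κ,
    lt_min (by positivity) (by positivity), lt_min one_pos (by positivity), min_le_left _ _,
    fun E hE => ?_⟩
  have hS : √κ ≤ √(4 * D - E ^ 2) := Real.sqrt_le_sqrt (by linarith)
  have hSS : √(4 * D - E ^ 2) ^ 2 = 4 * D - E ^ 2 := Real.sq_sqrt (by linarith)
  set S := √(4 * D - E ^ 2) with hSdef
  have hSc : (S : ℂ) ^ 2 = 4 * D - E ^ 2 := by exact_mod_cast hSS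
  have hmc : mc D E = (-E + S * Complex.I) / (2 * D) := by
    rw [mc, hSdef]
  have hmc2 : mc D E = ((-E / (2 * D) : ℝ) : ℂ) + ((S / (2 * D) : ℝ) : ℂ) * Complex.I := by
    rw [hmc]; push_cast; ring
  have him : (mc D E).im = S / (2 * D) := by
    rw [hmc2, Complex.add_im, Complex.ofReal_im, Complex.mul_I_im, Complex.ofReal_re, zero_add]
  have hre : (mc D E).re = -E / (2 * D) := by
    rw [hmc2, Complex.add_re, Complex.ofReal_re, Complex.mul_I_re, Complex.ofReal_im, neg_zero,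
      add_zero]
  have hc1 : √κ / (4 * D) ≤ (mc D E).im := by
    rw [him, div_le_div_iff₀ (by positivity) (by positivity)]
    nlinarith
  have hn : D * ‖mc D E‖ ^ 2 ≤ 1 := by
    rw [Complex.sq_norm, Complex.normSq_apply, him, hre]
    apply le_of_eq
    field_simp
    linarith
  have hfac : ∀ m : ℂ, D * m ^ 2 + E * m + 1 =
      D * (m - mc D E) * (m - (-E - S * Complex.I) / (2 * D)) := by
    intro m
    rw [hmc]
    field_simp
    linear_combination (-1 : ℂ) * hSc + (S : ℂ) ^ 2 * Complex.I_sq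
  have hclose : ∀ η : ℝ, 0 < η → ‖mz D (E + η * Complex.I) - mc D E‖ ≤ 2 / √κ * η := by
    intro η hη
    have hz : 0 < ((E : ℂ) + η * Complex.I).im := by simpa using hη
    have h1 := T0c_eqn (D := D) hz
    have h2 := T0c_pos (D := D) hz
    have h3 := T0c_norm_le hD hz
    set m := mz D (E + η * Complex.I)
    have h4 : D * (m - mc D E) * (m - (-E - S * Complex.I) / (2 * D)) = -(η * Complex.I * m) := by
      rw [← hfac]; linear_combination h1
    have h5 : S / (2 * D) ≤ ‖m - (-E - S * Complex.I) / (2 * D)‖ := by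
      refine le_trans ?_ (Complex.im_le_norm _)
      have : (-E - S * Complex.I : ℂ) / (2 * D) =
          ((-E / (2 * D) : ℝ) : ℂ) + ((-(S / (2 * D)) : ℝ) : ℂ) * Complex.I := by
        push_cast; ring
      rw [this, Complex.sub_im, Complex.add_im, Complex.ofReal_im, Complex.mul_I_im,
        Complex.ofReal_re]
      linarith
    have h6 := congrArg norm h4
    rw [norm_mul, norm_mul, norm_neg, norm_mul, norm_mul, Complex.norm_natCast, Complex.norm_real,
      Complex.norm_I, Real.norm_of_nonneg hη.le, mul_one] at h6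
    have h7 : D * ‖m - mc D E‖ * (√κ / (2 * D)) ≤ η := by
      calc D * ‖m - mc D E‖ * (√κ / (2 * D)) ≤
            D * ‖m - mc D E‖ * ‖m - (-E - S * Complex.I) / (2 * D)‖ := by
            refine mul_le_mul_of_nonneg_left (le_trans ?_ h5) (by positivity)
            gcongr
        _ = η * ‖m‖ := h6
        _ ≤ η := mul_le_of_le_one_right hη.le h3
    have h8 : D * ‖m - mc D E‖ * (√κ / (2 * D)) = ‖m - mc D E‖ * √κ / 2 := by field_simp
    rw [h8] at h7
    rw [div_mul_eq_mul_div, le_div_iff₀ hk]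
    linarith
  have hmim : ∀ η : ℝ, 0 < η → η ≤ min 1 (κ / (8 * D)) →
      √κ / (4 * D) ≤ (mz D (E + η * Complex.I)).im := by
    intro η hη hη1
    have h1 := hclose η hη
    have h2 := (abs_le.1 ((Complex.abs_im_le_norm _).trans h1)).1
    rw [Complex.sub_im, him] at h2
    have h3 : 2 / √κ * η ≤ √κ / (4 * D) := by
      have h4 : η ≤ κ / (8 * D) := hη1.trans (min_le_right _ _)
      rw [le_div_iff₀ (by positivity)] at h4
      rw [div_mul_eq_mul_div, div_le_div_iff₀ hk (by positivity)]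
      nlinarith
    have h5 : √κ / (2 * D) ≤ S / (2 * D) := by gcongr
    have h6 : √κ / (2 * D) = √κ / (4 * D) + √κ / (4 * D) := by field_simp; ring
    linarith
  refine ⟨⟨?_, by simp, (min_le_left _ _).trans hc1, hn,
    (min_le_right _ _).trans (T0c_gap (by positivity) hc1 hn)⟩, fun η hη hη1 => ?_⟩
  · rw [hfac]; simp
  have hz : 0 < ((E : ℂ) + η * Complex.I).im := by simpa using hη
  refine ⟨⟨T0c_eqn hz, hz.le, (min_le_left _ _).trans (hmim η hη hη1), T0c_nsq hz,
    (min_le_right _ _).trans (T0c_gap (by positivity) (hmim η hη hη1) (T0c_nsq hz))⟩,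
    hclose η hη, fun η' hη' hη1' => ?_⟩
  have hz' : 0 < ((E : ℂ) + η' * Complex.I).im := by simpa using hη'
  have h1 := T0c_eqn (D := D) hz
  have h1' := T0c_eqn (D := D) hz'
  have h2 := hmim η hη hη1
  have h2' := hmim η' hη' hη1'
  have h3 := T0c_norm_le hD hz'
  set m := mz D (E + η * Complex.I)
  set m' := mz D (E + η' * Complex.I)
  have h4 : (m - m') * (D * (m + m') + (E + η * Complex.I)) =
      -(((η - η' : ℝ) : ℂ) * Complex.I * m') := by
    push_cast
    linear_combination h1 - h1'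
  have h5 : √κ / 2 ≤ ‖D * (m + m') + (E + η * Complex.I)‖ := by
    refine le_trans ?_ (Complex.im_le_norm _)
    have h6 : D * (√κ / (4 * D)) = √κ / 4 := by field_simp
    simp only [Complex.add_im, Complex.mul_im, Complex.natCast_re, Complex.natCast_im,
      Complex.ofReal_im, Complex.ofReal_re, Complex.I_im, Complex.I_re]
    nlinarith
  have h6 := congrArg norm h4
  rw [norm_mul, norm_neg, norm_mul, norm_mul, Complex.norm_real, Complex.norm_I, mul_one,
    Real.norm_eq_abs] at h6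
  have h7 : ‖m - m'‖ * (√κ / 2) ≤ |η - η'| :=
    ((mul_le_mul_of_nonneg_left h5 (norm_nonneg _)).trans h6.le).trans
      (mul_le_of_le_one_right (abs_nonneg _) h3)
  rw [div_mul_eq_mul_div, le_div_iff₀ hk]
  linarith

/-- at a fixed height small disorder is a uniformly small perturbation -/
theorem mT_small {D : ℕ} {η A ε : ℝ} (hη : 0 < η) (hε : 0 < ε) : ∃ s₀ : ℝ, 0 < s₀ ∧
    ∀ s : ℝ, |s| ≤ s₀ → ∀ E : ℝ, |E| ≤ A → ∀ e : Env D,
      ‖mT s (E + η * Complex.I) e - mz D (E + η * Complex.I)‖ ≤ ε := by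
  refine ⟨ε * η ^ 2, by positivity, fun s hs E _ e => ?_⟩
  have hη' : ((E : ℂ) + η * Complex.I).im = η := by simp
  have hz : 0 < ((E : ℂ) + η * Complex.I).im := by rwa [hη']
  have h1 := T0c_small hz s e
  have h2 := (Complex.im_le_norm _).trans (norm_mT_le (s := s) hz e)
  have h3 : (mz D (E + η * Complex.I)).im ≤ 1 / ((E : ℂ) + η * Complex.I).im :=
    (Complex.im_le_norm _).trans (norm_mT_le hz _)
  have h4 := T0c_pos (D := D) hz
  rw [hη'] at h1 h2 h3
  have h5 : (s / η) ^ 2 ≤ (ε * η) ^ 2 := by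
    rw [← sq_abs (s / η), abs_div, abs_of_pos hη]
    refine pow_le_pow_left₀ (by positivity) ?_ 2
    rw [div_le_iff₀ hη]
    nlinarith
  refine (abs_le.1 (abs_le_of_sq_le_sq (h1.trans ?_) hε.le)).2
  calc _ ≤ (ε * η) ^ 2 * (1 / η * (1 / η)) := by gcongr; exact mul_nonneg (mT_im_pos hz e).le h4.le
    _ = ε ^ 2 := by field_simp

end Crest.Agent.R166
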