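import Crest.Agent.R166.T0d

/-! # Averaged one-step inequalities -/

set_option autoImplicit false
set_option linter.unusedVariables false
set_option linter.unusedSectionVars false

open MeasureTheory ProbabilityTheory Filter Topology Matrix
open scoped ENNReal BoundedContinuousFunction

namespace Crest.Agent.R166

section Aux

variable {D : ℕ} (μ : Measure ℂ) [IsProbabilityMeasure μ]

theorem T0e_pair {u v : ℂ → ℝ} (hu : Measurable u) (hv : Measurable v) {c c' : Fin D}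
    (h : c ≠ c') : ∫ M, u (M c) * v (M c') ∂(Measure.pi fun _ : Fin D => μ) =
      (∫ x, u x ∂μ) * ∫ x, v x ∂μ := by
  have h1 : iIndepFun (fun (i : Fin D) (M : Fin D → ℂ) => M i) (Measure.pi fun _ : Fin D => μ) :=
    iIndepFun_pi (X := fun _ : Fin D => fun x : ℂ => x) fun _ => aemeasurable_id
  have h2 := (h1.indepFun h).comp hu hv
  have h3 := h2.integral_fun_mul_eq_mul_integral
    (hu.comp (measurable_pi_apply c)).aestronglyMeasurable
    (hv.comp (measurable_pi_apply c')).aestronglyMeasurable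
  simp only [Function.comp] at h3
  rw [h3, integral_comp_eval (μ := fun _ : Fin D => μ) hu.aestronglyMeasurable,
    integral_comp_eval (μ := fun _ : Fin D => μ) hv.aestronglyMeasurable]

theorem T0e_int {u v : ℂ → ℝ} (hu : Measurable u) (hv : Measurable v) {K : ℝ}
    (hK : ∀ x, |u x| ≤ K) (hK' : ∀ x, |v x| ≤ K) (c c' : Fin D) :
    Integrable (fun M : Fin D → ℂ => u (M c) * v (M c')) (Measure.pi fun _ : Fin D => μ) := by
  refine Integrable.of_bound ((hu.comp (measurable_pi_apply c)).mul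
    (hv.comp (measurable_pi_apply c'))).aestronglyMeasurable (K * K) (ae_of_all _ fun M => ?_)
  rw [Real.norm_eq_abs, abs_mul]
  exact mul_le_mul (hK _) (hK' _) (abs_nonneg _) ((abs_nonneg _).trans (hK 0))

theorem T0e_sq {u : ℂ → ℝ} (hu : Measurable u) {K : ℝ} (hK : ∀ x, |u x| ≤ K) :
    Integrable (fun M : Fin D → ℂ => (∑ c, u (M c)) ^ 2) (Measure.pi fun _ : Fin D => μ) ∧
    ∫ M, (∑ c, u (M c)) ^ 2 ∂(Measure.pi fun _ : Fin D => μ) ≤
      D * ∫ x, u x ^ 2 ∂μ + D ^ 2 * (∫ x, u x ∂μ) ^ 2 := by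
  have e : (fun M : Fin D → ℂ => (∑ c, u (M c)) ^ 2) =
      fun M => ∑ c, ∑ c', u (M c) * u (M c') := by
    funext M
    rw [sq, Finset.sum_mul_sum]
  have hi := T0e_int (D := D) μ hu hu hK hK
  rw [e]
  refine ⟨integrable_finsetSum _ fun c _ => integrable_finsetSum _ fun c' _ => hi c c', ?_⟩
  rw [integral_finsetSum _ fun c _ => integrable_finsetSum _ fun c' _ => hi c c']
  have h1 : ∀ c : Fin D, ∫ M, ∑ c', u (M c) * u (M c') ∂(Measure.pi fun _ : Fin D => μ) ≤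
      ∫ x, u x ^ 2 ∂μ + D * (∫ x, u x ∂μ) ^ 2 := by
    intro c
    rw [integral_finsetSum _ fun c' _ => hi c c']
    have h2 : ∀ c' ∈ (Finset.univ : Finset (Fin D)),
        ∫ M, u (M c) * u (M c') ∂(Measure.pi fun _ : Fin D => μ) ≤
        (if c = c' then ∫ x, u x ^ 2 ∂μ else 0) + (∫ x, u x ∂μ) ^ 2 := by
      intro c' _
      split_ifs with h
      · subst h
        rw [integral_comp_eval (μ := fun _ : Fin D => μ) (f := fun x => u x * u x)
          (hu.mul hu).aestronglyMeasurable]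
        simp only [← sq]
        linarith [sq_nonneg (∫ x, u x ∂μ)]
      · rw [T0e_pair μ hu hu h, zero_add, sq]
    refine (Finset.sum_le_sum h2).trans (le_of_eq ?_)
    simp [Finset.sum_add_distrib]
  refine (Finset.sum_le_sum fun c _ => h1 c).trans (le_of_eq ?_)
  simp only [Finset.sum_const, Finset.card_univ, Fintype.card_fin, nsmul_eq_mul]
  ring

theorem T0e_sqC {f : ℂ → ℂ} (hf : Measurable f) {K : ℝ} (hK : ∀ x, ‖f x‖ ≤ K) :
    Integrable (fun M : Fin D → ℂ => ‖∑ c, f (M c)‖ ^ 2) (Measure.pi fun _ : Fin D => μ) ∧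
    ∫ M, ‖∑ c, f (M c)‖ ^ 2 ∂(Measure.pi fun _ : Fin D => μ) ≤
      D * ∫ x, ‖f x‖ ^ 2 ∂μ + D ^ 2 * ‖∫ x, f x ∂μ‖ ^ 2 := by
  have hn : ∀ w : ℂ, ‖w‖ ^ 2 = w.re ^ 2 + w.im ^ 2 := fun w => by
    rw [Complex.sq_norm, Complex.normSq_apply]; ring
  have hre : Measurable fun x => (f x).re := Complex.measurable_re.comp hf
  have him : Measurable fun x => (f x).im := Complex.measurable_im.comp hf
  have bre : ∀ x, |(f x).re| ≤ K := fun x => (Complex.abs_re_le_norm _).trans (hK x)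
  have bim : ∀ x, |(f x).im| ≤ K := fun x => (Complex.abs_im_le_norm _).trans (hK x)
  obtain ⟨i1, h1⟩ := T0e_sq (D := D) μ hre bre
  obtain ⟨i2, h2⟩ := T0e_sq (D := D) μ him bim
  have hi : Integrable f μ := Integrable.of_bound hf.aestronglyMeasurable K (ae_of_all _ hK)
  have j : ∀ u : ℂ → ℝ, Measurable u → (∀ x, |u x| ≤ K) → Integrable (fun x => u x ^ 2) μ := by
    intro u hu hb
    refine Integrable.of_bound (hu.pow_const 2).aestronglyMeasurable (K ^ 2)
      (ae_of_all _ fun x => ?_)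
    rw [Real.norm_eq_abs, abs_pow]
    exact pow_le_pow_left₀ (abs_nonneg _) (hb x) 2
  simp only [hn, Complex.re_sum, Complex.im_sum]
  refine ⟨i1.add i2, ?_⟩
  rw [integral_add i1 i2, integral_add (j _ hre bre) (j _ him bim)]
  have e1 : (∫ x, f x ∂μ).re = ∫ x, (f x).re ∂μ := (integral_re hi).symm
  have e2 : (∫ x, f x ∂μ).im = ∫ x, (f x).im ∂μ := (integral_im hi).symm
  rw [e1, e2]
  linarith

theorem T0e_main (hD : 2 ≤ D) {f : ℂ → ℂ} (hf : Measurable f) {K : ℝ} (hK : ∀ x, ‖f x‖ ≤ K)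
    {G : (Fin D → ℂ) → ℂ} (hG : Measurable G) {m : ℂ} (hm : D * ‖m‖ ^ 2 ≤ 1) {C τ : ℝ}
    (hC : 0 ≤ C) (hτ : 0 ≤ τ)
    (h : ∀ᵐ M ∂(Measure.pi fun _ : Fin D => μ), ‖G M - m ^ 2 * ∑ c, f (M c)‖ ≤
      C * (∑ c, ∑ c', (if c = c' then 0 else ‖f (M c)‖ * ‖f (M c')‖) + τ)) :
    ‖(∫ M, G M ∂(Measure.pi fun _ : Fin D => μ)) - D * m ^ 2 * ∫ x, f x ∂μ‖ ≤
      C * (D ^ 2 * (∫ x, ‖f x‖ ^ 2 ∂μ) + τ) ∧
    ∫ M, ‖G M‖ ^ 2 ∂(Measure.pi fun _ : Fin D => μ) ≤ 3 / 4 * (∫ x, ‖f x‖ ^ 2 ∂μ) +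
      (3 / 2 * ‖∫ x, f x ∂μ‖ ^ 2 + 6 * C ^ 2 * (D ^ 4 * (∫ x, ‖f x‖ ^ 2 ∂μ) ^ 2 + τ ^ 2)) := by
  have hK0 : 0 ≤ K := (norm_nonneg _).trans (hK 0)
  have hu : Measurable fun x => ‖f x‖ ^ 2 := hf.norm.pow_const 2
  have hub : ∀ x, |‖f x‖ ^ 2| ≤ K ^ 2 := fun x => by
    rw [abs_of_nonneg (sq_nonneg _)]
    exact pow_le_pow_left₀ (norm_nonneg _) (hK x) 2
  have ha0 : 0 ≤ ∫ x, ‖f x‖ ^ 2 ∂μ := integral_nonneg fun x => sq_nonneg _
  have hic : ∀ c : Fin D, Integrable (fun M : Fin D → ℂ => f (M c))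
      (Measure.pi fun _ : Fin D => μ) := fun c =>
    Integrable.of_bound (hf.comp (measurable_pi_apply c)).aestronglyMeasurable K
      (ae_of_all _ fun M => hK _)
  have hiu : ∀ c : Fin D, Integrable (fun M : Fin D → ℂ => ‖f (M c)‖ ^ 2)
      (Measure.pi fun _ : Fin D => μ) := fun c =>
    Integrable.of_bound (hu.comp (measurable_pi_apply c)).aestronglyMeasurable (K ^ 2)
      (ae_of_all _ fun M => hub _)
  constructor
  · have hS : Integrable (fun M : Fin D → ℂ => m ^ 2 * ∑ c, f (M c))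
        (Measure.pi fun _ : Fin D => μ) := (integrable_finsetSum _ fun c _ => hic c).const_mul _
    have hB : Integrable (fun M : Fin D → ℂ => C * (D * ∑ c, ‖f (M c)‖ ^ 2 + τ))
        (Measure.pi fun _ : Fin D => μ) :=
      (((integrable_finsetSum _ fun c _ => hiu c).const_mul _).add (integrable_const τ)).const_mul C
    have hb : ∀ᵐ M ∂(Measure.pi fun _ : Fin D => μ), ‖G M - m ^ 2 * ∑ c, f (M c)‖ ≤
        C * (D * ∑ c, ‖f (M c)‖ ^ 2 + τ) := by
      filter_upwards [h] with M hM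
      refine hM.trans (mul_le_mul_of_nonneg_left (add_le_add_left ?_ τ) hC)
      calc ∑ c, ∑ c', (if c = c' then 0 else ‖f (M c)‖ * ‖f (M c')‖)
          ≤ ∑ c, ∑ c', ‖f (M c)‖ * ‖f (M c')‖ := by
            refine Finset.sum_le_sum fun c _ => Finset.sum_le_sum fun c' _ => ?_
            split_ifs
            · positivity
            · exact le_rfl
        _ = (∑ c, ‖f (M c)‖) ^ 2 := by rw [sq, Finset.sum_mul_sum]
        _ ≤ D * ∑ c, ‖f (M c)‖ ^ 2 := by
            simpa using sq_sum_le_card_mul_sum_sq (s := Finset.univ) (f := fun c => ‖f (M c)‖)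
    have hd : Integrable (fun M : Fin D → ℂ => G M - m ^ 2 * ∑ c, f (M c))
        (Measure.pi fun _ : Fin D => μ) :=
      hB.mono' (hG.aestronglyMeasurable.sub hS.aestronglyMeasurable) hb
    have hGi : Integrable G (Measure.pi fun _ : Fin D => μ) :=
      (hd.add hS).congr (ae_of_all _ fun M => by simp)
    have e1 : ∫ M, m ^ 2 * ∑ c, f (M c) ∂(Measure.pi fun _ : Fin D => μ) =
        D * m ^ 2 * ∫ x, f x ∂μ := by
      rw [integral_const_mul, integral_finsetSum _ fun c _ => hic c]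
      simp only [integral_comp_eval (μ := fun _ : Fin D => μ) hf.aestronglyMeasurable,
        Finset.sum_const, Finset.card_univ, Fintype.card_fin, nsmul_eq_mul]
      ring
    rw [← e1, ← integral_sub hGi hS]
    refine (norm_integral_le_of_norm_le hB hb).trans (le_of_eq ?_)
    rw [integral_const_mul, integral_add
      ((integrable_finsetSum _ fun c _ => hiu c).const_mul _) (integrable_const τ),
      integral_const_mul, integral_finsetSum _ fun c _ => hiu c]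
    simp only [integral_comp_eval (μ := fun _ : Fin D => μ) hu.aestronglyMeasurable,
      Finset.sum_const, Finset.card_univ, Fintype.card_fin, nsmul_eq_mul, integral_const,
      probReal_univ, smul_eq_mul, one_mul]
    ring
  · obtain ⟨i1, h1⟩ := T0e_sqC (D := D) μ hf hK
    have hp : ∀ c c' : Fin D, Integrable (fun M : Fin D → ℂ =>
        if c = c' then (0 : ℝ) else ‖f (M c)‖ ^ 2 * ‖f (M c')‖ ^ 2)
        (Measure.pi fun _ : Fin D => μ) := by
      intro c c'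
      split_ifs
      · exact integrable_const _
      · exact T0e_int μ hu hu hub hub c c'
    have i2 : Integrable (fun M : Fin D → ℂ => ∑ c, ∑ c',
        if c = c' then (0 : ℝ) else ‖f (M c)‖ ^ 2 * ‖f (M c')‖ ^ 2)
        (Measure.pi fun _ : Fin D => μ) :=
      integrable_finsetSum _ fun c _ => integrable_finsetSum _ fun c' _ => hp c c'
    have h2 : ∫ M, (∑ c, ∑ c', if c = c' then (0 : ℝ) else ‖f (M c)‖ ^ 2 * ‖f (M c')‖ ^ 2)
        ∂(Measure.pi fun _ : Fin D => μ) ≤ D ^ 2 * (∫ x, ‖f x‖ ^ 2 ∂μ) ^ 2 := by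
      rw [integral_finsetSum _ fun c _ => integrable_finsetSum _ fun c' _ => hp c c']
      have h3 : ∀ c : Fin D, ∫ M, (∑ c', if c = c' then (0 : ℝ) else
          ‖f (M c)‖ ^ 2 * ‖f (M c')‖ ^ 2) ∂(Measure.pi fun _ : Fin D => μ) ≤
          D * (∫ x, ‖f x‖ ^ 2 ∂μ) ^ 2 := by
        intro c
        rw [integral_finsetSum _ fun c' _ => hp c c']
        refine (Finset.sum_le_card_nsmul _ _ ((∫ x, ‖f x‖ ^ 2 ∂μ) ^ 2) fun c' _ => ?_).trans
          (by simp)
        split_ifs with h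
        · simpa using sq_nonneg _
        · rw [T0e_pair μ hu hu h, sq]
      refine (Finset.sum_le_card_nsmul _ _ _ fun c _ => h3 c).trans (le_of_eq ?_)
      simp only [Finset.card_univ, Fintype.card_fin, nsmul_eq_mul]
      ring
    have hB : Integrable (fun M : Fin D → ℂ => 3 / 2 * ‖m‖ ^ 4 * ‖∑ c, f (M c)‖ ^ 2 +
        6 * C ^ 2 * (D ^ 2 * (∑ c, ∑ c',
          if c = c' then (0 : ℝ) else ‖f (M c)‖ ^ 2 * ‖f (M c')‖ ^ 2) + τ ^ 2))
        (Measure.pi fun _ : Fin D => μ) :=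
      (i1.const_mul _).add (((i2.const_mul _).add (integrable_const _)).const_mul _)
    refine (integral_mono_of_nonneg (ae_of_all _ fun M => sq_nonneg _) hB ?_).trans ?_
    · filter_upwards [h] with M hM
      set X := ∑ c, ∑ c', (if c = c' then 0 else ‖f (M c)‖ * ‖f (M c')‖) with hX
      have hX2 : X ^ 2 ≤ D ^ 2 * (∑ c, ∑ c',
          if c = c' then (0 : ℝ) else ‖f (M c)‖ ^ 2 * ‖f (M c')‖ ^ 2) := by
        have := sq_sum_le_card_mul_sum_sq (s := (Finset.univ : Finset (Fin D × Fin D)))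
          (f := fun q => if q.1 = q.2 then (0 : ℝ) else ‖f (M q.1)‖ * ‖f (M q.2)‖)
        rw [Fintype.sum_prod_type, Fintype.sum_prod_type] at this
        refine this.trans (le_of_eq ?_)
        congr 1
        · simp [sq]
        · refine Finset.sum_congr rfl fun c _ => Finset.sum_congr rfl fun c' _ => ?_
          split_ifs <;> ring
      have e1 : ‖G M‖ ≤ ‖m‖ ^ 2 * ‖∑ c, f (M c)‖ + C * (X + τ) := by
        have := norm_add_le (m ^ 2 * ∑ c, f (M c)) (G M - m ^ 2 * ∑ c, f (M c))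
        rw [add_sub_cancel, norm_mul, norm_pow] at this
        linarith
      have e2 := pow_le_pow_left₀ (norm_nonneg _) e1 2
      have e3 : (C * (X + τ)) ^ 2 ≤ 2 * C ^ 2 * (X ^ 2 + τ ^ 2) := by
        nlinarith [mul_nonneg (sq_nonneg C) (sq_nonneg (X - τ))]
      have e4 := mul_le_mul_of_nonneg_left hX2 (sq_nonneg C)
      nlinarith [sq_nonneg (‖m‖ ^ 2 * ‖∑ c, f (M c)‖ - 2 * (C * (X + τ)))]
    · have i3 : Integrable (fun M : Fin D → ℂ => 6 * C ^ 2 * (D ^ 2 * (∑ c, ∑ c',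
          if c = c' then (0 : ℝ) else ‖f (M c)‖ ^ 2 * ‖f (M c')‖ ^ 2) + τ ^ 2))
          (Measure.pi fun _ : Fin D => μ) :=
        ((i2.const_mul _).add (integrable_const _)).const_mul _
      rw [integral_add (i1.const_mul _) i3,
        integral_const_mul, integral_const_mul, integral_add (i2.const_mul _) (integrable_const _),
        integral_const_mul]
      simp only [integral_const, probReal_univ, smul_eq_mul, one_mul]
      have hD' : (2 : ℝ) ≤ D := by exact_mod_cast hD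
      have hm2 : ‖m‖ ^ 2 ≤ 1 / 2 := by nlinarith [sq_nonneg ‖m‖]
      have q1 : ‖m‖ ^ 4 * D ≤ 1 / 2 := by nlinarith [sq_nonneg ‖m‖]
      have q2 : ‖m‖ ^ 4 * D ^ 2 ≤ 1 := by
        have : (D * ‖m‖ ^ 2) ^ 2 ≤ 1 := pow_le_one₀ (by positivity) hm
        nlinarith
      have r1 := mul_le_mul_of_nonneg_left h1 (show 0 ≤ ‖m‖ ^ 4 by positivity)
      have r2 := mul_le_mul_of_nonneg_left h2 (show 0 ≤ C ^ 2 * (D : ℝ) ^ 2 by positivity)
      have r3 := mul_le_mul_of_nonneg_right q1 ha0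
      have r4 := mul_le_mul_of_nonneg_right q2 (sq_nonneg ‖∫ x, f x ∂μ‖)
      nlinarith

end Aux

/-- (AB) averaged one-step inequalities for independent children of law `μ` -/
theorem ab_step {D : ℕ} (hD : 2 ≤ D) {c₀ : ℝ} (hc : 0 < c₀) : ∃ C : ℝ, 0 < C ∧
    ∀ z m : ℂ, Ref D c₀ z m → ∀ (μ : Measure ℂ) [IsProbabilityMeasure μ], (∀ᵐ M ∂μ, 0 < M.im) →
      ∀ t : ℂ, 0 ≤ t.im →
      ‖(∫ M, zeta m (recF z t M) ∂(Measure.pi fun _ : Fin D => μ)) -
          D * m ^ 2 * ∫ M, zeta m M ∂μ‖ ≤ C * ((∫ M, ‖zeta m M‖ ^ 2 ∂μ) + ‖t‖) ∧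
      ∫ M, ‖zeta m (recF z t M)‖ ^ 2 ∂(Measure.pi fun _ : Fin D => μ) ≤
        3 / 4 * (∫ M, ‖zeta m M‖ ^ 2 ∂μ) +
          C * (‖∫ M, zeta m M ∂μ‖ ^ 2 + (∫ M, ‖zeta m M‖ ^ 2 ∂μ) ^ 2 + ‖t‖ ^ 2) := by
  obtain ⟨C, hC, H⟩ := zeta_pointwise hD hc
  have hD' : (2 : ℝ) ≤ D := by exact_mod_cast hD
  have hD2 : (1 : ℝ) ≤ (D : ℝ) ^ 2 := one_le_pow₀ (by linarith)
  have hD4 : (1 : ℝ) ≤ (D : ℝ) ^ 4 := one_le_pow₀ (by linarith)
  refine ⟨C * D ^ 2 + 6 * C ^ 2 * D ^ 4 + 2, by positivity, fun z m hr μ _ hμ t ht => ?_⟩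
  obtain ⟨H1, -, -, H4⟩ := H z m hr
  have hz : Measurable (zeta m) := by
    unfold zeta
    fun_prop
  let f : ℂ → ℂ := fun M => if 0 < M.im then zeta m M else 0
  have hf : Measurable f :=
    Measurable.ite (measurableSet_lt measurable_const Complex.measurable_im) hz measurable_const
  have hK : ∀ x, ‖f x‖ ≤ C := by
    intro x
    simp only [f]
    split_ifs with h
    · exact (H1 x h.le).1
    · simpa using hC.le
  have hG : Measurable fun M : Fin D → ℂ => zeta m (recF z t M) := by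
    refine hz.comp ?_
    unfold recF
    fun_prop
  have hall : ∀ᵐ M ∂(Measure.pi fun _ : Fin D => μ), ∀ c, 0 < (M c).im :=
    ae_all_iff.mpr fun c =>
      (measurePreserving_eval (fun _ : Fin D => μ) c).quasiMeasurePreserving.ae hμ
  obtain ⟨h1, h2⟩ := T0e_main μ hD hf hK hG hr.nsq hC.le (norm_nonneg t) (by
    filter_upwards [hall] with M hM
    simp only [f, hM, if_true]
    exact H4 t M ht hM)
  have e1 : ∫ x, f x ∂μ = ∫ x, zeta m x ∂μ :=
    integral_congr_ae (by filter_upwards [hμ] with x hx using if_pos hx)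
  have e2 : ∫ x, ‖f x‖ ^ 2 ∂μ = ∫ x, ‖zeta m x‖ ^ 2 ∂μ :=
    integral_congr_ae (by filter_upwards [hμ] with x hx using by simp only [f, if_pos hx])
  rw [e1, e2] at h1 h2
  have ha0 : 0 ≤ ∫ x, ‖zeta m x‖ ^ 2 ∂μ := integral_nonneg fun x => sq_nonneg _
  generalize ∫ x, ‖zeta m x‖ ^ 2 ∂μ = a at *
  generalize ‖∫ x, zeta m x ∂μ‖ = b at *
  have ht0 := norm_nonneg t
  generalize ‖t‖ = τ at *
  have k1 : 0 ≤ C * D ^ 2 := by positivity
  have k2 : 0 ≤ C ^ 2 * D ^ 4 := by positivity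
  constructor
  · refine h1.trans ?_
    have := mul_le_mul_of_nonneg_left hD2 (mul_nonneg hC.le ht0)
    nlinarith [mul_nonneg k2 ha0, mul_nonneg k2 ht0]
  · refine h2.trans (add_le_add_right ?_ _)
    have := mul_le_mul_of_nonneg_left hD4 (mul_nonneg (sq_nonneg C) (sq_nonneg τ))
    nlinarith [mul_nonneg k1 (sq_nonneg a), mul_nonneg k1 (sq_nonneg b), mul_nonneg k1 (sq_nonneg τ),
      mul_nonneg k2 (sq_nonneg b), sq_nonneg a, sq_nonneg b, sq_nonneg τ]

end Crest.Agent.R166
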