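import Crest.Agent.R166.T1a

/-! # Bivariate one-step estimates -/

set_option autoImplicit false
set_option linter.unusedVariables false
set_option linter.unusedSectionVars false

open MeasureTheory ProbabilityTheory Filter Topology Matrix
open scoped ENNReal BoundedContinuousFunction

namespace Crest.Agent.R166

/-- With `n = 1/m`, `X = m + z + t + Σ g c`, `Y = m + z + t' + Σ h c` (`Im ≥ c₀`), `ξ c = ζ(g c) - ζ(h c)
= (m - n)(g c - h c)/((g c - n)(h c - n))` and `ξ' = m (m² - 1)(t - t' + Σ (g c - h c))/(X Y)`,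
`m (m² - 1) = m² (m - n)`.  So `ξ' = m² Σ ξ c R c R' c + m (m²-1)(t - t')/(XY)` with
`R c = (g c - n)/X = 1 - (t + Σ_{c' ≠ c} (g c' - m))/X` (because `z + D m = -n`), `|R c - 1|, |R' c - 1| ≤ e c`. -/
theorem endo_pointwise {D : ℕ} (hD : 2 ≤ D) {c₀ : ℝ} (hc : 0 < c₀) : ∃ C : ℝ, 0 < C ∧
    ∀ z m : ℂ, Ref D c₀ z m → ∀ (t t' : ℂ) (g h : Fin D → ℂ) (s₁ : ℝ) (e : Fin D → ℝ),
      0 ≤ t.im → 0 ≤ t'.im → ‖t‖ ≤ s₁ → ‖t'‖ ≤ s₁ → (∀ c, 0 < (g c).im) → (∀ c, 0 < (h c).im) →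
      (∀ c, (s₁ + ∑ c', if c = c' then 0 else (‖g c' - m‖ + ‖h c' - m‖)) / c₀ ≤ e c) →
      ‖(zeta m (recF z t g) - zeta m (recF z t' h)) - m ^ 2 * ∑ c, (zeta m (g c) - zeta m (h c))‖ ≤
        ∑ c, ‖zeta m (g c) - zeta m (h c)‖ * (2 * e c + e c ^ 2) + C * ‖t - t'‖ := by
  refine ⟨2 * c₀⁻¹ / (c₀ * c₀), by positivity, ?_⟩
  intro z m hr t t' g h s₁ e ht ht' hs hs' hg hh he
  have hD1 : 1 ≤ D := by omega
  obtain ⟨-, hm1, -, -, -, hδ, -, -⟩ := T0d_basic hD hc hr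
  have hpos : ∀ (t : ℂ) (g : Fin D → ℂ), 0 ≤ t.im → (∀ c, 0 < (g c).im) →
      0 < (z + (t + ∑ c, g c)).im := by
    intro t g ht hg
    have h1 : 0 < ∑ c, (g c).im :=
      Finset.sum_pos (fun c _ => hg c) ⟨⟨0, hD1⟩, Finset.mem_univ _⟩
    simp only [Complex.add_im, Complex.im_sum]
    linarith [hr.zim]
  obtain ⟨e1, n1⟩ := T0d_rec hc hr (hpos t g ht hg)
  obtain ⟨e2, n2⟩ := T0d_rec hc hr (hpos t' h ht' hh)
  have hne : ∀ {w : ℂ}, c₀ ≤ ‖w‖ → w ≠ 0 := fun hw => norm_pos_iff.mp (hc.trans_le hw)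
  have hden : ∀ M : ℂ, 0 < M.im → M - m + (m - 1 / m) ≠ 0 := fun M hM => by
    rw [sub_add_sub_cancel]
    exact hne (T0d_den hD hc hr hM.le).1
  set δ := m - 1 / m with hδdef
  set X := t + ∑ c, g c - D * m + δ with hX
  set Y := t' + ∑ c, h c - D * m + δ with hY
  have hR : ∀ (t : ℂ) (g : Fin D → ℂ) (c : Fin D), ‖t‖ ≤ s₁ →
      c₀ ≤ ‖t + ∑ c, g c - D * m + δ‖ →
      ‖(g c - m + δ) / (t + ∑ c, g c - D * m + δ) - 1‖ ≤
        (s₁ + ∑ c', if c = c' then 0 else ‖g c' - m‖) / c₀ := by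
    intro t g c ht hn
    have a1 : t + ∑ c, g c - D * m + δ - (g c - m + δ) =
        t + ∑ c', if c = c' then 0 else (g c' - m) := by
      have a2 : ∑ c', (g c' - m) = ∑ c', ((if c = c' then g c' - m else 0) +
          if c = c' then 0 else (g c' - m)) :=
        Finset.sum_congr rfl fun c' _ => by split_ifs <;> simp
      rw [Finset.sum_add_distrib, Finset.sum_ite_eq, if_pos (Finset.mem_univ _),
        Finset.sum_sub_distrib, Finset.sum_const, Finset.card_univ, Fintype.card_fin,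
        nsmul_eq_mul] at a2
      linear_combination a2
    rw [div_sub_one (hne hn), norm_div, norm_sub_rev, a1]
    refine div_le_div₀ (add_nonneg ((norm_nonneg _).trans ht) (Finset.sum_nonneg fun c' _ => by
      split_ifs <;> positivity)) ((norm_add_le _ _).trans (add_le_add ht
        ((norm_sum_le _ _).trans (Finset.sum_le_sum fun c' _ => ?_)))) hc hn
    split_ifs <;> simp
  have hR1 : ∀ c, ‖(g c - m + δ) / X - 1‖ ≤ e c := fun c =>
    (hR t g c hs n1).trans (le_trans (div_le_div_of_nonneg_right (add_le_add_right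
      (Finset.sum_le_sum fun c' _ => by split_ifs <;> simp) _) hc.le) (he c))
  have hR2 : ∀ c, ‖(h c - m + δ) / Y - 1‖ ≤ e c := fun c =>
    (hR t' h c hs' n2).trans (le_trans (div_le_div_of_nonneg_right (add_le_add_right
      (Finset.sum_le_sum fun c' _ => by split_ifs <;> simp) _) hc.le) (he c))
  have key : (zeta m (recF z t g) - zeta m (recF z t' h)) -
      m ^ 2 * ∑ c, (zeta m (g c) - zeta m (h c)) =
      m ^ 2 * (∑ c, (zeta m (g c) - zeta m (h c)) *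
        ((g c - m + δ) / X * ((h c - m + δ) / Y) - 1) + δ * (t - t') / (X * Y)) := by
    have k1 : ∀ c, (zeta m (g c) - zeta m (h c)) * ((g c - m + δ) / X * ((h c - m + δ) / Y) - 1) =
        δ / (X * Y) * (g c - h c) - (zeta m (g c) - zeta m (h c)) := by
      intro c
      have := hden _ (hg c)
      have := hden _ (hh c)
      have := hne n1
      have := hne n2
      rw [T0d_zeta, T0d_zeta, T0d_sub (hden _ (hg c)) (hden _ (hh c))]
      field_simp
      ring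
    have k2 : ∑ c, (δ / (X * Y) * (g c - h c) - (zeta m (g c) - zeta m (h c))) =
        δ / (X * Y) * (∑ c, g c - ∑ c, h c) - ∑ c, (zeta m (g c) - zeta m (h c)) := by
      rw [Finset.sum_sub_distrib (f := fun c => δ / (X * Y) * (g c - h c)), ← Finset.mul_sum,
        Finset.sum_sub_distrib (f := g)]
    have k3 := T0d_sub (hne n1) (hne n2)
    simp only [k1]
    rw [k2]
    generalize ∑ c, (zeta m (g c) - zeta m (h c)) = Z
    rw [recF, recF, add_assoc z t, add_assoc z t', e1, e2, ← mul_sub, k3]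
    ring
  rw [key, norm_mul, norm_pow]
  refine (mul_le_of_le_one_left (norm_nonneg _) (pow_le_one₀ (norm_nonneg _) hm1)).trans
    ((norm_add_le _ _).trans (add_le_add ((norm_sum_le _ _).trans
      (Finset.sum_le_sum fun c _ => ?_)) ?_))
  · rw [norm_mul]
    refine mul_le_mul_of_nonneg_left ?_ (norm_nonneg _)
    have a1 := hR1 c
    have a2 := hR2 c
    generalize (g c - m + δ) / X = R at *
    generalize (h c - m + δ) / Y = R' at *
    have a3 : R * R' - 1 = (R - 1) + (R' - 1) + (R - 1) * (R' - 1) := by ring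
    have a4 := mul_le_mul a1 a2 (norm_nonneg _) ((norm_nonneg _).trans a1)
    rw [a3]
    refine norm_add₃_le.trans ?_
    rw [norm_mul]
    nlinarith
  · rw [norm_div, norm_mul, norm_mul, mul_div_right_comm]
    gcongr

/-- truncated distance of a pair from the reference -/
noncomputable def rT (m : ℂ) (T : ℝ) (p : ℂ × ℂ) : ℝ := min ‖p.1 - m‖ T + min ‖p.2 - m‖ T

theorem T1d_e4 {D : ℕ} (r : Fin D → ℝ) (s : ℝ) :
    (s + ∑ c, r c) ^ 4 ≤ 8 * (s ^ 4 + D ^ 3 * ∑ c, r c ^ 4) := by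
  have h1 : (∑ c, r c) ^ 2 ≤ D * ∑ c, r c ^ 2 := by
    simpa using sq_sum_le_card_mul_sum_sq (s := Finset.univ) (f := r)
  have h2 : (∑ c, r c ^ 2) ^ 2 ≤ D * ∑ c, r c ^ 4 := by
    have := sq_sum_le_card_mul_sum_sq (s := Finset.univ) (f := fun c => r c ^ 2)
    simp only [← pow_mul, Finset.card_univ, Fintype.card_fin] at this
    exact this
  have h3 := pow_le_pow_left₀ (sq_nonneg _) h1 2
  have h4 := mul_le_mul_of_nonneg_left h2 (show (0 : ℝ) ≤ D ^ 2 by positivity)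
  have h5 : (∑ c, r c) ^ 4 ≤ D ^ 3 * ∑ c, r c ^ 4 := by nlinarith
  generalize ∑ c, r c = x at *
  have h6 : (s + x) ^ 2 ≤ 2 * (s ^ 2 + x ^ 2) := by nlinarith [sq_nonneg (s - x)]
  have h7 := pow_le_pow_left₀ (sq_nonneg _) h6 2
  nlinarith [sq_nonneg (s ^ 2 - x ^ 2)]

theorem T1d_poly {e κ : ℝ} (hκ : 0 < κ) (hκ1 : κ ≤ 1) : (2 * e + e ^ 2) ^ 2 ≤ κ + 18 * e ^ 4 / κ := by
  have h1 : (2 * e + e ^ 2) ^ 2 ≤ 8 * e ^ 2 + 2 * e ^ 4 := by nlinarith [sq_nonneg (2 * e - e ^ 2)]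
  have h2 : 8 * e ^ 2 + 2 * e ^ 4 - κ ≤ 18 * e ^ 4 / κ := by
    rw [le_div_iff₀ hκ]
    have h3 : 0 ≤ e ^ 4 := by positivity
    nlinarith [sq_nonneg (κ - 4 * e ^ 2), mul_le_mul_of_nonneg_left hκ1 h3]
  linarith

/-- the mean square of the error term -/
theorem T1d_err {X : Type} [MeasurableSpace X] {D : ℕ} (hD : 1 ≤ D) (μ : Measure X)
    [IsProbabilityMeasure μ] {u r : X → ℝ} (hu : Measurable u) (hr : Measurable r) {B : ℝ}
    (huB : ∀ᵐ x ∂μ, |u x| ≤ B) (hrB : ∀ x, |r x| ≤ B) {S : Set X} (hS : MeasurableSet S)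
    {c₀ s κ A A' : ℝ} (hc : 0 < c₀) (hκ : 0 < κ) (hκ1 : κ ≤ 1) :
    ∫ M, (∑ c, u (M c) * (2 * ((s + ∑ c', if c = c' then 0 else r (M c')) / c₀) +
        ((s + ∑ c', if c = c' then 0 else r (M c')) / c₀) ^ 2) + A +
        A' * ∑ c, S.indicator 1 (M c)) ^ 2 ∂(Measure.pi fun _ : Fin D => μ) ≤
      3 * D ^ 2 * (1 + 144 * D ^ 4 / c₀ ^ 4) * (κ + (s ^ 4 + ∫ x, r x ^ 4 ∂μ) / κ) *
        (∫ x, u x ^ 2 ∂μ) + 3 * A ^ 2 + 3 * A' ^ 2 * D ^ 2 * μ.real S := by
  have hD' : (1 : ℝ) ≤ D := by exact_mod_cast hD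
  have hu2 : Measurable fun x => u x ^ 2 := hu.pow_const 2
  have hr4 : Measurable fun x => r x ^ 4 := hr.pow_const 4
  have hI : Measurable (S.indicator (1 : X → ℝ)) := measurable_one.indicator hS
  have hall := ae_pi_forall (D := D) μ huB
  have b2 : ∀ x, |u x| ≤ B → ‖u x ^ 2‖ ≤ B ^ 2 := fun x hx => by
    rw [Real.norm_eq_abs, abs_pow]
    exact pow_le_pow_left₀ (abs_nonneg _) hx 2
  have i1 : ∀ c : Fin D, Integrable (fun M : Fin D → X => u (M c) ^ 2)
      (Measure.pi fun _ : Fin D => μ) := fun c =>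
    integrable_of_ae_bdd _ (hu2.comp (measurable_pi_apply c)) (B := B ^ 2)
      (hall.mono fun M hM => b2 _ (hM c))
  have i2 : ∀ c c' : Fin D, Integrable (fun M : Fin D → X =>
      if c = c' then (0 : ℝ) else u (M c) ^ 2 * r (M c') ^ 4) (Measure.pi fun _ : Fin D => μ) := by
    intro c c'
    split_ifs
    · exact integrable_const _
    · refine integrable_of_ae_bdd _ ((hu2.comp (measurable_pi_apply c)).mul
        (hr4.comp (measurable_pi_apply c'))) (B := B ^ 2 * B ^ 4) (hall.mono fun M hM => ?_)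
      rw [norm_mul]
      refine mul_le_mul (b2 _ (hM c)) ?_ (norm_nonneg _) (sq_nonneg _)
      rw [Real.norm_eq_abs, abs_pow]
      exact pow_le_pow_left₀ (abs_nonneg _) (hrB _) 4
  have i3 : ∀ c : Fin D, Integrable (fun M : Fin D → X => S.indicator (1 : X → ℝ) (M c))
      (Measure.pi fun _ : Fin D => μ) := fun c =>
    integrable_of_ae_bdd _ (hI.comp (measurable_pi_apply c)) (B := 1) (ae_of_all _ fun M => by
      by_cases h : M c ∈ S <;> simp [h])
  have j1 := (integrable_finsetSum Finset.univ fun c _ => i1 c).const_mul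
    (3 * D * (κ + 144 * s ^ 4 / (c₀ ^ 4 * κ)))
  have j2 := (integrable_finsetSum Finset.univ fun c _ =>
    integrable_finsetSum Finset.univ fun c' _ => i2 c c').const_mul
    (3 * D * (144 * D ^ 3 / (c₀ ^ 4 * κ)))
  have j3 := (integrable_finsetSum Finset.univ fun c _ => i3 c).const_mul (3 * A' ^ 2 * D)
  have j12 : Integrable (fun M : Fin D → X =>
      3 * D * (κ + 144 * s ^ 4 / (c₀ ^ 4 * κ)) * ∑ c, u (M c) ^ 2 +
      3 * D * (144 * D ^ 3 / (c₀ ^ 4 * κ)) *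
        ∑ c, ∑ c', if c = c' then (0 : ℝ) else u (M c) ^ 2 * r (M c') ^ 4)
      (Measure.pi fun _ : Fin D => μ) := j1.add j2
  have j123 : Integrable (fun M : Fin D → X =>
      3 * D * (κ + 144 * s ^ 4 / (c₀ ^ 4 * κ)) * ∑ c, u (M c) ^ 2 +
      3 * D * (144 * D ^ 3 / (c₀ ^ 4 * κ)) *
        (∑ c, ∑ c', if c = c' then (0 : ℝ) else u (M c) ^ 2 * r (M c') ^ 4) +
      3 * A' ^ 2 * D * ∑ c, S.indicator (1 : X → ℝ) (M c))
      (Measure.pi fun _ : Fin D => μ) := j12.add j3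
  refine (integral_mono_of_nonneg (ae_of_all _ fun M => sq_nonneg _)
    (j123.add (integrable_const (3 * A ^ 2))) (ae_of_all _ fun M => ?_)).trans ?_
  · simp only [Pi.add_apply]
    set e : Fin D → ℝ := fun c => (s + ∑ c', if c = c' then 0 else r (M c')) / c₀ with he
    have p1 : (∑ c, u (M c) * (2 * e c + e c ^ 2)) ^ 2 ≤
        (D : ℝ) * ∑ c, (u (M c) * (2 * e c + e c ^ 2)) ^ 2 := by
      simpa using sq_sum_le_card_mul_sum_sq (s := Finset.univ)
        (f := fun c => u (M c) * (2 * e c + e c ^ 2))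
    have p2 : ∀ c ∈ (Finset.univ : Finset (Fin D)), (u (M c) * (2 * e c + e c ^ 2)) ^ 2 ≤
        (κ + 144 * s ^ 4 / (c₀ ^ 4 * κ)) * u (M c) ^ 2 + 144 * D ^ 3 / (c₀ ^ 4 * κ) *
          ∑ c', if c = c' then (0 : ℝ) else u (M c) ^ 2 * r (M c') ^ 4 := by
      intro c _
      have q1 := T1d_e4 (fun c' => if c = c' then 0 else r (M c')) s
      have q2 : ∑ c', (if c = c' then (0 : ℝ) else u (M c) ^ 2 * r (M c') ^ 4) =
          u (M c) ^ 2 * ∑ c', (if c = c' then 0 else r (M c')) ^ 4 := by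
        rw [Finset.mul_sum]
        refine Finset.sum_congr rfl fun c' _ => ?_
        split_ifs <;> simp
      have q3 : e c ^ 4 ≤ 8 * (s ^ 4 + D ^ 3 * ∑ c', (if c = c' then 0 else r (M c')) ^ 4) /
          c₀ ^ 4 := by
        simp only [he, div_pow]
        gcongr
      have q4 : (2 * e c + e c ^ 2) ^ 2 ≤ κ + 18 * (8 * (s ^ 4 +
          D ^ 3 * ∑ c', (if c = c' then 0 else r (M c')) ^ 4) / c₀ ^ 4) / κ :=
        (T1d_poly hκ hκ1).trans (by gcongr)
      rw [q2, mul_pow]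
      refine (mul_le_mul_of_nonneg_left q4 (sq_nonneg _)).trans (le_of_eq ?_)
      field_simp
      ring
    have p3 := Finset.sum_le_sum p2
    rw [Finset.sum_add_distrib, ← Finset.mul_sum, ← Finset.mul_sum] at p3
    have p4 : (∑ c, S.indicator (1 : X → ℝ) (M c)) ^ 2 ≤ D * ∑ c, S.indicator (1 : X → ℝ) (M c) := by
      have := sq_sum_le_card_mul_sum_sq (s := Finset.univ)
        (f := fun c => S.indicator (1 : X → ℝ) (M c))
      rw [Finset.card_univ, Fintype.card_fin] at this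
      refine this.trans (le_of_eq ?_)
      congr 1
      refine Finset.sum_congr rfl fun c _ => ?_
      by_cases h : M c ∈ S <;> simp [h]
    have p5 := mul_le_mul_of_nonneg_left p3 (show (0 : ℝ) ≤ D by linarith)
    have p6 := mul_le_mul_of_nonneg_left p4 (sq_nonneg A')
    change (∑ c, u (M c) * (2 * e c + e c ^ 2) + A +
      A' * ∑ c, S.indicator (1 : X → ℝ) (M c)) ^ 2 ≤ _
    generalize ∑ c, u (M c) * (2 * e c + e c ^ 2) = x at *
    generalize ∑ c, S.indicator (1 : X → ℝ) (M c) = y at *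
    nlinarith [sq_nonneg (x - A), sq_nonneg (x - A' * y), sq_nonneg (A - A' * y)]
  · have k2 : ∫ M, (∑ c, ∑ c', if c = c' then (0 : ℝ) else u (M c) ^ 2 * r (M c') ^ 4)
        ∂(Measure.pi fun _ : Fin D => μ) ≤ D * (D * ((∫ x, u x ^ 2 ∂μ) * ∫ x, r x ^ 4 ∂μ)) := by
      rw [integral_finsetSum _ fun c _ => integrable_finsetSum _ fun c' _ => i2 c c']
      refine (Finset.sum_le_card_nsmul _ _
        (D * ((∫ x, u x ^ 2 ∂μ) * ∫ x, r x ^ 4 ∂μ)) fun c _ => ?_).trans (by simp)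
      rw [integral_finsetSum _ fun c' _ => i2 c c']
      refine (Finset.sum_le_card_nsmul _ _
        ((∫ x, u x ^ 2 ∂μ) * ∫ x, r x ^ 4 ∂μ) fun c' _ => ?_).trans (by simp)
      split_ifs with h
      · rw [integral_zero]
        exact mul_nonneg (integral_nonneg fun x => by positivity)
          (integral_nonneg fun x => by positivity)
      · exact (integral_pi_pair μ hu2 hr4 h).le
    have e0 := integral_add j123 (integrable_const (3 * A ^ 2))
    simp only [Pi.add_apply]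
    rw [e0, integral_add j12 j3, integral_add j1 j2, integral_const_mul, integral_const_mul,
      integral_const_mul, integral_finsetSum _ fun c _ => i1 c, integral_finsetSum _ fun c _ => i3 c]
    simp only [integral_pi_eval μ hu2, integral_pi_eval μ hI, integral_indicator_one hS,
      Finset.sum_const, Finset.card_univ, Fintype.card_fin, nsmul_eq_mul, integral_const,
      probReal_univ, smul_eq_mul, one_mul]
    have ha : 0 ≤ ∫ x, u x ^ 2 ∂μ := integral_nonneg fun x => by positivity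
    have hρ : 0 ≤ ∫ x, r x ^ 4 ∂μ := integral_nonneg fun x => by positivity
    have k3 := mul_le_mul_of_nonneg_left k2
      (show 0 ≤ 3 * D * (144 * D ^ 3 / (c₀ ^ 4 * κ)) by positivity)
    generalize ∫ x, u x ^ 2 ∂μ = a at *
    generalize ∫ x, r x ^ 4 ∂μ = ρ at *
    have k4 : 3 * D * (κ + 144 * s ^ 4 / (c₀ ^ 4 * κ)) * (D * a) +
        3 * D * (144 * D ^ 3 / (c₀ ^ 4 * κ)) * (D * (D * (a * ρ))) ≤
        3 * D ^ 2 * (1 + 144 * D ^ 4 / c₀ ^ 4) * (κ + (s ^ 4 + ρ) / κ) * a := by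
      have hD4 : (1 : ℝ) ≤ D ^ 4 := one_le_pow₀ hD'
      have e1 : 3 * D * (κ + 144 * s ^ 4 / (c₀ ^ 4 * κ)) * (D * a) +
          3 * D * (144 * D ^ 3 / (c₀ ^ 4 * κ)) * (D * (D * (a * ρ))) =
          3 * D ^ 2 * a * (κ + 144 * 1 / c₀ ^ 4 * (s ^ 4 / κ) +
            144 * D ^ 4 / c₀ ^ 4 * (ρ / κ)) := by
        field_simp
      have e2 : 3 * D ^ 2 * (1 + 144 * D ^ 4 / c₀ ^ 4) * (κ + (s ^ 4 + ρ) / κ) * a =
          3 * D ^ 2 * a * (κ + 144 * D ^ 4 / c₀ ^ 4 * (s ^ 4 / κ) +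
            144 * D ^ 4 / c₀ ^ 4 * (ρ / κ) + ((s ^ 4 + ρ) / κ + 144 * D ^ 4 / c₀ ^ 4 * κ)) := by
        field_simp
        ring
      rw [e1, e2]
      refine mul_le_mul_of_nonneg_left (le_add_of_le_of_nonneg ?_ (by positivity)) (by positivity)
      gcongr
    nlinarith

/-- The error of the linearisation in mean square.  Take
`Err M = Σ_c |ξ(M c)| (2 e_c + e_c²) + C σ + C' 1{∃ c, M c ∈ bad}`, `e_c = (s₁ + Σ_{c' ≠ c} rT (M c'))/c₀`,
`bad = {T < |p.1 - m| ∨ T < |p.2 - m|}` (off `bad`, `rT` is the untruncated distance: `endo_pointwise`; on it both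
`ξ'` and `m² Σ ξ` are bounded by `zeta_pointwise`).  `(2e+e²)² ≤ 8e² + 2e⁴ ≤ κ + 18 e⁴/κ` for `κ ≤ 1`,
`e_c⁴ ≤ D³ c₀⁻⁴ (s₁⁴ + Σ_{c' ≠ c} rT⁴)`, `integral_pi_pair`; then `ab_abstract` and `sq_integral_le`. -/
theorem endo_inner {D : ℕ} (hD : 2 ≤ D) {c₀ : ℝ} (hc : 0 < c₀) : ∃ C : ℝ, 0 < C ∧
    ∀ z m : ℂ, Ref D c₀ z m → ∀ (μ : Measure (ℂ × ℂ)) [IsProbabilityMeasure μ],
      (∀ᵐ p ∂μ, 0 < p.1.im ∧ 0 < p.2.im) → ∀ T s₁ σ κ W : ℝ, 0 < T → 0 < κ → κ ≤ 1 →
      C * (κ + (s₁ ^ 4 + ∫ p, rT m T p ^ 4 ∂μ) / κ) *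
          (∫ p, ‖zeta m p.1 - zeta m p.2‖ ^ 2 ∂μ) +
        C * (σ ^ 2 + μ.real {p | T < ‖p.1 - m‖} + μ.real {p | T < ‖p.2 - m‖}) ≤ W →
      ∀ t : ℂ × ℂ, 0 ≤ t.1.im → 0 ≤ t.2.im → ‖t.1‖ ≤ s₁ → ‖t.2‖ ≤ s₁ → ‖t.1 - t.2‖ ≤ σ →
      ‖(∫ M, (zeta m (recF z t.1 fun c => (M c).1) - zeta m (recF z t.2 fun c => (M c).2))
          ∂(Measure.pi fun _ : Fin D => μ)) -
          D * m ^ 2 * ∫ p, (zeta m p.1 - zeta m p.2) ∂μ‖ ^ 2 ≤ W ∧
      ∫ M, ‖zeta m (recF z t.1 fun c => (M c).1) - zeta m (recF z t.2 fun c => (M c).2)‖ ^ 2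
          ∂(Measure.pi fun _ : Fin D => μ) ≤
        3 / 4 * (∫ p, ‖zeta m p.1 - zeta m p.2‖ ^ 2 ∂μ) +
          3 / 2 * ‖∫ p, (zeta m p.1 - zeta m p.2) ∂μ‖ ^ 2 + 3 * W := by
  obtain ⟨C₁, hC₁, H1⟩ := zeta_pointwise hD hc
  obtain ⟨C₂, hC₂, H2⟩ := endo_pointwise hD hc
  have hD1 : 1 ≤ D := by omega
  refine ⟨3 * D ^ 2 * (1 + 144 * D ^ 4 / c₀ ^ 4) + 3 * C₂ ^ 2 +
    3 * (2 * C₁ * (1 + D)) ^ 2 * D ^ 2, by positivity, ?_⟩
  intro z m hr μ _ hμ T s₁ σ κ W hT hκ hκ1 hW t ht1 ht2 hs1 hs2 hσ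
  obtain ⟨-, hm1, -⟩ := T0d_basic hD hc hr
  have hz := (H1 z m hr).1
  have hs0 : 0 ≤ s₁ := (norm_nonneg _).trans hs1
  have hσ0 : 0 ≤ σ := (norm_nonneg _).trans hσ
  have hbd : ∀ a b : ℂ, 0 < a.im → 0 < b.im → ‖zeta m a - zeta m b‖ ≤ 2 * C₁ := fun a b ha hb =>
    (norm_sub_le _ _).trans (by linarith [(hz a ha.le).1, (hz b hb.le).1])
  have hξ : Measurable fun p : ℂ × ℂ => zeta m p.1 - zeta m p.2 :=
    ((measurable_zeta m).comp measurable_fst).sub ((measurable_zeta m).comp measurable_snd)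
  have hξB : ∀ᵐ p ∂μ, ‖zeta m p.1 - zeta m p.2‖ ≤ 2 * C₁ :=
    hμ.mono fun p hp => hbd _ _ hp.1 hp.2
  have hξ' : Measurable fun M : Fin D → ℂ × ℂ =>
      zeta m (recF z t.1 fun c => (M c).1) - zeta m (recF z t.2 fun c => (M c).2) := by
    refine ((measurable_zeta m).comp ?_).sub ((measurable_zeta m).comp ?_) <;>
    · unfold recF
      fun_prop
  have hrm : Measurable (rT m T) := by
    unfold rT
    fun_prop
  have hr0 : ∀ p, 0 ≤ rT m T p := fun p =>
    add_nonneg (le_min (norm_nonneg _) hT.le) (le_min (norm_nonneg _) hT.le)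
  have hrB : ∀ p, rT m T p ≤ 2 * T := fun p => by
    unfold rT
    linarith [min_le_right ‖p.1 - m‖ T, min_le_right ‖p.2 - m‖ T]
  let S : Set (ℂ × ℂ) := {p | T < ‖p.1 - m‖} ∪ {p | T < ‖p.2 - m‖}
  have hS : MeasurableSet S :=
    (measurableSet_lt measurable_const (by fun_prop)).union
      (measurableSet_lt measurable_const (by fun_prop))
  have hI : Measurable (S.indicator (1 : ℂ × ℂ → ℝ)) := measurable_one.indicator hS
  have hI0 : ∀ p, 0 ≤ S.indicator (1 : ℂ × ℂ → ℝ) p := fun p => by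
    by_cases h : p ∈ S <;> simp [h]
  have hI1 : ∀ p, S.indicator (1 : ℂ × ℂ → ℝ) p ≤ 1 := fun p => by
    by_cases h : p ∈ S <;> simp [h]
  let e : (Fin D → ℂ × ℂ) → Fin D → ℝ := fun M c =>
    (s₁ + ∑ c', if c = c' then 0 else rT m T (M c')) / c₀
  have he0 : ∀ M c, 0 ≤ e M c := fun M c => div_nonneg (add_nonneg hs0
    (Finset.sum_nonneg fun c' _ => by split_ifs; exacts [le_rfl, hr0 _])) hc.le
  have he1 : ∀ M c, e M c ≤ (s₁ + D * (2 * T)) / c₀ := fun M c => by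
    refine div_le_div_of_nonneg_right (add_le_add_right ?_ _) hc.le
    refine (Finset.sum_le_card_nsmul _ _ (2 * T) fun c' _ => ?_).trans (by simp)
    split_ifs
    · positivity
    · exact hrB _
  have hem : ∀ c, Measurable fun M => e M c := fun c => by
    refine (measurable_const.add (Finset.measurable_sum _ fun c' _ => ?_)).div_const _
    split_ifs
    · exact measurable_const
    · exact hrm.comp (measurable_pi_apply c')
  let Err : (Fin D → ℂ × ℂ) → ℝ := fun M =>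
    ∑ c, ‖zeta m (M c).1 - zeta m (M c).2‖ * (2 * e M c + e M c ^ 2) + C₂ * σ +
      2 * C₁ * (1 + D) * ∑ c, S.indicator 1 (M c)
  have hE : Measurable Err :=
    ((Finset.measurable_sum _ fun c _ => (hξ.comp (measurable_pi_apply c)).norm.mul
      (((hem c).const_mul 2).add ((hem c).pow_const 2))).add measurable_const).add
      ((Finset.measurable_sum _ fun c _ => hI.comp (measurable_pi_apply c)).const_mul _)
  have hE1 : ∀ M : Fin D → ℂ × ℂ,
      0 ≤ ∑ c, ‖zeta m (M c).1 - zeta m (M c).2‖ * (2 * e M c + e M c ^ 2) := fun M =>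
    Finset.sum_nonneg fun c _ => by have := he0 M c; positivity
  have hE2 : ∀ M : Fin D → ℂ × ℂ, 0 ≤ ∑ c, S.indicator (1 : ℂ × ℂ → ℝ) (M c) := fun M =>
    Finset.sum_nonneg fun c _ => hI0 _
  have hall := ae_pi_forall (D := D) μ hμ
  have hEB : ∀ᵐ M ∂(Measure.pi fun _ : Fin D => μ), ‖Err M‖ ≤
      D * (2 * C₁ * (2 * ((s₁ + D * (2 * T)) / c₀) + ((s₁ + D * (2 * T)) / c₀) ^ 2)) + C₂ * σ +
        2 * C₁ * (1 + D) * D := by
    filter_upwards [hall] with M hM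
    have a1 := hE1 M
    have a2 := hE2 M
    rw [Real.norm_of_nonneg (by simp only [Err]; positivity)]
    refine add_le_add (add_le_add_left ?_ _) (mul_le_mul_of_nonneg_left ?_ (by positivity))
    · refine (Finset.sum_le_card_nsmul _ _ (2 * C₁ * (2 * ((s₁ + D * (2 * T)) / c₀) +
        ((s₁ + D * (2 * T)) / c₀) ^ 2)) fun c _ => ?_).trans (by simp)
      have b1 := he0 M c
      have b2 := he1 M c
      have b3 := hbd _ _ (hM c).1 (hM c).2
      gcongr
    · exact (Finset.sum_le_card_nsmul _ _ 1 fun c _ => hI1 _).trans (by simp)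
  obtain ⟨h1, h2⟩ := ab_abstract hD μ hξ hξB hr.nsq hξ' hE hEB (by
    filter_upwards [hall] with M hM
    have a1 := hE1 M
    have a2 := hE2 M
    by_cases hb : ∃ c, M c ∈ S
    · obtain ⟨c, hcS⟩ := hb
      have b1 : 1 ≤ ∑ c, S.indicator (1 : ℂ × ℂ → ℝ) (M c) := by
        refine le_trans (le_of_eq ?_) (Finset.single_le_sum (fun c _ => hI0 (M c)) (Finset.mem_univ c))
        simp [hcS]
      have b2 := hbd _ _ (recF_im_pos hD1 hr.zim ht1 fun c => (hM c).1)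
        (recF_im_pos hD1 hr.zim ht2 fun c => (hM c).2)
      have b3 : ‖m ^ 2 * ∑ c, (zeta m (M c).1 - zeta m (M c).2)‖ ≤ D * (2 * C₁) := by
        rw [norm_mul, norm_pow]
        refine (mul_le_of_le_one_left (norm_nonneg _) (pow_le_one₀ (norm_nonneg _) hm1)).trans
          ((norm_sum_le _ _).trans ?_)
        exact (Finset.sum_le_card_nsmul _ _ (2 * C₁) fun c _ =>
          hbd _ _ (hM c).1 (hM c).2).trans (by simp)
      have b4 := mul_le_mul_of_nonneg_left b1 (show 0 ≤ 2 * C₁ * (1 + D) by positivity)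
      have b5 : 0 ≤ C₂ * σ := by positivity
      refine (norm_sub_le _ _).trans ?_
      simp only [Err]
      nlinarith
    · push Not at hb
      have b1 := H2 z m hr t.1 t.2 (fun c => (M c).1) (fun c => (M c).2) s₁ (e M) ht1 ht2 hs1 hs2
        (fun c => (hM c).1) (fun c => (hM c).2) (fun c => le_of_eq (by
          simp only [e]
          congr 2
          refine Finset.sum_congr rfl fun c' _ => ?_
          have b2 := hb c'
          simp only [S, Set.mem_union, Set.mem_ofPred_eq, not_or, not_lt] at b2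
          rw [rT, min_eq_left b2.1, min_eq_left b2.2]))
      have b3 := mul_le_mul_of_nonneg_left hσ hC₂.le
      have b4 : 0 ≤ 2 * C₁ * (1 + D) * ∑ c, S.indicator (1 : ℂ × ℂ → ℝ) (M c) := by positivity
      simp only [Err]
      linarith)
  have h3 : ∫ M, Err M ^ 2 ∂(Measure.pi fun _ : Fin D => μ) ≤ W := by
    refine (T1d_err hD1 μ hξ.norm hrm (B := 2 * C₁ + 2 * T) (hξB.mono fun p hp => ?_)
      (fun p => ?_) hS hc hκ hκ1).trans (le_trans ?_ hW)
    · rw [abs_norm]; linarith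
    · rw [abs_of_nonneg (hr0 p)]; linarith [hrB p]
    · have a1 : μ.real S ≤ μ.real {p | T < ‖p.1 - m‖} + μ.real {p | T < ‖p.2 - m‖} :=
        measureReal_union_le _ _
      have a2 : 0 ≤ μ.real {p : ℂ × ℂ | T < ‖p.1 - m‖} := measureReal_nonneg
      have a3 : 0 ≤ μ.real {p : ℂ × ℂ | T < ‖p.2 - m‖} := measureReal_nonneg
      have ha : 0 ≤ ∫ p, ‖zeta m p.1 - zeta m p.2‖ ^ 2 ∂μ := integral_nonneg fun x => by positivity
      have hρ : 0 ≤ ∫ p, rT m T p ^ 4 ∂μ := integral_nonneg fun x => by positivity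
      generalize ∫ p, ‖zeta m p.1 - zeta m p.2‖ ^ 2 ∂μ = a at *
      generalize ∫ p, rT m T p ^ 4 ∂μ = ρ at *
      have k1 : (0 : ℝ) ≤ 3 * D ^ 2 * (1 + 144 * D ^ 4 / c₀ ^ 4) := by positivity
      have k2 : 0 ≤ 3 * C₂ ^ 2 := by positivity
      have k3 : 0 ≤ 3 * (2 * C₁ * (1 + D)) ^ 2 * D ^ 2 := by positivity
      have k4 : 0 ≤ (κ + (s₁ ^ 4 + ρ) / κ) * a := by positivity
      rw [mul_pow C₂ σ]
      generalize 3 * (D : ℝ) ^ 2 * (1 + 144 * D ^ 4 / c₀ ^ 4) = K₁ at *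
      generalize 3 * (2 * C₁ * (1 + D)) ^ 2 * D ^ 2 = K₃ at *
      nlinarith [mul_nonneg k2 k4, mul_nonneg k3 k4, mul_nonneg k1 (sq_nonneg σ), mul_nonneg k1 a2,
        mul_nonneg k1 a3, mul_nonneg k2 a2, mul_nonneg k2 a3, mul_nonneg k3 (sq_nonneg σ),
        mul_le_mul_of_nonneg_left a1 k3]
  exact ⟨(pow_le_pow_left₀ (norm_nonneg _) h1 2).trans ((sq_integral_le _ hE hEB).trans h3),
    h2.trans (by linarith)⟩

end Crest.Agent.R166
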