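import Crest.Agent.R166.T1c
import Crest.Agent.R166.T1d

/-! # Endogeny (bivariate contraction) -/

set_option autoImplicit false
set_option linter.unusedVariables false
set_option linter.unusedSectionVars false

open MeasureTheory ProbabilityTheory Filter Topology Matrix
open scoped ENNReal BoundedContinuousFunction

namespace Crest.Agent.R166

theorem T1_rT {X : Type} [MeasurableSpace X] (μ : Measure X) [IsProbabilityMeasure μ] {a b : X → ℝ}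
    (ha : Measurable a) (hb : Measurable b) {T : ℝ} (h0 : ∀ x, 0 ≤ a x ∧ a x ≤ T)
    (h1 : ∀ x, 0 ≤ b x ∧ b x ≤ T) :
    ∫ x, (a x + b x) ^ 4 ∂μ ≤ 8 * (∫ x, a x ^ 4 ∂μ + ∫ x, b x ^ 4 ∂μ) := by
  have hi : ∀ {u : X → ℝ}, Measurable u → (∀ x, 0 ≤ u x ∧ u x ≤ T) →
      Integrable (fun x => u x ^ 4) μ := fun {u} hu h =>
    integrable_of_ae_bdd μ (hu.pow_const 4) (B := T ^ 4) (Eventually.of_forall fun x => by
      rw [Real.norm_eq_abs, abs_of_nonneg (pow_nonneg (h x).1 4)]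
      exact pow_le_pow_left₀ (h x).1 (h x).2 4)
  rw [← integral_add (hi ha h0) (hi hb h1), ← integral_const_mul]
  refine integral_mono_of_nonneg (Eventually.of_forall fun x => by positivity)
    (((hi ha h0).add (hi hb h1)).const_mul 8) (Eventually.of_forall fun x => ?_)
  have h := add_pow_le (h0 x).1 (h1 x).1 4
  norm_num at h
  exact h

theorem T1_avg {Y : Type} [MeasurableSpace Y] (θ : Measure Y) [IsProbabilityMeasure θ] {g : Y → ℝ}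
    (hg : Measurable g) {a r : ℝ} (h : ∀ᵐ t ∂θ, |g t - a| ≤ r) : |∫ t, g t ∂θ - a| ≤ r := by
  have hi : Integrable g θ := integrable_of_ae_bdd θ hg (B := |a| + r) (h.mono fun t ht => by
    have := abs_add_le (g t - a) a
    rw [sub_add_cancel] at this
    rw [Real.norm_eq_abs]
    linarith)
  have h1 := norm_integral_le_of_norm_le_const (μ := θ) (f := fun t => g t - a) (C := r) h
  rw [integral_sub hi (integrable_const a)] at h1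
  simpa using h1

theorem T1_num {c₀ C a y nx w W ε' S : ℝ} (hc : 0 < c₀) (hC : 0 < C) (hy : 0 ≤ y)
    (hW : W = C * a * y + C * S) (ha : (6 / c₀ ^ 2 + 3) * C * a ≤ 1 / 8)
    (h1 : c₀ ^ 2 * nx ≤ w) (h2 : w ≤ 4 * ε' ^ 2 + 4 * W)
    (h3 : y ≤ ε' + (3 / 4 * y + 3 / 2 * nx + 3 * W)) :
    y ≤ 8 * (ε' + 6 / c₀ ^ 2 * ε' ^ 2) + 8 * ((6 / c₀ ^ 2 + 3) * C) * S := by
  have h4 : nx ≤ (4 * ε' ^ 2 + 4 * W) / c₀ ^ 2 := by
    rw [le_div_iff₀ (by positivity)]; linarith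
  have h5 : 3 / 2 * ((4 * ε' ^ 2 + 4 * W) / c₀ ^ 2) = 6 / c₀ ^ 2 * ε' ^ 2 + 6 / c₀ ^ 2 * W := by
    ring
  have h6 : (6 / c₀ ^ 2 + 3) * W =
      (6 / c₀ ^ 2 + 3) * C * a * y + (6 / c₀ ^ 2 + 3) * C * S := by rw [hW]; ring
  have h7 := mul_le_mul_of_nonneg_right ha hy
  linarith

set_option maxHeartbeats 800000 in
/-- (ENDO) approximate bivariate fixed points close to the reference are nearly diagonal -/
theorem endo {D : ℕ} (hD : 2 ≤ D) {c₀ : ℝ} (hc : 0 < c₀) : ∃ δ τ s₁ C : ℝ, 0 < δ ∧ 0 < τ ∧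
    0 < s₁ ∧ 0 < C ∧ ∀ z m : ℂ, Ref D c₀ z m → ∀ ε : ℝ, 0 < ε →
      ∃ (Φ : Finset C(ℂ × ℂ, ℝ)) (ε' : ℝ), 0 < ε' ∧
        ∀ (μ θ : Measure (ℂ × ℂ)) [IsProbabilityMeasure μ] [IsProbabilityMeasure θ] (σ : ℝ),
          (∀ᵐ p ∂μ, 0 < p.1.im ∧ 0 < p.2.im) →
          (∀ᵐ t ∂θ, 0 ≤ t.1.im ∧ 0 ≤ t.2.im ∧ ‖t.1‖ ≤ s₁ ∧ ‖t.2‖ ≤ s₁ ∧ ‖t.1 - t.2‖ ≤ σ) →
          μ.real {p | δ < ‖p.1 - m‖} ≤ τ → μ.real {p | δ < ‖p.2 - m‖} ≤ τ →
          (∀ φ ∈ Φ, |(∫ p, φ (zeta m p.1, zeta m p.2) ∂μ) -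
            ∫ t, ∫ M, φ (zeta m (recF z t.1 fun c => (M c).1), zeta m (recF z t.2 fun c => (M c).2))
              ∂(Measure.pi fun _ : Fin D => μ) ∂θ| ≤ ε') →
          ∫ p, ‖zeta m p.1 - zeta m p.2‖ ^ 2 ∂μ ≤ ε + C * σ ^ 2 := by
  classical
  obtain ⟨C, hC, hin⟩ := endo_inner hD hc
  obtain ⟨δL, τL, C₁, hδL, hτL, hC₁, hly⟩ := lyap_bound hD hc
  obtain ⟨C₂, hC₂⟩ : ∃ C₂, C₂ = 2 ^ 7 * (C₁ + (2 / c₀) ^ 8) := ⟨_, rfl⟩
  have hC₂0 : 0 < C₂ := by rw [hC₂]; positivity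
  obtain ⟨Q, hQ⟩ : ∃ Q, Q = (6 / c₀ ^ 2 + 3) * C := ⟨_, rfl⟩
  have hQ0 : 0 < Q := by rw [hQ]; positivity
  obtain ⟨κ, hκ0, hκ1, hκQ⟩ : ∃ κ : ℝ, 0 < κ ∧ κ ≤ 1 ∧ κ ≤ 1 / (16 * Q) :=
    ⟨min 1 (1 / (16 * Q)), by positivity, min_le_left _ _, min_le_right _ _⟩
  obtain ⟨η, hη⟩ : ∃ η, η = κ / (16 * Q) := ⟨_, rfl⟩
  have hη0 : 0 < η := by rw [hη]; positivity
  obtain ⟨s₁, hs0, hs1, hsη⟩ : ∃ s₁ : ℝ, 0 < s₁ ∧ s₁ ≤ 1 ∧ s₁ ≤ η / 2 :=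
    ⟨min 1 (η / 2), by positivity, min_le_left _ _, min_le_right _ _⟩
  obtain ⟨δ, hδ0, hδ1, hδ2, hδ3⟩ : ∃ δ : ℝ, 0 < δ ∧ δ ≤ δL ∧ δ ≤ 1 ∧ δ ≤ (η / 32) ^ 2 / 4 :=
    ⟨min δL (min 1 ((η / 32) ^ 2 / 4)), by positivity, min_le_left _ _,
      (min_le_right _ _).trans (min_le_left _ _), (min_le_right _ _).trans (min_le_right _ _)⟩
  obtain ⟨τ, hτ0, hτ1, hτ2⟩ : ∃ τ : ℝ, 0 < τ ∧ τ ≤ τL ∧ τ ≤ (η / 32) ^ 2 / 4 / C₂ :=
    ⟨min τL ((η / 32) ^ 2 / 4 / C₂), by positivity, min_le_left _ _, min_le_right _ _⟩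
  have hδτ : 2 * δ ^ 8 + 2 * τ * C₂ ≤ (η / 32) ^ 2 := by
    have h1 : δ ^ 8 ≤ δ := pow_le_of_le_one hδ0.le hδ2 (by norm_num)
    rw [le_div_iff₀ hC₂0] at hτ2
    linarith
  refine ⟨δ, τ, s₁, 8 * Q, hδ0, hτ0, hs0, by positivity, fun z m hR ε hε => ?_⟩
  obtain ⟨T, hT1, hT2⟩ : ∃ T : ℝ, 1 ≤ T ∧ 32 * Q * C₂ / ε ≤ T :=
    ⟨max 1 _, le_max_left _ _, le_max_right _ _⟩
  have hT0 : 0 < T := by linarith
  have hT8 : 16 * Q * (C₂ / T ^ 8) ≤ ε / 2 := by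
    have h1 : T ≤ T ^ 8 := le_self_pow₀ hT1 (by norm_num)
    rw [div_le_iff₀ hε] at hT2
    rw [← mul_div_assoc, div_le_iff₀ (by positivity)]
    nlinarith
  obtain ⟨φ, hφ⟩ := hly z m hR T hT1
  obtain ⟨ε', hε0, hε1, hε2⟩ : ∃ ε' : ℝ, 0 < ε' ∧ ε' ≤ 1 ∧ ε' ≤ ε / 2 / (8 * (1 + 6 / c₀ ^ 2)) :=
    ⟨min 1 _, by positivity, min_le_left _ _, min_le_right _ _⟩
  have hε3 : 8 * (ε' + 6 / c₀ ^ 2 * ε' ^ 2) ≤ ε / 2 := by
    rw [le_div_iff₀ (by positivity)] at hε2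
    have h1 : ε' ^ 2 ≤ ε' := by nlinarith
    have h2 := mul_le_mul_of_nonneg_left h1 (show 0 ≤ 6 / c₀ ^ 2 by positivity)
    linarith
  let φ1 : C(ℂ × ℂ, ℝ) := ⟨fun p => φ p.1, by fun_prop⟩
  let φ2 : C(ℂ × ℂ, ℝ) := ⟨fun p => φ p.2, by fun_prop⟩
  let φ3 : C(ℂ × ℂ, ℝ) := ⟨fun p => ‖p.1 - p.2‖ ^ 2, by fun_prop⟩
  let φ4 : C(ℂ × ℂ, ℝ) := ⟨fun p => (p.1 - p.2).re, by fun_prop⟩
  let φ5 : C(ℂ × ℂ, ℝ) := ⟨fun p => (p.1 - p.2).im, by fun_prop⟩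
  refine ⟨{φ1, φ2, φ3, φ4, φ5}, ε', hε0, fun μ θ _ _ σ hμ hθ hb1 hb2 hΦ => ?_⟩
  have f1 := (abs_le.1 (hΦ φ1 (by simp))).2
  have f2 := (abs_le.1 (hΦ φ2 (by simp))).2
  have f3 := (abs_le.1 (hΦ φ3 (by simp))).2
  have f4 := hΦ φ4 (by simp)
  have f5 := hΦ φ5 (by simp)
  clear hΦ
  simp only [φ1, φ2, φ3, φ4, φ5, ContinuousMap.coe_mk] at f1 f2 f3 f4 f5
  have hmono : ∀ g : ℂ × ℂ → ℂ, μ.real {p | δ < ‖g p - m‖} ≤ τ →
      μ.real {p | δL < ‖g p - m‖} ≤ τL := fun g h =>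
    (measureReal_mono fun p (hp : δL < _) => hδ1.trans_lt hp).trans (h.trans hτ1)
  have m1 := moment_small hD hc hR μ measurable_fst (hμ.mono fun p h => h.1) hT0 hδ0.le
    (hφ μ θ Prod.fst Prod.fst measurable_fst (hμ.mono fun p h => h.1)
      (hθ.mono fun t h => ⟨h.1, h.2.2.1.trans hs1⟩) (hmono _ hb1) (by linarith)) hb1
  have m2 := moment_small hD hc hR μ measurable_snd (hμ.mono fun p h => h.2) hT0 hδ0.le
    (hφ μ θ Prod.snd Prod.snd measurable_snd (hμ.mono fun p h => h.2)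
      (hθ.mono fun t h => ⟨h.2.1, h.2.2.2.1.trans hs1⟩) (hmono _ hb2) (by linarith)) hb2
  rw [← hC₂] at m1 m2
  have hr : ∫ p, rT m T p ^ 4 ∂μ ≤ η / 2 := by
    have h1 := T1_rT μ (a := fun p => min ‖p.1 - m‖ T) (b := fun p => min ‖p.2 - m‖ T)
      (by fun_prop) (by fun_prop) (fun p => ⟨by positivity, min_le_right _ _⟩)
      fun p => ⟨by positivity, min_le_right _ _⟩
    have h2 := (abs_le_of_sq_le_sq' (m1.1.trans hδτ) (by positivity)).2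
    have h3 := (abs_le_of_sq_le_sq' (m2.1.trans hδτ) (by positivity)).2
    unfold rT
    linarith
  have ha : Q * (κ + (s₁ ^ 4 + ∫ p, rT m T p ^ 4 ∂μ) / κ) ≤ 1 / 8 := by
    have h1 : s₁ ^ 4 ≤ s₁ := pow_le_of_le_one hs0.le hs1 (by norm_num)
    have h2 : (s₁ ^ 4 + ∫ p, rT m T p ^ 4 ∂μ) / κ ≤ 1 / (16 * Q) := by
      rw [div_le_iff₀ hκ0, one_div_mul_eq_div, ← hη]
      linarith
    calc _ ≤ Q * (1 / (16 * Q) + 1 / (16 * Q)) := by gcongr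
      _ = 1 / 8 := by field_simp; norm_num
  obtain ⟨W, hW⟩ : ∃ W, W = C * (κ + (s₁ ^ 4 + ∫ p, rT m T p ^ 4 ∂μ) / κ) *
      (∫ p, ‖zeta m p.1 - zeta m p.2‖ ^ 2 ∂μ) +
      C * (σ ^ 2 + μ.real {p | T < ‖p.1 - m‖} + μ.real {p | T < ‖p.2 - m‖}) := ⟨_, rfl⟩
  have hI := hθ.mono fun t h => hin z m hR μ hμ T s₁ σ κ W hT0 hκ0 hκ1 hW.ge t h.1 h.2.1 h.2.2.1
    h.2.2.2.1 h.2.2.2.2
  obtain ⟨t₀, ht₀⟩ := hI.exists
  have hW0 : 0 ≤ W := (sq_nonneg _).trans ht₀.1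
  have hy0 : 0 ≤ ∫ p, ‖zeta m p.1 - zeta m p.2‖ ^ 2 ∂μ := integral_nonneg fun p => by positivity
  have hup : ∫ t, ∫ M, ‖zeta m (recF z t.1 fun c => (M c).1) - zeta m (recF z t.2 fun c => (M c).2)‖ ^ 2
      ∂(Measure.pi fun _ : Fin D => μ) ∂θ ≤ 3 / 4 * (∫ p, ‖zeta m p.1 - zeta m p.2‖ ^ 2 ∂μ) +
        3 / 2 * ‖∫ p, (zeta m p.1 - zeta m p.2) ∂μ‖ ^ 2 + 3 * W := by
    refine (integral_mono_of_nonneg (Eventually.of_forall fun t => integral_nonneg fun M => by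
      positivity) (integrable_const _) (hI.mono fun t h => h.2)).trans_eq (by simp)
  have mG : Measurable fun q : (ℂ × ℂ) × (Fin D → ℂ × ℂ) =>
      zeta m (recF z q.1.1 fun c => (q.2 c).1) - zeta m (recF z q.1.2 fun c => (q.2 c).2) :=
    ((measurable_zeta m).comp ((measurable_recF z).comp
      (f := fun q : (ℂ × ℂ) × (Fin D → ℂ × ℂ) => (q.1.1, fun c => (q.2 c).1)) (by fun_prop))).sub
    ((measurable_zeta m).comp ((measurable_recF z).comp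
      (f := fun q : (ℂ × ℂ) × (Fin D → ℂ × ℂ) => (q.1.2, fun c => (q.2 c).2)) (by fun_prop)))
  have iμ : Integrable (fun p : ℂ × ℂ => zeta m p.1 - zeta m p.2) μ :=
    integrable_zeta hD hc hR μ measurable_fst measurable_snd (hμ.mono fun p h => ⟨h.1.le, h.2.le⟩)
      (φ := fun p => p.1 - p.2) (by fun_prop)
  have iM : ∀ᵐ t ∂θ, Integrable (fun M : Fin D → ℂ × ℂ =>
      zeta m (recF z t.1 fun c => (M c).1) - zeta m (recF z t.2 fun c => (M c).2))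
      (Measure.pi fun _ : Fin D => μ) := hθ.mono fun t h =>
    integrable_zeta hD hc hR _
      ((measurable_recF z).comp (f := fun M : Fin D → ℂ × ℂ => (t.1, fun c => (M c).1)) (by fun_prop))
      ((measurable_recF z).comp (f := fun M : Fin D → ℂ × ℂ => (t.2, fun c => (M c).2)) (by fun_prop))
      ((ae_pi_forall μ hμ).mono fun M hM =>
        ⟨(recF_im_pos (by omega) hR.zim h.1 fun c => (hM c).1).le,
          (recF_im_pos (by omega) hR.zim h.2.1 fun c => (hM c).2).le⟩)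
      (φ := fun p => p.1 - p.2) (by fun_prop)
  have key : ∀ L : ℂ →L[ℝ] ℝ, (∀ w, |L w| ≤ ‖w‖) →
      |(∫ p, L (zeta m p.1 - zeta m p.2) ∂μ) - ∫ t, ∫ M, L (zeta m (recF z t.1 fun c => (M c).1) -
        zeta m (recF z t.2 fun c => (M c).2)) ∂(Measure.pi fun _ : Fin D => μ) ∂θ| ≤ ε' →
      L ((1 - D * m ^ 2) * ∫ p, (zeta m p.1 - zeta m p.2) ∂μ) ^ 2 ≤ 2 * ε' ^ 2 + 2 * W := by
    intro L hL h
    have h1 := T1_avg θ (g := fun t => ∫ M, L (zeta m (recF z t.1 fun c => (M c).1) -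
        zeta m (recF z t.2 fun c => (M c).2)) ∂(Measure.pi fun _ : Fin D => μ))
      (StronglyMeasurable.integral_prod_right' (ν := Measure.pi fun _ : Fin D => μ)
        (L.continuous.measurable.comp mG).stronglyMeasurable).measurable
      (a := L (D * m ^ 2 * ∫ p, (zeta m p.1 - zeta m p.2) ∂μ)) (r := √W) (by
        filter_upwards [hI, iM] with t h1 h2
        rw [L.integral_comp_comm h2, ← map_sub]
        exact (hL _).trans (Real.le_sqrt_of_sq_le h1.1))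
    rw [L.integral_comp_comm iμ] at h
    rw [sub_mul, one_mul, map_sub]
    have h2 := abs_le.1 h
    have h3 := abs_le.1 h1
    have h4 : (L (∫ p, (zeta m p.1 - zeta m p.2) ∂μ) -
        L (D * m ^ 2 * ∫ p, (zeta m p.1 - zeta m p.2) ∂μ)) ^ 2 ≤ (ε' + √W) ^ 2 :=
      sq_le_sq' (by linarith) (by linarith)
    nlinarith [Real.sq_sqrt hW0, sq_nonneg (ε' - √W)]
  have k1 := key Complex.reCLM Complex.abs_re_le_norm f4
  have k2 := key Complex.imCLM Complex.abs_im_le_norm f5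
  have k3 : ‖(1 - D * m ^ 2) * ∫ p, (zeta m p.1 - zeta m p.2) ∂μ‖ ^ 2 ≤ 4 * ε' ^ 2 + 4 * W := by
    rw [Complex.sq_norm, Complex.normSq_apply]
    simp only [Complex.reCLM_apply, Complex.imCLM_apply] at k1 k2
    linarith
  have k4 : c₀ ^ 2 * ‖∫ p, (zeta m p.1 - zeta m p.2) ∂μ‖ ^ 2 ≤
      ‖(1 - D * m ^ 2) * ∫ p, (zeta m p.1 - zeta m p.2) ∂μ‖ ^ 2 := by
    rw [norm_mul, mul_pow]
    have := hR.gap
    gcongr
  have fin := T1_num hc hC hy0 hW (hQ ▸ ha) k4 k3 (by linarith)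
  rw [← hQ] at fin
  have h1 := mul_le_mul_of_nonneg_left m1.2 hQ0.le
  have h2 := mul_le_mul_of_nonneg_left m2.2 hQ0.le
  linarith

end Crest.Agent.R166
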