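import Crest.Agent.R166.Defs

/-! # The bounded coordinate -/

set_option autoImplicit false
set_option linter.unusedVariables false
set_option linter.unusedSectionVars false

open MeasureTheory ProbabilityTheory Filter Topology Matrix
open scoped ENNReal BoundedContinuousFunction

namespace Crest.Agent.R166

theorem T0d_basic {D : ℕ} (hD : 2 ≤ D) {c : ℝ} (hc : 0 < c) {z m : ℂ} (h : Ref D c z m) :
    m ≠ 0 ∧ ‖m‖ ≤ 1 ∧ 1 ≤ c⁻¹ ∧ D * m.im ≤ (-(1 / m)).im ∧ ‖1 / m‖ ≤ c⁻¹ ∧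
      ‖m - 1 / m‖ ≤ 2 * c⁻¹ ∧ c ≤ ‖m - 1 / m‖ ∧ c ≤ (-(1 / m)).im := by
  have hD' : (2 : ℝ) ≤ D := by exact_mod_cast hD
  have h1 : c ≤ ‖m‖ := h.mim.trans ((le_abs_self _).trans (Complex.abs_im_le_norm m))
  have h0 : 0 < ‖m‖ := hc.trans_le h1
  have hm : m ≠ 0 := norm_pos_iff.1 h0
  have hn := h.nsq
  have h2 : ‖m‖ ≤ 1 := by nlinarith
  have h3 : 1 ≤ c⁻¹ := (one_le_inv₀ hc).2 (h1.trans h2)
  have him : 0 < m.im := hc.trans_le h.mim
  have h4 : D * m.im ≤ (-(1 / m)).im := by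
    rw [one_div, Complex.neg_im, Complex.inv_im, neg_div, neg_neg, Complex.normSq_eq_norm_sq,
      le_div_iff₀ (by positivity)]
    nlinarith
  have h5 : ‖1 / m‖ ≤ c⁻¹ := by
    rw [norm_div, norm_one, one_div]
    exact inv_anti₀ hc h1
  have h6 : c ≤ (-(1 / m)).im := by nlinarith [h.mim]
  refine ⟨hm, h2, h3, h4, h5, (norm_sub_le _ _).trans (by linarith), ?_, h6⟩
  refine le_trans ?_ ((le_abs_self _).trans (Complex.abs_im_le_norm _))
  rw [Complex.sub_im]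
  rw [Complex.neg_im] at h6
  linarith

theorem T0d_den {D : ℕ} (hD : 2 ≤ D) {c : ℝ} (hc : 0 < c) {z m : ℂ} (h : Ref D c z m) {M : ℂ}
    (hM : 0 ≤ M.im) : c ≤ ‖M - 1 / m‖ ∧ 1 + ‖M‖ ≤ 3 * c⁻¹ ^ 2 * ‖M - 1 / m‖ ∧
      ‖M - 1 / m‖ ≤ c⁻¹ * (1 + ‖M‖) := by
  obtain ⟨hm, h2, h3, h4, h5, h6, h7, h8⟩ := T0d_basic hD hc h
  have a1 : c ≤ ‖M - 1 / m‖ := by
    refine le_trans ?_ ((le_abs_self _).trans (Complex.abs_im_le_norm _))
    rw [Complex.sub_im]
    rw [Complex.neg_im] at h8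
    linarith
  have a2 : 1 ≤ c⁻¹ * ‖M - 1 / m‖ := by
    rw [← div_eq_inv_mul, le_div_iff₀ hc, one_mul]; exact a1
  have a3 : ‖M‖ ≤ ‖M - 1 / m‖ + c⁻¹ := by
    calc ‖M‖ = ‖(M - 1 / m) + 1 / m‖ := by rw [sub_add_cancel]
      _ ≤ _ := (norm_add_le _ _).trans (by linarith)
  have a4 := norm_nonneg (M - 1 / m)
  refine ⟨a1, ?_, (norm_sub_le _ _).trans ?_⟩
  · have b1 : c⁻¹ ≤ c⁻¹ ^ 2 * ‖M - 1 / m‖ := by nlinarith
    have b2 : ‖M - 1 / m‖ ≤ c⁻¹ ^ 2 * ‖M - 1 / m‖ :=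
      le_mul_of_one_le_left a4 (one_le_pow₀ h3)
    linarith
  · nlinarith [norm_nonneg M]

theorem T0d_sub {δ u u' : ℂ} (h : u + δ ≠ 0) (h' : u' + δ ≠ 0) :
    u / (u + δ) - u' / (u' + δ) = δ * (u - u') / ((u + δ) * (u' + δ)) := by
  field_simp
  ring

theorem T0d_add {δ u u' : ℂ} (h : u + δ ≠ 0) (h' : u' + δ ≠ 0) (h'' : u + u' + δ ≠ 0) :
    (u + u') / (u + u' + δ) - u / (u + δ) - u' / (u' + δ) =
      -(u / (u + δ) * (u' / (u' + δ)) * (1 + δ / (u + u' + δ))) := by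
  field_simp
  ring

theorem T0d_zeta (m M : ℂ) : zeta m M = (M - m) / (M - m + (m - 1 / m)) := by
  unfold zeta
  congr 1
  ring

theorem T0d_rec {D : ℕ} {c : ℝ} {z m : ℂ} (hc : 0 < c) (h : Ref D c z m) {U : ℂ}
    (hU : 0 < (z + U).im) :
    zeta m (-1 / (z + U)) = m ^ 2 * ((U - D * m) / (U - D * m + (m - 1 / m))) ∧
      c ≤ ‖U - D * m + (m - 1 / m)‖ := by
  have him : 0 < m.im := hc.trans_le h.mim
  have hm : m ≠ 0 := fun e => by simp [e] at him
  have hw : z + U ≠ 0 := fun e => by simp [e] at hU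
  have hz : z = -(D * m + 1 / m) := by
    field_simp
    linear_combination h.eqn
  have e : U - D * m + (m - 1 / m) = m + (z + U) := by rw [hz]; ring
  have hs : m + (z + U) ≠ 0 := fun e' => by
    have := congrArg Complex.im e'
    rw [Complex.add_im, Complex.zero_im] at this
    linarith
  refine ⟨?_, ?_⟩
  · have e2 : m * (U - D * m) = 1 + m * (z + U) := by linear_combination -h.eqn
    have e3 : -1 / (z + U) - 1 / m = -(m + (z + U)) / ((z + U) * m) := by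
      field_simp
      ring
    rw [e, zeta, e3, sq, mul_assoc, ← mul_div_assoc, e2]
    field_simp
    ring
  · rw [e]
    refine le_trans ?_ ((le_abs_self _).trans (Complex.abs_im_le_norm _))
    rw [Complex.add_im]
    linarith [h.mim]

theorem T0d_sum {ι : Type} [DecidableEq ι] {δ : ℂ} {u : ι → ℂ} {L : ℝ} (hL : 0 ≤ L)
    (h : ∀ s : Finset ι, ∑ c ∈ s, u c + δ ≠ 0 ∧ 1 + ‖δ / (∑ c ∈ s, u c + δ)‖ ≤ L)
    (s : Finset ι) :
    ‖(∑ c ∈ s, u c) / (∑ c ∈ s, u c + δ)‖ ≤ (1 + L ^ 2) * ∑ c ∈ s, ‖u c / (u c + δ)‖ ∧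
    ‖(∑ c ∈ s, u c) / (∑ c ∈ s, u c + δ) - ∑ c ∈ s, u c / (u c + δ)‖ ≤
      L * (1 + L ^ 2) * ∑ c ∈ s, ∑ c' ∈ s,
        (if c = c' then 0 else ‖u c / (u c + δ)‖ * ‖u c' / (u c' + δ)‖) := by
  induction s using Finset.induction_on with
  | empty => simp
  | insert j s hj ih =>
    obtain ⟨i1, i2⟩ := ih
    obtain ⟨a1, a2⟩ := h s
    obtain ⟨b1, -⟩ := h {j}
    obtain ⟨c1, c2⟩ := h (insert j s)
    rw [Finset.sum_singleton] at b1
    rw [Finset.sum_insert hj] at c1 c2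
    have e := T0d_add b1 a1 c1
    set S := ∑ c ∈ s, u c with hS
    set fj := u j / (u j + δ) with hfj
    set fS := S / (S + δ) with hfS
    have n1 : ‖fS‖ ≤ L := by
      have : fS = 1 - δ / (S + δ) := by rw [hfS]; field_simp; ring
      rw [this]
      exact (norm_sub_le _ _).trans (by rw [norm_one]; exact a2)
    have n2 : ‖(u j + S) / (u j + S + δ) - fj - fS‖ ≤ ‖fj‖ * ‖fS‖ * L := by
      rw [e, norm_neg, norm_mul, norm_mul]
      exact mul_le_mul_of_nonneg_left ((norm_add_le _ _).trans (by rw [norm_one]; exact c2))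
        (by positivity)
    have p1 := norm_nonneg fj
    have p2 := norm_nonneg fS
    rw [Finset.sum_insert hj, Finset.sum_insert hj, Finset.sum_insert hj]
    refine ⟨?_, ?_⟩
    · have t1 : ‖(u j + S) / (u j + S + δ)‖ ≤
          ‖(u j + S) / (u j + S + δ) - fj - fS‖ + ‖fj‖ + ‖fS‖ := by
        calc _ = ‖((u j + S) / (u j + S + δ) - fj - fS) + fj + fS‖ := by congr 1; ring
          _ ≤ _ := (norm_add_le _ _).trans (by gcongr; exact norm_add_le _ _)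
      have t2 : ‖fj‖ * ‖fS‖ * L ≤ ‖fj‖ * L * L := by gcongr
      rw [← hfj, mul_add]
      nlinarith
    · have t1 : ‖(u j + S) / (u j + S + δ) - (fj + ∑ c ∈ s, u c / (u c + δ))‖ ≤
          ‖(u j + S) / (u j + S + δ) - fj - fS‖ + ‖fS - ∑ c ∈ s, u c / (u c + δ)‖ := by
        calc _ = ‖((u j + S) / (u j + S + δ) - fj - fS) + (fS - ∑ c ∈ s, u c / (u c + δ))‖ := by
              congr 1; ring
          _ ≤ _ := norm_add_le _ _
      have t2 : ‖fj‖ * ‖fS‖ * L ≤ ‖fj‖ * ((1 + L ^ 2) * ∑ c ∈ s, ‖u c / (u c + δ)‖) * L := by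
        gcongr
      have t3 : ‖fj‖ * ∑ c ∈ s, ‖u c / (u c + δ)‖ + ∑ c ∈ s, ∑ c' ∈ s,
          (if c = c' then 0 else ‖u c / (u c + δ)‖ * ‖u c' / (u c' + δ)‖) ≤
          ∑ c ∈ insert j s, ∑ c' ∈ insert j s,
            (if c = c' then 0 else ‖u c / (u c + δ)‖ * ‖u c' / (u c' + δ)‖) := by
        rw [Finset.sum_insert hj, Finset.sum_insert hj, if_pos rfl, zero_add, Finset.mul_sum]
        refine add_le_add (le_of_eq (Finset.sum_congr rfl fun c hc => ?_))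
          (Finset.sum_le_sum fun c _ => Finset.sum_le_sum_of_subset_of_nonneg
            (Finset.subset_insert _ _) fun _ _ _ => by positivity)
        rw [if_neg (fun e : j = c => hj (e ▸ hc))]
      have t4 := mul_le_mul_of_nonneg_left t3 (by positivity : 0 ≤ L * (1 + L ^ 2))
      rw [← hfj]
      nlinarith

/-- (P1) pointwise facts on the bounded coordinate -/
theorem zeta_pointwise {D : ℕ} (hD : 2 ≤ D) {c₀ : ℝ} (hc : 0 < c₀) : ∃ C : ℝ, 0 < C ∧
    ∀ z m : ℂ, Ref D c₀ z m →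
      (∀ M : ℂ, 0 ≤ M.im → ‖zeta m M‖ ≤ C ∧ ‖zeta m M‖ ≤ C * ‖M - m‖ ∧
        min 1 ‖M - m‖ ≤ C * ‖zeta m M‖) ∧
      (∀ M M' : ℂ, 0 ≤ M.im → 0 ≤ M'.im →
        ‖zeta m M - zeta m M'‖ * ((1 + ‖M‖) * (1 + ‖M'‖)) ≤ C * ‖M - M'‖ ∧
        ‖M - M'‖ ≤ C * ‖zeta m M - zeta m M'‖ * ((1 + ‖M‖) * (1 + ‖M'‖))) ∧
      (∀ U U' : ℂ, 0 < (z + U).im → 0 < (z + U').im → 0 ≤ U.im → 0 ≤ U'.im →
        ‖zeta m (-1 / (z + U)) - zeta m (-1 / (z + U'))‖ ≤ C * ‖U - U'‖) ∧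
      ∀ (t : ℂ) (M : Fin D → ℂ), 0 ≤ t.im → (∀ c, 0 < (M c).im) →
        ‖zeta m (recF z t M) - m ^ 2 * ∑ c, zeta m (M c)‖ ≤
          C * (∑ c, ∑ c', (if c = c' then 0 else ‖zeta m (M c)‖ * ‖zeta m (M c')‖) + ‖t‖) := by
  have hk : 0 < c₀⁻¹ := inv_pos.2 hc
  set k := c₀⁻¹ with hkdef
  set L := 1 + 2 * k ^ 2 with hLdef
  have hL : 0 < L := by positivity
  refine ⟨18 * k ^ 5 + L * (1 + L ^ 2), by positivity, fun z m h => ?_⟩
  obtain ⟨hm, h2, h3, h4, h5, h6, h7, h8⟩ := T0d_basic hD hc h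
  rw [← hkdef] at h3 h5 h6
  set C := 18 * k ^ 5 + L * (1 + L ^ 2) with hC
  have hL' : 0 < L * (1 + L ^ 2) := by positivity
  have k1 : ∀ n, n ≤ 5 → 18 * k ^ n ≤ C := fun n hn => by
    have := pow_le_pow_right₀ h3 hn
    linarith
  have hck : c₀ * k = 1 := mul_inv_cancel₀ hc.ne'
  have h3' : ∀ U U' : ℂ, 0 < (z + U).im → 0 < (z + U').im →
      ‖zeta m (-1 / (z + U)) - zeta m (-1 / (z + U'))‖ ≤ C * ‖U - U'‖ := by
    intro U U' hU hU'
    obtain ⟨a1, a2⟩ := T0d_rec hc h hU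
    obtain ⟨b1, b2⟩ := T0d_rec hc h hU'
    have a3 := hc.trans_le a2
    have b3 := hc.trans_le b2
    rw [a1, b1, ← mul_sub, T0d_sub (norm_pos_iff.1 a3) (norm_pos_iff.1 b3), norm_mul, norm_div,
      norm_mul, norm_mul, sub_sub_sub_cancel_right, norm_pow]
    calc ‖m‖ ^ 2 * (‖m - 1 / m‖ * ‖U - U'‖ /
          (‖U - D * m + (m - 1 / m)‖ * ‖U' - D * m + (m - 1 / m)‖))
        ≤ 1 ^ 2 * (2 * k * ‖U - U'‖ / (c₀ * c₀)) := by gcongr
      _ = 2 * k ^ 3 * ‖U - U'‖ := by rw [hkdef]; field_simp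
      _ ≤ C * ‖U - U'‖ := by
          have := k1 3 (by norm_num)
          have : 0 < k ^ 3 := by positivity
          gcongr; linarith
  refine ⟨fun M hM => ?_, fun M M' hM hM' => ?_, fun U U' hU hU' _ _ => h3' U U' hU hU',
    fun t M ht hM => ?_⟩
  · obtain ⟨a1, a2, a3⟩ := T0d_den hD hc h hM
    rw [← hkdef] at a2 a3
    have a0 := hc.trans_le a1
    have p1 := norm_nonneg (M - m)
    have e : ‖zeta m M‖ = ‖M - m‖ / ‖M - 1 / m‖ := norm_div _ _
    have q1 := k1 1 (by norm_num)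
    have q2 := k1 2 (by norm_num)
    rw [pow_one] at q1
    have q3 : 0 < k ^ 2 := by positivity
    rw [e]
    refine ⟨?_, ?_, ?_⟩
    · rw [div_le_iff₀ a0]
      have : ‖M - m‖ ≤ 1 + ‖M‖ := (norm_sub_le _ _).trans (by linarith)
      calc ‖M - m‖ ≤ 3 * k ^ 2 * ‖M - 1 / m‖ := this.trans a2
        _ ≤ C * ‖M - 1 / m‖ := by gcongr; linarith
    · calc ‖M - m‖ / ‖M - 1 / m‖ ≤ ‖M - m‖ / c₀ := by gcongr
        _ = k * ‖M - m‖ := by rw [hkdef]; field_simp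
        _ ≤ C * ‖M - m‖ := by gcongr; linarith
    · have b1 : ‖M - 1 / m‖ ≤ ‖M - m‖ + 2 * k := by
        calc ‖M - 1 / m‖ = ‖(M - m) + (m - 1 / m)‖ := by congr 1; ring
          _ ≤ _ := (norm_add_le _ _).trans (by linarith)
      rw [← mul_div_assoc, le_div_iff₀ a0]
      have b2 : 3 * k * ‖M - m‖ ≤ C * ‖M - m‖ := by gcongr; linarith
      refine le_trans ?_ b2
      rcases le_total 1 ‖M - m‖ with r | r
      · rw [min_eq_left r]
        nlinarith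
      · rw [min_eq_right r]
        have : ‖M - 1 / m‖ ≤ 3 * k := by linarith
        nlinarith
  · obtain ⟨a1, a2, a3⟩ := T0d_den hD hc h hM
    obtain ⟨b1, b2, b3⟩ := T0d_den hD hc h hM'
    rw [← hkdef] at a2 a3 b2 b3
    have a0 := hc.trans_le a1
    have b0 := hc.trans_le b1
    have d0 := hc.trans_le h7
    have e0 : ∀ N : ℂ, N - m + (m - 1 / m) = N - 1 / m := fun N => by ring
    have e : ‖zeta m M - zeta m M'‖ =
        ‖m - 1 / m‖ * ‖M - M'‖ / (‖M - 1 / m‖ * ‖M' - 1 / m‖) := by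
      rw [T0d_zeta, T0d_zeta, T0d_sub (by rw [e0]; exact norm_pos_iff.1 a0)
        (by rw [e0]; exact norm_pos_iff.1 b0), e0, e0, sub_sub_sub_cancel_right, norm_div, norm_mul,
        norm_mul]
    generalize ‖M - 1 / m‖ = A at *
    generalize ‖M' - 1 / m‖ = B at *
    generalize ‖m - 1 / m‖ = E at *
    refine ⟨?_, ?_⟩
    · calc ‖zeta m M - zeta m M'‖ * ((1 + ‖M‖) * (1 + ‖M'‖))
          ≤ ‖zeta m M - zeta m M'‖ *
            ((3 * k ^ 2 * A) * (3 * k ^ 2 * B)) := by gcongr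
        _ = 9 * k ^ 4 * E * ‖M - M'‖ := by rw [e]; field_simp; ring
        _ ≤ 9 * k ^ 4 * (2 * k) * ‖M - M'‖ := by gcongr
        _ = 18 * k ^ 5 * ‖M - M'‖ := by ring
        _ ≤ C * ‖M - M'‖ := by gcongr; exact k1 5 le_rfl
    · calc ‖M - M'‖ = ‖zeta m M - zeta m M'‖ * (A * B) / E := by
            rw [e]; field_simp
        _ ≤ ‖zeta m M - zeta m M'‖ * ((k * (1 + ‖M‖)) * (k * (1 + ‖M'‖))) / c₀ := by gcongr
        _ = k ^ 3 * ‖zeta m M - zeta m M'‖ * ((1 + ‖M‖) * (1 + ‖M'‖)) := by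
            rw [hkdef]; field_simp
        _ ≤ C * ‖zeta m M - zeta m M'‖ * ((1 + ‖M‖) * (1 + ‖M'‖)) := by
            have := k1 3 (by norm_num)
            have : 0 < k ^ 3 := by positivity
            gcongr; linarith
  · have hS : 0 < (∑ c, M c).im := by
      rw [Complex.im_sum]
      have : Nonempty (Fin D) := ⟨⟨0, by omega⟩⟩
      exact Finset.sum_pos (fun c _ => hM c) Finset.univ_nonempty
    have hz := h.zim
    have u1 : 0 < (z + (t + ∑ c, M c)).im := by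
      rw [Complex.add_im, Complex.add_im]; linarith
    have u2 : 0 < (z + ∑ c, M c).im := by
      rw [Complex.add_im]; linarith
    have a1 := h3' _ _ u1 u2
    rw [add_sub_cancel_right] at a1
    obtain ⟨b1, -⟩ := T0d_rec hc h u2
    have hsub : ∀ s : Finset (Fin D), ∑ c ∈ s, (M c - m) + (m - 1 / m) ≠ 0 ∧
        1 + ‖(m - 1 / m) / (∑ c ∈ s, (M c - m) + (m - 1 / m))‖ ≤ L := by
      intro s
      have c1 : c₀ ≤ ‖∑ c ∈ s, (M c - m) + (m - 1 / m)‖ := by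
        refine le_trans ?_ ((le_abs_self _).trans (Complex.abs_im_le_norm _))
        have him : 0 < m.im := hc.trans_le h.mim
        have c2 : -(D * m.im) ≤ ∑ c ∈ s, (M c - m).im := by
          calc -(D * m.im) ≤ -(s.card * m.im) := by
                have : (s.card : ℝ) ≤ D := by exact_mod_cast card_finset_fin_le s
                nlinarith
            _ = ∑ _c ∈ s, -m.im := by simp
            _ ≤ _ := Finset.sum_le_sum fun c _ => by
                rw [Complex.sub_im]; linarith [hM c]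
        rw [Complex.add_im, Complex.im_sum, Complex.sub_im m]
        rw [Complex.neg_im] at h4
        linarith [h.mim]
      refine ⟨norm_pos_iff.1 (hc.trans_le c1), ?_⟩
      rw [norm_div, hLdef]
      have : ‖m - 1 / m‖ / ‖∑ c ∈ s, (M c - m) + (m - 1 / m)‖ ≤ 2 * k ^ 2 := by
        calc _ ≤ 2 * k / c₀ := by gcongr
          _ = 2 * k ^ 2 := by rw [hkdef]; field_simp
      linarith
    obtain ⟨-, d2⟩ := T0d_sum hL.le hsub Finset.univ
    have e1 : ∑ c, (M c - m) = ∑ c, M c - D * m := by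
      rw [Finset.sum_sub_distrib]; simp
    simp only [← T0d_zeta] at d2
    rw [e1] at d2
    have e2 : recF z t M = -1 / (z + (t + ∑ c, M c)) := by rw [recF, add_assoc]
    have hX : 0 ≤ ∑ c, ∑ c', (if c = c' then 0 else ‖zeta m (M c)‖ * ‖zeta m (M c')‖) :=
      Finset.sum_nonneg fun c _ => Finset.sum_nonneg fun c' _ => by positivity
    have d3 : ‖zeta m (-1 / (z + ∑ c, M c)) - m ^ 2 * ∑ c, zeta m (M c)‖ ≤
        C * ∑ c, ∑ c', (if c = c' then 0 else ‖zeta m (M c)‖ * ‖zeta m (M c')‖) := by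
      rw [b1, ← mul_sub, norm_mul, norm_pow]
      refine (mul_le_of_le_one_left (norm_nonneg _) (pow_le_one₀ (norm_nonneg _) h2)).trans
        (d2.trans (mul_le_mul_of_nonneg_right ?_ hX))
      have : 0 < k ^ 5 := by positivity
      linarith
    rw [e2, mul_add]
    calc _ = ‖(zeta m (-1 / (z + ∑ c, M c)) - m ^ 2 * ∑ c, zeta m (M c)) +
          (zeta m (-1 / (z + (t + ∑ c, M c))) - zeta m (-1 / (z + ∑ c, M c)))‖ := by
          congr 1; ring
      _ ≤ _ := (norm_add_le _ _).trans (add_le_add d3 a1)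

end Crest.Agent.R166
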