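import Crest.Agent.R166.PartT0

/-! # The tree stays close to the clean value -/

set_option autoImplicit false
set_option linter.unusedVariables false
set_option linter.unusedSectionVars false

open MeasureTheory ProbabilityTheory Filter Topology Matrix
open scoped ENNReal BoundedContinuousFunction

namespace Crest.Agent.R166

theorem T2_ineq {D : ℕ} (hD : 2 ≤ D) {c₀ : ℝ} (hc : 0 < c₀) : ∃ K : ℝ, 0 < K ∧
    ∀ z m : ℂ, Ref D c₀ z m → 0 < z.im → ∀ (β : Measure J) [IsProbabilityMeasure β] (s : ℝ),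
      0 ≤ s → ∫ e, ‖zeta m (mT s z e)‖ ^ 2 ∂(envLaw D β) ≤
        K * ((∫ e, ‖zeta m (mT s z e)‖ ^ 2 ∂(envLaw D β)) ^ 2 + s ^ 2) := by
  obtain ⟨C, hC, h⟩ := ab_step hD hc
  obtain ⟨B, hB, hζ⟩ := zeta_pointwise hD hc
  refine ⟨4 * C * (2 * (C / c₀) ^ 2 + 1), by positivity, fun z m hR hz β _ s hs => ?_⟩
  have hm : Measurable (mT (D := D) s z) := measurable_mT hz
  have hb : ∀ e : Env D, ‖zeta m (mT s z e)‖ ≤ B := fun e =>
    ((hζ z m hR).1 _ (mT_im_pos hz e).le).1
  have := Measure.isProbabilityMeasure_map (μ := envLaw D β) hm.aemeasurable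
  have hpos : ∀ᵐ M ∂((envLaw D β).map (mT s z)), 0 < M.im :=
    (ae_map_iff hm.aemeasurable (measurableSet_lt measurable_const Complex.measurable_im)).2
      (ae_of_all _ fun e => mT_im_pos hz e)
  obtain ⟨t, ht⟩ : ∃ t : J → ℂ, t = fun v : J => z - z - ((s * (v : ℝ) : ℝ) : ℂ) := ⟨_, rfl⟩
  have ht0 : ∀ v, 0 ≤ (t v).im := fun v => by simp [ht]
  have ht1 : ∀ v, ‖t v‖ ≤ s := fun v => by
    rw [ht]
    simp only [sub_self, zero_sub, norm_neg, Complex.norm_real, norm_mul, Real.norm_eq_abs,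
      abs_of_nonneg hs]
    exact mul_le_of_le_one_right hs (abs_le.2 v.2)
  have htm : Measurable t := by rw [ht]; fun_prop
  have hψ : Measurable fun p : J × (Fin D → ℂ) => zeta m (recF z (t p.1) p.2) := by
    have h1 : Measurable fun p : J × (Fin D → ℂ) => (t p.1, p.2) :=
      (htm.comp measurable_fst).prodMk measurable_snd
    have h2 := (measurable_zeta m).comp ((measurable_recF (D := D) z).comp h1)
    simpa only [Function.comp_def] using h2
  have hrec : ∀ e : Env D, recF z (t (e [])) (fun c => mT s z (e.sub c)) = mT s z e := fun e => by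
    rw [ht]; exact (mT_eq_recF hz z e).symm
  have hzm := (measurable_zeta m).comp hm
  have f1 := integral_tree_fix β hm hψ (by
    simp only [hrec]
    exact integrable_of_ae_bdd _ hzm (ae_of_all _ hb))
  have f2 := integral_tree_fix β hm (hψ.norm.pow_const 2) (by
    simp only [hrec]
    exact integrable_of_ae_bdd _ (hzm.norm.pow_const 2) (B := B ^ 2) (ae_of_all _ fun e => by
      rw [norm_pow, norm_norm]
      exact pow_le_pow_left₀ (norm_nonneg _) (hb e) 2))
  simp only [hrec] at f1 f2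
  have h1 := fun v => h z m hR _ hpos (t v) (ht0 v)
  rw [integral_map hm.aemeasurable (measurable_zeta m).aestronglyMeasurable,
    integral_map hm.aemeasurable ((measurable_zeta m).norm.pow_const 2).aestronglyMeasurable] at h1
  have hy0 : 0 ≤ ∫ e, ‖zeta m (mT s z e)‖ ^ 2 ∂(envLaw D β) := integral_nonneg fun e => sq_nonneg _
  generalize ∫ e, ‖zeta m (mT s z e)‖ ^ 2 ∂(envLaw D β) = y at *
  generalize ∫ e, zeta m (mT s z e) ∂(envLaw D β) = x at *
  have g1 : c₀ * ‖x‖ ≤ C * (y + s) := by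
    by_cases hi : Integrable (fun v => ∫ M, zeta m (recF z (t v) M)
      ∂(Measure.pi fun _ : Fin D => (envLaw D β).map (mT s z))) β
    · have h2 := norm_integral_le_of_norm_le_const (μ := β) (C := C * (y + s))
        (ae_of_all _ fun v => (h1 v).1.trans
          (mul_le_mul_of_nonneg_left (add_le_add le_rfl (ht1 v)) hC.le))
      rw [integral_sub hi (integrable_const _), ← f1, integral_const, probReal_univ, one_smul,
        mul_one, ← one_sub_mul, norm_mul] at h2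
      exact (mul_le_mul_of_nonneg_right hR.gap (norm_nonneg _)).trans h2
    · rw [f1, integral_undef hi, norm_zero, mul_zero]
      positivity
  have g2 : y ≤ 3 / 4 * y + C * (‖x‖ ^ 2 + y ^ 2 + s ^ 2) := by
    have h2 := integral_mono_of_nonneg (μ := β) (ae_of_all _ fun v => integral_nonneg fun M =>
      sq_nonneg ‖zeta m (recF z (t v) M)‖)
      (integrable_const (3 / 4 * y + C * (‖x‖ ^ 2 + y ^ 2 + s ^ 2)))
      (ae_of_all _ fun v => (h1 v).2.trans (add_le_add le_rfl (mul_le_mul_of_nonneg_left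
        (add_le_add le_rfl (pow_le_pow_left₀ (norm_nonneg _) (ht1 v) 2)) hC.le)))
    rwa [← f2, integral_const, probReal_univ, one_smul] at h2
  have g3 : ‖x‖ ≤ C / c₀ * (y + s) := by
    rw [div_mul_eq_mul_div, le_div_iff₀ hc, mul_comm]; exact g1
  have g4 : ‖x‖ ^ 2 ≤ 2 * (C / c₀) ^ 2 * (y ^ 2 + s ^ 2) := by
    refine (pow_le_pow_left₀ (norm_nonneg _) g3 2).trans ?_
    nlinarith [mul_nonneg (sq_nonneg (C / c₀)) (sq_nonneg (y - s))]
  nlinarith [mul_le_mul_of_nonneg_left g4 hC.le]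

theorem T2_boot {y : ℝ → ℝ} {K a s₀ : ℝ} (hy : Continuous y) (h0 : y 0 = 0) (hK : 0 < K)
    (ha : 0 < a) (hKa : K * a ≤ 1 / 2) (hs : K * s₀ ^ 2 < a / 2)
    (h : ∀ s, 0 ≤ s → y s ≤ K * (y s ^ 2 + s ^ 2)) {s : ℝ} (h1 : 0 ≤ s) (h2 : s ≤ s₀) :
    y s ≤ a := by
  by_contra hlt
  obtain ⟨u, hu, hua⟩ := intermediate_value_Icc h1 hy.continuousOn
    (show a ∈ Set.Icc (y 0) (y s) from ⟨h0.le.trans ha.le, (not_le.1 hlt).le⟩)
  have h3 := h u hu.1
  rw [hua] at h3
  have h4 := mul_le_mul_of_nonneg_left (pow_le_pow_left₀ hu.1 (hu.2.trans h2) 2) hK.le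
  nlinarith [mul_le_mul_of_nonneg_right hKa ha.le]

/-- the tree cavity law stays close to the clean value down to the real axis -/
theorem tree_close {D : ℕ} (hD : 2 ≤ D) {κ δ τ : ℝ} (hκ : 0 < κ) (hδ : 0 < δ) (hτ : 0 < τ) :
    ∃ (s₀ : ℝ) (j₀ : ℕ), 0 < s₀ ∧ ∀ s : ℝ, 0 ≤ s → s < s₀ → ∀ (β : Measure J)
      [IsProbabilityMeasure β] (E : ℝ), E ^ 2 ≤ 4 * D - κ → ∀ j, j₀ ≤ j →
      (envLaw D β).real {e | δ ≤ ‖mT s (zj E j) e - mc D E‖} ≤ τ := by
  obtain ⟨c₀, η₁, C, hc, hη, -, hband⟩ := ref_band hD hκ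
  obtain ⟨K, hK, hineq⟩ := T2_ineq hD hc
  obtain ⟨B, hB, hζ⟩ := zeta_pointwise hD hc
  obtain ⟨r, hr⟩ : ∃ r : ℝ, r = min 1 (δ / 2) / B := ⟨_, rfl⟩
  have hr0 : 0 < r := by rw [hr]; positivity
  obtain ⟨a, ha⟩ : ∃ a : ℝ, a = min (1 / (2 * K)) (r ^ 2 * τ) := ⟨_, rfl⟩
  have ha0 : 0 < a := by rw [ha]; positivity
  have hKa : K * a ≤ 1 / 2 := by
    have : a ≤ 1 / (2 * K) := ha ▸ min_le_left _ _
    rw [le_div_iff₀ (by positivity)] at this
    linarith
  obtain ⟨j₀, hj₀⟩ := eventually_atTop.1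
    ((tendsto_pow_atTop_nhds_zero_of_lt_one (r := (2⁻¹ : ℝ)) (by norm_num) (by norm_num)).eventually
      (ge_mem_nhds (show (0 : ℝ) < min η₁ (δ / 2 / (|C| + 1)) by positivity)))
  refine ⟨√(a / (4 * K)), j₀, by positivity, fun s hs hs' β _ E hE j hj => ?_⟩
  have hz := zj_im_pos E j
  have hp : (0 : ℝ) < 2⁻¹ ^ j := by positivity
  obtain ⟨hR, hm, -⟩ := (hband E hE).2 _ hp ((hj₀ j hj).trans (min_le_left _ _))
  change Ref D c₀ (zj E j) (mz D (zj E j)) at hR
  change ‖mz D (zj E j) - mc D E‖ ≤ _ at hm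
  have hm' : ‖mz D (zj E j) - mc D E‖ ≤ δ / 2 := by
    have h1 := (hj₀ j hj).trans (min_le_right _ _)
    rw [le_div_iff₀ (by positivity)] at h1
    nlinarith [le_abs_self C]
  generalize zj E j = z at *
  obtain ⟨z1, z2, -⟩ := hζ z _ hR
  have hmeas : ∀ u : ℝ, Measurable fun e : Env D => ‖zeta (mz D z) (mT u z e)‖ ^ 2 := fun u =>
    ((measurable_zeta _).comp (measurable_mT hz)).norm.pow_const 2
  have hbd : ∀ (u : ℝ) (e : Env D), ‖‖zeta (mz D z) (mT u z e)‖ ^ 2‖ ≤ B ^ 2 := fun u e => by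
    rw [norm_pow, norm_norm]
    exact pow_le_pow_left₀ (norm_nonneg _) (z1 _ (mT_im_pos hz e).le).1 2
  have hcont : Continuous fun u : ℝ => ∫ e, ‖zeta (mz D z) (mT u z e)‖ ^ 2 ∂(envLaw D β) := by
    refine continuous_of_dominated (fun u => (hmeas u).aestronglyMeasurable)
      (fun u => ae_of_all _ (hbd u)) (integrable_const _) (ae_of_all _ fun e => ?_)
    refine (LipschitzWith.of_dist_le' (K := B / z.im ^ 2) fun u u' => ?_).continuous.norm.pow 2
    have h1 := (z2 _ _ (mT_im_pos (s := u) hz e).le (mT_im_pos (s := u') hz e).le).1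
    have h2 := mul_le_mul_of_nonneg_left (mT_lip_s u u' hz e) hB.le
    rw [dist_eq_norm, Real.dist_eq, div_mul_eq_mul_div, mul_div_assoc]
    refine le_trans (le_mul_of_one_le_right (norm_nonneg _) ?_) (h1.trans h2)
    exact one_le_mul_of_one_le_of_one_le (by simp) (by simp)
  have hy := T2_boot (s₀ := √(a / (4 * K))) hcont (by simp [mT_zero, zeta]) hK ha0 hKa (by
    rw [Real.sq_sqrt (by positivity)]
    have : K * (a / (4 * K)) = a / 4 := by field_simp
    linarith) (fun u hu => hineq z _ hR hz β u hu) hs hs'.le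
  have hM := mul_meas_ge_le_integral_of_nonneg (μ := envLaw D β)
    (f := fun e => ‖zeta (mz D z) (mT s z e)‖ ^ 2) (ae_of_all _ fun e => sq_nonneg _)
    (integrable_of_ae_bdd _ (hmeas s) (ae_of_all _ (hbd s))) (r ^ 2)
  refine (measureReal_mono fun e he => ?_).trans
    (le_of_mul_le_mul_left (hM.trans (hy.trans (ha ▸ min_le_right _ _))) (by positivity))
  have h1 : δ / 2 ≤ ‖mT s z e - mz D z‖ := by
    have h2 : δ ≤ ‖mT s z e - mc D E‖ := he
    linarith [norm_sub_le_norm_sub_add_norm_sub (mT s z e) (mz D z) (mc D E)]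
  refine pow_le_pow_left₀ hr0.le ?_ 2
  rw [hr, div_le_iff₀ hB, mul_comm]
  exact (min_le_min le_rfl h1).trans (z1 _ (mT_im_pos hz e).le).2.2

end Crest.Agent.R166
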