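import Crest.Agent.R166.Defs

/-! # Gaussian toolbox: linear images, integration by parts, shifts -/

set_option autoImplicit false
set_option linter.unusedVariables false
set_option linter.unusedSectionVars false

open MeasureTheory ProbabilityTheory Filter Topology Matrix
open scoped ENNReal BoundedContinuousFunction

namespace Crest.Agent.R166

section Aux

open Real

theorem gauss1_char {I : Type} [Fintype I] (w : I → ℝ) :
    ∫ g : I → ℝ, Complex.exp (((∑ i, w i * g i : ℝ) : ℂ) * Complex.I) ∂(gpi I) =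
      Complex.exp (-(((∑ i, w i ^ 2 : ℝ) : ℂ) / 2)) := by
  have h1 : ∀ g : I → ℝ, Complex.exp (((∑ i, w i * g i : ℝ) : ℂ) * Complex.I) =
      ∏ i, Complex.exp ((w i : ℂ) * (g i : ℂ) * Complex.I) := by
    intro g
    rw [← Complex.exp_sum]
    push_cast
    rw [Finset.sum_mul]
  simp_rw [h1]
  unfold gpi
  rw [integral_fintype_prod_eq_prod (fun i (x : ℝ) => Complex.exp ((w i : ℂ) * (x : ℂ) * Complex.I))]
  simp_rw [← charFun_apply_real, charFun_gaussianReal]
  rw [← Complex.exp_sum]
  congr 1
  push_cast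
  rw [Finset.sum_div, ← Finset.sum_neg_distrib]
  exact Finset.sum_congr rfl fun i _ => by simp

theorem gauss1_int_norm (I : Type) [Fintype I] (C : ℝ) :
    Integrable (fun g : I → ℝ => exp (C * ‖g‖)) (gpi I) := by
  have h1 : ∀ c : ℝ, Integrable (fun x : ℝ => exp (c * |x|)) (gaussianReal 0 1) := by
    intro c
    have ha := integrable_exp_mul_gaussianReal (μ := 0) (v := 1) c
    have hb := integrable_exp_mul_gaussianReal (μ := 0) (v := 1) (-c)
    refine (ha.add hb).mono' (by fun_prop) (Filter.Eventually.of_forall fun x => ?_)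
    rw [Real.norm_eq_abs, abs_of_pos (exp_pos _)]
    have := exp_pos (c * x)
    have := exp_pos (-c * x)
    rcases abs_cases x with h | h
    · simp only [Pi.add_apply, h.1]; linarith
    · simp only [Pi.add_apply, h.1]
      have : c * -x = -c * x := by ring
      rw [this]; linarith
  have h2 : Integrable (fun g : I → ℝ => ∏ i, exp (|C| * |g i|)) (gpi I) :=
    Integrable.fintype_prod (f := fun _ x => exp (|C| * |x|)) (fun _ => h1 _)
  refine h2.mono' (by fun_prop) (Filter.Eventually.of_forall fun g => ?_)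
  rw [Real.norm_eq_abs, abs_of_pos (exp_pos _), ← exp_sum, ← Finset.mul_sum]
  apply exp_le_exp.2
  have hn : ‖g‖ ≤ ∑ i, |g i| := by
    refine (pi_norm_le_iff_of_nonneg (Finset.sum_nonneg fun i _ => abs_nonneg _)).2 fun i => ?_
    exact Finset.single_le_sum (f := fun i => |g i|) (fun i _ => abs_nonneg _) (Finset.mem_univ i)
  calc C * ‖g‖ ≤ |C| * ‖g‖ := mul_le_mul_of_nonneg_right (le_abs_self C) (norm_nonneg _)
    _ ≤ _ := mul_le_mul_of_nonneg_left hn (abs_nonneg C)

theorem gauss1_int_exp (C : ℝ) : Integrable (fun x : ℝ => exp (C * (1 + |x|))) (gaussianReal 0 1) := by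
  have h := integrable_exp_mul_abs (X := fun x : ℝ => x) (t := C)
    (integrable_exp_mul_gaussianReal (μ := 0) (v := 1) C)
    (integrable_exp_mul_gaussianReal (μ := 0) (v := 1) (-C))
  refine (h.const_mul (exp C)).congr (Filter.Eventually.of_forall fun x => ?_)
  simp only [← exp_add]
  congr 1
  ring

theorem gauss1_mul_le {x a b C : ℝ} (hx : |x| ≤ a) (hb : |b| ≤ exp (C * (1 + a))) :
    |x * b| ≤ exp ((C + 1) * (1 + a)) := by
  rw [abs_mul, add_mul, exp_add, mul_comm]
  refine mul_le_mul hb ?_ (abs_nonneg _) (exp_pos _).le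
  have := add_one_le_exp (1 * (1 + a))
  linarith

theorem gauss1_exp_le {C a b D : ℝ} (ha : 0 ≤ a) (h : 1 + a ≤ D * (1 + b)) :
    exp (C * (1 + a)) ≤ exp (|C| * D * (1 + b)) := by
  refine exp_le_exp.2 ?_
  calc C * (1 + a) ≤ |C| * (1 + a) := mul_le_mul_of_nonneg_right (le_abs_self C) (by linarith)
    _ ≤ |C| * (D * (1 + b)) := mul_le_mul_of_nonneg_left h (abs_nonneg C)
    _ = _ := by ring

/-- one-dimensional Gaussian integration by parts -/
theorem gauss1_ibp {f f' : ℝ → ℝ} (hf : ∀ x, HasDerivAt f (f' x) x) {C : ℝ}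
    (hb : ∀ x, |f x| ≤ exp (C * (1 + |x|)) ∧ |f' x| ≤ exp (C * (1 + |x|))) :
    ∫ x, x * f x ∂(gaussianReal 0 1) = ∫ x, f' x ∂(gaussianReal 0 1) := by
  have hc : Continuous f := continuous_iff_continuousAt.2 fun x => (hf x).continuousAt
  have hm' : Measurable f' := by
    have : f' = deriv f := funext fun x => (hf x).deriv.symm
    rw [this]
    exact measurable_deriv f
  have i0 : Integrable f (gaussianReal 0 1) :=
    (gauss1_int_exp C).mono' hc.aestronglyMeasurable (Filter.Eventually.of_forall fun x => (hb x).1)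
  have i1 : Integrable f' (gaussianReal 0 1) :=
    (gauss1_int_exp C).mono' hm'.aestronglyMeasurable (Filter.Eventually.of_forall fun x => (hb x).2)
  have i2 : Integrable (fun x => x * f x) (gaussianReal 0 1) :=
    (gauss1_int_exp (C + 1)).mono' (continuous_id.mul hc).aestronglyMeasurable
      (Filter.Eventually.of_forall fun x => gauss1_mul_le le_rfl (hb x).1)
  have hv : ∀ {g : ℝ → ℝ}, Integrable g (gaussianReal 0 1) →
      Integrable (fun x => gaussianPDFReal 0 1 x * g x) := fun {g} hg => by
    rw [gaussianReal_of_var_ne_zero _ one_ne_zero,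
      integrable_withDensity_iff_integrable_smul' (measurable_gaussianPDF _ _)
        (Filter.Eventually.of_forall fun _ => gaussianPDF_lt_top)] at hg
    simpa using hg
  have hp : ∀ x, HasDerivAt (gaussianPDFReal 0 1) (-(x * gaussianPDFReal 0 1 x)) x := fun x => by
    have h1 : HasDerivAt (fun x : ℝ => -(x - 0) ^ 2 / (2 * ((1 : NNReal) : ℝ))) (-x) x := by
      have := ((((hasDerivAt_id' x).sub_const 0).fun_pow 2).fun_neg).div_const
        (2 * ((1 : NNReal) : ℝ))
      refine this.congr_deriv ?_
      simp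
      ring
    have h2 := h1.exp.const_mul (√(2 * π * ((1 : NNReal) : ℝ)))⁻¹
    refine HasDerivAt.congr_deriv h2 ?_
    rw [gaussianPDFReal]
    ring
  have h0 := integral_eq_zero_of_hasDerivAt_of_integrable
    (f := fun x => gaussianPDFReal 0 1 x * f x)
    (f' := fun x => gaussianPDFReal 0 1 x * f' x - gaussianPDFReal 0 1 x * (x * f x))
    (fun x => ((hp x).fun_mul (hf x)).congr_deriv (by ring)) ((hv i1).sub (hv i2)) (hv i0)
  rw [integral_sub (hv i1) (hv i2)] at h0
  rw [integral_gaussianReal_eq_integral_smul one_ne_zero,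
    integral_gaussianReal_eq_integral_smul one_ne_zero]
  simp only [smul_eq_mul]
  linarith

theorem gauss1_update {I : Type} [Fintype I] [DecidableEq I] (i : I) :
    MeasurePreserving (fun p : (I → ℝ) × ℝ => Function.update p.1 i p.2)
      ((gpi I).prod (gaussianReal 0 1)) (gpi I) := by
  have hm : Measurable (fun p : (I → ℝ) × ℝ => Function.update p.1 i p.2) := measurable_update'
  refine ⟨hm, (Measure.pi_eq fun s hs => ?_).symm⟩
  have e : (fun p : (I → ℝ) × ℝ => Function.update p.1 i p.2) ⁻¹' Set.univ.pi s =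
      (Set.univ.pi (Function.update s i Set.univ)) ×ˢ s i := by
    ext p
    simp only [Set.mem_preimage, Set.mem_univ_pi, Set.mem_prod]
    constructor
    · intro h
      refine ⟨fun j => ?_, by simpa using h i⟩
      by_cases hj : j = i
      · subst hj
        simp
      · simpa [hj] using h j
    · rintro ⟨h1, h2⟩ j
      by_cases hj : j = i
      · subst hj
        simpa using h2
      · simpa [hj] using h1 j
  rw [Measure.map_apply hm (MeasurableSet.univ_pi hs), e, Measure.prod_prod, gpi, Measure.pi_pi,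
    ← Finset.mul_prod_erase _ _ (Finset.mem_univ i),
    ← Finset.mul_prod_erase _ (fun j => gaussianReal 0 1 (s j)) (Finset.mem_univ i)]
  rw [Function.update_self, measure_univ, one_mul, mul_comm]
  congr 1
  exact Finset.prod_congr rfl fun j hj => by rw [Function.update_of_ne (Finset.ne_of_mem_erase hj)]

theorem gauss1_norm_update {I : Type} [Fintype I] [DecidableEq I] (g : I → ℝ) (i : I) (t : ℝ) :
    ‖Function.update g i t‖ ≤ ‖g‖ + |t| := by
  refine (pi_norm_le_iff_of_nonneg (by positivity)).2 fun j => ?_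
  by_cases hj : j = i
  · subst hj
    simp
  · rw [Function.update_of_ne hj]
    linarith [norm_le_pi_norm g j, abs_nonneg t]

theorem gauss1_int_gpi {I : Type} [Fintype I] {f : (I → ℝ) → ℝ} (hm : Measurable f) {C : ℝ}
    (hb : ∀ g, |f g| ≤ exp (C * (1 + ‖g‖))) : Integrable f (gpi I) := by
  refine ((gauss1_int_norm I C).const_mul (exp C)).mono' hm.aestronglyMeasurable
    (Filter.Eventually.of_forall fun g => (hb g).trans (le_of_eq ?_))
  rw [← exp_add]
  congr 1
  ring

theorem gauss1_fubini {I : Type} [Fintype I] [DecidableEq I] (i : I) {f : (I → ℝ) → ℝ}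
    (hm : Measurable f) (hf : Integrable f (gpi I)) :
    ∫ g, f g ∂(gpi I) = ∫ g, ∫ t, f (Function.update g i t) ∂(gaussianReal 0 1) ∂(gpi I) := by
  rw [← integral_prod (fun p : (I → ℝ) × ℝ => f (Function.update p.1 i p.2))
    ((gauss1_update i).integrable_comp_of_integrable hf)]
  conv_lhs => rw [← (gauss1_update i).map_eq]
  exact integral_map (gauss1_update i).measurable.aemeasurable hm.aestronglyMeasurable

theorem gauss1_shift1 (u : ℝ) {s : Set ℝ} (hs : MeasurableSet s) :
    gaussianReal u 1 s =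
      ENNReal.ofReal (∫ x, s.indicator (fun x => exp (u * x - u * u / 2)) x ∂(gaussianReal 0 1)) := by
  rw [gaussianReal_apply_eq_integral _ one_ne_zero, integral_gaussianReal_eq_integral_smul one_ne_zero,
    ← integral_indicator hs]
  congr 2
  funext x
  by_cases hx : x ∈ s
  · simp only [Set.indicator_of_mem hx, gaussianPDFReal, smul_eq_mul, mul_assoc, ← exp_add]
    congr 2
    push_cast
    ring
  · simp [Set.indicator_of_notMem hx]

end Aux

/-- a linear image of a standard Gaussian vector only depends on the Gram matrix -/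
theorem gpi_map_cov {I I' K : Type} [Fintype I] [Fintype I'] [Fintype K]
    (A : Matrix K I ℝ) (A' : Matrix K I' ℝ) (h : A * Aᵀ = A' * A'ᵀ) :
    (gpi I).map (fun g => A *ᵥ g) = (gpi I').map (fun g => A' *ᵥ g) := by
  have hm1 : Measurable (fun g : I → ℝ => A *ᵥ g) :=
    (continuous_const.matrix_mulVec continuous_id).measurable
  have hm2 : Measurable (fun g : I' → ℝ => A' *ᵥ g) :=
    (continuous_const.matrix_mulVec continuous_id).measurable
  refine Measure.ext_of_charFunDual (funext fun L => ?_)
  obtain ⟨t, ht⟩ : ∃ t : K → ℝ, ∀ y, L y = ∑ a, y a * t a := by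
    classical
    exact ⟨_, fun y => (L : (K → ℝ) →ₗ[ℝ] ℝ).pi_apply_eq_sum_univ y⟩
  have hF : Measurable (fun y : K → ℝ => Complex.exp (L y * Complex.I)) := by fun_prop
  rw [charFunDual_apply, charFunDual_apply, integral_map hm1.aemeasurable hF.aestronglyMeasurable,
    integral_map hm2.aemeasurable hF.aestronglyMeasurable]
  have e1 : ∀ g : I → ℝ, L (A *ᵥ g) = ∑ i, (t ᵥ* A) i * g i := fun g => by
    rw [ht]
    change (A *ᵥ g) ⬝ᵥ t = (t ᵥ* A) ⬝ᵥ g
    rw [dotProduct_comm, dotProduct_mulVec]
  have e2 : ∀ g : I' → ℝ, L (A' *ᵥ g) = ∑ i, (t ᵥ* A') i * g i := fun g => by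
    rw [ht]
    change (A' *ᵥ g) ⬝ᵥ t = (t ᵥ* A') ⬝ᵥ g
    rw [dotProduct_comm, dotProduct_mulVec]
  simp_rw [e1, e2]
  rw [gauss1_char, gauss1_char]
  congr 4
  simp only [sq]
  change (t ᵥ* A) ⬝ᵥ (t ᵥ* A) = (t ᵥ* A') ⬝ᵥ (t ᵥ* A')
  rw [← dotProduct_mulVec, ← dotProduct_mulVec, ← mulVec_transpose, ← mulVec_transpose,
    mulVec_mulVec, mulVec_mulVec, h]

theorem gpi_map_orth {I : Type} [Fintype I] [DecidableEq I] (O : Matrix I I ℝ) (h : O * Oᵀ = 1) :
    (gpi I).map (fun g => O *ᵥ g) = gpi I := by
  rw [gpi_map_cov O (1 : Matrix I I ℝ) (by rw [h]; simp)]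
  simp only [one_mulVec]
  exact Measure.map_id

theorem gpi_map_inj {I K : Type} [Fintype I] [Fintype K] (ι : K → I) (h : Function.Injective ι) :
    (gpi I).map (fun g a => g (ι a)) = gpi K := by
  classical
  have h1 := gpi_map_cov (Matrix.of fun (a : K) (i : I) => if i = ι a then (1 : ℝ) else 0)
    (1 : Matrix K K ℝ) (by
      ext a b
      simp only [mul_apply, of_apply, transpose_apply, ite_mul, one_mul, zero_mul,
        Finset.sum_ite_eq', Finset.mem_univ, if_true, h.eq_iff, one_apply, Finset.sum_ite_eq]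
      simp [eq_comm])
  have e : (fun g : I → ℝ => (Matrix.of fun (a : K) (i : I) => if i = ι a then (1 : ℝ) else 0) *ᵥ g) =
      fun g a => g (ι a) := by
    funext g a
    simp [mulVec, dotProduct]
  rw [e] at h1
  rw [h1]
  simp only [one_mulVec]
  exact Measure.map_id

/-- splitting along a sum of index types -/
theorem gpi_map_sum {I K : Type} [Fintype I] [Fintype K] :
    (gpi (I ⊕ K)).map (fun g => (fun a => g (Sum.inl a), fun b => g (Sum.inr b))) =
      (gpi I).prod (gpi K) :=
  (measurePreserving_sumPiEquivProdPi (fun _ : I ⊕ K => gaussianReal 0 1)).map_eq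

/-- Gaussian integration by parts in one coordinate -/
theorem gpi_ibp {I : Type} [Fintype I] [DecidableEq I] (i : I) {f f' : (I → ℝ) → ℝ}
    (hm : Measurable f) (hm' : Measurable f')
    (hf : ∀ g, HasDerivAt (fun t => f (Function.update g i (g i + t))) (f' g) 0) {C : ℝ}
    (hb : ∀ g, |f g| ≤ Real.exp (C * (1 + ‖g‖)) ∧ |f' g| ≤ Real.exp (C * (1 + ‖g‖))) :
    ∫ g, g i * f g ∂(gpi I) = ∫ g, f' g ∂(gpi I) := by
  have m2 : Measurable fun g : I → ℝ => g i * f g := (measurable_pi_apply i).mul hm
  rw [gauss1_fubini i m2 (gauss1_int_gpi m2 fun g => gauss1_mul_le (norm_le_pi_norm g i) (hb g).1),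
    gauss1_fubini i hm' (gauss1_int_gpi hm' fun g => (hb g).2)]
  refine integral_congr_ae (Filter.Eventually.of_forall fun g => ?_)
  simp only [Function.update_self]
  refine gauss1_ibp (C := |C| * (1 + ‖g‖)) (fun t => ?_) fun t => ?_
  · have h := hf (Function.update g i t)
    simp only [Function.update_self, Function.update_idem] at h
    have h' := HasDerivAt.comp_sub_const t t (f := fun s => f (Function.update g i (t + s)))
      (by rwa [sub_self])
    simpa using h'
  · have h1 : 1 + ‖Function.update g i t‖ ≤ (1 + ‖g‖) * (1 + |t|) := by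
      nlinarith [gauss1_norm_update g i t, mul_nonneg (norm_nonneg g) (abs_nonneg t)]
    exact ⟨(hb _).1.trans (gauss1_exp_le (norm_nonneg _) h1), (hb _).2.trans (gauss1_exp_le (norm_nonneg _) h1)⟩

theorem integrable_exp_norm_gpi (I : Type) [Fintype I] (C : ℝ) :
    Integrable (fun g : I → ℝ => Real.exp (C * (1 + ‖g‖))) (gpi I) :=
  gauss1_int_gpi (C := C) (by fun_prop) fun g => (abs_of_pos (Real.exp_pos _)).le

/-- Cameron–Martin shift -/
theorem gpi_shift {I : Type} [Fintype I] (u : I → ℝ) :
    (gpi I).map (fun g => g + u) =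
      (gpi I).withDensity fun g => ENNReal.ofReal (Real.exp (u ⬝ᵥ g - u ⬝ᵥ u / 2)) := by
  have h1 : (gpi I).map (fun g => g + u) = Measure.pi fun i => gaussianReal (u i) 1 := by
    have := Measure.pi_map_pi (μ := fun _ : I => gaussianReal 0 1) (f := fun i x => x + u i)
      (fun i => by fun_prop)
    simp only [gaussianReal_map_add_const, zero_add] at this
    exact this
  rw [h1]
  refine Measure.pi_eq fun s hs => ?_
  have hS := MeasurableSet.univ_pi hs
  have e : ∀ g : I → ℝ, (Set.univ.pi s).indicator (fun g => Real.exp (u ⬝ᵥ g - u ⬝ᵥ u / 2)) g =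
      ∏ i, (s i).indicator (fun x => Real.exp (u i * x - u i * u i / 2)) (g i) := fun g => by
    by_cases hg : g ∈ Set.univ.pi s
    · rw [Set.indicator_of_mem hg,
        Finset.prod_congr rfl fun i _ => Set.indicator_of_mem (hg i (Set.mem_univ i)) _,
        ← Real.exp_sum]
      simp only [dotProduct, Finset.sum_sub_distrib, Finset.sum_div]
    · rw [Set.indicator_of_notMem hg]
      obtain ⟨i, hi⟩ : ∃ i, g i ∉ s i := by simpa [Set.mem_univ_pi] using hg
      exact (Finset.prod_eq_zero (Finset.mem_univ i) (Set.indicator_of_notMem hi _)).symm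
  have hi1 : ∀ i, Integrable ((s i).indicator fun x => Real.exp (u i * x - u i * u i / 2))
      (gaussianReal 0 1) := fun i => by
    refine Integrable.indicator ?_ (hs i)
    simp only [Real.exp_sub]
    exact (integrable_exp_mul_gaussianReal (u i)).div_const _
  have hi : Integrable ((Set.univ.pi s).indicator fun g => Real.exp (u ⬝ᵥ g - u ⬝ᵥ u / 2))
      (gpi I) := by
    rw [funext e]
    exact Integrable.fintype_prod hi1
  rw [withDensity_apply _ hS, ← lintegral_indicator hS]
  have e2 : ((Set.univ.pi s).indicator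
      fun g : I → ℝ => ENNReal.ofReal (Real.exp (u ⬝ᵥ g - u ⬝ᵥ u / 2))) = fun g =>
      ENNReal.ofReal ((Set.univ.pi s).indicator (fun g => Real.exp (u ⬝ᵥ g - u ⬝ᵥ u / 2)) g) := by
    funext g
    by_cases hg : g ∈ Set.univ.pi s <;> simp [hg]
  rw [e2, ← ofReal_integral_eq_lintegral_ofReal hi
    (ae_of_all _ fun g => Set.indicator_nonneg (fun _ _ => (Real.exp_pos _).le) g), funext e, gpi,
    integral_fintype_prod_eq_prod
      (fun i => (s i).indicator fun x => Real.exp (u i * x - u i * u i / 2)),
    ENNReal.ofReal_prod_of_nonneg fun i _ =>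
      integral_nonneg fun x => Set.indicator_nonneg (fun _ _ => (Real.exp_pos _).le) x]
  exact Finset.prod_congr rfl fun i _ => (gauss1_shift1 (u i) (hs i)).symm

end Crest.Agent.R166
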