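import Crest.Agent.R166.PartT0

/-! # Bethe identity -/

set_option autoImplicit false
set_option linter.unusedVariables false
set_option linter.unusedSectionVars false

open MeasureTheory ProbabilityTheory Filter Topology Matrix
open scoped ENNReal BoundedContinuousFunction

namespace Crest.Agent.R166

/-- Bethe free energy `-E log|g| - (d/2) E log|1 - m m'|` -/
noncomputable def bethe (D : ℕ) (s : ℝ) (β : Measure J) (z : ℂ) : ℝ :=
  -(∫ σ, Real.log ‖gO (((s * (σ.1 : ℝ) : ℝ) : ℂ)) z (fun i => mT s z (σ.2 i))‖ ∂(starLaw D β)) -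
    ((D + 1 : ℝ) / 2) *
      ∫ e, Real.log ‖1 - mT s z e.1 * mT s z e.2‖ ∂((envLaw D β).prod (envLaw D β))

theorem T6_log {a w : ℂ} (ha : a ≠ 0) (h : ‖w / a‖ ≤ 1 / 2) :
    |Real.log ‖a + w‖ - Real.log ‖a‖ - (w / a).re| ≤ ‖w / a‖ ^ 2 := by
  have e : a + w = a * (1 + w / a) := by field_simp
  generalize w / a = u at h e ⊢
  have h1 : 1 + u ≠ 0 := fun h0 => by
    rw [eq_neg_of_add_eq_zero_right h0, norm_neg, norm_one] at h
    norm_num at h
  rw [e, norm_mul, Real.log_mul (norm_ne_zero_iff.2 ha) (norm_ne_zero_iff.2 h1),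
    add_sub_cancel_left, ← Complex.log_re, ← Complex.sub_re]
  refine (Complex.abs_re_le_norm _).trans
    ((Complex.norm_log_one_add_sub_self_le (by linarith)).trans ?_)
  have h2 : (1 - ‖u‖)⁻¹ ≤ 2 := by
    rw [inv_le_comm₀ (by linarith) (by norm_num)]
    linarith
  nlinarith [sq_nonneg ‖u‖]

theorem T6_log2 {a w : ℂ} (ha : a ≠ 0) {c : ℝ} (h : ‖w / a‖ ≤ c) (hc : c ≤ 1 / 2) :
    |Real.log ‖a + w‖ - Real.log ‖a‖| ≤ 2 * c := by
  have h1 := abs_le.1 (T6_log ha (h.trans hc))
  have h2 := abs_le.1 (Complex.abs_re_le_norm (w / a))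
  have h3 := norm_nonneg (w / a)
  rw [abs_le]
  constructor <;> nlinarith [h1.1, h1.2, h2.1, h2.2]

section Gen
variable {X : Type} [TopologicalSpace X] [CompactSpace X] [MeasurableSpace X]
  [OpensMeasurableSpace X] (μ : Measure X) [IsProbabilityMeasure μ]

theorem T6_int {f : X → ℝ} (hf : Continuous f) : Integrable f μ := by
  obtain ⟨C, hC⟩ := isCompact_univ.exists_bound_of_continuousOn hf.continuousOn
  exact Integrable.of_bound hf.measurable.aestronglyMeasurable C
    (Eventually.of_forall fun x => hC x trivial)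

theorem T6_abs {f : X → ℝ} {c : ℝ} (h : ∀ x, |f x| ≤ c) : |∫ x, f x ∂μ| ≤ c := by
  simpa using norm_integral_le_of_norm_le_const (μ := μ) (f := f) (Eventually.of_forall h)

open Asymptotics in
theorem T6_gen {a : ℝ → X → ℂ} {η K : ℝ} (hc0 : Continuous (a η)) (h0 : ∀ x, a η x ≠ 0)
    (h : ∀ᶠ y in 𝓝 η, Continuous (a y) ∧ (∀ x, a y x ≠ 0) ∧
      ∀ x, ‖a y x - a η x‖ ≤ K * ‖y - η‖) :
    (fun y => ∫ x, Real.log ‖a y x‖ ∂μ - ∫ x, Real.log ‖a η x‖ ∂μ -
      ∫ x, ((a y x - a η x) / a η x).re ∂μ) =O[𝓝 η] fun y => ‖y - η‖ ^ 2 := by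
  obtain ⟨C, hC⟩ := isCompact_univ.exists_bound_of_continuousOn (hc0.inv₀ h0).continuousOn
  have hs : ∀ᶠ y in 𝓝 η, K * ‖y - η‖ * C < 1 / 2 := by
    have : Continuous fun y : ℝ => K * ‖y - η‖ * C := by fun_prop
    exact this.continuousAt.eventually_lt_const (by simp)
  refine IsBigO.of_bound ((K * C) ^ 2) ?_
  filter_upwards [h, hs] with y ⟨h1, h2, h3⟩ h4
  have i1 := T6_int μ (h1.norm.log fun x => norm_ne_zero_iff.2 (h2 x))
  have i2 := T6_int μ (hc0.norm.log fun x => norm_ne_zero_iff.2 (h0 x))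
  have i3 : Integrable (fun x => ((a y x - a η x) / a η x).re) μ :=
    T6_int μ (Complex.continuous_re.comp ((h1.sub hc0).div hc0 h0))
  have i4 : Integrable (fun x => Real.log ‖a y x‖ - Real.log ‖a η x‖) μ := i1.sub i2
  rw [← integral_sub i1 i2, ← integral_sub i4 i3]
  refine T6_abs μ fun x => ?_
  have b : ‖(a y x - a η x) / a η x‖ ≤ K * ‖y - η‖ * C := by
    rw [div_eq_mul_inv, norm_mul]
    exact mul_le_mul (h3 x) (hC x trivial) (norm_nonneg _) ((norm_nonneg _).trans (h3 x))
  have := T6_log (h0 x) (b.trans h4.le)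
  rw [add_sub_cancel] at this
  refine this.trans ((pow_le_pow_left₀ (norm_nonneg _) b 2).trans (le_of_eq ?_))
  rw [norm_pow, norm_norm]
  ring

end Gen

section Tree
variable {D : ℕ} (s : ℝ)

/-- denominator of the star Green function -/
noncomputable def T6den (z : ℂ) (σ : StarEnv D) : ℂ :=
  ((s * (σ.1 : ℝ) : ℝ) : ℂ) - z - ∑ i, mT s z (σ.2 i)

/-- edge factor -/
noncomputable def T6edg (z : ℂ) (e : Env D × Env D) : ℂ := 1 - mT s z e.1 * mT s z e.2

theorem T6den_spec {z : ℂ} (hz : 0 < z.im) :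
    Continuous (T6den (D := D) s z) ∧ ∀ σ : StarEnv D, T6den s z σ ≠ 0 := by
  have := continuous_mT (D := D) (s := s) hz
  refine ⟨by unfold T6den; fun_prop, fun σ => (T0a_den hz _ fun c => T0a_mT hz _).2.1⟩

theorem T6edg_spec {z : ℂ} (hz : 0 < z.im) :
    Continuous (T6edg (D := D) s z) ∧ ∀ e : Env D × Env D, T6edg s z e ≠ 0 := by
  have := continuous_mT (D := D) (s := s) hz
  refine ⟨by unfold T6edg; fun_prop, fun e => T0b_one_sub_ne (mT_im_pos hz _) (mT_im_pos hz _)⟩

theorem T6_bethe (β : Measure J) (z : ℂ) : bethe D s β z =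
    ∫ σ, Real.log ‖T6den s z σ‖ ∂(starLaw D β) - ((D + 1 : ℝ) / 2) *
      ∫ e, Real.log ‖T6edg s z e‖ ∂((envLaw D β).prod (envLaw D β)) := by
  simp only [bethe, gO, one_div, norm_inv, Real.log_inv, integral_neg, neg_neg, T6den, T6edg]

theorem T6_out {z : ℂ} (hz : 0 < z.im) (σ : StarEnv D) (j : Fin (D + 1)) :
    mT s z (outEnv σ j) / T6edg s z (outEnv σ j, σ.2 j) = 1 / T6den s z σ := by
  have h1 := (T0a_den hz (s * (σ.1 : ℝ))
    (a := fun c => mT s z (σ.2 (j.succAbove c))) fun c => T0a_mT hz _).2.1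
  rw [T6edg, T6den, Fin.sum_univ_succAbove _ j, outEnv, mT_comb hz,
    add_comm (mT s z (σ.2 j)), ← sub_sub]
  generalize ((s * (σ.1 : ℝ) : ℝ) : ℂ) - z - ∑ c, mT s z (σ.2 (j.succAbove c)) = A at h1 ⊢
  field_simp

variable (β : Measure J) [IsProbabilityMeasure β]

theorem T6_star {z z' : ℂ} (hz : 0 < z.im) (hz' : 0 < z'.im) {h : ℝ}
    (e : z' - z = h * Complex.I) :
    ∫ σ, ((T6den s z' σ - T6den s z σ) / T6den s z σ).re ∂(starLaw D β) =
      h * ∫ σ, (1 / T6den s z σ).im ∂(starLaw D β) - (D + 1) *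
        ∫ e, (mT s z e.1 / T6edg s z e * (mT s z' e.2 - mT s z e.2)).re
          ∂((envLaw D β).prod (envLaw D β)) := by
  have c1 := continuous_mT (D := D) (s := s) hz
  have c2 := continuous_mT (D := D) (s := s) hz'
  obtain ⟨c3, n3⟩ := T6den_spec (D := D) s hz
  obtain ⟨c4, n4⟩ := T6edg_spec (D := D) s hz
  have c5 : Continuous fun σ : StarEnv D => 1 / T6den s z σ := continuous_const.div c3 n3
  have c6 : Continuous fun e : Env D × Env D => mT s z e.1 / T6edg s z e :=
    (c1.comp continuous_fst).div c4 n4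
  have h1 : ∀ σ : StarEnv D, ((T6den s z' σ - T6den s z σ) / T6den s z σ).re =
      h * (1 / T6den s z σ).im -
        ∑ j, (1 / T6den s z σ * (mT s z' (σ.2 j) - mT s z (σ.2 j))).re := fun σ => by
    have a1 : T6den s z' σ - T6den s z σ =
        -(h * Complex.I) - ∑ j, (mT s z' (σ.2 j) - mT s z (σ.2 j)) := by
      rw [← e, Finset.sum_sub_distrib, T6den, T6den]
      ring
    rw [a1, ← Complex.re_sum, ← Finset.mul_sum, div_eq_mul_one_div]
    generalize 1 / T6den s z σ = g
    simp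
    ring
  have h2 : ∀ j : Fin (D + 1),
      ∫ σ, (1 / T6den s z σ * (mT s z' (σ.2 j) - mT s z (σ.2 j))).re ∂(starLaw D β) =
        ∫ e, (mT s z e.1 / T6edg s z e * (mT s z' e.2 - mT s z e.2)).re
          ∂((envLaw D β).prod (envLaw D β)) := fun j => by
    rw [← (T0b_edge D β j).map_eq, integral_map (T0b_edge D β j).measurable.aemeasurable
      (Continuous.aestronglyMeasurable (by fun_prop))]
    simp only [T6_out s hz]
  simp only [h1]
  rw [integral_sub (T6_int _ (by fun_prop)) (T6_int _ (by fun_prop)), integral_const_mul,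
    integral_finsetSum _ fun j _ => T6_int _ (by fun_prop)]
  simp only [h2, Finset.sum_const, Finset.card_univ, Fintype.card_fin, nsmul_eq_mul]
  push_cast
  rfl

theorem T6_edge {z z' : ℂ} (hz : 0 < z.im) (hz' : 0 < z'.im) :
    ∫ e, ((T6edg s z' e - T6edg s z e) / T6edg s z e).re ∂((envLaw D β).prod (envLaw D β)) =
      -(2 * ∫ e, (mT s z e.1 / T6edg s z e * (mT s z' e.2 - mT s z e.2)).re
          ∂((envLaw D β).prod (envLaw D β))) -
        ∫ e, ((mT s z' e.1 - mT s z e.1) * (mT s z' e.2 - mT s z e.2) * (T6edg s z e)⁻¹).re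
          ∂((envLaw D β).prod (envLaw D β)) := by
  have c1 := continuous_mT (D := D) (s := s) hz
  have c2 := continuous_mT (D := D) (s := s) hz'
  obtain ⟨c4, n4⟩ := T6edg_spec (D := D) s hz
  have c5 : Continuous fun e : Env D × Env D => (T6edg s z e)⁻¹ := c4.inv₀ n4
  let φ : Env D × Env D → ℝ := fun e =>
    (mT s z e.1 / T6edg s z e * (mT s z' e.2 - mT s z e.2)).re
  have c6 : Continuous φ := by
    simp only [φ, div_eq_mul_inv]
    fun_prop
  have h1 : ∀ e : Env D × Env D, ((T6edg s z' e - T6edg s z e) / T6edg s z e).re =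
      -(φ e + φ e.swap) -
        ((mT s z' e.1 - mT s z e.1) * (mT s z' e.2 - mT s z e.2) * (T6edg s z e)⁻¹).re :=
    fun e => by
    have a1 : T6edg s z e.swap = T6edg s z e := by simp [T6edg, mul_comm]
    simp only [φ, a1, Prod.fst_swap, Prod.snd_swap]
    rw [← Complex.add_re, ← Complex.neg_re, ← Complex.sub_re]
    congr 1
    rw [show T6edg s z' e - T6edg s z e = mT s z e.1 * mT s z e.2 - mT s z' e.1 * mT s z' e.2 by
      simp [T6edg]]
    ring
  simp only [h1]
  have c7 : Continuous fun e : Env D × Env D =>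
      ((mT s z' e.1 - mT s z e.1) * (mT s z' e.2 - mT s z e.2) * (T6edg s z e)⁻¹).re :=
    Complex.continuous_re.comp (Continuous.mul (by fun_prop) c5)
  rw [integral_sub (T6_int _ (by fun_prop)) (T6_int _ c7), integral_neg,
    integral_add (T6_int _ c6) (T6_int _ (by fun_prop)), integral_prod_swap, two_mul]

end Tree

/-- the Bethe free energy is a primitive of `E Im g` along vertical lines … -/
theorem bethe_hasDerivAt (D : ℕ) (s : ℝ) (β : Measure J) [IsProbabilityMeasure β] (E : ℝ) {η : ℝ}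
    (hη : 0 < η) : HasDerivAt (fun y : ℝ => bethe D s β (E + y * Complex.I))
      (∫ σ, (gO (((s * (σ.1 : ℝ) : ℝ) : ℂ)) (E + η * Complex.I)
        (fun i => mT s (E + η * Complex.I) (σ.2 i))).im ∂(starLaw D β)) η := by
  have him : ∀ y : ℝ, ((E : ℂ) + y * Complex.I).im = y := fun y => by simp
  have hz : ∀ y : ℝ, 0 < y → 0 < ((E : ℂ) + y * Complex.I).im := fun y hy => by rwa [him]
  have hsub : ∀ y : ℝ, ((E : ℂ) + y * Complex.I) - (E + η * Complex.I) =
      ((y - η : ℝ) : ℂ) * Complex.I := fun y => by push_cast; ring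
  have hev : ∀ᶠ y in 𝓝 η, η / 2 < y := lt_mem_nhds (half_lt_self hη)
  have hd : ∀ y : ℝ, η / 2 < y → ∀ e : Env D,
      ‖mT s (E + y * Complex.I) e - mT s (E + η * Complex.I) e‖ ≤ 2 / η ^ 2 * ‖y - η‖ := by
    intro y hy e
    have hy0 : 0 < y := (half_pos hη).trans hy
    refine (mT_lip_z s (hz y hy0) (hz η hη) e).trans ?_
    rw [hsub, him, him, norm_mul, Complex.norm_I, mul_one, Complex.norm_real, div_eq_inv_mul]
    refine mul_le_mul_of_nonneg_right ?_ (norm_nonneg _)
    rw [inv_eq_one_div, div_le_div_iff₀ (by positivity) (by positivity)]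
    nlinarith
  have hm : ∀ y : ℝ, η / 2 < y → ∀ e : Env D, ‖mT s (E + y * Complex.I) e‖ ≤ 2 / η := by
    intro y hy e
    have hy0 : 0 < y := (half_pos hη).trans hy
    refine (norm_mT_le (hz y hy0) e).trans ?_
    rw [him, div_le_div_iff₀ hy0 hη]
    linarith
  have g1 := T6_gen (starLaw D β) (a := fun y : ℝ => T6den (D := D) s (E + y * Complex.I))
    (η := η) (K := 1 + (D + 1) * (2 / η ^ 2)) (T6den_spec s (hz η hη)).1
    (T6den_spec s (hz η hη)).2 (by
      filter_upwards [hev] with y hy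
      have hy0 : 0 < y := (half_pos hη).trans hy
      refine ⟨(T6den_spec s (hz y hy0)).1, (T6den_spec s (hz y hy0)).2, fun σ => ?_⟩
      have a1 : T6den s (E + y * Complex.I) σ - T6den s (E + η * Complex.I) σ =
          -(((y - η : ℝ) : ℂ) * Complex.I) - ∑ j, (mT s (E + y * Complex.I) (σ.2 j) -
            mT s (E + η * Complex.I) (σ.2 j)) := by
        rw [← hsub, Finset.sum_sub_distrib, T6den, T6den]
        ring
      have a2 := (norm_sum_le _ _).trans
        (Finset.sum_le_sum (s := Finset.univ) fun (j : Fin (D + 1)) _ => hd y hy (σ.2 j))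
      rw [Finset.sum_const, Finset.card_univ, Fintype.card_fin, nsmul_eq_mul] at a2
      rw [a1]
      refine (norm_sub_le _ _).trans ?_
      rw [norm_neg, norm_mul, Complex.norm_I, mul_one, Complex.norm_real]
      push_cast at a2
      linarith)
  have g2 := T6_gen ((envLaw D β).prod (envLaw D β))
    (a := fun y : ℝ => T6edg (D := D) s (E + y * Complex.I))
    (η := η) (K := 2 * (2 / η * (2 / η ^ 2))) (T6edg_spec s (hz η hη)).1
    (T6edg_spec s (hz η hη)).2 (by
      filter_upwards [hev] with y hy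
      have hy0 : 0 < y := (half_pos hη).trans hy
      refine ⟨(T6edg_spec s (hz y hy0)).1, (T6edg_spec s (hz y hy0)).2, fun e => ?_⟩
      have a1 : T6edg s (E + y * Complex.I) e - T6edg s (E + η * Complex.I) e =
          -(mT s (E + y * Complex.I) e.1 *
            (mT s (E + y * Complex.I) e.2 - mT s (E + η * Complex.I) e.2)) -
          mT s (E + η * Complex.I) e.2 *
            (mT s (E + y * Complex.I) e.1 - mT s (E + η * Complex.I) e.1) := by
        rw [T6edg, T6edg]
        ring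
      have a2 := mul_le_mul (hm y hy e.1) (hd y hy e.2) (norm_nonneg _) (by positivity)
      have a3 := mul_le_mul (hm η (half_lt_self hη) e.2) (hd y hy e.1) (norm_nonneg _)
        (by positivity)
      rw [a1]
      refine (norm_sub_le _ _).trans ?_
      rw [norm_neg, norm_mul, norm_mul]
      linarith)
  obtain ⟨C, hC⟩ := isCompact_univ.exists_bound_of_continuousOn
    ((T6edg_spec (D := D) s (hz η hη)).1.inv₀ (T6edg_spec s (hz η hη)).2).continuousOn
  have g3 : (fun y : ℝ => ∫ e, ((mT s (E + y * Complex.I) e.1 - mT s (E + η * Complex.I) e.1) *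
      (mT s (E + y * Complex.I) e.2 - mT s (E + η * Complex.I) e.2) *
      (T6edg s (E + η * Complex.I) e)⁻¹).re ∂((envLaw D β).prod (envLaw D β))) =O[𝓝 η]
      fun y => ‖y - η‖ ^ 2 := by
    refine Asymptotics.IsBigO.of_bound ((2 / η ^ 2) ^ 2 * C) ?_
    filter_upwards [hev] with y hy
    refine T6_abs _ fun e => (Complex.abs_re_le_norm _).trans ?_
    rw [norm_mul, norm_mul, norm_pow, norm_norm]
    refine (mul_le_mul (mul_le_mul (hd y hy e.1) (hd y hy e.2) (norm_nonneg _) (by positivity))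
      (hC e trivial) (norm_nonneg _) (by positivity)).trans (le_of_eq ?_)
    ring
  rw [hasDerivAt_iff_isLittleO]
  refine Asymptotics.IsBigO.trans_isLittleO ?_
    (Asymptotics.isLittleO_pow_sub_sub η one_lt_two)
  refine (g1.sub ((g2.sub g3).const_mul_left ((D + 1 : ℝ) / 2))).congr' ?_ EventuallyEq.rfl
  filter_upwards [hev] with y hy
  have hy0 : 0 < y := (half_pos hη).trans hy
  rw [T6_bethe, T6_bethe, T6_star s β (hz η hη) (hz y hy0) (hsub y),
    T6_edge s β (hz η hη) (hz y hy0), smul_eq_mul]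
  simp only [gO, T6den]
  ring


/-- … normalised at infinity -/
theorem bethe_atTop (D : ℕ) (s : ℝ) (β : Measure J) [IsProbabilityMeasure β] (E : ℝ) :
    Tendsto (fun y : ℝ => bethe D s β (E + y * Complex.I) - Real.log y) atTop (𝓝 0) := by
  have him : ∀ y : ℝ, ((E : ℂ) + y * Complex.I).im = y := fun y => by simp
  have lim : Tendsto (fun y : ℝ => (2 * (|s| + |E| + (D + 1)) + (D + 1)) / y) atTop (𝓝 0) :=
    tendsto_const_nhds.div_atTop tendsto_id
  refine squeeze_zero_norm' ?_ lim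
  filter_upwards [eventually_ge_atTop (2 * (|s| + |E| + (D + 1)))] with y hy
  have hD : (0 : ℝ) ≤ D := Nat.cast_nonneg D
  have hy2 : 2 ≤ y := by linarith [abs_nonneg s, abs_nonneg E]
  have hy0 : 0 < y := by linarith
  have hz : 0 < ((E : ℂ) + y * Complex.I).im := by rwa [him]
  have hm : ∀ e : Env D, ‖mT s (E + y * Complex.I) e‖ ≤ 1 / y := fun e => by
    simpa only [him] using norm_mT_le (s := s) hz e
  have hy1 : 1 / y ≤ 1 / 2 := one_div_le_one_div_of_le two_pos hy2
  have hn : ‖-((y : ℂ) * Complex.I)‖ = y := by simp [abs_of_pos hy0]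
  have h1 : |∫ σ, (Real.log ‖T6den s (E + y * Complex.I) σ‖ - Real.log y) ∂(starLaw D β)| ≤
      2 * ((|s| + |E| + (D + 1)) / y) := by
    refine T6_abs _ fun σ => ?_
    have a1 : T6den s (E + y * Complex.I) σ = -((y : ℂ) * Complex.I) +
        (((s * (σ.1 : ℝ) : ℝ) : ℂ) - E - ∑ i, mT s (E + y * Complex.I) (σ.2 i)) := by
      rw [T6den]
      ring
    have a2 := (norm_sum_le _ _).trans (Finset.sum_le_sum (s := Finset.univ)
      fun (j : Fin (D + 1)) _ => (hm (σ.2 j)).trans (hy1.trans (by norm_num : (1 / 2 : ℝ) ≤ 1)))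
    rw [Finset.sum_const, Finset.card_univ, Fintype.card_fin, nsmul_eq_mul, mul_one] at a2
    have a3 : ‖((s * (σ.1 : ℝ) : ℝ) : ℂ)‖ ≤ |s| := by
      rw [Complex.norm_real, Real.norm_eq_abs, abs_mul]
      exact mul_le_of_le_one_right (abs_nonneg _) (abs_le.2 σ.1.2)
    have a4 := T6_log2 (a := -((y : ℂ) * Complex.I))
      (w := ((s * (σ.1 : ℝ) : ℝ) : ℂ) - E - ∑ i, mT s (E + y * Complex.I) (σ.2 i))
      (norm_pos_iff.1 (by rwa [hn])) (c := (|s| + |E| + (D + 1)) / y) (by
        rw [norm_div, hn]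
        refine div_le_div_of_nonneg_right ((norm_sub_le _ _).trans ?_) hy0.le
        have a5 := norm_sub_le ((s * (σ.1 : ℝ) : ℝ) : ℂ) E
        rw [Complex.norm_real E, Real.norm_eq_abs] at a5
        push_cast at a2
        linarith) (by rw [div_le_iff₀ hy0]; linarith)
    rwa [hn, ← a1] at a4
  have h2 : |∫ e, Real.log ‖T6edg s (E + y * Complex.I) e‖ ∂((envLaw D β).prod (envLaw D β))| ≤
      2 * (1 / y) := by
    refine T6_abs _ fun e => ?_
    have a4 := T6_log2 (a := 1)
      (w := -(mT s (E + y * Complex.I) e.1 * mT s (E + y * Complex.I) e.2)) one_ne_zero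
      (c := 1 / y) (by
        rw [div_one, norm_neg, norm_mul]
        refine (mul_le_mul (hm e.1) ((hm e.2).trans (hy1.trans (by norm_num : (1 / 2 : ℝ) ≤ 1)))
          (norm_nonneg _) (by positivity)).trans (le_of_eq (mul_one _))) hy1
    rwa [norm_one, Real.log_one, sub_zero, ← sub_eq_add_neg] at a4
  rw [integral_sub (T6_int _ ((T6den_spec s hz).1.norm.log fun σ =>
    norm_ne_zero_iff.2 ((T6den_spec s hz).2 σ))) (integrable_const _), integral_const,
    probReal_univ, one_smul] at h1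
  rw [T6_bethe, sub_right_comm, Real.norm_eq_abs]
  refine (abs_sub _ _).trans ?_
  rw [abs_mul, abs_of_nonneg (by positivity : 0 ≤ (D + 1 : ℝ) / 2)]
  refine (add_le_add h1 (mul_le_mul_of_nonneg_left h2 (by positivity))).trans (le_of_eq ?_)
  ring


end Crest.Agent.R166
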