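import Crest.Agent.R166.PartT0

/-! # Ergodicity -/

set_option autoImplicit false
set_option linter.unusedVariables false
set_option linter.unusedSectionVars false

open MeasureTheory ProbabilityTheory Filter Topology Matrix
open scoped ENNReal BoundedContinuousFunction

namespace Crest.Agent.R166

open scoped symmDiff in
/-- a coupling criterion for ergodicity -/
theorem T7_ergodic {X : Type} [mX : MeasurableSpace X] {P : Measure X} [IsProbabilityMeasure P]
    {T : X → X} (hT : MeasurePreserving T P P) {𝒞 : Set (Set X)} (h1 : IsSetRing 𝒞)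
    (h2 : mX = MeasurableSpace.generateFrom 𝒞) (h3 : Set.univ ∈ 𝒞)
    (h4 : ∀ C ∈ 𝒞, ∃ (n : ℕ) (g : X × X → X), MeasurePreserving g (P.prod P) P ∧
      (∀ x y, g (x, y) ∈ C ↔ x ∈ C) ∧ ∀ x y, T^[n] (g (x, y)) ∈ C ↔ T^[n] y ∈ C) :
    Ergodic T P := by
  refine ⟨hT, ⟨fun A hA hTA => ?_⟩⟩
  have key : P A * P Aᶜ = 0 := by
    refine le_antisymm (ENNReal.le_of_forall_pos_le_add fun ε hε _ => ?_) zero_le
    obtain ⟨C, hC, hCA⟩ := exists_measure_symmDiff_lt_of_generateFrom_isSetRing (μ := P) h1
      ⟨{Set.univ}, Set.countable_singleton _, by simpa using h3, by simp⟩ h2 hA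
      (ε := (ε : ℝ≥0∞) / 4) (ENNReal.div_pos (by exact_mod_cast hε.ne') (by simp))
    obtain ⟨n, g, hg, g1, g2⟩ := h4 C hC
    have hCm : MeasurableSet C := h2 ▸ MeasurableSpace.measurableSet_generateFrom hC
    have hB := (hCm.symmDiff hA).nullMeasurableSet (μ := P)
    have hn : ∀ x, T^[n] x ∈ A ↔ x ∈ A := fun x => by
      rw [← Set.mem_preimage, Set.preimage_iterate_eq, Function.iterate_fixed hTA]
    have hTn := hT.iterate n
    have sub : A ×ˢ Aᶜ ⊆ Prod.fst ⁻¹' (C ∆ A) ∪ g ⁻¹' (C ∆ A) ∪ (T^[n] ∘ g) ⁻¹' (C ∆ A) ∪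
        (T^[n] ∘ Prod.snd) ⁻¹' (C ∆ A) := by
      rintro ⟨x, y⟩ ⟨hx, hy⟩
      have e1 := g1 x y
      have e2 := g2 x y
      have e3 := hn (g (x, y))
      have e4 := hn y
      simp only [Set.mem_union, Set.mem_preimage, Set.mem_symmDiff, Function.comp_apply,
        Set.mem_compl_iff] at hx hy ⊢
      tauto
    rw [← Measure.prod_prod, zero_add]
    refine (measure_mono sub).trans ?_
    refine (measure_union_le _ _).trans ((add_le_add ((measure_union_le _ _).trans
      (add_le_add (measure_union_le _ _) le_rfl)) le_rfl).trans ?_)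
    rw [measurePreserving_fst.measure_preimage hB, hg.measure_preimage hB,
      (hTn.comp hg).measure_preimage hB, (hTn.comp measurePreserving_snd).measure_preimage hB]
    calc _ = 4 * P (C ∆ A) := by ring
      _ ≤ 4 * ((ε : ℝ≥0∞) / 4) := by gcongr
      _ = ε := ENNReal.mul_div_cancel (by simp) (by simp)
  rw [eventuallyConst_set]
  rcases mul_eq_zero.1 key with h | h
  · exact Or.inr (measure_eq_zero_iff_ae_notMem.1 h)
  · exact Or.inl h

/-- cylinder sets -/
def T7cyl (D : ℕ) : Set (Set (Env D × Env D)) :=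
  {C | MeasurableSet C ∧ ∃ k : ℕ, ∀ x y : Env D × Env D,
    (∀ l : List (Fin D), l.length ≤ k → x.1 l = y.1 l ∧ x.2 l = y.2 l) → (x ∈ C ↔ y ∈ C)}

theorem T7_ring {D : ℕ} : IsSetRing (T7cyl D) := by
  refine ⟨⟨MeasurableSet.empty, 0, fun _ _ _ => Iff.rfl⟩, ?_, ?_⟩
  · rintro s t ⟨h1, k, hk⟩ ⟨h2, k', hk'⟩
    exact ⟨h1.union h2, max k k', fun x y h => or_congr
      (hk x y fun l hl => h l (hl.trans (le_max_left _ _)))
      (hk' x y fun l hl => h l (hl.trans (le_max_right _ _)))⟩
  · rintro s t ⟨h1, k, hk⟩ ⟨h2, k', hk'⟩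
    exact ⟨h1.diff h2, max k k', fun x y h => and_congr
      (hk x y fun l hl => h l (hl.trans (le_max_left _ _)))
      (not_congr (hk' x y fun l hl => h l (hl.trans (le_max_right _ _))))⟩

theorem T7_gen {D : ℕ} : (inferInstance : MeasurableSpace (Env D × Env D)) =
    MeasurableSpace.generateFrom (T7cyl D) := by
  refine le_antisymm ?_ (MeasurableSpace.generateFrom_le fun C hC => hC.1)
  have h1 : Measurable[MeasurableSpace.generateFrom (T7cyl D)] fun x : Env D × Env D => x.1 :=
    @measurable_pi_lambda _ _ _ (MeasurableSpace.generateFrom (T7cyl D)) _ _ fun l B hB =>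
      MeasurableSpace.measurableSet_generateFrom
        ⟨((measurable_pi_apply l).comp measurable_fst) hB, l.length, fun x y h => by
          simp only [Set.mem_preimage, (h l le_rfl).1]⟩
  have h2 : Measurable[MeasurableSpace.generateFrom (T7cyl D)] fun x : Env D × Env D => x.2 :=
    @measurable_pi_lambda _ _ _ (MeasurableSpace.generateFrom (T7cyl D)) _ _ fun l B hB =>
      MeasurableSpace.measurableSet_generateFrom
        ⟨((measurable_pi_apply l).comp measurable_snd) hB, l.length, fun x y h => by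
          simp only [Set.mem_preimage, (h l le_rfl).2]⟩
  exact fun s hs => h1.prodMk h2 hs

/-- `e` up to depth `k`, `e'` below -/
def T7pw {D : ℕ} (k : ℕ) (e e' : Env D) : Env D := fun l => if l.length ≤ k then e l else e' l

theorem T7_pw {D : ℕ} (β : Measure J) [IsProbabilityMeasure β] (k : ℕ) :
    MeasurePreserving (fun p : Env D × Env D => T7pw k p.1 p.2)
      ((envLaw D β).prod (envLaw D β)) (envLaw D β) := by
  have hm : Measurable fun p : Env D × Env D => T7pw k p.1 p.2 := by
    refine measurable_pi_lambda _ fun l => ?_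
    unfold T7pw
    split_ifs
    · exact (measurable_pi_apply l).comp measurable_fst
    · exact (measurable_pi_apply l).comp measurable_snd
  refine ⟨hm, Measure.eq_infinitePi _ fun s t ht => ?_⟩
  rw [Measure.map_apply hm (MeasurableSet.pi s.countable_toSet fun i _ => ht i)]
  have h : (fun p : Env D × Env D => T7pw k p.1 p.2) ⁻¹' Set.pi s t =
      Set.pi (s.filter fun l => l.length ≤ k) t ×ˢ Set.pi (s.filter fun l => ¬l.length ≤ k) t := by
    ext ⟨e, e'⟩
    simp only [Set.mem_preimage, Set.mem_pi, Finset.mem_coe, Set.mem_prod, Finset.mem_filter, T7pw]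
    constructor
    · intro h
      exact ⟨fun l hl => by simpa [hl.2] using h l hl.1, fun l hl => by simpa [hl.2] using h l hl.1⟩
    · rintro ⟨h1, h2⟩ l hl
      split_ifs with h
      · exact h1 l ⟨hl, h⟩
      · exact h2 l ⟨hl, h⟩
  rw [h, Measure.prod_prod, envLaw, Measure.infinitePi_pi _ fun l _ => ht _,
    Measure.infinitePi_pi _ fun l _ => ht _, Finset.prod_filter_mul_prod_filter_not]

theorem T7_g {D : ℕ} (β : Measure J) [IsProbabilityMeasure β] (k : ℕ) :
    MeasurePreserving (fun p : (Env D × Env D) × (Env D × Env D) => (T7pw k p.1.1 p.2.1, p.1.2))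
      (((envLaw D β).prod (envLaw D β)).prod ((envLaw D β).prod (envLaw D β)))
      ((envLaw D β).prod (envLaw D β)) := by
  have h0 : MeasurePreserving Prod.fst ((envLaw D β).prod (envLaw D β)) (envLaw D β) :=
    measurePreserving_fst
  have h1 : MeasurePreserving (Prod.map id Prod.fst)
      (((envLaw D β).prod (envLaw D β)).prod ((envLaw D β).prod (envLaw D β)))
      (((envLaw D β).prod (envLaw D β)).prod (envLaw D β)) := (MeasurePreserving.id _).prod h0
  have h2 := measurePreserving_prodAssoc (envLaw D β) (envLaw D β) (envLaw D β)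
  have h3 := (MeasurePreserving.id (envLaw D β)).prod
    (Measure.measurePreserving_swap (μ := envLaw D β) (ν := envLaw D β))
  have h4 := (T7_pw (D := D) β k).prod (MeasurePreserving.id (envLaw D β))
  exact h4.comp (h2.symm.comp (h3.comp (h2.comp h1)))

/-- the star at the tail of an edge -/
def T7inv {D : ℕ} (x : Env D × Env D) : StarEnv D := (x.1 [], Fin.cons x.2 fun c => x.1.sub c)

theorem T7_inv {D : ℕ} (β : Measure J) [IsProbabilityMeasure β] :
    MeasurePreserving (T7inv (D := D)) ((envLaw D β).prod (envLaw D β)) (starLaw D β) := by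
  have hm : Measurable (T7inv (D := D)) := by
    refine ((measurable_pi_apply _).comp measurable_fst).prodMk
      (measurable_pi_lambda _ fun i => ?_)
    refine Fin.cases ?_ (fun c => ?_) i
    · exact measurable_snd
    · exact measurable_pi_lambda _ fun l => (measurable_pi_apply (c :: l)).comp measurable_fst
  refine ⟨hm, ?_⟩
  rw [← (T0b_edge D β 0).map_eq, Measure.map_map hm (T0b_edge D β 0).measurable]
  convert Measure.map_id
  funext σ
  exact Prod.ext rfl (Fin.cons_self_tail σ.2)

/-- one step along the `0`-ray -/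
def T7R (d : ℕ) (x : Env (d + 1) × Env (d + 1)) : Env (d + 1) × Env (d + 1) :=
  ((T7inv x).2 (Fin.succ 0), outEnv (T7inv x) (Fin.succ 0))

theorem T7_R_mp (β : Measure J) [IsProbabilityMeasure β] (d : ℕ) :
    MeasurePreserving (T7R d) ((envLaw (d + 1) β).prod (envLaw (d + 1) β))
      ((envLaw (d + 1) β).prod (envLaw (d + 1) β)) :=
  Measure.measurePreserving_swap.comp ((T0b_edge (d + 1) β (Fin.succ 0)).comp (T7_inv β))

/-- agreement above the height `m` -/
def T7Ag {D : ℕ} (m : ℤ) (x y : Env D × Env D) : Prop :=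
  (∀ l : List (Fin D), m ≤ l.length → x.1 l = y.1 l) ∧
    ∀ l : List (Fin D), m ≤ -(l.length : ℤ) - 1 → x.2 l = y.2 l

theorem T7Ag.step {d : ℕ} {m : ℤ} {x y : Env (d + 1) × Env (d + 1)} (h : T7Ag m x y) :
    T7Ag (m - 1) (T7R d x) (T7R d y) := by
  refine ⟨fun l hl => h.1 (0 :: l) (by simp only [List.length_cons]; omega), fun l hl => ?_⟩
  cases l with
  | nil => exact h.1 [] (by simp only [List.length_nil] at hl ⊢; omega)
  | cons c l =>
    simp only [List.length_cons] at hl
    refine Fin.cases ?_ (fun c => ?_) c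
    · simp only [T7R, outEnv, comb, Fin.succ_succAbove_zero, T7inv, Fin.cons_zero]
      exact h.2 l (by omega)
    · simp only [T7R, outEnv, comb, Fin.succ_succAbove_succ, T7inv, Fin.cons_succ]
      exact h.1 (_ :: l) (by simp only [List.length_cons]; omega)

theorem T7Ag.iter {d : ℕ} {m : ℤ} {x y : Env (d + 1) × Env (d + 1)} (h : T7Ag m x y) (n : ℕ) :
    T7Ag (m - 2 * n) ((T7R d ∘ T7R d)^[n] x) ((T7R d ∘ T7R d)^[n] y) := by
  induction n with
  | zero => simpa using h
  | succ n ih =>
    rw [Function.iterate_succ_apply', Function.iterate_succ_apply']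
    have e : m - 2 * ((n + 1 : ℕ) : ℤ) = m - 2 * n - 1 - 1 := by push_cast; ring
    rw [e]
    exact ih.step.step

/-- (ERG) a measurable edge function that agrees on the heads of all edges out of a vertex and on
their tails is a.e. constant -/
theorem edge_const {D : ℕ} (hD : 2 ≤ D) (β : Measure J) [IsProbabilityMeasure β]
    {α : Env D × Env D → ℝ} (hα : Measurable α)
    (ht : ∀ i j, ∀ᵐ σ ∂(starLaw D β), α (outEnv σ i, σ.2 i) = α (outEnv σ j, σ.2 j))
    (hh : ∀ i j, ∀ᵐ σ ∂(starLaw D β), α (σ.2 i, outEnv σ i) = α (σ.2 j, outEnv σ j)) :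
    ∃ c : ℝ, ∀ᵐ e ∂((envLaw D β).prod (envLaw D β)), α e = c := by
  obtain ⟨d, rfl⟩ : ∃ d, D = d + 1 := ⟨D - 1, by omega⟩
  have h0 := T7_inv β (D := d + 1)
  have hR := T7_R_mp β d
  have hE : Ergodic (T7R d ∘ T7R d) ((envLaw (d + 1) β).prod (envLaw (d + 1) β)) := by
    refine T7_ergodic (hR.comp hR) T7_ring T7_gen ?_ ?_
    · exact ⟨MeasurableSet.univ, 0, fun _ _ _ => Iff.rfl⟩
    · rintro C ⟨-, k, hk⟩
      refine ⟨k + 1, fun p => (T7pw k p.1.1 p.2.1, p.1.2), T7_g β k, fun x y => hk _ _ fun l hl =>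
        ⟨if_pos hl, rfl⟩, fun x y => hk _ _ fun l hl => ?_⟩
      have h1 : T7Ag ((k : ℤ) + 1) (T7pw k x.1 y.1, x.2) y :=
        ⟨fun l hl => if_neg (by omega), fun l hl => by omega⟩
      have h2 := h1.iter (k + 1)
      exact ⟨h2.1 l (by omega), h2.2 l (by push_cast; omega)⟩
  refine hE.ae_eq_const_of_ae_eq_comp_ae hα.aestronglyMeasurable ?_
  have a1 := h0.quasiMeasurePreserving.ae (ht (Fin.succ 0) 0)
  have a2 := hR.quasiMeasurePreserving.ae (h0.quasiMeasurePreserving.ae (hh (Fin.succ 0) 0))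
  filter_upwards [a1, a2] with x b1 b2
  have e1 : ∀ y : Env (d + 1) × Env (d + 1), outEnv (T7inv y) 0 = y.1 := fun y => comb_eta y.1
  rw [e1] at b1 b2
  exact b2.trans b1

end Crest.Agent.R166
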