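import Crest.Agent.R166.T8e

/-! # No square integrable eigenfunction seen from the particle -/

set_option autoImplicit false
set_option linter.unusedVariables false
set_option linter.unusedSectionVars false

open MeasureTheory ProbabilityTheory Filter Topology Matrix
open scoped ENNReal BoundedContinuousFunction

namespace Crest.Agent.R166

variable {D : ℕ} (β : Measure J) [IsProbabilityMeasure β]

theorem T8f_abs (s : ℝ) (a b : J) : (s * ((a : ℝ) - (b : ℝ))) ^ 2 ≤ 4 * s ^ 2 := by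
  have h1 := a.2.1
  have h2 := a.2.2
  have h3 := b.2.1
  have h4 := b.2.2
  have h5 : ((a : ℝ) - (b : ℝ)) ^ 2 ≤ 4 := by nlinarith
  rw [mul_pow]
  nlinarith [sq_nonneg s]

theorem T8f_upd {F : OmW D → ℝ} (hF : MemLp F 2 (PW D β)) :
    Integrable (fun p : OmW D × J => F (Function.update p.1 1 p.2) ^ 2) ((PW D β).prod β) ∧
      ∫ p : OmW D × J, F (Function.update p.1 1 p.2) ^ 2 ∂((PW D β).prod β) = n2 β F := by
  have h := measurePreserving_updW β (1 : Wd (D + 1))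
  have hi := hF.integrable_sq
  refine ⟨(h.integrable_comp hi.aestronglyMeasurable).2 hi, ?_⟩
  have := integral_map (μ := (PW D β).prod β) h.measurable.aemeasurable
    (f := fun ω => F ω ^ 2) (by rw [h.map_eq]; exact hi.aestronglyMeasurable)
  rw [h.map_eq] at this
  exact this.symm

theorem T8f_meas (s : ℝ) {z : ℂ} (hz : 0 < z.im) {U : OmW D → ℝ} (hU : Measurable U) :
    Measurable fun p : OmW D × J =>
      (s * ((p.1 1 : ℝ) - (p.2 : ℝ)) * U (Function.update p.1 1 p.2)) ^ 2 *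
        min (gW s z p.1).im 1 := by
  have h1 : Continuous fun p : OmW D × J => s * ((p.1 1 : ℝ) - (p.2 : ℝ)) :=
    continuous_const.mul ((continuous_subtype_val.comp ((continuous_apply 1).comp continuous_fst)).sub
      (continuous_subtype_val.comp continuous_snd))
  have h2 : Continuous fun p : OmW D × J => min (gW s z p.1).im 1 :=
    (Complex.continuous_im.comp ((continuous_gW s hz).comp continuous_fst)).min continuous_const
  exact ((h1.measurable.mul (hU.comp (continuous_updW 1).measurable)).pow_const 2).mul h2.measurable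

theorem T8f_bd (s : ℝ) {z : ℂ} (hz : 0 < z.im) (U : OmW D → ℝ) (p : OmW D × J) :
    0 ≤ (s * ((p.1 1 : ℝ) - (p.2 : ℝ)) * U (Function.update p.1 1 p.2)) ^ 2 *
        min (gW s z p.1).im 1 ∧
    (s * ((p.1 1 : ℝ) - (p.2 : ℝ)) * U (Function.update p.1 1 p.2)) ^ 2 *
        min (gW s z p.1).im 1 ≤ 4 * s ^ 2 * U (Function.update p.1 1 p.2) ^ 2 := by
  have h0 : 0 ≤ min (gW s z p.1).im 1 := le_min (gW_im_nonneg s hz _) zero_le_one
  refine ⟨mul_nonneg (sq_nonneg _) h0, ?_⟩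
  refine (mul_le_of_le_one_right (sq_nonneg _) (min_le_right _ _)).trans ?_
  rw [mul_pow]
  exact mul_le_mul_of_nonneg_right (T8f_abs s _ _) (sq_nonneg _)

/-- replacing `U` by a continuous function -/
theorem T8f_repl (s : ℝ) {z : ℂ} (hz : 0 < z.im) {U : OmW D → ℝ} (hU : Measurable U)
    (h2 : MemLp U 2 (PW D β)) (F : CW D) :
    ∫ p, (s * ((p.1 1 : ℝ) - (p.2 : ℝ)) * U (Function.update p.1 1 p.2)) ^ 2 *
        min (gW s z p.1).im 1 ∂((PW D β).prod β) ≤
      2 * ∫ p, (s * ((p.1 1 : ℝ) - (p.2 : ℝ)) * F (Function.update p.1 1 p.2)) ^ 2 *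
        (gW s z p.1).im ∂((PW D β).prod β) + 8 * s ^ 2 * n2 β (fun ω => F ω - U ω) := by
  obtain ⟨i1, e1⟩ := T8f_upd β (F := fun ω => F ω - U ω) ((memLp_CW β F).sub h2)
  have i0 : Integrable (fun p : OmW D × J =>
      (s * ((p.1 1 : ℝ) - (p.2 : ℝ)) * F (Function.update p.1 1 p.2)) ^ 2 *
        (gW s z p.1).im) ((PW D β).prod β) := by
    refine T8e_int β (Continuous.mul (Continuous.pow (Continuous.mul (continuous_const.mul
      (Continuous.sub ?_ ?_)) (F.continuous.comp (continuous_updW 1))) 2) ?_)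
    · exact continuous_subtype_val.comp ((continuous_apply 1).comp continuous_fst)
    · exact continuous_subtype_val.comp continuous_snd
    · exact Complex.continuous_im.comp ((continuous_gW s hz).comp continuous_fst)
  rw [← e1, ← integral_const_mul, ← integral_const_mul,
    ← integral_add (i0.const_mul 2) (i1.const_mul _)]
  refine integral_mono_of_nonneg (ae_of_all _ fun p => (T8f_bd s hz U p).1)
    ((i0.const_mul 2).add (i1.const_mul _)) (ae_of_all _ fun p => ?_)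
  have g0 := gW_im_nonneg s hz p.1
  have g1 : min (gW s z p.1).im 1 ≤ (gW s z p.1).im := min_le_left _ _
  have g2 : min (gW s z p.1).im 1 ≤ 1 := min_le_right _ _
  have g3 : 0 ≤ min (gW s z p.1).im 1 := le_min g0 zero_le_one
  have g4 := T8f_abs s (p.1 1) p.2
  simp only
  set a := s * ((p.1 1 : ℝ) - (p.2 : ℝ))
  set x := U (Function.update p.1 1 p.2)
  set y := F (Function.update p.1 1 p.2)
  set w := min (gW s z p.1).im 1
  have k1 : (a * x) ^ 2 ≤ 2 * (a * y) ^ 2 + 2 * (a ^ 2 * (y - x) ^ 2) := by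
    nlinarith [sq_nonneg (a * (2 * y - x))]
  have k2 : (a * y) ^ 2 * w ≤ (a * y) ^ 2 * (gW s z p.1).im :=
    mul_le_mul_of_nonneg_left g1 (sq_nonneg _)
  have k3 : a ^ 2 * (y - x) ^ 2 * w ≤ 4 * s ^ 2 * (y - x) ^ 2 :=
    (mul_le_of_le_one_right (by positivity) g2).trans
      (mul_le_mul_of_nonneg_right g4 (sq_nonneg _))
  have k4 := mul_le_mul_of_nonneg_right k1 g3
  nlinarith

theorem T8f_tri {F G : OmW D → ℝ} (hF : MemLp F 2 (PW D β)) (hG : MemLp G 2 (PW D β)) :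
    n2 β (F + G) ≤ 2 * n2 β F + 2 * n2 β G := by
  have := n2_add_le β hF hG one_pos
  norm_num at this
  exact this

theorem T8f_neg (F G : OmW D → ℝ) : n2 β (fun ω => F ω - G ω) = n2 β (fun ω => G ω - F ω) := by
  unfold n2
  refine integral_congr_ae (ae_of_all _ fun ω => ?_)
  simp only
  ring

/-- quantitative bound at a fixed scale -/
theorem T8f_main (s E : ℝ) {U : OmW D → ℝ} (hU : Measurable U) (h2 : MemLp U 2 (PW D β))
    (heq : ∀ᵐ ω ∂(PW D β), s * (ω 1 : ℝ) * U ω + ∑ i, U (shiftW (gen i) ω) = E * U ω) :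
    ∃ K : ℝ, 0 ≤ K ∧ ∀ θ : ℝ, 0 < θ → θ ≤ 1 → ∃ N : ℝ, 0 ≤ N ∧ ∀ ε : ℝ, 0 < ε → ε ≤ 1 →
      ∫ p, (s * ((p.1 1 : ℝ) - (p.2 : ℝ)) * U (Function.update p.1 1 p.2)) ^ 2 *
        min (gW s (E + ε * Complex.I) p.1).im 1 ∂((PW D β).prod β) ≤ K * θ + N * ε := by
  set M := 2 * n2 β U + 2 with hM
  have hU0 := n2_nonneg β U
  have hM0 : 0 ≤ M := by positivity
  set A := (D + 2) * (D + 1 + (|s| + |E|) ^ 2) with hA
  have hA0 : 0 ≤ A := by positivity
  have hnear : ∀ (u : CW D), n2 β (fun ω => u ω - U ω) ≤ 1 → n2 β u ≤ M := by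
    intro u hu
    have := T8f_tri β h2 ((memLp_CW β u).sub h2)
    have e : (U + (⇑u - U)) = ⇑u := by abel
    rw [e] at this
    have e2 : n2 β (⇑u - U) = n2 β (fun ω => u ω - U ω) := rfl
    linarith
  refine ⟨2 * (4 + 32 * s ^ 2) * (M + 64) + 16 * A + 8 * s ^ 2 * 66, by positivity,
    fun θ hθ hθ1 => ?_⟩
  obtain ⟨u', S', hu', hn'⟩ := exists_cylinder β h2 (δ := θ ^ 2) (by positivity)
  have hθ2 : θ ^ 2 ≤ θ := by nlinarith
  have hM' := hnear u' (by linarith)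
  refine ⟨(2 * (4 + 32 * s ^ 2) * (2 / θ) + 16 * s ^ 2) * (4 * (S'.card : ℝ) ^ 2 * M) +
    64 * s ^ 2 * M, by positivity, fun ε h0 h1 => ?_⟩
  have hz : 0 < ((E : ℂ) + ε * Complex.I).im := by simpa using h0
  obtain ⟨u, S₀, hu, hn⟩ := exists_cylinder β h2 (δ := θ ^ 2 * ε ^ 2) (by positivity)
  obtain ⟨S, hS, hS'⟩ := exists_carries S₀ S'
  have hε2 : ε ^ 2 ≤ ε := by nlinarith
  have hn1 : n2 β (fun ω => u ω - U ω) ≤ θ ^ 2 :=
    hn.trans (mul_le_of_le_one_right (by positivity) (by linarith))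
  have hMu := hnear u (by linarith)
  set F := TS β ε S u with hF
  have a1 := T8f_repl β s hz hU h2 F
  have a2 := noise_ineq β s E h0 h1 hu hS
  rw [← hF] at a2
  have a3 := n2_HH_le β s E u hU h2 heq
  have a4 := n2_sub_TS_le β h0.le h1 hS' u hu'
  rw [← hF] at a4
  have a5 : n2 β (u - u') ≤ 4 * θ ^ 2 := by
    have := T8f_tri β ((memLp_CW β u).sub h2) (h2.sub (memLp_CW β u'))
    have e : (⇑u - U + (U - ⇑u')) = ⇑(u - u') := by rw [ContinuousMap.coe_sub]; abel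
    rw [e] at this
    have e2 : n2 β (⇑u - U) = n2 β (fun ω => u ω - U ω) := rfl
    have e3 : n2 β (U - ⇑u') = n2 β (fun ω => u' ω - U ω) := T8f_neg β U u'
    linarith
  set Q := 4 * (S'.card : ℝ) ^ 2 * M with hQ
  have hQ0 : 0 ≤ Q := by positivity
  have a6 : n2 β (u - F) ≤ 32 * θ ^ 2 + Q * ε := by
    have : 4 * (ε * S'.card) ^ 2 * n2 β u' ≤ Q * ε := by
      calc 4 * (ε * S'.card) ^ 2 * n2 β u' = 4 * (S'.card : ℝ) ^ 2 * n2 β u' * ε ^ 2 := by ring
        _ ≤ 4 * (S'.card : ℝ) ^ 2 * M * ε := by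
          have := n2_nonneg β u'
          gcongr
    linarith
  have a7 : n2 β u - n2 β F ≤ θ * M + 2 / θ * (32 * θ ^ 2 + Q * ε) := by
    have := n2_add_le β (memLp_CW β F) (memLp_CW β (u - F)) hθ
    have e : (⇑F + ⇑(u - F)) = ⇑u := by rw [ContinuousMap.coe_sub]; abel
    rw [e] at this
    have b1 : n2 β F ≤ M := (n2_TS_le β h0.le h1 S u).trans hMu
    have b2 : 1 + 1 / θ ≤ 2 / θ := by
      rw [le_div_iff₀ hθ]
      field_simp
      linarith
    have b3 : (1 + 1 / θ) * n2 β (u - F) ≤ 2 / θ * (32 * θ ^ 2 + Q * ε) := by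
      have := n2_nonneg β (u - F)
      gcongr
    nlinarith
  have a8 : n2 β (fun ω => F ω - U ω) ≤ 66 * θ + 2 * (Q * ε) := by
    have := T8f_tri β (memLp_CW β (F - u)) ((memLp_CW β u).sub h2)
    have e : (⇑(F - u) + (⇑u - U)) = fun ω => F ω - U ω := by
      funext ω
      simp
    rw [e] at this
    have e2 : n2 β (⇑u - U) = n2 β (fun ω => u ω - U ω) := rfl
    have e3 : n2 β (F - u) = n2 β (u - F) := T8f_neg β F u
    linarith
  have a9 : 8 / ε ^ 2 * n2 β (HH s E u) ≤ 8 * A * θ := by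
    calc 8 / ε ^ 2 * n2 β (HH s E u) ≤ 8 / ε ^ 2 * (A * (θ ^ 2 * ε ^ 2)) := by
          gcongr
          exact a3.trans (by gcongr)
      _ = 8 * A * θ ^ 2 := by field_simp
      _ ≤ _ := by gcongr
  have b1 : 2 / θ * (32 * θ ^ 2 + Q * ε) = 64 * θ + 2 / θ * (Q * ε) := by field_simp; ring
  rw [b1] at a7
  have b2 : (4 + 32 * s ^ 2) * (n2 β u - n2 β F) ≤
      (4 + 32 * s ^ 2) * (θ * M + (64 * θ + 2 / θ * (Q * ε))) := by gcongr
  have b3 : 32 * s ^ 2 * ε * n2 β u ≤ 32 * s ^ 2 * ε * M := by gcongr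
  have b4 : 8 * s ^ 2 * n2 β (fun ω => F ω - U ω) ≤ 8 * s ^ 2 * (66 * θ + 2 * (Q * ε)) := by gcongr
  refine a1.trans ?_
  nlinarith

/-- Let `A j` be the left side.  Given `γ`, pick a cylinder `u'` (on `S'`) with `n2 (u' - U) ≤ γ'`; for `j` large
(`ε = 2^{-j}`, `ε |S'|` and `ε` small) pick a cylinder `u` with `n2 (u - U) ≤ γ' ε²` and `S` carrying it with
`S' ⊆ S`.  With `F₀ = T_S u`: `U² ≤ 2 F₀² + 2 (F₀ - U)²`, `|s (ω 1 - t)| ≤ 2|s|`, `measurePreserving_updW`, so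
`A j ≤ 2 · noise_ineq + 8 s² n2 (F₀ - U)`; `n2 (u - F₀)` is small by `n2_sub_TS_le`,
`n2 u - n2 F₀ ≤ θ n2 u + (1 + 1/θ) n2 (u - F₀)` (`n2_add_le`, `n2_TS_le`), `n2_HH_le`. -/
theorem weighted_tendsto (s E : ℝ) {U : OmW D → ℝ} (hU : Measurable U) (h2 : MemLp U 2 (PW D β))
    (heq : ∀ᵐ ω ∂(PW D β), s * (ω 1 : ℝ) * U ω + ∑ i, U (shiftW (gen i) ω) = E * U ω) :
    Tendsto (fun j => ∫ p, (s * ((p.1 1 : ℝ) - (p.2 : ℝ)) * U (Function.update p.1 1 p.2)) ^ 2 *
      min (gW s (zj E j) p.1).im 1 ∂((PW D β).prod β)) atTop (𝓝 0) := by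
  obtain ⟨K, hK, h⟩ := T8f_main β s E hU h2 heq
  rw [Metric.tendsto_nhds]
  intro γ hγ
  set θ := min 1 (γ / (2 * (K + 1))) with hθ
  have hθ0 : 0 < θ := lt_min one_pos (by positivity)
  obtain ⟨N, hN, h⟩ := h θ hθ0 (min_le_left _ _)
  have hKθ : K * θ < γ / 2 := by
    have h1 : θ ≤ γ / (2 * (K + 1)) := min_le_right _ _
    rw [le_div_iff₀ (by positivity)] at h1
    nlinarith
  have hl : Tendsto (fun j : ℕ => N * (2⁻¹ : ℝ) ^ j) atTop (𝓝 0) := by
    simpa using (tendsto_pow_atTop_nhds_zero_of_lt_one (r := (2⁻¹ : ℝ)) (by norm_num)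
      (by norm_num)).const_mul N
  filter_upwards [hl.eventually (gt_mem_nhds (half_pos hγ))] with j hj
  have h1 := h ((2⁻¹ : ℝ) ^ j) (by positivity) (pow_le_one₀ (by norm_num) (by norm_num))
  have h0 : 0 ≤ ∫ p, (s * ((p.1 1 : ℝ) - (p.2 : ℝ)) * U (Function.update p.1 1 p.2)) ^ 2 *
      min (gW s (zj E j) p.1).im 1 ∂((PW D β).prod β) :=
    integral_nonneg fun p => (T8f_bd s (zj_im_pos E j) U p).1
  rw [Real.dist_eq, sub_zero, abs_of_nonneg h0]
  have e : zj E j = (E : ℂ) + (((2⁻¹ : ℝ) ^ j : ℝ) : ℂ) * Complex.I := rfl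
  rw [e]
  linarith

/-- dominated convergence (or Fatou) in `weighted_tendsto`; `ω 1 ≠ t` a.e.; `measurePreserving_updW` -/
theorem no_eig_W {s : ℝ} (hs : s ≠ 0) (E : ℝ) (hβ : ∀ t : J, β {t} = 0) {U : OmW D → ℝ}
    (hU : Measurable U) (h2 : MemLp U 2 (PW D β))
    (heq : ∀ᵐ ω ∂(PW D β), s * (ω 1 : ℝ) * U ω + ∑ i, U (shiftW (gen i) ω) = E * U ω)
    (hg : ∀ᵐ ω ∂(PW D β), ∃ b : ℝ, 0 < b ∧
      Tendsto (fun j => (gW s (zj E j) ω).im) atTop (𝓝 b)) :
    ∀ᵐ ω ∂(PW D β), U ω = 0 := by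
  classical
  have h1 := weighted_tendsto β s E hU h2 heq
  set b : OmW D → ℝ := fun ω => if h : ∃ b : ℝ, 0 < b ∧
    Tendsto (fun j => (gW s (zj E j) ω).im) atTop (𝓝 b) then h.choose else 1 with hb
  have hg' : ∀ᵐ p ∂((PW D β).prod β), 0 < b p.1 ∧
      Tendsto (fun j => (gW s (zj E j) p.1).im) atTop (𝓝 (b p.1)) := by
    filter_upwards [Measure.quasiMeasurePreserving_fst.ae hg] with p hp
    simp only [hb, dif_pos hp]
    exact hp.choose_spec
  have hlim : ∀ᵐ p ∂((PW D β).prod β), Tendsto (fun j =>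
      (s * ((p.1 1 : ℝ) - (p.2 : ℝ)) * U (Function.update p.1 1 p.2)) ^ 2 *
        min (gW s (zj E j) p.1).im 1) atTop
      (𝓝 ((s * ((p.1 1 : ℝ) - (p.2 : ℝ)) * U (Function.update p.1 1 p.2)) ^ 2 * min (b p.1) 1)) := by
    filter_upwards [hg'] with p hp
    exact (hp.2.min tendsto_const_nhds).const_mul _
  have hdom := ((T8f_upd β h2).1.const_mul (4 * s ^ 2))
  have hbd : ∀ j, ∀ᵐ p ∂((PW D β).prod β),
      ‖(s * ((p.1 1 : ℝ) - (p.2 : ℝ)) * U (Function.update p.1 1 p.2)) ^ 2 *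
        min (gW s (zj E j) p.1).im 1‖ ≤ 4 * s ^ 2 * U (Function.update p.1 1 p.2) ^ 2 :=
    fun j => ae_of_all _ fun p => by
      rw [Real.norm_eq_abs, abs_of_nonneg (T8f_bd s (zj_im_pos E j) U p).1]
      exact (T8f_bd s (zj_im_pos E j) U p).2
  have hme := fun j => (T8f_meas s (zj_im_pos E j) hU).aestronglyMeasurable (μ := (PW D β).prod β)
  have h3 := tendsto_integral_of_dominated_convergence _ hme hdom hbd hlim
  have h4 := tendsto_nhds_unique h3 h1
  have hint : Integrable (fun p : OmW D × J =>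
      (s * ((p.1 1 : ℝ) - (p.2 : ℝ)) * U (Function.update p.1 1 p.2)) ^ 2 * min (b p.1) 1)
      ((PW D β).prod β) := by
    refine hdom.mono' (aestronglyMeasurable_of_tendsto_ae atTop hme hlim) ?_
    filter_upwards [hlim, ae_all_iff.2 hbd] with p hp hp'
    exact le_of_tendsto' hp.norm hp'
  have h5 := (integral_eq_zero_iff_of_nonneg_ae (by
    filter_upwards [hg'] with p hp
    exact mul_nonneg (sq_nonneg _) (le_min hp.1.le zero_le_one)) hint).1 h4
  have hne : ∀ᵐ p ∂((PW D β).prod β), p.1 1 ≠ p.2 := by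
    have hm : MeasurableSet {p : OmW D × J | p.1 1 ≠ p.2} :=
      (measurableSet_eq_fun ((measurable_pi_apply 1).comp measurable_fst) measurable_snd).compl
    rw [Measure.ae_prod_iff_ae_ae hm]
    refine ae_of_all _ fun ω => ?_
    rw [ae_iff]
    convert hβ (ω 1) using 2
    ext t
    simp [eq_comm]
  have h6 : ∀ᵐ p ∂((PW D β).prod β), U (Function.update p.1 1 p.2) = 0 := by
    filter_upwards [h5, hg', hne] with p hp hp' hp''
    have k1 : min (b p.1) 1 ≠ 0 := (lt_min hp'.1 one_pos).ne'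
    have k2 : (p.1 1 : ℝ) - (p.2 : ℝ) ≠ 0 := sub_ne_zero.2 fun h => hp'' (Subtype.ext h)
    simp only [Pi.zero_apply, mul_eq_zero, k1, or_false, pow_eq_zero_iff two_ne_zero, hs, k2,
      false_or] at hp
    exact hp
  have hmp := measurePreserving_updW β (1 : Wd (D + 1))
  rw [← hmp.map_eq]
  exact (ae_map_iff hmp.measurable.aemeasurable (p := fun ω => U ω = 0)
    (hU (measurableSet_singleton 0))).2 h6

end Crest.Agent.R166
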