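import Crest.Agent.R166.TW

/-! # The star seen from a vertex of the word tree has law `starLaw` -/

set_option autoImplicit false
set_option linter.unusedVariables false
set_option linter.unusedSectionVars false

open MeasureTheory ProbabilityTheory Filter Topology Matrix
open scoped ENNReal BoundedContinuousFunction

namespace Crest.Agent.R166

theorem TW1_step {D : ℕ} (x : Wd (D + 1)) (i : Fin (D + 1)) (hx : x.1.head? = some i) (c : Fin D) :
    (x * gen (i.succAbove c)).1 = i.succAbove c :: x.1 := by
  rw [Wd.mul_gen_val, rmul, if_neg]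
  rw [hx]
  exact fun h => Fin.succAbove_ne i c (Option.some.inj h).symm

/-- the non-backtracking word read from `(x, i)` when the last letter of `x` is `i`: the length grows -/
theorem vtxW_length {D : ℕ} (x : Wd (D + 1)) (i : Fin (D + 1)) (hx : x.1.head? = some i)
    (l : List (Fin D)) : (vtxW (x, i) l).1.length = x.1.length + l.length := by
  induction l generalizing x i with
  | nil => rfl
  | cons c l ih =>
    rw [vtxW, ih _ _ (by rw [TW1_step x i hx]; rfl), TW1_step x i hx, List.length_cons,
      List.length_cons]
    omega

theorem TW1_inj {D : ℕ} (l l' : List (Fin D)) (x x' : Wd (D + 1)) (i i' : Fin (D + 1))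
    (hx : x.1.head? = some i) (hx' : x'.1.head? = some i') (hl : x.1.length = x'.1.length)
    (h : vtxW (x, i) l = vtxW (x', i') l') : x = x' ∧ i = i' ∧ l = l' := by
  induction l generalizing l' x x' i i' with
  | nil =>
    have h1 := vtxW_length x' i' hx' l'
    rw [← h, vtxW_length x i hx, hl] at h1
    obtain rfl : l' = [] := List.length_eq_zero_iff.1 (by simpa using h1.symm)
    obtain rfl : x = x' := h
    exact ⟨rfl, Option.some.inj (hx.symm.trans hx'), rfl⟩
  | cons c l ih =>
    cases l' with
    | nil =>
      have h1 := vtxW_length x i hx (c :: l)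
      rw [h, vtxW_length x' i' hx', hl] at h1
      simp at h1
    | cons c' l' =>
      obtain ⟨h1, h2, h3⟩ := ih l' _ _ _ _ (by rw [TW1_step x i hx]; rfl)
        (by rw [TW1_step x' i' hx']; rfl)
        (by rw [TW1_step x i hx, TW1_step x' i' hx', List.length_cons, List.length_cons, hl]) h
      have h4 := congrArg Subtype.val h1
      rw [TW1_step x i hx, TW1_step x' i' hx'] at h4
      obtain rfl : x = x' := Subtype.ext (List.cons.inj h4).2
      obtain rfl : i = i' := Option.some.inj (hx.symm.trans hx')
      rw [Fin.succAbove_right_injective h2, h3]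
      exact ⟨rfl, rfl, rfl⟩

/-- the address map `none ↦ 1`, `some (i, l) ↦ vtxW (gen i, i) l` is injective -/
theorem addrW_injective (D : ℕ) : Function.Injective
    fun a : Option (Fin (D + 1) × List (Fin D)) =>
      (a.elim 1 fun p => vtxW (gen p.1, p.1) p.2 : Wd (D + 1)) := by
  have key : ∀ p : Fin (D + 1) × List (Fin D), vtxW (gen p.1, p.1) p.2 ≠ 1 := fun p h => by
    have h1 := vtxW_length (gen p.1) p.1 rfl p.2
    rw [h] at h1
    simp [Wd.one_val, gen] at h1
    omega
  rintro (_ | p) (_ | p') h
  · rfl
  · exact absurd h.symm (key p')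
  · exact absurd h (key p)
  · obtain ⟨-, h2, h3⟩ := TW1_inj p.2 p'.2 (gen p.1) (gen p'.1) p.1 p'.1 rfl rfl rfl h
    rw [Prod.ext h2 h3]

theorem TW1_star (D : ℕ) (β : Measure J) [IsProbabilityMeasure β] :
    MeasurePreserving (fun f : Option (Fin (D + 1) × List (Fin D)) → J =>
      ((f none, fun i l => f (some (i, l))) : StarEnv D)) (Measure.infinitePi fun _ => β)
      (starLaw D β) := by
  have hm : Measurable fun f : Option (Fin (D + 1) × List (Fin D)) → J =>
      ((f none, fun i l => f (some (i, l))) : StarEnv D) :=
    (measurable_pi_apply _).prodMk (measurable_pi_lambda _ fun c =>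
      measurable_pi_lambda _ fun l => measurable_pi_apply _)
  have hc : Function.Injective fun l : List (Fin D) => l.map Fin.castSucc :=
    List.map_injective_iff.2 (Fin.castSucc_injective D)
  have hinj : Function.Injective fun a : Option (Fin (D + 1) × List (Fin D)) =>
      (a.elim [] fun p => p.1 :: p.2.map Fin.castSucc : List (Fin (D + 1))) := by
    rintro (_ | p) (_ | p') h
    · rfl
    · simp at h
    · simp at h
    · obtain ⟨h1, h2⟩ := List.cons.inj h
      rw [Prod.ext h1 (hc h2)]
  have h1 := Measure.map_infinitePi_infinitePi_of_inj (P := fun _ : List (Fin (D + 1)) => β) hinj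
  have h2 : MeasurePreserving (fun e : Env (D + 1) => (e [], fun c => e.sub c)) (envLaw (D + 1) β)
      (β.prod (Measure.pi fun _ : Fin (D + 1) => envLaw (D + 1) β)) :=
    ⟨(measurable_pi_apply _).prodMk (measurable_pi_lambda _ fun c =>
      measurable_pi_lambda _ fun l => measurable_pi_apply _), envLaw_split (D + 1) β⟩
  have h3 : MeasurePreserving (fun (e : Env (D + 1)) (l : List (Fin D)) => e (l.map Fin.castSucc))
      (envLaw (D + 1) β) (envLaw D β) :=
    ⟨measurable_pi_lambda _ fun l => measurable_pi_apply _,
      Measure.map_infinitePi_infinitePi_of_inj (P := fun _ : List (Fin (D + 1)) => β) hc⟩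
  have h4 := ((MeasurePreserving.id β).prod
    (measurePreserving_pi (fun _ : Fin (D + 1) => envLaw (D + 1) β) (fun _ => envLaw D β)
      fun _ => h3)).comp h2
  refine ⟨hm, ?_⟩
  rw [← h1, Measure.map_map hm (by fun_prop)]
  exact h4.map_eq

/-- `map_infinitePi_infinitePi_of_inj` with `addrW_injective`, and `starLaw` is the image of the product measure on
`Option (Fin (D+1) × List (Fin D)) → J` (as in `T0b_comb`: the inverse coordinate map pushes `starLaw` to
`infinitePi` by `Measure.eq_infinitePi`; or use `infinitePi_map_curry`); general `x` by `starW_shift` -/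
theorem measurePreserving_starW {D : ℕ} (β : Measure J) [IsProbabilityMeasure β]
    (x : Wd (D + 1)) : MeasurePreserving (fun ω : OmW D => starW ω x) (PW D β) (starLaw D β) := by
  have h1 : MeasurePreserving (fun (ω : OmW D) (a : Option (Fin (D + 1) × List (Fin D))) =>
      ω (a.elim 1 fun p => vtxW (gen p.1, p.1) p.2)) (PW D β) (Measure.infinitePi fun _ => β) :=
    ⟨measurable_pi_lambda _ fun l => measurable_pi_apply _,
      Measure.map_infinitePi_infinitePi_of_inj (P := fun _ : Wd (D + 1) => β) (addrW_injective D)⟩
  have h2 := ((TW1_star D β).comp h1).comp (measurePreserving_shiftW β x)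
  convert h2 using 1
  funext ω
  have := starW_shift x 1 ω
  rw [mul_one] at this
  rw [← this]
  simp only [starW, one_mul]
  rfl

theorem measurePreserving_edgeW {D : ℕ} (β : Measure J) [IsProbabilityMeasure β]
    (x : Wd (D + 1)) (j : Fin (D + 1)) :
    MeasurePreserving (fun ω : OmW D => (envW ω (x, j), envW ω (x * gen j, j))) (PW D β)
      ((envLaw D β).prod (envLaw D β)) := by
  have h := (T0b_edge D β j).comp (measurePreserving_starW β x)
  convert h using 1
  funext ω
  exact Prod.ext (outEnv_starW ω x j).symm rfl

end Crest.Agent.R166
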