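import Crest.Agent.R166.T7
import Crest.Agent.R166.TW1
import Crest.Agent.R166.T8f

/-! # No factor eigenfunction -/

set_option autoImplicit false
set_option linter.unusedVariables false
set_option linter.unusedSectionVars false

open MeasureTheory ProbabilityTheory Filter Topology Matrix
open scoped ENNReal BoundedContinuousFunction

namespace Crest.Agent.R166

/-- (B2) no square-integrable factor eigenfunction -/
theorem no_factor_eig {D : ℕ} (hD : 2 ≤ D) {s E : ℝ} {β : Measure J} [IsProbabilityMeasure β]
    (hβ : Adm s β) (hT : TreeOK D s β E) (hE : E ^ 2 < 4 * D)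
    {u : Env D × Env D → ℝ} (hu : Measurable u)
    (h2 : MemLp u 2 ((envLaw D β).prod (envLaw D β)))
    (ht : ∀ i j, ∀ᵐ σ ∂(starLaw D β), u (outEnv σ i, σ.2 i) = u (outEnv σ j, σ.2 j))
    (he : ∀ᵐ σ ∂(starLaw D β), ∑ i, u (σ.2 i, outEnv σ i) =
      (E - s * (σ.1 : ℝ)) * u (outEnv σ 0, σ.2 0)) :
    ∀ᵐ e ∂((envLaw D β).prod (envLaw D β)), u e = 0 := by
  have hp := measurePreserving_edgeW (D := D) β 1 0
  set U : OmW D → ℝ := fun ω => u (envW ω (1, 0), envW ω (1 * gen 0, 0)) with hU
  have hUm : Measurable U := hu.comp hp.measurable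
  have heq : ∀ᵐ ω ∂(PW D β), s * (ω 1 : ℝ) * U ω + ∑ i, U (shiftW (gen i) ω) = E * U ω := by
    have h1 := (measurePreserving_starW (D := D) β 1).quasiMeasurePreserving.ae he
    have h3 := ae_all_iff.2 fun i =>
      (measurePreserving_starW (D := D) β (gen i)).quasiMeasurePreserving.ae (ht i 0)
    filter_upwards [h1, h3] with ω h1 h3
    have e : ∀ i, U (shiftW (gen i) ω) = u ((starW ω 1).2 i, outEnv (starW ω 1) i) := by
      intro i
      have h4 := h3 i
      have h5 : (gen i * gen i : Wd (D + 1)) = 1 := by simpa using mul_gen_gen 1 i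
      simp only [outEnv_starW] at h4 ⊢
      simp only [starW, h5] at h4 ⊢
      simp only [hU, envW_shift, mul_one, one_mul]
      exact h4.symm
    rw [Finset.sum_congr rfl fun i _ => e i, h1, outEnv_starW]
    simp only [hU, starW]
    ring
  have key : ∀ᵐ ω ∂(PW D β), U ω = 0 := by
    rcases hβ with rfl | ⟨hs, rfl⟩
    · have h0 : ∀ᵐ ω ∂(PW D (Measure.dirac J0)), ω = fun _ => J0 := by
        have h1 : ∀ w : Wd (D + 1), ∀ᵐ ω ∂(PW D (Measure.dirac J0)), ω w = J0 := fun w =>
          (measurePreserving_eval_infinitePi (fun _ : Wd (D + 1) => Measure.dirac J0)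
            w).quasiMeasurePreserving.ae (p := fun t => t = J0) (by simp)
        exact (ae_all_iff.2 h1).mono fun ω h => funext h
      filter_upwards [h0, heq] with ω h0 h1
      have e : ∀ i, shiftW (gen i) ω = ω := fun i => by rw [h0]; rfl
      have e1 : (ω 1 : ℝ) = 0 := by rw [h0]; rfl
      simp only [e, e1, Finset.sum_const, Finset.card_univ, Fintype.card_fin, nsmul_eq_mul,
        mul_zero, zero_mul, zero_add] at h1
      push_cast at h1
      have hne : (D : ℝ) + 1 ≠ E := by
        rintro rfl
        nlinarith [sq_nonneg ((D : ℝ) - 1)]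
      exact (mul_eq_mul_right_iff.1 h1).resolve_left hne
    · refine no_eig_W unifJ hs.ne' E (fun t => ?_) hUm (h2.comp_measurePreserving hp) heq ?_
      · unfold unifJ
        rw [Measure.smul_apply, (MeasurableEmbedding.subtype_coe measurableSet_Icc).comap_apply,
          Set.image_singleton, measure_singleton, smul_zero]
      · filter_upwards [(measurePreserving_starW (D := D) unifJ 1).quasiMeasurePreserving.ae
          (ae_star unifJ hT.1)] with ω hω
        have him : (((s * (ω 1 : ℝ) : ℝ) : ℂ) - E - ∑ i, m0 s E ((starW ω 1).2 i)).im < 0 := by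
          simp only [Complex.sub_im, Complex.ofReal_im, Complex.im_sum, sub_self, zero_sub,
            neg_lt_zero]
          exact Finset.sum_pos (fun i _ => (hω.1 i).2) Finset.univ_nonempty
        have hne : ((s * (ω 1 : ℝ) : ℝ) : ℂ) - E - ∑ i, m0 s E ((starW ω 1).2 i) ≠ 0 := fun h => by
          rw [h] at him; simp at him
        refine ⟨(1 / (((s * (ω 1 : ℝ) : ℝ) : ℂ) - E - ∑ i, m0 s E ((starW ω 1).2 i))).im, ?_, ?_⟩
        · rw [one_div, Complex.inv_im]
          exact div_pos (neg_pos.2 him) (Complex.normSq_pos.2 hne)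
        · refine (Complex.continuous_im.tendsto _).comp ?_
          exact tendsto_const_nhds.div ((tendsto_const_nhds.sub (tendsto_zj E)).sub
            (tendsto_finsetSum _ fun i _ => (hω.1 i).1)) hne
  rw [← hp.map_eq]
  exact (ae_map_iff hp.aemeasurable (measurableSet_eq_fun hu measurable_const)).2 key

end Crest.Agent.R166
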