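import Crest.Agent.R166.T0b
import Crest.Agent.R166.T0c

/-! # More basic facts on `mT`, `gE`, `mc` -/

set_option autoImplicit false
set_option linter.unusedVariables false
set_option linter.unusedSectionVars false

open MeasureTheory ProbabilityTheory Filter Topology Matrix
open scoped ENNReal BoundedContinuousFunction

namespace Crest.Agent.R166

theorem T0f_gE (m m' : ℂ) : gE m m' 0 0 = m / (1 - m * m') := by simp [gE]

theorem T0f_gE' {m : ℂ} (hm : 0 < m.im) (m' : ℂ) : gE m m' 0 0 = 1 / (1 / m - m') := by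
  have h0 : m ≠ 0 := fun h => by simp [h] at hm
  have : 1 / m - m' = (1 - m * m') / m := by field_simp
  rw [T0f_gE, this, one_div_div]

theorem T0f_im {m : ℂ} (hm : 0 < m.im) (m' : ℂ) : (1 / m - m').im ≤ -m'.im := by
  rw [Complex.sub_im, one_div, Complex.inv_im]
  have : 0 ≤ m.im / Complex.normSq m := div_nonneg hm.le (Complex.normSq_nonneg _)
  rw [neg_div]
  linarith

/-- `gE m m' 0 0 = 1 / (1/m - m')`, hence its modulus is at most `1 / Im m'` -/
theorem norm_gE00_le {m m' : ℂ} (hm : 0 < m.im) (hm' : 0 < m'.im) :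
    ‖gE m m' 0 0‖ ≤ 1 / m'.im := by
  rw [T0f_gE' hm, norm_div, norm_one]
  refine one_div_le_one_div_of_le hm' (le_trans ?_ (Complex.abs_im_le_norm _))
  have := T0f_im hm m'
  rw [abs_of_nonpos (by linarith)]
  linarith

theorem gE00_im_pos {m m' : ℂ} (hm : 0 < m.im) (hm' : 0 < m'.im) : 0 < (gE m m' 0 0).im := by
  have h1 := T0f_im hm m'
  have h2 : 1 / m - m' ≠ 0 := fun h => by
    rw [h, Complex.zero_im] at h1
    linarith
  rw [T0f_gE' hm, one_div (1 / m - m'), Complex.inv_im]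
  exact div_pos (by linarith) (Complex.normSq_pos.2 h2)

theorem measurable_gE00 : Measurable fun p : ℂ × ℂ => gE p.1 p.2 0 0 := by
  simp only [T0f_gE]
  exact measurable_fst.div (measurable_const.sub (measurable_fst.mul measurable_snd))

theorem continuousAt_gE00 {m m' : ℂ} (hm : 0 < m.im) (hm' : 0 < m'.im) :
    ContinuousAt (fun p : ℂ × ℂ => gE p.1 p.2 0 0) (m, m') := by
  simp only [T0f_gE]
  exact continuousAt_fst.div (continuousAt_const.sub (continuousAt_fst.mul continuousAt_snd))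
    (T0b_one_sub_ne hm hm')

theorem continuous_envSub {D : ℕ} (c : Fin D) : Continuous (Env.sub (D := D) c) :=
  continuous_pi fun l => continuous_apply (c :: l)

@[simp] theorem comb_nil {D : ℕ} (v : J) (f : Fin D → Env D) : comb v f [] = v := rfl

@[simp] theorem comb_sub {D : ℕ} (v : J) (f : Fin D → Env D) (c : Fin D) :
    (comb v f).sub c = f c := rfl

theorem comb_eta {D : ℕ} (e : Env D) : comb (e []) (fun c => e.sub c) = e := by
  funext l; cases l <;> rfl

theorem T0f_sub {D : ℕ} {z z' : ℂ} (hz : 0 < z.im) (hz' : 0 < z'.im) (t t' : ℝ) {a a' : Fin D → ℂ}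
    (ha : ∀ c, 0 ≤ (a c).im) (ha' : ∀ c, 0 ≤ (a' c).im) {δ : ℝ}
    (h : ‖-(((t : ℂ) - z) - ((t' : ℂ) - z')) + ∑ c, (a c - a' c)‖ ^ 2 ≤
      δ * (z.im + ∑ c, (a c).im) * (z'.im + ∑ c, (a' c).im)) :
    ‖1 / ((t : ℂ) - z - ∑ c, a c) - 1 / ((t' : ℂ) - z' - ∑ c, a' c)‖ ^ 2 ≤
      δ * (1 / ((t : ℂ) - z - ∑ c, a c)).im * (1 / ((t' : ℂ) - z' - ∑ c, a' c)).im := by
  have h1 := (T0a_den hz t ha).2.1
  have h2 := (T0a_den hz' t' ha').2.1
  have e : 1 / ((t : ℂ) - z - ∑ c, a c) - 1 / ((t' : ℂ) - z' - ∑ c, a' c) =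
      1 / ((t : ℂ) - z - ∑ c, a c) * (1 / ((t' : ℂ) - z' - ∑ c, a' c)) *
        (-(((t : ℂ) - z) - ((t' : ℂ) - z')) + ∑ c, (a c - a' c)) := by
    rw [Finset.sum_sub_distrib]
    field_simp
    ring
  rw [e, T0a_im hz t ha, T0a_im hz' t' ha', norm_mul, norm_mul, mul_pow, mul_pow]
  refine (mul_le_mul_of_nonneg_left h (by positivity)).trans (le_of_eq ?_)
  ring

theorem T0f_im_le {D : ℕ} (s : ℝ) {z : ℂ} (hz : 0 < z.im) (e : Env D) :
    (mT s z e).im / z.im ≤ 1 / z.im ^ 2 := by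
  have h := ((le_abs_self _).trans (Complex.abs_im_le_norm _)).trans (norm_mT_le (s := s) hz e)
  calc _ ≤ (1 / z.im) / z.im := by gcongr
    _ = _ := by field_simp

/-- general Lipschitz bound (as `mT_lip`: induction on `mk`, `m - m' = m m' (Δ + Σ (m_c - m'_c))`,
`T0a_cs`, `T0a_im`; then pass to the limit) -/
theorem mT_lip_gen {D : ℕ} {s s' : ℝ} {z z' : ℂ} (hz : 0 < z.im) (hz' : 0 < z'.im) (e e' : Env D)
    {τ : ℝ}
    (h : ∀ l, ‖(((s * (e l : ℝ) : ℝ) : ℂ) - z) - (((s' * (e' l : ℝ) : ℝ) : ℂ) - z')‖ ≤ τ) :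
    ‖mT s z e - mT s' z' e'‖ ^ 2 ≤
      τ ^ 2 * ((mT s z e).im / z.im) * ((mT s' z' e').im / z'.im) := by
  set δ := τ ^ 2 / (z.im * z'.im) with hδ
  have hδ0 : 0 ≤ δ := by positivity
  have key : ∀ (k : ℕ) (e e' : Env D),
      (∀ l, ‖(((s * (e l : ℝ) : ℝ) : ℂ) - z) - (((s' * (e' l : ℝ) : ℝ) : ℂ) - z')‖ ≤ τ) →
      ‖mk s z k e - mk s' z' k e'‖ ^ 2 ≤ δ * (mk s z k e).im * (mk s' z' k e').im := by
    intro k
    induction k with
    | zero => intro e e' _; simp [mk]
    | succ k ih =>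
      intro e e' h
      have ha := fun c => (T0a_mk (s := s) hz k (e.sub c)).1
      have hb := fun c => (T0a_mk (s := s') hz' k (e'.sub c)).1
      refine T0f_sub hz hz' _ _ ha hb ?_
      have := T0a_cs (ι := Option (Fin D)) hδ0
        (d := fun o => o.elim (-((((s * (e [] : ℝ) : ℝ) : ℂ) - z) -
          (((s' * (e' [] : ℝ) : ℝ) : ℂ) - z')))
          fun c => mk s z k (e.sub c) - mk s' z' k (e'.sub c))
        (x := fun o => o.elim z.im fun c => (mk s z k (e.sub c)).im)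
        (y := fun o => o.elim z'.im fun c => (mk s' z' k (e'.sub c)).im)
        (by rintro (_ | c); exacts [hz.le, ha c]) (by rintro (_ | c); exacts [hz'.le, hb c])
        (by
          rintro (_ | c)
          · simp only [Option.elim_none, hδ, norm_neg]
            refine (pow_le_pow_left₀ (norm_nonneg _) (h []) 2).trans (le_of_eq ?_)
            field_simp
          · exact ih (e.sub c) (e'.sub c) fun l => h (c :: l))
      simpa only [Fintype.sum_option, Option.elim_none, Option.elim_some] using this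
  have h1 := T0a_lim (s := s) hz e
  have h2 := T0a_lim (s := s') hz' e'
  have h3 : ‖mT s z e - mT s' z' e'‖ ^ 2 ≤ δ * (mT s z e).im * (mT s' z' e').im :=
    le_of_tendsto_of_tendsto' ((h1.sub h2).norm.pow 2)
      ((((Complex.continuous_im.tendsto _).comp h1).const_mul δ).mul
        ((Complex.continuous_im.tendsto _).comp h2)) fun k => key k e e' h
  refine h3.trans (le_of_eq ?_)
  rw [hδ]
  field_simp

/-- Lipschitz in the disorder strength -/
theorem mT_lip_s {D : ℕ} (s s' : ℝ) {z : ℂ} (hz : 0 < z.im) (e : Env D) :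
    ‖mT s z e - mT s' z e‖ ≤ |s - s'| / z.im ^ 2 := by
  have h := mT_lip_gen (s := s) (s' := s') hz hz e e (τ := |s - s'|) fun l => by
    rw [sub_sub_sub_cancel_right, ← Complex.ofReal_sub, Complex.norm_real, Real.norm_eq_abs,
      ← sub_mul, abs_mul]
    exact mul_le_of_le_one_right (abs_nonneg _) (abs_le.2 (e l).2)
  refine le_of_pow_le_pow_left₀ two_ne_zero (by positivity) ?_
  have h1 := T0f_im_le s hz e
  have h2 := T0f_im_le s' hz e
  have h3 : 0 ≤ (mT s' z e).im / z.im := div_nonneg (T0a_mT hz e) hz.le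
  calc _ ≤ _ := h
    _ ≤ |s - s'| ^ 2 * (1 / z.im ^ 2) * (1 / z.im ^ 2) := by gcongr
    _ = _ := by field_simp

/-- Lipschitz in the spectral parameter -/
theorem mT_lip_z {D : ℕ} (s : ℝ) {z z' : ℂ} (hz : 0 < z.im) (hz' : 0 < z'.im) (e : Env D) :
    ‖mT s z e - mT s z' e‖ ≤ ‖z - z'‖ / (z.im * z'.im) := by
  have h := mT_lip (s := s) hz hz' e
  refine le_of_pow_le_pow_left₀ two_ne_zero (by positivity) ?_
  have h1 := T0f_im_le s hz e
  have h2 := T0f_im_le s hz' e
  have h3 : 0 ≤ (mT s z' e).im / z'.im := div_nonneg (T0a_mT hz' e) hz'.le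
  calc _ ≤ _ := h
    _ ≤ ‖z - z'‖ ^ 2 * (1 / z.im ^ 2) * (1 / z'.im ^ 2) := by gcongr
    _ = _ := by field_simp

theorem measurable_mT {D : ℕ} {s : ℝ} {z : ℂ} (hz : 0 < z.im) : Measurable (mT (D := D) s z) :=
  (continuous_mT hz).measurable

theorem zj_im (E : ℝ) (j : ℕ) : (zj E j).im = (2⁻¹ : ℝ) ^ j := by
  simp only [zj, Complex.add_im, Complex.ofReal_im, Complex.mul_im, Complex.ofReal_re,
    Complex.I_im, Complex.I_re]
  ring

theorem zj_im_pos (E : ℝ) (j : ℕ) : 0 < (zj E j).im := by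
  rw [zj_im]; positivity

theorem tendsto_zj (E : ℝ) : Tendsto (zj E) atTop (𝓝 (E : ℂ)) := by
  have h : Tendsto (fun j : ℕ => ((2⁻¹ : ℝ) ^ j)) atTop (𝓝 0) :=
    tendsto_pow_atTop_nhds_zero_of_lt_one (by norm_num) (by norm_num)
  have h2 := (((Complex.continuous_ofReal.tendsto _).comp h).mul_const Complex.I).const_add (E : ℂ)
  rw [Complex.ofReal_zero, zero_mul, add_zero] at h2
  exact h2

theorem mT_zero (D : ℕ) (z : ℂ) (e : Env D) : mT 0 z e = mz D z := by
  have key : ∀ (k : ℕ) (e e' : Env D), mk 0 z k e = mk 0 z k e' := by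
    intro k
    induction k with
    | zero => intro e e'; rfl
    | succ k ih =>
      intro e e'
      have h1 : ∀ c, mk 0 z k (e.sub c) = mk 0 z k (e'.sub c) := fun c => ih _ _
      simp only [mk, h1, zero_mul]
  unfold mz mT
  congr 1
  funext k
  exact key k _ _

/-- `mc` is Lipschitz on the band: `(m - m') (D (m + m') + E) = -(E - E') m'` -/
theorem mc_lip {D : ℕ} (hD : 2 ≤ D) {κ : ℝ} (hκ : 0 < κ) : ∃ C : ℝ, 0 < C ∧ ∀ E E' : ℝ,
    E ^ 2 ≤ 4 * D - κ → E' ^ 2 ≤ 4 * D - κ → ‖mc D E - mc D E'‖ ≤ C * |E - E'| := by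
  have hr : 0 < √κ := Real.sqrt_pos.2 hκ
  have hD' : (2 : ℝ) ≤ D := by exact_mod_cast hD
  refine ⟨1 + (D + 1) / √κ, by positivity, fun E E' hE hE' => ?_⟩
  set a := √(4 * D - E ^ 2) with ha
  set b := √(4 * D - E' ^ 2) with hb
  have ha1 : √κ ≤ a := Real.sqrt_le_sqrt (by linarith)
  have hb1 : √κ ≤ b := Real.sqrt_le_sqrt (by linarith)
  have ha2 : a ^ 2 = 4 * D - E ^ 2 := Real.sq_sqrt (by linarith)
  have hb2 : b ^ 2 = 4 * D - E' ^ 2 := Real.sq_sqrt (by linarith)
  have hE1 : |E| ≤ D + 1 := abs_le_of_sq_le_sq' (by nlinarith) (by positivity) |> abs_le.2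
  have hE2 : |E'| ≤ D + 1 := abs_le_of_sq_le_sq' (by nlinarith) (by positivity) |> abs_le.2
  have h1 : |a - b| * (a + b) = |E - E'| * |E + E'| := by
    rw [← abs_of_pos (show 0 < a + b by linarith), ← abs_mul, ← abs_mul, ← abs_neg]
    congr 1
    nlinarith
  have h2 : |a - b| ≤ (D + 1) / √κ * |E - E'| := by
    rw [div_mul_eq_mul_div, le_div_iff₀ hr]
    have h3 : |E + E'| ≤ 2 * (D + 1) := (abs_add_le _ _).trans (by linarith)
    have h4 : |a - b| * (2 * √κ) ≤ |a - b| * (a + b) :=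
      mul_le_mul_of_nonneg_left (by linarith) (abs_nonneg _)
    have h5 : |E - E'| * |E + E'| ≤ |E - E'| * (2 * (D + 1)) :=
      mul_le_mul_of_nonneg_left h3 (abs_nonneg _)
    nlinarith
  have h6 : mc D E - mc D E' = (((-(E - E') : ℝ) : ℂ) + ((a - b : ℝ) : ℂ) * Complex.I) / (2 * D) := by
    unfold mc
    rw [← ha, ← hb]
    push_cast
    ring
  have h7 : (1 : ℝ) ≤ ‖(2 * D : ℂ)‖ := by
    rw [norm_mul, Complex.norm_natCast, Complex.norm_ofNat]
    linarith
  rw [h6, norm_div]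
  refine (div_le_self (norm_nonneg _) h7).trans ((norm_add_le _ _).trans ?_)
  rw [norm_mul, Complex.norm_I, mul_one, Complex.norm_real, Complex.norm_real, Real.norm_eq_abs,
    Real.norm_eq_abs, abs_neg]
  linarith

end Crest.Agent.R166
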