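import Crest.Agent.R166.Mob1

/-! # Möbius action on jets: continuity, test functions -/

set_option autoImplicit false
set_option linter.unusedVariables false
set_option linter.unusedSectionVars false

open MeasureTheory ProbabilityTheory Filter Topology Matrix
open scoped ENNReal BoundedContinuousFunction

namespace Crest.Agent.R166

/-- the action with the inverse of the determinant as a free parameter -/
noncomputable def mob2G {r : ℕ} (q : Quad r) (Z : Jet r) (c : ℂ) : Jet r :=
  (Matrix.of.symm ((cx q.A * Matrix.of Z.1 + cx q.B) * (c • (jfac q Z).adjugate)),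
   Matrix.of.symm ((c • (jfac q Z).adjugate)ᵀ * Matrix.of Z.2.1 * (c • (jfac q Z).adjugate)),
   Z.2.2 - Matrix.trace ((c • (jfac q Z).adjugate) * cx q.C * Matrix.of Z.2.1))

theorem mob2_eq {r : ℕ} (q : Quad r) (Z : Jet r) : mob q Z = mob2G q Z (jfac q Z).det⁻¹ := by
  unfold mob mob2G
  rw [Matrix.inv_def, Ring.inverse_eq_inv']

section
variable {r : ℕ} {X : Type*} [TopologicalSpace X] {q : X → Quad r} {Z : X → Jet r}

theorem mob2_cx {A : X → Matrix (Fin r) (Fin r) ℝ} (h : Continuous A) :
    Continuous fun x => cx (A x) := h.matrix_map Complex.continuous_ofReal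

theorem mob2_jfac (hC : Continuous fun x => (q x).C) (hD : Continuous fun x => (q x).D)
    (hZ : Continuous Z) : Continuous fun x => jfac (q x) (Z x) :=
  ((mob2_cx hC).matrix_mul (B := fun x => Matrix.of (Z x).1) hZ.fst).add (mob2_cx hD)

theorem mob2_contG {c : X → ℂ} (hA : Continuous fun x => (q x).A)
    (hB : Continuous fun x => (q x).B) (hC : Continuous fun x => (q x).C)
    (hD : Continuous fun x => (q x).D) (hZ : Continuous Z) (hc : Continuous c) :
    Continuous fun x => mob2G (q x) (Z x) (c x) := by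
  have hN : Continuous fun x => c x • (jfac (q x) (Z x)).adjugate :=
    hc.smul (mob2_jfac hC hD hZ).matrix_adjugate
  have h1 : Continuous fun x => Matrix.of (Z x).1 := hZ.fst
  have h2 : Continuous fun x => Matrix.of (Z x).2.1 := hZ.snd.fst
  exact ((((mob2_cx hA).matrix_mul h1).add (mob2_cx hB)).matrix_mul hN).prodMk
    (((hN.matrix_transpose.matrix_mul h2).matrix_mul hN).prodMk
      (hZ.snd.snd.sub ((hN.matrix_mul (mob2_cx hC)).matrix_mul h2).matrix_trace))

theorem mob2_joint {x : X} (hA : Continuous fun x => (q x).A)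
    (hB : Continuous fun x => (q x).B) (hC : Continuous fun x => (q x).C)
    (hD : Continuous fun x => (q x).D) (hZ : ContinuousAt Z x) (h : (jfac (q x) (Z x)).det ≠ 0) :
    ContinuousAt (fun x => mob (q x) (Z x)) x := by
  have h1 : Continuous fun y : (X × Jet r) × ℂ => mob2G (q y.1.1) y.1.2 y.2 :=
    mob2_contG (q := fun y : (X × Jet r) × ℂ => q y.1.1) (hA.comp continuous_fst.fst)
      (hB.comp continuous_fst.fst) (hC.comp continuous_fst.fst) (hD.comp continuous_fst.fst)
      continuous_fst.snd continuous_snd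
  have h2 : Continuous fun y : X × Jet r => (jfac (q y.1) y.2).det :=
    (mob2_jfac (q := fun y : X × Jet r => q y.1) (hC.comp continuous_fst) (hD.comp continuous_fst)
      continuous_snd).matrix_det
  have h3 : ContinuousAt (fun x => (x, Z x)) x := continuousAt_id.prodMk hZ
  have h4 : ContinuousAt (fun x => (jfac (q x) (Z x)).det) x :=
    ContinuousAt.comp (f := fun x => (x, Z x)) h2.continuousAt h3
  simp only [mob2_eq]
  exact ContinuousAt.comp (f := fun x => ((x, Z x), (jfac (q x) (Z x)).det⁻¹)) h1.continuousAt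
    (h3.prodMk (h4.inv₀ h))

end

attribute [local irreducible] mob mob2G jfac

theorem mob2_at {r : ℕ} {q : Quad r} (h : q.IsSymp) {Z : Jet r} (hZ : Z ∈ Sieg r) :
    ContinuousAt (mob q) Z :=
  mob2_joint (q := fun _ => q) (Z := fun Z => Z) continuous_const continuous_const
    continuous_const continuous_const continuousAt_id (jfac_isUnit h hZ).ne_zero

theorem mob2_supp {r k : ℕ} {q : Quad r} (h : q.IsSymp) {φ : (Fin k → Jet r) → ℝ}
    {K : Set (Fin k → Jet r)} (hKS : ∀ Z ∈ K, ∀ j, Z j ∈ Sieg r)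
    (hK0 : ∀ Z, (∀ j, Z j ∈ cSieg r) → Z ∉ K → φ Z = 0) {Z : Fin k → Jet r}
    (hZ : ∀ j, Z j ∈ cSieg r) (hne : φ (fun j => mob q (Z j)) ≠ 0) :
    ∃ W ∈ K, (Z = fun j => mob q.inv (W j)) ∧ (fun j => mob q (Z j)) = W := by
  have h1 : ∀ j, mob q (Z j) ∈ cSieg r := fun j => by
    by_cases a : Z j ∈ Sieg r
    · exact Sieg_subset_cSieg r (mob_mem_Sieg h a)
    · exact (mob_bdry h (hZ j) a).1
  have h2 : (fun j => mob q (Z j)) ∈ K := by
    by_contra a
    exact hne (hK0 _ h1 a)
  refine ⟨_, h2, funext fun j => ?_, rfl⟩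
  have h3 : Z j ∈ Sieg r := by
    by_contra a
    exact (mob_bdry h (hZ j) a).2 (hKS _ h2 j)
  rw [← mob_mul h.inv.1 h h3, h.inv.2.1, mob_one]

theorem measurable_mob {r : ℕ} (q : Quad r) : Measurable (mob q) := by
  have h1 : Continuous fun x : Jet r × ℂ => mob2G q x.1 x.2 :=
    mob2_contG (q := fun _ => q) continuous_const continuous_const continuous_const
      continuous_const continuous_fst continuous_snd
  have h2 : Continuous fun Z : Jet r => (jfac q Z).det :=
    (mob2_jfac (q := fun _ => q) continuous_const continuous_const continuous_id).matrix_det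
  rw [show mob q = fun Z => mob2G q Z (jfac q Z).det⁻¹ from funext (mob2_eq q)]
  have h3 : Measurable fun Z : Jet r => (Z, (jfac q Z).det⁻¹) :=
    measurable_id.prodMk h2.measurable.inv
  simpa only [Function.comp_def] using h1.measurable.comp h3

theorem continuousOn_mob {r : ℕ} {q : Quad r} (h : q.IsSymp) : ContinuousOn (mob q) (Sieg r) :=
  fun Z hZ => (mob2_at h hZ).continuousWithinAt

/-- pull-back of a test function by a symplectic map -/
theorem TestFn.pullback {r k : ℕ} {q : Quad r} (h : q.IsSymp) {φ : (Fin k → Jet r) → ℝ}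
    (hφ : TestFn φ) : ∃ ψ : (Fin k → Jet r) → ℝ, TestFn ψ ∧
      ∀ Z, (∀ j, Z j ∈ cSieg r) → ψ Z = φ fun j => mob q (Z j) := by
  obtain ⟨φc, -, K, hK, hKS, hK0⟩ := hφ
  have hi := h.inv
  have hK' : IsCompact ((fun (W : Fin k → Jet r) j => mob q.inv (W j)) '' K) :=
    hK.image_of_continuousOn fun W hW => (continuousAt_pi.mpr fun j =>
      (mob2_at hi.1 (hKS W hW j)).comp (f := fun W : Fin k → Jet r => W j)
        (continuous_apply j).continuousAt).continuousWithinAt
  set K' := (fun (W : Fin k → Jet r) j => mob q.inv (W j)) '' K with hK'd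
  have hK'S : ∀ Z ∈ K', ∀ j, Z j ∈ Sieg r := by
    rintro _ ⟨W, hW, rfl⟩ j
    exact mob_mem_Sieg hi.1 (hKS W hW j)
  have h0 : ∀ Z, (∀ j, Z j ∈ cSieg r) → Z ∉ K' → φ (fun j => mob q (Z j)) = 0 := by
    intro Z hZ hn
    by_contra hne
    obtain ⟨W, hW, e, -⟩ := mob2_supp h hKS hK0 hZ hne
    exact hn ⟨W, hW, e.symm⟩
  have hC : IsClosed {Z : Fin k → Jet r | ∀ j, Z j ∈ cSieg r} := by
    rw [Set.ofPred_forall]
    exact isClosed_iInter fun j => (isClosed_cSieg r).preimage (continuous_apply j)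
  have hf : ContinuousOn (fun Z : Fin k → Jet r => φ fun j => mob q (Z j))
      {Z | ∀ j, Z j ∈ cSieg r} := by
    intro Z hZ
    by_cases hm : Z ∈ K'
    · exact (φc.continuousAt.comp (continuousAt_pi.mpr fun j =>
        (mob2_at h (hK'S Z hm j)).comp (f := fun W : Fin k → Jet r => W j)
          (continuous_apply j).continuousAt)).continuousWithinAt
    · refine (continuousWithinAt_const (b := (0 : ℝ))).congr_of_eventuallyEq ?_ (h0 Z hZ hm)
      filter_upwards [self_mem_nhdsWithin,
        mem_nhdsWithin_of_mem_nhds (hK'.isClosed.isOpen_compl.mem_nhds hm)] with W a b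
      exact h0 W a b
  obtain ⟨g, hg⟩ := ContinuousMap.exists_restrict_eq hC ⟨_, hf.domRestrict⟩
  have hg' : ∀ Z, (∀ j, Z j ∈ cSieg r) → g Z = φ fun j => mob q (Z j) := fun Z hZ =>
    DFunLike.congr_fun hg ⟨Z, hZ⟩
  obtain ⟨χ, χ1, -, χc, -⟩ := exists_continuous_one_zero_of_isCompact hK' isClosed_empty
    (Set.disjoint_empty _)
  refine ⟨fun Z => χ Z * g Z, ⟨χ.continuous.mul g.continuous, χc.mul_right, K', hK', hK'S,
    fun Z hZ hn => ?_⟩, fun Z hZ => ?_⟩
  · show χ Z * g Z = 0
    rw [hg' Z hZ, h0 Z hZ hn, mul_zero]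
  · show χ Z * g Z = _
    by_cases hm : Z ∈ K'
    · rw [hg' Z hZ, χ1 hm, Pi.one_apply, one_mul]
    · rw [hg' Z hZ, h0 Z hZ hm, mul_zero]

/-- uniform continuity of the action in the group element -/
theorem TestFn.close {r k : ℕ} {q : Quad r} (h : q.IsSymp) {φ : (Fin k → Jet r) → ℝ}
    (hφ : TestFn φ) {ε : ℝ} (hε : 0 < ε) : ∃ δ : ℝ, 0 < δ ∧ ∀ q' : Quad r, q'.IsSymp →
      (∀ b c, |q'.A b c - q.A b c| ≤ δ ∧ |q'.B b c - q.B b c| ≤ δ ∧
        |q'.C b c - q.C b c| ≤ δ ∧ |q'.D b c - q.D b c| ≤ δ) →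
      ∀ Z : Fin k → Jet r, (∀ j, Z j ∈ cSieg r) →
        |φ (fun j => mob q' (Z j)) - φ (fun j => mob q (Z j))| ≤ ε := by
  obtain ⟨φc, -, K, hK, hKS, hK0⟩ := hφ
  have hi := h.inv
  let T : (Fin r → Fin r → ℝ) × (Fin r → Fin r → ℝ) × (Fin r → Fin r → ℝ) ×
      (Fin r → Fin r → ℝ) → Quad r := fun t => ⟨t.1, t.2.1, t.2.2.1, t.2.2.2⟩
  let t₀ : (Fin r → Fin r → ℝ) × (Fin r → Fin r → ℝ) × (Fin r → Fin r → ℝ) ×
      (Fin r → Fin r → ℝ) := (q.A, q.B, q.C, q.D)
  have cA : Continuous fun t => (T t).A := continuous_fst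
  have cB : Continuous fun t => (T t).B := continuous_fst.comp continuous_snd
  have cC : Continuous fun t => (T t).C := continuous_fst.comp (continuous_snd.comp continuous_snd)
  have cD : Continuous fun t => (T t).D := continuous_snd.comp (continuous_snd.comp continuous_snd)
  have e1 : ∀ W ∈ K, (fun j => mob q (mob q.inv (W j))) = W := fun W hW => funext fun j => by
    rw [← mob_mul h hi.1 (hKS W hW j), hi.2.2, mob_one]
  have H := hK.eventually_forall_of_forall_eventually (x₀ := t₀)
    (P := fun t W => |φ W - φ (fun j => mob q (mob (T t).inv (W j)))| < ε ∧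
      |φ (fun j => mob (T t) (mob q.inv (W j))) - φ W| < ε) fun W hW => by
    have c1 : ContinuousAt (fun z : _ × (Fin k → Jet r) =>
        |φ z.2 - φ (fun j => mob q (mob (T z.1).inv (z.2 j)))|) (t₀, W) := by
      refine ((φc.comp continuous_snd).continuousAt.sub (φc.continuousAt.comp
        (continuousAt_pi.mpr fun j => ?_))).abs
      refine ContinuousAt.comp (g := mob q) (mob2_at h (mob_mem_Sieg hi.1 (hKS W hW j))) ?_
      exact mob2_joint (q := fun z : _ × (Fin k → Jet r) => (T z.1).inv)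
        (cD.comp continuous_fst).matrix_transpose (cB.comp continuous_fst).matrix_transpose.neg
        (cC.comp continuous_fst).matrix_transpose.neg (cA.comp continuous_fst).matrix_transpose
        ((continuous_apply j).comp continuous_snd).continuousAt
        (jfac_isUnit hi.1 (hKS W hW j)).ne_zero
    have c2 : ContinuousAt (fun z : _ × (Fin k → Jet r) =>
        |φ (fun j => mob (T z.1) (mob q.inv (z.2 j))) - φ z.2|) (t₀, W) := by
      refine ((φc.continuousAt.comp (continuousAt_pi.mpr fun j => ?_)).sub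
        (φc.comp continuous_snd).continuousAt).abs
      exact mob2_joint (q := fun z : _ × (Fin k → Jet r) => T z.1)
        (cA.comp continuous_fst) (cB.comp continuous_fst) (cC.comp continuous_fst)
        (cD.comp continuous_fst)
        (ContinuousAt.comp (g := mob q.inv) (mob2_at hi.1 (hKS W hW j))
          ((continuous_apply j).comp continuous_snd).continuousAt)
        (jfac_isUnit h (mob_mem_Sieg hi.1 (hKS W hW j))).ne_zero
    refine (c1.eventually (gt_mem_nhds ?_)).and (c2.eventually (gt_mem_nhds ?_))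
    · show |φ W - φ (fun j => mob q (mob q.inv (W j)))| < ε
      rw [e1 W hW, sub_self, abs_zero]; exact hε
    · show |φ (fun j => mob q (mob q.inv (W j))) - φ W| < ε
      rw [e1 W hW, sub_self, abs_zero]; exact hε
  obtain ⟨δ, hδ, hH⟩ := Metric.eventually_nhds_iff.mp H
  refine ⟨δ / 2, half_pos hδ, fun q' h' hq Z hZ => ?_⟩
  have hd : dist ((q'.A, q'.B, q'.C, q'.D) : (Fin r → Fin r → ℝ) × (Fin r → Fin r → ℝ) ×
      (Fin r → Fin r → ℝ) × (Fin r → Fin r → ℝ)) t₀ < δ := by
    have h2 := (half_pos hδ).le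
    refine lt_of_le_of_lt ?_ (half_lt_self hδ)
    simp only [Prod.dist_eq, max_le_iff, dist_pi_le_iff h2, Real.dist_eq, t₀]
    exact ⟨fun b c => (hq b c).1, fun b c => (hq b c).2.1, fun b c => (hq b c).2.2.1,
      fun b c => (hq b c).2.2.2⟩
  have H' : ∀ W ∈ K, |φ W - φ (fun j => mob q (mob q'.inv (W j)))| < ε ∧
      |φ (fun j => mob q' (mob q.inv (W j))) - φ W| < ε := hH hd
  by_cases a : φ (fun j => mob q' (Z j)) = 0
  · by_cases b : φ (fun j => mob q (Z j)) = 0
    · rw [a, b, sub_self, abs_zero]; exact hε.le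
    · obtain ⟨W, hW, rfl, e⟩ := mob2_supp h hKS hK0 hZ b
      rw [e]
      exact (H' W hW).2.le
  · obtain ⟨W, hW, rfl, e⟩ := mob2_supp h' hKS hK0 hZ a
    rw [e]
    exact (H' W hW).1.le

end Crest.Agent.R166
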