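import Crest.Agent.R166.Mob2
import Crest.Agent.R166.Gauss1

/-! # Gaussian jets and rank-one steps -/

set_option autoImplicit false
set_option linter.unusedVariables false
set_option linter.unusedSectionVars false

open MeasureTheory ProbabilityTheory Filter Topology Matrix
open scoped ENNReal BoundedContinuousFunction

namespace Crest.Agent.R166

theorem jetV_mem_cSieg {n r : ℕ} (p : Conf n) (v : Fin r → Fin n → ℝ) (R : Fin r → Fin r → ℝ)
    (hR : ∀ b c, R b c = R c b) {w : ℂ} (hw : 0 < w.im) : jetV p v R w ∈ cSieg r := by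
  refine ⟨?_, ?_, ?_⟩
  · ext b c
    simp only [jetV, transpose_apply, of_apply, hR b c, mul_comm (v b _)]
  · ext b c
    simp only [jetV, transpose_apply, of_apply, mul_comm (v b _)]
  · have e : ∀ b c, imM (jetV p v R w).1 b c =
        ∑ i, v b i * v c i * (w.im * ‖((p.1 i : ℂ) - w)⁻¹‖ ^ 2) := by
      intro b c
      simp only [imM, jetV, of_apply, Complex.sub_im, Complex.ofReal_im, sub_zero, Complex.im_sum,
        div_eq_mul_inv, Complex.im_ofReal_mul, im_inv_sub]
    refine PosSemidef.of_dotProduct_mulVec_nonneg (herm_of_symm fun a b => ?_) fun x => ?_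
    · simp only [e, mul_comm (v a _)]
    · have e2 : star x ⬝ᵥ (imM (jetV p v R w).1 *ᵥ x) =
          ∑ i, (∑ b, x b * v b i) ^ 2 * (w.im * ‖((p.1 i : ℂ) - w)⁻¹‖ ^ 2) := by
        simp only [dotProduct, mulVec, e, star_trivial, sq (∑ b, x b * v b _), Finset.sum_mul,
          Finset.mul_sum]
        rw [Finset.sum_comm]
        conv_rhs => rw [Finset.sum_comm]
        refine Finset.sum_congr rfl fun b _ => ?_
        conv_rhs => rw [Finset.sum_comm]
        refine Finset.sum_congr rfl fun c _ => Finset.sum_congr rfl fun i _ => ?_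
        ring
      rw [e2]
      exact Finset.sum_nonneg fun i _ => by positivity

theorem Mob3_cont {n : ℕ} {w : ℂ} (hw : w.im ≠ 0) : Continuous fun p : Conf n => sF p w := by
  unfold sF
  refine Continuous.sub (continuous_finsetSum _ fun i _ => ?_) (by fun_prop)
  exact continuous_const.div (by fun_prop) fun p => real_sub_ne hw _

theorem continuous_jetG {n r : ℕ} {w : ℂ} (hw : 0 < w.im) :
    Continuous fun q : Conf n × (Fin r × Fin n → ℝ) => jetG q.1 q.2 w := by
  unfold jetG jetV
  refine Continuous.prodMk ?_ (Continuous.prodMk ?_ ((Mob3_cont hw.ne').comp continuous_fst))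
  · refine continuous_pi fun b => continuous_pi fun c => ?_
    refine Continuous.sub (continuous_finsetSum _ fun i _ => ?_) ?_
    · exact Continuous.div (by fun_prop) (by fun_prop) fun q => real_sub_ne hw.ne' _
    · by_cases h : b = c
      · simp only [h, if_true]
        fun_prop
      · simp only [h, if_false]
        fun_prop
  · refine continuous_pi fun b => continuous_pi fun c => ?_
    refine continuous_finsetSum _ fun i _ => ?_
    exact Continuous.div (by fun_prop) (by fun_prop) fun q =>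
      pow_ne_zero _ (real_sub_ne hw.ne' _)

theorem continuous_sF {n : ℕ} {w : ℂ} (hw : w.im ≠ 0) : Continuous fun p : Conf n => sF p w := by
  exact Mob3_cont hw

theorem Mob3_mob_orth {r : ℕ} {O : Matrix (Fin r) (Fin r) ℝ} (h : O * Oᵀ = 1) (Z : Jet r) :
    mob (orthQ O) Z = (Matrix.of.symm (cx O * Matrix.of Z.1 * (cx O)ᵀ),
      Matrix.of.symm (cx O * Matrix.of Z.2.1 * (cx O)ᵀ), Z.2.2) := by
  have h0 : cx (0 : Matrix (Fin r) (Fin r) ℝ) = 0 := by
    ext a b
    simp
  have h1 : jfac (orthQ O) Z = cx O := by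
    simp only [jfac, orthQ, h0, Matrix.zero_mul, zero_add]
  have h2 : (cx O)⁻¹ = (cx O)ᵀ := by
    refine Matrix.inv_eq_right_inv ?_
    rw [← cx_transpose, ← cx_mul, h, cx_one]
  unfold mob
  rw [h1, h2]
  simp only [orthQ, h0, add_zero, transpose_transpose, Matrix.mul_zero, Matrix.zero_mul,
    trace_zero, sub_zero]

theorem Mob3_sum {n r : ℕ} (O : Matrix (Fin r) (Fin r) ℝ) (g : Fin r × Fin n → ℝ) (t : Fin n → ℂ)
    (b c : Fin r) :
    ∑ e, (∑ d, (O b d : ℂ) * ∑ i, ((g (d, i) * g (e, i) : ℝ) : ℂ) / t i) * (O c e : ℂ) =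
      ∑ i, (((∑ d, O b d * g (d, i)) * ∑ e, O c e * g (e, i) : ℝ) : ℂ) / t i := by
  push_cast
  simp only [Finset.mul_sum, Finset.sum_mul, Finset.sum_div]
  conv_rhs => rw [Finset.sum_comm]
  refine Finset.sum_congr rfl fun e _ => ?_
  conv_rhs => rw [Finset.sum_comm]
  refine Finset.sum_congr rfl fun d _ => Finset.sum_congr rfl fun i _ => ?_
  ring

theorem Mob3_jetG {n r : ℕ} {O : Matrix (Fin r) (Fin r) ℝ} (h : O * Oᵀ = 1) (p : Conf n)
    (g : Fin r × Fin n → ℝ) (w : ℂ) :
    mob (orthQ O) (jetG p g w) =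
      jetG p (Matrix.kroneckerMap (· * ·) O (1 : Matrix (Fin n) (Fin n) ℝ) *ᵥ g) w := by
  have e : ∀ b i, (Matrix.kroneckerMap (· * ·) O (1 : Matrix (Fin n) (Fin n) ℝ) *ᵥ g) (b, i) =
      ∑ d, O b d * g (d, i) := by
    intro b i
    simp only [mulVec, dotProduct, kroneckerMap_apply, Fintype.sum_prod_type, Matrix.one_apply,
      mul_ite, mul_one, mul_zero, ite_mul, zero_mul, Finset.sum_ite_eq, Finset.mem_univ, if_true]
  rw [Mob3_mob_orth h]
  refine Prod.ext ?_ (Prod.ext ?_ rfl)
  · funext b c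
    simp only [jetG, jetV, e, of_symm_apply, Matrix.mul_apply, of_apply, cx_apply, transpose_apply,
      mul_sub, Finset.sum_sub_distrib, sub_mul]
    rw [Mob3_sum O g (fun i => (p.1 i : ℂ) - w)]
    congr 1
    have h1 : ∑ e, O b e * O c e = if b = c then 1 else 0 := by
      have := congrFun (congrFun h b) c
      simpa [Matrix.mul_apply, Matrix.one_apply] using this
    have h2 : ∀ e, ∑ d, (O b d : ℂ) * ((if d = e then p.2 else 0 : ℝ) : ℂ) = O b e * p.2 := by
      intro e
      rw [Finset.sum_eq_single e]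
      · simp
      · intro d _ hd
        simp [hd]
      · simp
    simp only [h2]
    have h3 : ∑ e, (O b e : ℂ) * p.2 * O c e = p.2 * ((∑ e, O b e * O c e : ℝ) : ℂ) := by
      push_cast
      rw [Finset.mul_sum]
      exact Finset.sum_congr rfl fun e _ => by ring
    rw [h3, h1]
    split_ifs <;> simp
  · funext b c
    simp only [jetG, jetV, e, of_symm_apply, Matrix.mul_apply, of_apply, cx_apply, transpose_apply]
    exact Mob3_sum O g (fun i => ((p.1 i : ℂ) - w) ^ 2) b c

/-- exact invariance of the Gaussian model under orthogonal changes of channels -/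
theorem EG_orth {n r k : ℕ} (μ : Measure (Conf n)) {O : Matrix (Fin r) (Fin r) ℝ} (h : O * Oᵀ = 1)
    (w : Fin k → ℂ) (hw : ∀ j, 0 < (w j).im) {φ : (Fin k → Jet r) → ℝ} (hφ : Measurable φ) :
    EG μ r w (fun Z => φ fun j => mob (orthQ O) (Z j)) = EG μ r w φ := by
  unfold EG
  congr 1
  funext p
  set K := Matrix.kroneckerMap (· * ·) O (1 : Matrix (Fin n) (Fin n) ℝ) with hK
  have hKK : K * Kᵀ = 1 := by
    rw [hK, ← kroneckerMap_transpose, ← Matrix.mul_kronecker_mul, h, transpose_one, Matrix.mul_one,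
      one_kronecker_one]
  have hm : Measurable fun g : Fin r × Fin n → ℝ => φ fun j => jetG p g (w j) := by
    refine hφ.comp (measurable_pi_lambda _ fun j => ?_)
    exact ((continuous_jetG (hw j)).comp (Continuous.prodMk_right p)).measurable
  have hc : Measurable fun g : Fin r × Fin n → ℝ => K *ᵥ g :=
    (Continuous.matrix_mulVec continuous_const continuous_id).measurable
  simp only [Mob3_jetG h]
  conv_rhs => rw [← gpi_map_orth K hKK]
  rw [integral_map hc.aemeasurable hm.aestronglyMeasurable]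

theorem Mob3_ne {r : ℕ} (κ : ℝ) {Z : Jet (r + 1)} (hZ : Z ∈ Sieg (r + 1)) :
    1 + (κ : ℂ) * Z.1 0 0 ≠ 0 := by
  have h : 0 < (Z.1 0 0).im := hZ.2.2.diag_pos (i := 0)
  intro h0
  have h1 := congrArg Complex.im h0
  simp only [Complex.add_im, Complex.one_im, Complex.im_ofReal_mul, zero_add,
    Complex.zero_im] at h1
  have h2 : κ = 0 := (mul_eq_zero.1 h1).resolve_right h.ne'
  simp [h2] at h0

theorem stepJ_mem_Sieg {r : ℕ} (κ : ℝ) {Z : Jet (r + 1)} (hZ : Z ∈ Sieg (r + 1)) :
    stepJ κ Z ∈ Sieg r := by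
  have hd := Mob3_ne κ hZ
  obtain ⟨h1, h2, h3⟩ := hZ
  have s1 : ∀ a b, Z.1 a b = Z.1 b a := fun a b => h1.apply b a
  have s2 : ∀ a b, Z.2.1 a b = Z.2.1 b a := fun a b => h2.apply b a
  have t1 : ∀ b c, (stepJ κ Z).1 b c = (stepJ κ Z).1 c b := by
    intro b c
    simp only [stepJ]
    rw [s1 b.succ c.succ, s1 b.succ 0, s1 0 c.succ]
    ring
  refine ⟨?_, ?_, ?_⟩
  · ext b c
    exact t1 c b
  · ext b c
    simp only [stepJ, transpose_apply, of_apply]
    rw [s2 b.succ c.succ, s1 b.succ 0, s1 0 c.succ, s2 b.succ 0, s2 0 c.succ]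
    ring
  · refine PosDef.of_dotProduct_mulVec_pos (herm_of_symm fun a b => ?_) fun v hv => ?_
    · simp only [imM, of_apply, t1 a b]
    · set d := 1 + (κ : ℂ) * Z.1 0 0 with hdd
      set t : ℂ := ∑ c, (v c : ℂ) * Z.1 0 c.succ with ht
      set β := t / d with hβ
      have htβ : t = β * d := by rw [hβ, div_mul_cancel₀ _ hd]
      set Y : ℝ := ∑ b, ∑ c, v b * (Z.1 b.succ c.succ).im * v c with hY
      have hm : 0 < (Z.1 0 0).im := h3.diag_pos (i := 0)
      have hu : (Fin.cons (-κ * β.re) v : Fin (r + 1) → ℝ) ≠ 0 := by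
        intro h0
        apply hv
        funext c
        simpa using congrFun h0 c.succ
      have e0 : t.im = ∑ c, v c * (Z.1 0 c.succ).im := by
        simp only [ht, Complex.im_sum, Complex.im_ofReal_mul]
      have e1 := h3.dotProduct_mulVec_pos hu
      have e2 : star (Fin.cons (-κ * β.re) v : Fin (r + 1) → ℝ) ⬝ᵥ
          (imM Z.1 *ᵥ (Fin.cons (-κ * β.re) v : Fin (r + 1) → ℝ)) =
          (-κ * β.re) ^ 2 * (Z.1 0 0).im + 2 * (-κ * β.re) * t.im + Y := by
        simp only [dotProduct, mulVec, star_trivial, Fin.sum_univ_succ, Fin.cons_zero,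
          Fin.cons_succ, imM, of_apply, e0, hY, mul_add, Finset.sum_add_distrib, Finset.mul_sum,
          s1 (Fin.succ _) 0]
        have a1 : ∑ c, -κ * β.re * ((Z.1 0 c.succ).im * v c) +
            ∑ c, v c * ((Z.1 0 c.succ).im * (-κ * β.re)) =
            ∑ c, 2 * (-κ * β.re) * (v c * (Z.1 0 c.succ).im) := by
          rw [← Finset.sum_add_distrib]
          exact Finset.sum_congr rfl fun c _ => by ring
        have a2 : ∑ b, ∑ c, v b * ((Z.1 b.succ c.succ).im * v c) =
            ∑ b, ∑ c, v b * (Z.1 b.succ c.succ).im * v c := by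
          simp only [mul_assoc]
        rw [← a1, a2]
        ring
      have e3 : star v ⬝ᵥ (imM (stepJ κ Z).1 *ᵥ v) = Y - (κ * t * t / d).im := by
        have a1 : (κ : ℂ) * t * t / d =
            ∑ b, ∑ c, ((v b * v c : ℝ) : ℂ) * (κ * Z.1 b.succ 0 * Z.1 0 c.succ / d) := by
          rw [mul_assoc, ht, Finset.sum_mul_sum]
          simp only [Finset.mul_sum, Finset.sum_div]
          refine Finset.sum_congr rfl fun b _ => Finset.sum_congr rfl fun c _ => ?_
          rw [s1 b.succ 0]
          push_cast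
          ring
        rw [a1]
        simp only [dotProduct, mulVec, star_trivial, imM, of_apply, stepJ, hY, Complex.im_sum,
          Complex.im_ofReal_mul, Complex.sub_im, Finset.mul_sum, ← Finset.sum_sub_distrib]
        refine Finset.sum_congr rfl fun b _ => Finset.sum_congr rfl fun c _ => ?_
        rw [← hdd]
        ring
      have e4 : (κ : ℂ) * t * t / d = κ * β * β * d := by
        rw [div_eq_iff hd, htβ]
        ring
      have e5 : -((κ : ℂ) * β * β * d).im = (-κ * β.re) ^ 2 * (Z.1 0 0).im +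
          2 * (-κ * β.re) * (β * d).im + (κ * β.im) ^ 2 * (Z.1 0 0).im := by
        simp only [hdd, Complex.mul_im, Complex.mul_re, Complex.add_re, Complex.add_im,
          Complex.one_re, Complex.one_im, Complex.ofReal_re, Complex.ofReal_im]
        ring
      rw [← htβ] at e5
      rw [e3, e4]
      rw [e2] at e1
      have : 0 ≤ (κ * β.im) ^ 2 * (Z.1 0 0).im := by positivity
      linarith

theorem continuousOn_stepJ {r : ℕ} (κ : ℝ) : ContinuousOn (stepJ (r := r) κ) (Sieg (r + 1)) := by
  unfold stepJ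
  have hd : ContinuousOn (fun Z : Jet (r + 1) => 1 + (κ : ℂ) * Z.1 0 0) (Sieg (r + 1)) := by
    fun_prop
  refine ContinuousOn.prodMk ?_ (ContinuousOn.prodMk ?_ ?_)
  · refine continuousOn_pi.2 fun b => continuousOn_pi.2 fun c => ?_
    exact ContinuousOn.sub (by fun_prop)
      (ContinuousOn.div (by fun_prop) hd fun Z hZ => Mob3_ne κ hZ)
  · refine continuousOn_pi.2 fun b => continuousOn_pi.2 fun c => ?_
    exact (ContinuousOn.sub (by fun_prop)
      (ContinuousOn.div (by fun_prop) hd fun Z hZ => Mob3_ne κ hZ)).add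
      (ContinuousOn.div (by fun_prop) (hd.pow 2) fun Z hZ => pow_ne_zero _ (Mob3_ne κ hZ))
  · exact ContinuousOn.sub (by fun_prop)
      (ContinuousOn.div (by fun_prop) hd fun Z hZ => Mob3_ne κ hZ)

theorem measurable_stepJ {r : ℕ} (κ : ℝ) : Measurable (stepJ (r := r) κ) := by
  unfold stepJ
  refine Measurable.prodMk ?_ (Measurable.prodMk ?_ ?_)
  · refine measurable_pi_lambda _ fun b => measurable_pi_lambda _ fun c => ?_
    fun_prop
  · refine measurable_pi_lambda _ fun b => measurable_pi_lambda _ fun c => ?_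
    fun_prop
  · fun_prop

theorem continuousOn_chainJ (κ : ℝ) (T : ℕ) : ContinuousOn (chainJ κ T) (Sieg (ch T)) := by
  induction T with
  | zero => exact (continuous_snd.comp continuous_snd).continuousOn
  | succ T ih =>
    exact ih.comp ((continuousOn_stepJ (-κ)).comp (continuousOn_stepJ κ)
      fun Z hZ => stepJ_mem_Sieg κ hZ) fun Z hZ => stepJ_mem_Sieg (-κ) (stepJ_mem_Sieg κ hZ)

theorem measurable_chainJ (κ : ℝ) (T : ℕ) : Measurable (chainJ κ T) := by
  induction T with
  | zero => exact measurable_snd.comp measurable_snd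
  | succ T ih => exact ih.comp ((measurable_stepJ (-κ)).comp (measurable_stepJ κ))

end Crest.Agent.R166
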