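import Crest.Agent.R166.CDefs

/-! # Hilbert–Schmidt norm toolbox (hint: `hn A` equals the Frobenius norm of `open scoped Matrix.Norms.Frobenius`) -/

set_option autoImplicit false
set_option linter.unusedVariables false
set_option linter.unusedSectionVars false

open MeasureTheory ProbabilityTheory Filter Topology Matrix
open scoped ENNReal

namespace Crest.Agent.R166

section
variable {l m n : Type} [Fintype l] [Fintype m] [Fintype n] {r : ℕ}

open scoped Matrix.Norms.Frobenius in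
theorem c0_hn (A : Matrix m n ℂ) : hn A = ‖A‖ := by
  rw [frobenius_norm_def, hn, hs, Real.sqrt_eq_rpow]
  simp only [Real.rpow_two]

theorem hs_nonneg (A : Matrix m n ℂ) : 0 ≤ hs A := by
  unfold hs
  positivity

theorem hn_nonneg (A : Matrix m n ℂ) : 0 ≤ hn A := by
  exact Real.sqrt_nonneg _

theorem hn_sq (A : Matrix m n ℂ) : hn A ^ 2 = hs A := by
  exact Real.sq_sqrt (hs_nonneg A)

theorem nsq_nonneg (v : m → ℂ) : 0 ≤ nsq v := by
  unfold nsq
  positivity

theorem hn_add_le (A B : Matrix m n ℂ) : hn (A + B) ≤ hn A + hn B := by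
  simp only [c0_hn]
  open scoped Matrix.Norms.Frobenius in exact norm_add_le A B

theorem hn_sub_le (A B : Matrix m n ℂ) : hn (A - B) ≤ hn A + hn B := by
  simp only [c0_hn]
  open scoped Matrix.Norms.Frobenius in exact norm_sub_le A B

theorem hn_smul (c : ℂ) (A : Matrix m n ℂ) : hn (c • A) = ‖c‖ * hn A := by
  simp only [c0_hn]
  open scoped Matrix.Norms.Frobenius in exact norm_smul c A

theorem hn_mul_le (A : Matrix l m ℂ) (B : Matrix m n ℂ) : hn (A * B) ≤ hn A * hn B := by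
  simp only [c0_hn]
  exact frobenius_norm_mul A B

theorem hn_transpose (A : Matrix m n ℂ) : hn Aᵀ = hn A := by
  simp only [c0_hn]
  exact frobenius_norm_transpose A

theorem hn_conjTranspose (A : Matrix m n ℂ) : hn Aᴴ = hn A := by
  simp only [c0_hn]
  exact frobenius_norm_conjTranspose A

theorem hn_map_conj (A : Matrix m n ℂ) : hn (A.map (starRingEnd ℂ)) = hn A := by
  simp [hn, hs]

theorem hs_eq_trace (A : Matrix m n ℂ) : (hs A : ℂ) = trace (Aᴴ * A) := by
  simp only [hs, trace, diag_apply, mul_apply, conjTranspose_apply, RCLike.star_def,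
    Complex.conj_mul', Complex.ofReal_sum, Complex.ofReal_pow]
  exact Finset.sum_comm

theorem hn_unitary_mul {u : CM r} (hu : u ∈ unitary (CM r)) (A : Matrix (Fin r) n ℂ) :
    hn (u * A) = hn A := by
  have h : uᴴ * u = 1 := hu.1
  have h1 : (hs (u * A) : ℂ) = hs A := by
    rw [hs_eq_trace, hs_eq_trace, conjTranspose_mul, Matrix.mul_assoc, ← Matrix.mul_assoc uᴴ, h,
      Matrix.one_mul]
  rw [hn, hn, Complex.ofReal_injective h1]

theorem hn_mul_unitary {u : CM r} (hu : u ∈ unitary (CM r)) (A : Matrix m (Fin r) ℂ) :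
    hn (A * u) = hn A := by
  rw [← hn_conjTranspose, conjTranspose_mul, hn_unitary_mul (u := uᴴ) (Unitary.star_mem hu),
    hn_conjTranspose]

theorem norm_trace_mul_le (A : Matrix m n ℂ) (B : Matrix n m ℂ) :
    ‖trace (A * B)‖ ≤ hn A * hn B := by
  have h := Real.sum_mul_le_sqrt_mul_sqrt Finset.univ (fun p : m × n => ‖A p.1 p.2‖)
    fun p => ‖B p.2 p.1‖
  simp only [Fintype.sum_prod_type] at h
  rw [hn, hn, hs, hs, Finset.sum_comm (f := fun a b => ‖B a b‖ ^ 2)]
  refine le_trans ?_ h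
  simp only [trace, diag_apply, mul_apply]
  refine (norm_sum_le _ _).trans (Finset.sum_le_sum fun a _ => (norm_sum_le _ _).trans ?_)
  simp only [norm_mul, le_refl]

theorem norm_entry_le_hn (A : Matrix m n ℂ) (a : m) (b : n) : ‖A a b‖ ≤ hn A := by
  refine Real.le_sqrt_of_sq_le ?_
  refine le_trans ?_ (Finset.single_le_sum (f := fun a => ∑ b, ‖A a b‖ ^ 2)
    (fun _ _ => by positivity) (Finset.mem_univ a))
  exact Finset.single_le_sum (f := fun b => ‖A a b‖ ^ 2) (fun _ _ => by positivity)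
    (Finset.mem_univ b)

theorem hn_one : hn (1 : CM r) = √(r : ℝ) := by
  have h : (hs (1 : CM r) : ℂ) = (r : ℝ) := by
    rw [hs_eq_trace]
    simp
  rw [hn, Complex.ofReal_injective h]

/-- removing the trace part decreases the norm -/
theorem hs_sub_trace_le (T : CM r) (ζ : ℂ) :
    hs (T - ((r : ℂ)⁻¹ * trace T) • (1 : CM r)) ≤ hs (T - ζ • (1 : CM r)) := by
  rcases Nat.eq_zero_or_pos r with rfl | hr
  · simp [hs]
  have hr' : (r : ℂ) ≠ 0 := Nat.cast_ne_zero.2 hr.ne'
  obtain ⟨S, hS⟩ : ∃ S, S = T - ((r : ℂ)⁻¹ * trace T) • (1 : CM r) := ⟨_, rfl⟩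
  obtain ⟨c, hc⟩ : ∃ c, c = (r : ℂ)⁻¹ * trace T - ζ := ⟨_, rfl⟩
  have h0 : trace S = 0 := by
    rw [hS, trace_sub, trace_smul, trace_one, Fintype.card_fin, smul_eq_mul]
    field_simp
    ring
  have e : T - ζ • (1 : CM r) = S + c • (1 : CM r) := by
    rw [hS, hc, sub_smul]
    abel
  have h1 : (hs (S + c • (1 : CM r)) : ℂ) = ((hs S + hs (c • (1 : CM r)) : ℝ) : ℂ) := by
    rw [Complex.ofReal_add, hs_eq_trace, hs_eq_trace, hs_eq_trace, conjTranspose_add,
      Matrix.add_mul, Matrix.mul_add, Matrix.mul_add]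
    simp [h0, trace_conjTranspose]
  rw [e, ← hS, Complex.ofReal_injective h1]
  exact le_add_of_nonneg_right (hs_nonneg _)

theorem nsq_mulVec_le (A : Matrix m n ℂ) (v : n → ℂ) : nsq (A *ᵥ v) ≤ hs A * nsq v := by
  rw [nsq, hs, Finset.sum_mul]
  refine Finset.sum_le_sum fun a _ => ?_
  refine le_trans ?_ (Finset.sum_mul_sq_le_sq_mul_sq Finset.univ (fun b => ‖A a b‖) fun b => ‖v b‖)
  refine pow_le_pow_left₀ (norm_nonneg _) ((norm_sum_le _ _).trans ?_) 2
  simp only [norm_mul, le_refl]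

theorem c0_nsq (v : m → ℂ) : (nsq v : ℂ) = star v ⬝ᵥ v := by
  simp only [nsq, dotProduct, Pi.star_apply, RCLike.star_def, Complex.conj_mul',
    Complex.ofReal_sum, Complex.ofReal_pow]

theorem nsq_unitary {u : CM r} (hu : u ∈ unitary (CM r)) (v : Fin r → ℂ) :
    nsq (u *ᵥ v) = nsq v := by
  have h : uᴴ * u = 1 := hu.1
  apply Complex.ofReal_injective
  rw [c0_nsq, c0_nsq, star_mulVec, ← dotProduct_mulVec, mulVec_mulVec, h, one_mulVec]

theorem nsq_eq_dot (v : m → ℂ) : (nsq v : ℂ) = star v ⬝ᵥ v := by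
  exact c0_nsq v

theorem continuous_hs : Continuous (hs : Matrix m n ℂ → ℝ) := by
  unfold hs
  fun_prop

theorem transpose_mem_unitary {u : CM r} (hu : u ∈ unitary (CM r)) : uᵀ ∈ unitary (CM r) := by
  have h : uᴴ * u = 1 := hu.1
  rw [Matrix.mem_unitaryGroup_iff, star_eq_conjTranspose]
  have h1 := congrArg transpose h
  rw [transpose_mul, transpose_one] at h1
  exact h1

theorem c0_orth {O : RM r} (hO : O * Oᵀ = 1) : cx O * (cx O)ᵀ = 1 := by
  rw [← cx_transpose, ← cx_mul, hO, cx_one]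

theorem c0_orth' {O : RM r} (hO : O * Oᵀ = 1) : (cx O)ᵀ * cx O = 1 :=
  mul_eq_one_comm.1 (c0_orth hO)

theorem cx_mem_unitary {O : RM r} (hO : O * Oᵀ = 1) : cx O ∈ unitary (CM r) := by
  rw [Matrix.mem_unitaryGroup_iff, star_eq_conjTranspose, Mob1_cx_conj, c0_orth hO]

theorem det_cx_sq {O : RM r} (hO : O * Oᵀ = 1) : (cx O).det ^ 2 = 1 := by
  have h := congrArg det (c0_orth hO)
  rwa [det_mul, det_transpose, det_one, ← sq] at h

theorem diagonal_mem_unitary {d : Fin r → ℂ} (hd : ∀ a, ‖d a‖ = 1) :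
    diagonal d ∈ unitary (CM r) := by
  rw [Matrix.mem_unitaryGroup_iff, star_eq_conjTranspose, diagonal_conjTranspose,
    diagonal_mul_diagonal, ← diagonal_one]
  congr 1
  funext a
  simp [Complex.mul_conj', hd a]

theorem norm_det_unitary {u : CM r} (hu : u ∈ unitary (CM r)) : ‖u.det‖ = 1 := by
  exact CStarRing.norm_of_mem_unitary (det_of_mem_unitary hu)

theorem conj_diag_apply (O : RM r) (d : Fin r → ℂ) (b c : Fin r) :
    (cx O * diagonal d * (cx O)ᵀ) b c = ∑ a, (O b a : ℂ) * d a * O c a := by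
  simp only [mul_apply (M := cx O * diagonal d), mul_diagonal, transpose_apply, cx_apply]

theorem conj_diag_mul {O : RM r} (hO : O * Oᵀ = 1) (d d' : Fin r → ℂ) :
    cx O * diagonal d * (cx O)ᵀ * (cx O * diagonal d' * (cx O)ᵀ) =
      cx O * diagonal (fun a => d a * d' a) * (cx O)ᵀ := by
  rw [← diagonal_mul_diagonal]
  simp only [Matrix.mul_assoc]
  rw [← Matrix.mul_assoc (cx O)ᵀ, c0_orth' hO, Matrix.one_mul]

theorem conj_diag_const {O : RM r} (hO : O * Oᵀ = 1) (z : ℂ) :
    cx O * diagonal (fun _ => z) * (cx O)ᵀ = z • (1 : CM r) := by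
  rw [← smul_one_eq_diagonal, Matrix.mul_smul, Matrix.mul_one, Matrix.smul_mul, c0_orth hO]

theorem trace_conj_diag {O : RM r} (hO : O * Oᵀ = 1) (d : Fin r → ℂ) :
    trace (cx O * diagonal d * (cx O)ᵀ) = ∑ a, d a := by
  rw [trace_mul_comm, ← Matrix.mul_assoc, c0_orth' hO, Matrix.one_mul, trace_diagonal]

theorem orth_row_sq {O : RM r} (hO : O * Oᵀ = 1) (b : Fin r) : ∑ a, O b a ^ 2 = 1 := by
  have h := congrFun (congrFun hO b) b
  simpa [mul_apply, sq] using h

theorem orth_col_sq {O : RM r} (hO : O * Oᵀ = 1) (a : Fin r) : ∑ b, O b a ^ 2 = 1 := by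
  have h1 : Oᵀ * O = 1 := mul_eq_one_comm.1 hO
  have h := congrFun (congrFun h1 a) a
  simpa [mul_apply, sq] using h

end

end Crest.Agent.R166
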