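import Crest.Agent.R166.C0

/-! # Contractions, the action `u S uᵀ`, the Poisson functional -/

set_option autoImplicit false
set_option linter.unusedVariables false
set_option linter.unusedSectionVars false

open MeasureTheory ProbabilityTheory Filter Topology Matrix
open scoped ENNReal

namespace Crest.Agent.R166

variable {r k : ℕ}

theorem act_mul (u v S : CM r) : act (u * v) S = act u (act v S) := by
  simp only [act, transpose_mul, Matrix.mul_assoc]

theorem act_one (S : CM r) : act 1 S = S := by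
  simp [act]

theorem act_smul (u : CM r) (z : ℂ) (S : CM r) : act u (z • S) = z • act u S := by
  simp [act]

theorem continuous_act : Continuous fun x : CM r × CM r => act x.1 x.2 := (continuous_fst.matrix_mul continuous_snd).matrix_mul continuous_fst.matrix_transpose

theorem Contr.act {ρ : ℝ} {S u : CM r} (hS : Contr ρ S) (hu : u ∈ unitary (CM r)) :
    Contr ρ (act u S) := by
  intro v
  rw [Crest.Agent.R166.act, ← mulVec_mulVec, ← mulVec_mulVec, nsq_unitary hu,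
    ← nsq_unitary (transpose_mem_unitary hu) v]
  exact hS _

/-- converse of `Contr.act` -/
theorem Contr.of_act {ρ : ℝ} {S u : CM r} (hS : Contr ρ (Crest.Agent.R166.act u S))
    (hu : u ∈ unitary (CM r)) : Contr ρ S := by
  have h := hS.act (Unitary.star_mem hu)
  rwa [← act_mul, Unitary.star_mul_self_of_mem hu, act_one] at h

theorem Contr.mono {ρ ρ' : ℝ} {S : CM r} (hS : Contr ρ S) (h0 : 0 ≤ ρ) (h : ρ ≤ ρ') :
    Contr ρ' S := fun v => (hS v).trans (mul_le_mul_of_nonneg_right (pow_le_pow_left₀ h0 h 2) (nsq_nonneg v))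

theorem Contr.smul {ρ : ℝ} {S : CM r} (hS : Contr ρ S) (z : ℂ) : Contr (‖z‖ * ρ) (z • S) := by
  intro v
  have e : nsq ((z • S) *ᵥ v) = ‖z‖ ^ 2 * nsq (S *ᵥ v) := by
    simp only [nsq, smul_mulVec, Pi.smul_apply, norm_smul, mul_pow, Finset.mul_sum]
  rw [e, mul_pow, mul_assoc]
  exact mul_le_mul_of_nonneg_left (hS v) (sq_nonneg _)

theorem contr_unitary {u : CM r} (hu : u ∈ unitary (CM r)) : Contr 1 u := fun v => by rw [nsq_unitary hu, one_pow, one_mul]

theorem c1a_single (b : Fin r) : nsq (Pi.single b (1 : ℂ) : Fin r → ℂ) = 1 := by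
  rw [nsq, Finset.sum_eq_single b (fun a _ h => by simp [h]) (by simp)]
  simp

theorem c1a_col {ρ : ℝ} {S : CM r} (hS : Contr ρ S) (b : Fin r) : ∑ a, ‖S a b‖ ^ 2 ≤ ρ ^ 2 := by
  have h := hS (Pi.single b 1)
  rw [c1a_single, mul_one] at h
  simpa [nsq] using h

theorem Contr.entry_le {ρ : ℝ} {S : CM r} (hS : Contr ρ S) (h0 : 0 ≤ ρ) (a b : Fin r) :
    ‖S a b‖ ≤ ρ := by
  have h := (Finset.single_le_sum (f := fun a => ‖S a b‖ ^ 2) (fun _ _ => sq_nonneg _)
    (Finset.mem_univ a)).trans (c1a_col hS b)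
  exact (pow_le_pow_iff_left₀ (norm_nonneg _) h0 two_ne_zero).1 h

theorem Contr.hs_le {ρ : ℝ} {S : CM r} (hS : Contr ρ S) : hs S ≤ r * ρ ^ 2 := by
  rw [hs, Finset.sum_comm]
  refine (Finset.sum_le_sum fun b _ => c1a_col hS b).trans (le_of_eq ?_)
  simp

/-- `(1 - S) v = 0` forces `v = 0` -/
theorem Contr.unit {ρ : ℝ} {S : CM r} (hS : Contr ρ S) (h0 : 0 ≤ ρ) (h1 : ρ < 1) :
    IsUnit (1 - S).det := by
  rw [isUnit_iff_ne_zero]
  intro h
  obtain ⟨v, hv, h2⟩ := Matrix.exists_mulVec_eq_zero_iff.2 h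
  rw [sub_mulVec, one_mulVec, sub_eq_zero] at h2
  have h3 := hS v
  rw [← h2] at h3
  have h4 : ρ ^ 2 < 1 := pow_lt_one₀ h0 h1 two_ne_zero
  have h5 : nsq v = 0 := le_antisymm (by nlinarith [nsq_nonneg v]) (nsq_nonneg v)
  refine hv (funext fun a => ?_)
  simpa using (Finset.sum_eq_zero_iff_of_nonneg fun _ _ => sq_nonneg _).1 h5 a (Finset.mem_univ a)

/-- with `y = (1 - S)⁻¹ e_b`: `2 Re y_b - 1 = ‖y‖² - ‖S y‖²` -/
theorem Contr.pois_nonneg {S : CM r} (hS : Contr 1 S) (hu : IsUnit (1 - S).det) (b : Fin r) :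
    0 ≤ pois b S := by
  set y : Fin r → ℂ := (1 - S)⁻¹ *ᵥ Pi.single b 1 with hy
  have h1 : S *ᵥ y = y - Pi.single b 1 := by
    have : (1 - S) *ᵥ y = Pi.single b 1 := by
      rw [hy, mulVec_mulVec, mul_nonsing_inv _ hu, one_mulVec]
    rw [sub_mulVec, one_mulVec] at this
    rw [← this, sub_sub_cancel]
  have h2 : y b = (1 - S)⁻¹ b b := by simp [hy]
  have h3 : nsq (y - Pi.single b 1) = nsq y - 2 * (y b).re + 1 := by
    have : ∀ a, ‖(y - Pi.single b 1 : Fin r → ℂ) a‖ ^ 2 =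
        ‖y a‖ ^ 2 + if a = b then 1 - 2 * (y b).re else 0 := fun a => by
      split_ifs with h
      · subst h
        simp only [Pi.sub_apply, Pi.single_eq_same, Complex.sq_norm, Complex.normSq_apply,
          Complex.sub_re, Complex.sub_im, Complex.one_re, Complex.one_im]
        ring
      · simp [h]
    simp only [nsq, this, Finset.sum_add_distrib, Finset.sum_ite_eq', Finset.mem_univ, if_true]
    ring
  have h4 := hS y
  rw [h1, h3, h2] at h4
  rw [pois]
  linarith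

theorem c1a_closed (ρ : ℝ) : IsClosed {S : CM r | Contr ρ S} := by
  simp only [Contr, Set.setOf_forall]
  refine isClosed_iInter fun v => isClosed_le ?_ continuous_const
  exact continuous_finsetSum _ fun a _ =>
    ((continuous_apply a).comp (continuous_id.matrix_mulVec continuous_const)).norm.pow 2

theorem isCompact_contr {ρ : ℝ} (h0 : 0 ≤ ρ) : IsCompact {S : CM r | Contr ρ S} := by
  have hK : IsCompact (Set.pi Set.univ fun _ : Fin r => Set.pi Set.univ fun _ : Fin r =>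
      Metric.closedBall (0 : ℂ) ρ) :=
    isCompact_univ_pi fun _ => isCompact_univ_pi fun _ => isCompact_closedBall _ _
  refine hK.of_isClosed_subset (c1a_closed ρ) fun M hM i _ j _ => ?_
  simpa using Contr.entry_le hM h0 i j

theorem continuousOn_inv_unit :
    ContinuousOn (fun M : CM r => M⁻¹) {M | IsUnit M.det} := by
  intro M hM
  obtain ⟨u, hu⟩ := hM
  exact (continuousAt_matrix_inv M (hu ▸ NormedRing.inverse_continuousAt u)).continuousWithinAt

theorem continuousOn_Fs {ρ : ℝ} (h0 : 0 ≤ ρ) (h1 : ρ < 1) (b : Fin r) (c : Fin k → ℝ) :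
    ContinuousOn (Fs b c) {S | ∀ j, Contr ρ (S j)} := by
  refine Real.continuous_exp.comp_continuousOn (ContinuousOn.neg
    (continuousOn_finsetSum _ fun j _ => continuousOn_const.mul (continuousOn_const.mul ?_)))
  have h2 : ContinuousOn (fun S : Fin k → CM r => (1 - S j)⁻¹) {S | ∀ j, Contr ρ (S j)} :=
    continuousOn_inv_unit.comp (continuous_const.sub (continuous_apply j)).continuousOn
      fun S hS => (hS j).unit h0 h1
  have h3 : Continuous fun M : CM r => 2 * (M b b).re - 1 :=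
    (continuous_const.mul (Complex.continuous_re.comp (continuous_id.matrix_elem b b))).sub
      continuous_const
  exact h3.comp_continuousOn h2

theorem c1a_exp_nonneg {ρ : ℝ} (h0 : 0 ≤ ρ) (h1 : ρ < 1) (b : Fin r) {c : Fin k → ℝ}
    (hc : ∀ j, 0 ≤ c j) {S : Fin k → CM r} (hS : ∀ j, Contr ρ (S j)) :
    0 ≤ ∑ j, c j * (Real.pi * pois b (S j)) :=
  Finset.sum_nonneg fun j _ => mul_nonneg (hc j) (mul_nonneg Real.pi_pos.le
    (((hS j).mono h0 h1.le).pois_nonneg ((hS j).unit h0 h1) b))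

theorem Fs_mem {ρ : ℝ} (h0 : 0 ≤ ρ) (h1 : ρ < 1) (b : Fin r) {c : Fin k → ℝ} (hc : ∀ j, 0 ≤ c j)
    {S : Fin k → CM r} (hS : ∀ j, Contr ρ (S j)) : 0 ≤ Fs b c S ∧ Fs b c S ≤ 1 := ⟨(Real.exp_pos _).le, Real.exp_le_one_iff.2 (neg_nonpos.2 (c1a_exp_nonneg h0 h1 b hc hS))⟩

theorem c1a_exp_lip {x y : ℝ} (hx : 0 ≤ x) (hy : 0 ≤ y) :
    |Real.exp (-x) - Real.exp (-y)| ≤ |x - y| := by
  wlog h : x ≤ y generalizing x y
  · rw [abs_sub_comm, abs_sub_comm x]
    exact this hy hx (le_of_not_ge h)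
  have h1 : Real.exp (-y) ≤ Real.exp (-x) := Real.exp_le_exp.2 (neg_le_neg h)
  have h2 : Real.exp (-x) ≤ 1 := Real.exp_le_one_iff.2 (neg_nonpos.2 hx)
  have h3 : Real.exp (-y) = Real.exp (-x) * Real.exp (x - y) := by
    rw [← Real.exp_add]
    congr 1
    ring
  have h4 := Real.add_one_le_exp (x - y)
  have h5 := Real.exp_pos (-x)
  rw [abs_of_nonneg (sub_nonneg.2 h1), abs_of_nonpos (sub_nonpos.2 h), h3]
  nlinarith

/-- `|e^{-x} - e^{-y}| ≤ min 1 |x - y|` for `x, y ≥ 0`, then `min 1 (Σ a_j x_j) ≤ Σ (1 + a_j) min 1 x_j` -/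
theorem Fs_sub_le {ρ : ℝ} (h0 : 0 ≤ ρ) (h1 : ρ < 1) (b : Fin r) {c : Fin k → ℝ}
    (hc : ∀ j, 0 ≤ c j) {S S' : Fin k → CM r} (hS : ∀ j, Contr ρ (S j))
    (hS' : ∀ j, Contr ρ (S' j)) :
    |Fs b c S - Fs b c S'| ≤
      ∑ j, (1 + 2 * Real.pi * c j) * min 1 ‖(1 - S j)⁻¹ b b - (1 - S' j)⁻¹ b b‖ := by
  have hp := Real.pi_pos
  have hn : ∀ j, 0 ≤ (1 + 2 * Real.pi * c j) * min 1 ‖(1 - S j)⁻¹ b b - (1 - S' j)⁻¹ b b‖ :=
    fun j => mul_nonneg (by have := hc j; positivity) (le_min zero_le_one (norm_nonneg _))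
  by_cases h : ∀ j, ‖(1 - S j)⁻¹ b b - (1 - S' j)⁻¹ b b‖ ≤ 1
  · refine (c1a_exp_lip (c1a_exp_nonneg h0 h1 b hc hS) (c1a_exp_nonneg h0 h1 b hc hS')).trans ?_
    rw [← Finset.sum_sub_distrib]
    refine (Finset.abs_sum_le_sum_abs _ _).trans (Finset.sum_le_sum fun j _ => ?_)
    have e : c j * (Real.pi * pois b (S j)) - c j * (Real.pi * pois b (S' j)) =
        2 * Real.pi * c j * ((1 - S j)⁻¹ b b - (1 - S' j)⁻¹ b b).re := by
      simp only [pois, Complex.sub_re]
      ring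
    have := hc j
    rw [e, min_eq_right (h j), abs_mul, abs_of_nonneg (by positivity)]
    exact mul_le_mul (by linarith) (Complex.abs_re_le_norm _) (abs_nonneg _) (by positivity)
  · obtain ⟨j, hj⟩ := not_forall.1 h
    refine le_trans ?_ (Finset.single_le_sum (fun j _ => hn j) (Finset.mem_univ j))
    obtain ⟨a1, a2⟩ := Fs_mem h0 h1 b hc hS
    obtain ⟨a3, a4⟩ := Fs_mem h0 h1 b hc hS'
    have := mul_nonneg (mul_pos two_pos hp).le (hc j)
    rw [min_eq_left (not_le.1 hj).le, abs_le]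
    constructor <;> linarith

/-- Tietze (`ContinuousMap.exists_restrict_forall_mem_of_closed`-type lemma; `Fin k → CM r` is a
normal space since it is definitionally `Fin k → Fin r → Fin r → ℂ`) -/
theorem exists_ext_Fs {ρ : ℝ} (h0 : 0 ≤ ρ) (h1 : ρ < 1) (b : Fin r) {c : Fin k → ℝ}
    (hc : ∀ j, 0 ≤ c j) : ∃ Φ : (Fin k → CM r) → ℝ, Continuous Φ ∧ (∀ S, 0 ≤ Φ S ∧ Φ S ≤ 1) ∧
      ∀ S, (∀ j, Contr ρ (S j)) → Φ S = Fs b c S := by
  haveI : NormalSpace (Fin k → CM r) := inferInstanceAs (NormalSpace (Fin k → Fin r → Fin r → ℂ))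
  have hcl : IsClosed {S : Fin k → CM r | ∀ j, Contr ρ (S j)} := by
    simp only [Set.setOf_forall]
    exact isClosed_iInter fun j => IsClosed.preimage (f := fun S : Fin k → CM r => S j)
      (continuous_apply j) (c1a_closed ρ)
  obtain ⟨g, h2, h3⟩ := ContinuousMap.exists_restrict_eq_forall_mem_of_closed
    ⟨_, (continuousOn_Fs h0 h1 b c).restrict⟩ (t := Set.Icc 0 1)
    (fun S => Fs_mem h0 h1 b hc S.2) ⟨0, le_rfl, zero_le_one⟩ hcl
  exact ⟨g, g.continuous, h2, fun S hS => congrArg (fun f => f ⟨S, hS⟩) h3⟩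

end Crest.Agent.R166
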