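import Crest.Agent.R166.C1a

/-! # The Cayley transform -/

set_option autoImplicit false
set_option linter.unusedVariables false
set_option linter.unusedSectionVars false

open MeasureTheory ProbabilityTheory Filter Topology Matrix
open scoped ENNReal

namespace Crest.Agent.R166

variable {r k n : ℕ}

/-- `Im ⟨v, M v⟩` -/
noncomputable def c1b_q (M : CM r) (v : Fin r → ℂ) : ℝ := (star v ⬝ᵥ (M *ᵥ v)).im

theorem c1b_q_eq {M : CM r} (hM : M.IsSymm) (v : Fin r → ℂ) :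
    c1b_q M v = (fun i => (v i).re) ⬝ᵥ (imM M *ᵥ fun i => (v i).re) +
      (fun i => (v i).im) ⬝ᵥ (imM M *ᵥ fun i => (v i).im) := by
  have h : ∑ i, ∑ j, (v i).re * ((M i j).re * (v j).im) =
      ∑ i, ∑ j, (v i).im * ((M i j).re * (v j).re) := by
    rw [Finset.sum_comm]
    refine Finset.sum_congr rfl fun i _ => Finset.sum_congr rfl fun j _ => ?_
    rw [hM.apply i j]
    ring
  simp only [c1b_q, dotProduct, mulVec, Complex.im_sum, Finset.mul_sum, Pi.star_apply,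
    Complex.mul_im, Complex.mul_re, Complex.star_def, Complex.conj_re, Complex.conj_im, imM,
    of_apply, mul_add, mul_sub, neg_mul, Finset.sum_add_distrib, Finset.sum_sub_distrib,
    Finset.sum_neg_distrib, h]
  ring

theorem c1b_q_nonneg {M : CM r} (h : HP M) (v : Fin r → ℂ) : 0 ≤ c1b_q M v := by
  rw [c1b_q_eq h.1]
  exact add_nonneg (h.2.dotProduct_mulVec_nonneg _) (h.2.dotProduct_mulVec_nonneg _)

theorem c1b_q_pos {M : CM r} (hM : M.IsSymm) (h : (imM M).PosDef) {v : Fin r → ℂ} (hv : v ≠ 0) :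
    0 < c1b_q M v := by
  rw [c1b_q_eq hM]
  by_cases h1 : (fun i => (v i).re) = 0
  · refine add_pos_of_nonneg_of_pos (h.posSemidef.dotProduct_mulVec_nonneg _)
      (h.dotProduct_mulVec_pos fun h2 => hv (funext fun i => ?_))
    exact Complex.ext (congrFun h1 i) (congrFun h2 i)
  · exact add_pos_of_pos_of_nonneg (h.dotProduct_mulVec_pos h1)
      (h.posSemidef.dotProduct_mulVec_nonneg _)

theorem c1b_add (M : CM r) (v : Fin r → ℂ) :
    nsq ((M + ipi • (1 : CM r)) *ᵥ v) =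
      nsq (M *ᵥ v) + 2 * Real.pi * c1b_q M v + Real.pi ^ 2 * nsq v := by
  simp only [nsq, c1b_q, dotProduct, Complex.im_sum, Finset.mul_sum, ← Finset.sum_add_distrib,
    add_mulVec, smul_mulVec, one_mulVec]
  refine Finset.sum_congr rfl fun a _ => ?_
  simp [Complex.sq_norm, Complex.normSq_apply, ipi]
  ring

theorem c1b_sub (M : CM r) (v : Fin r → ℂ) :
    nsq ((M - ipi • (1 : CM r)) *ᵥ v) =
      nsq (M *ᵥ v) - 2 * Real.pi * c1b_q M v + Real.pi ^ 2 * nsq v := by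
  simp only [nsq, c1b_q, dotProduct, Complex.im_sum, Finset.mul_sum, ← Finset.sum_add_distrib,
    ← Finset.sum_sub_distrib, sub_mulVec, smul_mulVec, one_mulVec]
  refine Finset.sum_congr rfl fun a _ => ?_
  simp [Complex.sq_norm, Complex.normSq_apply, ipi]
  ring

theorem c1b_ge {M : CM r} (h : HP M) (v : Fin r → ℂ) :
    Real.pi ^ 2 * nsq v ≤ nsq ((M + ipi • (1 : CM r)) *ᵥ v) := by
  rw [c1b_add]
  linarith [nsq_nonneg (M *ᵥ v), mul_nonneg Real.pi_pos.le (c1b_q_nonneg h v)]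

theorem c1b_nsq_pos {v : Fin r → ℂ} (hv : v ≠ 0) : 0 < nsq v := by
  obtain ⟨a, ha⟩ := Function.ne_iff.1 hv
  exact Finset.sum_pos' (fun _ _ => sq_nonneg _)
    ⟨a, Finset.mem_univ a, sq_pos_of_ne_zero (norm_ne_zero_iff.2 ha)⟩

theorem c1b_nsq_zero : nsq (0 : Fin r → ℂ) = 0 := by simp [nsq]

theorem c1b_nsq_smul (c : ℂ) (v : Fin r → ℂ) : nsq (c • v) = ‖c‖ ^ 2 * nsq v := by
  simp only [nsq, Pi.smul_apply, norm_smul, mul_pow, Finset.mul_sum]

theorem c1b_ipi : ipi ≠ 0 :=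
  mul_ne_zero (Complex.ofReal_ne_zero.2 Real.pi_ne_zero) Complex.I_ne_zero

/-- `Im ⟨v, (M + iπ) v⟩ = π ‖v‖² + ⟨v, Im M v⟩` (see `Mob1_form`, `Mob1_im`, `Mob1_psd_iff`) -/
theorem HP.unit {M : CM r} (h : HP M) : IsUnit (M + ipi • (1 : CM r)).det := by
  rw [isUnit_iff_ne_zero]
  intro h0
  obtain ⟨v, hv, h1⟩ := exists_mulVec_eq_zero_iff.2 h0
  have h2 := c1b_ge h v
  rw [h1, c1b_nsq_zero] at h2
  exact (mul_pos (pow_pos Real.pi_pos 2) (c1b_nsq_pos hv)).not_ge h2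

theorem c1b_cancel {M : CM r} (h : HP M) (v : Fin r → ℂ) :
    (M + ipi • (1 : CM r)) *ᵥ ((M + ipi • (1 : CM r))⁻¹ *ᵥ v) = v := by
  rw [mulVec_mulVec, mul_nonsing_inv _ h.unit, one_mulVec]

theorem HP.inv_symm {M : CM r} (h : HP M) : ((M + ipi • (1 : CM r))⁻¹).IsSymm := by
  rw [IsSymm, transpose_nonsing_inv, transpose_add, transpose_smul, transpose_one, h.1.eq]

theorem HP.inv_contr {M : CM r} (h : HP M) : Contr Real.pi⁻¹ (M + ipi • (1 : CM r))⁻¹ := by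
  intro v
  have h1 := c1b_ge h ((M + ipi • (1 : CM r))⁻¹ *ᵥ v)
  rw [c1b_cancel h] at h1
  rwa [inv_pow, le_inv_mul_iff₀ (pow_pos Real.pi_pos 2)]

/-- for a real vector `v` and `a = (M + iπ)⁻¹ v`: `vᵀ a = conj (a* (M + iπ) a)` -/
theorem HP.im_form {M : CM r} (h : HP M) (v : Fin r → ℝ) :
    Real.pi * nsq ((M + ipi • (1 : CM r))⁻¹ *ᵥ fun b => (v b : ℂ)) ≤
      -((fun b => (v b : ℂ)) ⬝ᵥ ((M + ipi • (1 : CM r))⁻¹ *ᵥ fun b => (v b : ℂ))).im := by
  have h1 := c1b_cancel h fun b => (v b : ℂ)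
  generalize (M + ipi • (1 : CM r))⁻¹ *ᵥ (fun b => (v b : ℂ)) = a at h1 ⊢
  have h2 : -((fun b => (v b : ℂ)) ⬝ᵥ a).im = (star a ⬝ᵥ fun b => (v b : ℂ)).im := by
    simp [dotProduct, Complex.im_sum, mul_comm]
  have h3 : (star a ⬝ᵥ (ipi • a)).im = Real.pi * nsq a := by
    rw [dotProduct_smul, ← nsq_eq_dot]
    simp [ipi]
  rw [h2, ← h1, add_mulVec, smul_mulVec, one_mulVec, dotProduct_add, Complex.add_im, h3]
  exact le_add_of_nonneg_left (c1b_q_nonneg h a)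

theorem HP.cay_eq {M : CM r} (h : HP M) :
    cay M = 1 - (2 * ipi) • (M + ipi • (1 : CM r))⁻¹ := by
  have e : M - ipi • (1 : CM r) = (M + ipi • (1 : CM r)) - (2 * ipi) • (1 : CM r) := by
    rw [two_mul, add_smul]
    abel
  rw [cay, e, Matrix.sub_mul, mul_nonsing_inv _ h.unit, Matrix.smul_mul, Matrix.one_mul]

theorem HP.cay_symm {M : CM r} (h : HP M) : (cay M).IsSymm := by
  rw [h.cay_eq]
  exact isSymm_one.sub (h.inv_symm.smul _)

theorem c1b_cay {M : CM r} (h : HP M) (v : Fin r → ℂ) :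
    nsq (cay M *ᵥ v) = nsq v - 4 * (Real.pi * c1b_q M ((M + ipi • (1 : CM r))⁻¹ *ᵥ v)) := by
  have h1 := c1b_add M ((M + ipi • (1 : CM r))⁻¹ *ᵥ v)
  rw [c1b_cancel h] at h1
  rw [cay, ← mulVec_mulVec, c1b_sub]
  linarith

/-- `‖(M - iπ) v‖² = ‖(M + iπ) v‖² - 4π ⟨v, Im M v⟩` -/
theorem HP.cay_contr {M : CM r} (h : HP M) : Contr 1 (cay M) := by
  intro v
  rw [c1b_cay h]
  linarith [mul_nonneg Real.pi_pos.le (c1b_q_nonneg h ((M + ipi • (1 : CM r))⁻¹ *ᵥ v))]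

theorem HP.pois_cay {M : CM r} (h : HP M) (b : Fin r) :
    Real.pi * pois b (cay M) = (M b b).im := by
  have e : (1 - cay M)⁻¹ = (2 * ipi)⁻¹ • (M + ipi • (1 : CM r)) := by
    refine inv_eq_right_inv ?_
    rw [h.cay_eq, sub_sub_cancel, Matrix.smul_mul, Matrix.mul_smul, nonsing_inv_mul _ h.unit,
      smul_smul, mul_inv_cancel₀ (mul_ne_zero two_ne_zero c1b_ipi), one_smul]
  have e2 : (2 * ipi)⁻¹ = -((2 * Real.pi)⁻¹ : ℝ) * Complex.I := by
    refine inv_eq_of_mul_eq_one_right ?_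
    have := Complex.ofReal_ne_zero.2 Real.pi_ne_zero
    rw [ipi]
    push_cast
    field_simp
    simp
  rw [pois, e, e2]
  simp [ipi]
  field_simp
  ring

theorem HP_of_cSieg {Z : Jet r} (hZ : Z ∈ cSieg r) : HP (Matrix.of Z.1) := by
  exact ⟨hZ.1, hZ.2.2⟩

theorem Fs_cayJ (b : Fin r) (c : Fin k → ℝ) {Z : Fin k → Jet r} (hZ : ∀ j, Z j ∈ cSieg r) :
    Fs b c (cayJ Z) = Fm b c Z := by
  simp only [Fs, Fm, cayJ, fun j => (HP_of_cSieg (hZ j)).pois_cay b, of_apply]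

theorem jetG_mem_cSieg (p : Conf n) (g : Fin r × Fin n → ℝ) {w : ℂ} (hw : 0 < w.im) :
    jetG p g w ∈ cSieg r := by
  exact jetV_mem_cSieg p _ _ (fun b c => by simp only [eq_comm]) hw

theorem continuousOn_cay : ContinuousOn (cay (r := r)) {M | HP M} := by
  exact (continuous_id.sub continuous_const).continuousOn.mul
    (continuousOn_inv_unit.comp (continuous_id.add continuous_const).continuousOn
      fun M hM => HP.unit hM)

theorem continuousOn_cayJ : ContinuousOn (cayJ (r := r) (k := k)) {Z | ∀ j, Z j ∈ cSieg r} := by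
  exact continuousOn_pi.2 fun j => continuousOn_cay.comp
    (f := fun Z : Fin k → Jet r => Matrix.of (Z j).1) (continuous_apply j).fst.continuousOn
    fun Z hZ => HP_of_cSieg (hZ j)

theorem continuous_cayG {w : ℂ} (hw : 0 < w.im) :
    Continuous fun q : Conf n × (Fin r × Fin n → ℝ) => cay (MG q.1 q.2 w) := by
  exact continuousOn_cay.comp_continuous (continuous_jetG hw).fst
    fun q => HP_of_cSieg (jetG_mem_cSieg q.1 q.2 hw)

theorem cay_real_unitary {M : CM r} (hM : M.IsSymm) (him : ∀ b c, (M b c).im = 0) :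
    cay M ∈ unitary (CM r) := by
  have h0 : imM M = 0 := by
    ext b c
    exact him b c
  have h : HP M := ⟨hM, h0 ▸ PosSemidef.zero⟩
  have hH : Mᴴ = M := by
    ext b c
    rw [conjTranspose_apply, hM.apply b c]
    exact Complex.conj_eq_iff_im.2 (him b c)
  have hc : star ipi = -ipi := by simp [ipi]
  have hP : (M + ipi • (1 : CM r))ᴴ = M - ipi • (1 : CM r) := by
    rw [conjTranspose_add, conjTranspose_smul, conjTranspose_one, hH, hc, neg_smul, sub_eq_add_neg]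
  have hQ : (M - ipi • (1 : CM r))ᴴ = M + ipi • (1 : CM r) := by
    rw [← hP, conjTranspose_conjTranspose]
  have hu : IsUnit (M - ipi • (1 : CM r)).det := by
    rw [← hP, det_conjTranspose]
    exact h.unit.star
  have hcomm : (M + ipi • (1 : CM r)) * (M - ipi • (1 : CM r)) =
      (M - ipi • (1 : CM r)) * (M + ipi • (1 : CM r)) := by
    simp only [Matrix.mul_sub, Matrix.sub_mul, Matrix.mul_add, Matrix.add_mul, Matrix.mul_smul,
      Matrix.smul_mul, Matrix.mul_one, Matrix.one_mul, smul_add, smul_sub]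
    abel
  refine Matrix.mem_unitaryGroup_iff'.2 ?_
  rw [cay, star_eq_conjTranspose, conjTranspose_mul, conjTranspose_nonsing_inv, hP, hQ,
    Matrix.mul_assoc, ← Matrix.mul_assoc (M + ipi • (1 : CM r)), hcomm,
    mul_nonsing_inv_cancel_right _ _ h.unit, nonsing_inv_mul _ hu]

theorem cay_orth {O : RM r} (hO : O * Oᵀ = 1) (M : CM r) :
    cay (cx O * M * (cx O)ᵀ) = act (cx O) (cay M) := by
  have h1 : cx O * (cx O)ᵀ = 1 := by rw [← cx_transpose, ← cx_mul, hO, cx_one]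
  have h2 : (cx O)ᵀ * cx O = 1 := mul_eq_one_comm.1 h1
  have e1 : cx O * M * (cx O)ᵀ + ipi • (1 : CM r) = cx O * (M + ipi • (1 : CM r)) * (cx O)ᵀ := by
    rw [Matrix.mul_add, Matrix.add_mul, Matrix.mul_smul, Matrix.mul_one, Matrix.smul_mul, h1]
  have e2 : cx O * M * (cx O)ᵀ - ipi • (1 : CM r) = cx O * (M - ipi • (1 : CM r)) * (cx O)ᵀ := by
    rw [Matrix.mul_sub, Matrix.sub_mul, Matrix.mul_smul, Matrix.mul_one, Matrix.smul_mul, h1]
  rw [cay, cay, act, e1, e2, Matrix.mul_inv_rev, Matrix.mul_inv_rev, inv_eq_right_inv h1,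
    inv_eq_right_inv h2]
  simp only [Matrix.mul_assoc]
  rw [← Matrix.mul_assoc (cx O)ᵀ, h2, Matrix.one_mul]

/-- on `K × sphere` the continuous function `nsq (cay Z *ᵥ v)` is `< 1`, take its maximum -/
theorem contr_of_compact {K : Set (Fin k → Jet r)} (hK : IsCompact K)
    (hS : ∀ Z ∈ K, ∀ j, Z j ∈ Sieg r) :
    ∃ ρ : ℝ, 0 ≤ ρ ∧ ρ < 1 ∧ ∀ Z ∈ K, ∀ j, Contr ρ (cayJ Z j) := by
  have hn : Continuous (nsq : (Fin r → ℂ) → ℝ) := by
    unfold nsq
    fun_prop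
  have hT : IsCompact (⋃ j, (fun Z => cayJ Z j) '' K) := isCompact_iUnion fun j =>
    hK.image_of_continuousOn ((continuousOn_pi.1 continuousOn_cayJ j).mono
      fun Z hZ j => Sieg_subset_cSieg r (hS Z hZ j))
  have hne : ∀ v ∈ Metric.sphere (0 : Fin r → ℂ) 1, v ≠ 0 := fun v hv h0 => by simp [h0] at hv
  obtain ⟨a, ha, H⟩ := (hT.prod (isCompact_sphere (0 : Fin r → ℂ) 1)).exists_forall_le'
    (f := fun x : CM r × (Fin r → ℂ) => 1 - nsq (x.1 *ᵥ x.2) / nsq x.2) (a := 0)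
    (continuousOn_const.sub ((hn.comp (continuous_fst.matrix_mulVec continuous_snd)).continuousOn.div
      (hn.comp continuous_snd).continuousOn fun x hx => (c1b_nsq_pos (hne _ hx.2)).ne'))
    (by
      rintro ⟨S, v⟩ ⟨h1, hv⟩
      obtain ⟨j, Z, hZ, rfl⟩ := Set.mem_iUnion.1 h1
      have hP := HP_of_cSieg (Sieg_subset_cSieg r (hS Z hZ j))
      have h2 := c1b_q_pos hP.1 (hS Z hZ j).2.2
        (v := (Matrix.of (Z j).1 + ipi • (1 : CM r))⁻¹ *ᵥ v) fun h0 => hne v hv (by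
          rw [← c1b_cancel hP v, h0, mulVec_zero])
      rw [sub_pos, div_lt_one (c1b_nsq_pos (hne v hv))]
      exact (c1b_cay hP v).trans_lt (by linarith [mul_pos Real.pi_pos h2]))
  refine ⟨√(max 0 (1 - a)), Real.sqrt_nonneg _, (Real.sqrt_lt' one_pos).2 (by
    rw [one_pow]; exact max_lt one_pos (by linarith)), fun Z hZ j v => ?_⟩
  rw [Real.sq_sqrt (le_max_left _ _)]
  by_cases hv : v = 0
  · rw [hv, mulVec_zero, c1b_nsq_zero, mul_zero]
  have hv' := norm_ne_zero_iff.2 hv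
  have h1 := H (cayJ Z j, ((‖v‖⁻¹ : ℝ) : ℂ) • v) ⟨Set.mem_iUnion.2 ⟨j, Z, hZ, rfl⟩, by
    simp [norm_smul, hv']⟩
  simp only [mulVec_smul, c1b_nsq_smul] at h1
  rw [mul_div_mul_left _ _ (by simpa using hv)] at h1
  rw [← div_le_iff₀ (c1b_nsq_pos hv)]
  exact le_max_of_le_right (by linarith)

theorem c1b_int (μ : Measure (Conf n)) [IsProbabilityMeasure μ]
    {F : Conf n × (Fin r × Fin n → ℝ) → ℝ} (hF : Continuous F) {C : ℝ} (hb : ∀ q, |F q| ≤ C) :
    Integrable F (μ.prod (gpi (Fin r × Fin n))) :=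
  Integrable.of_bound hF.aestronglyMeasurable C (Eventually.of_forall hb)

/-- Fubini for functions that are continuous and bounded on the closed Siegel domain -/
theorem EG_eq_prod (μ : Measure (Conf n)) [IsProbabilityMeasure μ] {w : Fin k → ℂ}
    (hw : ∀ j, 0 < (w j).im) {φ : (Fin k → Jet r) → ℝ}
    (hφ : ContinuousOn φ {Z | ∀ j, Z j ∈ cSieg r}) {C : ℝ}
    (hb : ∀ Z, (∀ j, Z j ∈ cSieg r) → |φ Z| ≤ C) :
    Continuous (fun q : Conf n × (Fin r × Fin n → ℝ) => φ fun j => jetG q.1 q.2 (w j)) ∧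
    EG μ r w φ = ∫ q, φ (fun j => jetG q.1 q.2 (w j)) ∂(μ.prod (gpi (Fin r × Fin n))) := by
  have h1 := hφ.comp_continuous (continuous_pi fun j => continuous_jetG (n := n) (hw j))
    fun q j => jetG_mem_cSieg q.1 q.2 (hw j)
  exact ⟨h1, (integral_prod _ (c1b_int μ h1 fun q =>
    hb _ fun j => jetG_mem_cSieg q.1 q.2 (hw j))).symm⟩

/-- a continuous function is bounded on contractions -/
theorem exists_bound_cayJ {Φ : (Fin k → CM r) → ℝ} (hΦ : Continuous Φ) :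
    ∃ C : ℝ, 0 ≤ C ∧ ∀ S : Fin k → CM r, (∀ j, Contr 1 (S j)) → |Φ S| ≤ C := by
  obtain ⟨C, hC⟩ := (isCompact_univ_pi fun _ : Fin k =>
    isCompact_contr (r := r) zero_le_one).exists_bound_of_continuousOn hΦ.continuousOn
  exact ⟨max C 0, le_max_right _ _, fun S hS => (hC S fun j _ => hS j).trans (le_max_left _ _)⟩

theorem ES_eq_prod (μ : Measure (Conf n)) [IsProbabilityMeasure μ] {w : Fin k → ℂ}
    (hw : ∀ j, 0 < (w j).im) {Φ : (Fin k → CM r) → ℝ} (hΦ : Continuous Φ) :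
    Integrable (fun q : Conf n × (Fin r × Fin n → ℝ) => Φ fun j => cay (MG q.1 q.2 (w j)))
      (μ.prod (gpi (Fin r × Fin n))) ∧
    ES μ r w Φ = ∫ q, Φ (fun j => cay (MG q.1 q.2 (w j))) ∂(μ.prod (gpi (Fin r × Fin n))) := by
  obtain ⟨C, -, hC⟩ := exists_bound_cayJ hΦ
  have hb : ∀ Z : Fin k → Jet r, (∀ j, Z j ∈ cSieg r) → |Φ (cayJ Z)| ≤ C := fun Z hZ =>
    hC _ fun j => (HP_of_cSieg (hZ j)).cay_contr
  have h := EG_eq_prod μ hw (φ := fun Z => Φ (cayJ Z))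
    (hΦ.comp_continuousOn continuousOn_cayJ) hb
  exact ⟨c1b_int μ h.1 fun q => hb _ fun j => jetG_mem_cSieg q.1 q.2 (hw j), h.2⟩

end Crest.Agent.R166
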