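import Crest.Agent.R166.C1b

/-! # Tightness of the Gaussian jets -/

set_option autoImplicit false
set_option linter.unusedVariables false
set_option linter.unusedSectionVars false

open MeasureTheory ProbabilityTheory Filter Topology Matrix
open scoped ENNReal

namespace Crest.Agent.R166

/-- Take `K` large (`K ≥ K₀(ε')`, `K ≫ r⁴/ε`).  On `‖s(iK) - iπ‖ ≤ ε' ≤ 1` we have
`Σ 1/|x - iK|² = Im s(iK)/K ≤ 5/K`, so `gpi_bilin_sq_le` + Markov give `‖M_bc(iK) - δ_bc s(iK)‖ ≤ 1/r`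
for all `b, c` with probability `≥ 1 - 10 r⁴/K` (the event is measurable, `continuous_jetG`; use
`Measure.prod_apply`).  Then `vᵀ Im M(iK) v ≥ ‖v‖²` (`π - 1 - 1 ≥ 1`).  Pointwise in `x`:
`|x - w| ≤ A |x - iK|`, `|x - iK| ≤ A |x - w|` with `A = A(w, K)`, hence `Im M(w) ≥ c Im M(iK)` as forms,
`|M_bc(w) - M_bc(iK)|, |M'_bc(w)| ≤ C (Im M_bb(iK) + Im M_cc(iK))`, `|s(w) - s(iK)| ≤ C Im s(iK)`.
Compact set: all entries bounded by `L`, `M`, `M'` symmetric, `∀ v, c ‖v‖² ≤ vᵀ Im M v`. -/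
theorem tight_of_H0 {ι : Type} {F : Filter ι} {n : ι → ℕ} {μ : ∀ i, Measure (Conf (n i))}
    (hf : IsFam n μ) (h0 : H0 F n μ) : TightS F n μ := by
  sorry

end Crest.Agent.R166
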