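import Crest.Agent.R166.C1b

/-! # From test functions to bounded continuous functions -/

set_option autoImplicit false
set_option linter.unusedVariables false
set_option linter.unusedSectionVars false

open MeasureTheory ProbabilityTheory Filter Topology Matrix
open scoped ENNReal

namespace Crest.Agent.R166

/-- Given `ε` take `K` from `TightS`, `K' = mob q '' K` (compact, in `Sieg^k`).  Extend `φ` from the
closed set `cSieg^k` to a bounded continuous `φ̃` (Tietze).  `Sieg^k = U ∩ cSieg^k` for an open `U`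
(e.g. `det (imM Z.1) ≠ 0`, a positive semidefinite matrix with nonzero determinant is positive
definite); Urysohn (`exists_continuous_one_zero_of_isCompact` or a compact neighbourhood inside `U`)
gives `χ` compactly supported in `U`, `χ = 1` on `K ∪ K'`, `0 ≤ χ ≤ 1`; `ψ = χ φ̃` is a `TestFn`.
Jets lie in `cSieg` (`jetG_mem_cSieg`), `mob q` keeps `cSieg` (`mob_mem_Sieg`, `mob_bdry`), it is
measurable; on `{jets ∈ K}` we have `ψ = φ`, `ψ ∘ mob q = φ'`; the rest costs `4 C ε`. -/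
theorem inv_bdd {ι : Type} {F : Filter ι} {n : ι → ℕ} {μ : ∀ i, Measure (Conf (n i))}
    (hf : IsFam n μ) (ht : TightS F n μ) {r k : ℕ} {q : Quad r} (hq : q.IsSymp) {w : Fin k → ℂ}
    (hw : ∀ j, 0 < (w j).im)
    (h : ∀ φ : (Fin k → Jet r) → ℝ, TestFn φ →
      Tendsto (fun i => EG (μ i) r w (fun Z => φ fun j => mob q (Z j)) - EG (μ i) r w φ) F (𝓝 0))
    {φ φ' : (Fin k → Jet r) → ℝ} (hφ : ContinuousOn φ {Z | ∀ j, Z j ∈ cSieg r})
    (hφ' : ContinuousOn φ' {Z | ∀ j, Z j ∈ cSieg r}) {C : ℝ}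
    (hb : ∀ Z, (∀ j, Z j ∈ cSieg r) → |φ Z| ≤ C ∧ |φ' Z| ≤ C)
    (he : ∀ Z, (∀ j, Z j ∈ Sieg r) → φ' Z = φ fun j => mob q (Z j)) :
    Tendsto (fun i => EG (μ i) r w φ' - EG (μ i) r w φ) F (𝓝 0) := by
  sorry

end Crest.Agent.R166
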