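import Crest.Agent.R166.C3a

/-! # The generators of the invariance group -/

set_option autoImplicit false
set_option linter.unusedVariables false
set_option linter.unusedSectionVars false

open MeasureTheory ProbabilityTheory Filter Topology Matrix
open scoped ENNReal

namespace Crest.Agent.R166

variable {ι : Type} {F : Filter ι} {n : ι → ℕ} {μ : ∀ i, Measure (Conf (n i))}

theorem invU_one {r : ℕ} : InvU F n μ (1 : CM r) := by
  sorry

theorem InvU.mul {r : ℕ} {u v : CM r} (hu : InvU F n μ u) (hv : InvU F n μ v) :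
    InvU F n μ (u * v) := by
  sorry

/-- exact invariance: `Mob3_jetG`, `Mob3_mob_orth`, `cay_orth`, `gpi_map_orth` (as in `EG_orth`; the
integrand is continuous in `g` by `continuous_cayG`) -/
theorem invU_orth {r : ℕ} {O : RM r} (hO : O * Oᵀ = 1) : InvU F n μ (cx O) := by
  sorry

/-- Take `R ≥ r` from `H1`, `e = Fin.castLE : Fin (r+2) → Fin (R+2)`, `sub M = M.submatrix e e`
(keeps `HP`).  `φ Z = Φ (cay (sub (Z j).1))`, `φ' Z = Φ (act u (cay (sub (Z j).1)))`, use `inv_bdd`
with `q = rotD R θ`.  For `Z ∈ Sieg`, `N = (mob q Z).1` satisfies `N j = A M + B` (`Mob1_W`); rows of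
`C` outside the range of `e` vanish, so `sub N * j' = A' (sub M) + B'` with the `r + 2` channel data,
hence `(sub N ∓ iπ) j' = (u resp. conj u) (sub M ∓ iπ)` with `u = dg 0 1 θ`, so
`cay (sub N) = u (cay (sub M)) uᵀ`.  Finally `EG` over `R + 2` channels of a function of `sub` is `EG`
over `r + 2` channels (`gpi_map_inj`). -/
theorem invU_dg (hf : IsFam n μ) (ht : TightS F n μ) {θ : ℝ} (h1 : H1 F n μ θ) (r : ℕ) :
    InvU F n μ (dg (0 : Fin (r + 2)) 1 θ) := by
  sorry

end Crest.Agent.R166
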