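import Crest.Agent.R166.C0

/-! # Symmetric unitary matrices and the `K A K` decomposition -/

set_option autoImplicit false
set_option linter.unusedVariables false
set_option linter.unusedSectionVars false

open MeasureTheory ProbabilityTheory Filter Topology Matrix
open scoped ENNReal

namespace Crest.Agent.R166

variable {r : ℕ}

/-- Choose `ζ` on the unit circle with `1 - ζ W` invertible (finitely many bad `ζ`: roots of the
characteristic polynomial; the circle is infinite).  `H = i (1 + ζW)(1 - ζW)⁻¹` is Hermitian and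
symmetric, hence `cx` of a real symmetric matrix; diagonalise it (`exists_eigenbasis` or `rfc`),
`ζ W = (H - i)(H + i)⁻¹`. -/
theorem symm_unitary_diag {W : CM r} (hW : W ∈ unitary (CM r)) (hs : W.IsSymm) :
    ∃ (O : RM r) (lam : Fin r → ℂ), O * Oᵀ = 1 ∧ (∀ a, ‖lam a‖ = 1) ∧
      W = cx O * diagonal lam * (cx O)ᵀ := by
  sorry

/-- `μ a` = a square root of `lam a`; `O' = diag(μ)⁻¹ Oᵀ u` is unitary with `O' O'ᵀ = 1`, so it
equals its complex conjugate -/
theorem kak_of_diag {u : CM r} (hu : u ∈ unitary (CM r)) {O : RM r} {lam : Fin r → ℂ}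
    (hO : O * Oᵀ = 1) (hl : ∀ a, ‖lam a‖ = 1) (h : u * uᵀ = cx O * diagonal lam * (cx O)ᵀ) :
    ∃ (μ : Fin r → ℂ) (O' : RM r), (∀ a, μ a ^ 2 = lam a) ∧ (∀ a, ‖μ a‖ = 1) ∧ O' * O'ᵀ = 1 ∧
      u = cx O * diagonal μ * cx O' := by
  sorry

theorem unitary_kak {u : CM r} (hu : u ∈ unitary (CM r)) :
    ∃ (O O' : RM r) (μ : Fin r → ℂ), O * Oᵀ = 1 ∧ O' * O'ᵀ = 1 ∧ (∀ a, ‖μ a‖ = 1) ∧
      u = cx O * diagonal μ * cx O' := by
  sorry

theorem symm_unitary_factor {W : CM r} (hW : W ∈ unitary (CM r)) (hs : W.IsSymm) :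
    ∃ v ∈ unitary (CM r), W = v * vᵀ := by
  sorry

theorem WW_symm (u : GG r) : (WW u).IsSymm := by
  sorry

theorem WW_unitary (u : GG r) : WW u ∈ unitary (CM r) := by
  sorry

theorem exists_Dz (u : GG r) : ∃ (O : RM r) (lam : Fin r → ℂ), Dz u O lam := by
  sorry

end Crest.Agent.R166
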