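import Crest.Agent.R166.C4

/-! # Generation of `GG r` -/

set_option autoImplicit false
set_option linter.unusedVariables false
set_option linter.unusedSectionVars false

open MeasureTheory ProbabilityTheory Filter Topology Matrix
open scoped ENNReal

namespace Crest.Agent.R166

variable {r : ℕ}

/-- Permutation matrices conjugate `dg a b θ` to `dg a' b' θ` (any `a' ≠ b'`), in particular to
`dg a b (-θ) = dg b a θ`.  Let `c ∉ {a, b}`, `R φ` the real rotation in the plane `(a, c)`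
(block `[[cos φ, -sin φ], [sin φ, cos φ]]`).  `dg a b θ * R φ * dg a b (-θ)` is the identity off the
plane and has the block `[[cos φ, -sin φ e^{iθ}], [sin φ e^{-iθ}, cos φ]]`; this equals
`R α * dg a c ψ * R β` when `sin ψ = sin φ sin θ`, `α - β = -π/2`, `α + β = γ`,
`cos ψ cos γ = cos φ`, `cos ψ sin γ = sin φ cos θ`.  So `dg a c ψ ∈ Γ` if `|sin ψ| ≤ |sin θ|`
(`φ = arcsin (sin ψ / sin θ)`, `γ` from `Complex.arg`); for general `ψ` use `dg a c (ψ/m) ^ m`. -/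
theorem dg_mem_of_gen (hr : 3 ≤ r) (Γ : Submonoid (CM r))
    (hO : ∀ O : RM r, O * Oᵀ = 1 → cx O ∈ Γ) {a b : Fin r} (hab : a ≠ b) {θ : ℝ}
    (hθ : Real.sin θ ≠ 0) (hd : dg a b θ ∈ Γ) {a' b' : Fin r} (hab' : a' ≠ b') (ψ : ℝ) :
    dg a' b' ψ ∈ Γ := by
  sorry

/-- `unitary_kak`; `∏ μ = ± 1`; `diagonal μ = diagonal (sign at b₀) * ∏_{a ≠ b₀} dg a b₀ (arg μ_a)` -/
theorem mem_of_dg (Γ : Submonoid (CM r)) (hO : ∀ O : RM r, O * Oᵀ = 1 → cx O ∈ Γ)
    (hd : ∀ a b : Fin r, a ≠ b → ∀ ψ : ℝ, dg a b ψ ∈ Γ) (u : GG r) : GG.mat u ∈ Γ := by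
  sorry

end Crest.Agent.R166
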