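import Crest.Agent.R166.C3b
import Crest.Agent.R166.C5

/-! # Invariance under the whole group, Haar averaging, the trace of `S` -/

set_option autoImplicit false
set_option linter.unusedVariables false
set_option linter.unusedSectionVars false

open MeasureTheory ProbabilityTheory Filter Topology Matrix
open scoped ENNReal

namespace Crest.Agent.R166

variable {ι : Type} {F : Filter ι} {n : ι → ℕ} {μ : ∀ i, Measure (Conf (n i))}

/-- the submonoid `{u | InvU F n μ u}`, `dg_mem_of_gen`, `mem_of_dg` -/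
theorem invU_GG (hf : IsFam n μ) (ht : TightS F n μ) {θ : ℝ} (hθ : Real.sin θ ≠ 0)
    (h1 : H1 F n μ θ) (r : ℕ) (u : GG (r + 3)) : InvU F n μ (GG.mat u) := by
  sorry

theorem continuous_haar_avg {r k : ℕ} {Φ : (Fin k → CM r) → ℝ} (hΦ : Continuous Φ) :
    Continuous fun S : Fin k → CM r => ∫ u, Φ (fun j => act (GG.mat u) (S j)) ∂(νG r) := by
  sorry

/-- `a_i(u) = ES (Φ ∘ act u) - ES Φ` is equicontinuous in `u` (uniform continuity of
`(u, S) ↦ Φ (act u S)` on the compact `GG r × {contractions}^k`), tends to `0` pointwise, hence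
uniformly (finite subcover); Fubini (`ES_eq_prod`). -/
theorem invU_haar (hf : IsFam n μ) {r : ℕ} (h : ∀ u : GG r, InvU F n μ (GG.mat u)) {k : ℕ}
    {w : Fin k → ℂ} (hw : ∀ j, 0 < (w j).im) {Φ : (Fin k → CM r) → ℝ} (hΦ : Continuous Φ) :
    Tendsto (fun i => ES (μ i) r w (fun S => ∫ u, Φ (fun j => act (GG.mat u) (S j)) ∂(νG r)) -
      ES (μ i) r w Φ) F (𝓝 0) := by
  sorry

/-- For `a ≠ b` pick `c ∉ {a, b}`; `u = dg a c (π/2) ∈ GG r` flips the sign of
`Φ S = Re (S_aa conj S_bb)`, so `ES Φ → 0`; diagonal terms are `≤ 1` (`HP.cay_contr`); hence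
`E ‖tr S‖² ≤ r + o(1)`, Markov. -/
theorem trace_small (hf : IsFam n μ) {r : ℕ} (hr : 3 ≤ r)
    (h : ∀ u : GG r, InvU F n μ (GG.mat u)) {w : ℂ} (hw : 0 < w.im) {t ε : ℝ} (ht : 0 < t)
    (hε : 0 < ε) : ∀ᶠ i in F, ((μ i).prod (gpi (Fin r × Fin (n i))))
      {q | t < ‖trace (cay (MG q.1 q.2 w))‖} ≤ ENNReal.ofReal (r / t ^ 2 + ε) := by
  sorry

end Crest.Agent.R166
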