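import Crest.Agent.R166.Gauss
import Crest.Agent.R166.Mob
import Crest.Agent.R166.Spec

/-! # Parts C and D: definitions.  The whole proof in words is in `R166/CMATH.lean`. -/

set_option autoImplicit false
set_option linter.unusedVariables false
set_option linter.unusedSectionVars false

open MeasureTheory ProbabilityTheory Filter Topology Matrix
open scoped ENNReal

namespace Crest.Agent.R166

noncomputable section

abbrev CM (r : ℕ) : Type := Matrix (Fin r) (Fin r) ℂ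
abbrev RM (r : ℕ) : Type := Matrix (Fin r) (Fin r) ℝ

/-- squared Hilbert–Schmidt norm -/
def hs {m n : Type} [Fintype m] [Fintype n] (A : Matrix m n ℂ) : ℝ := ∑ a, ∑ b, ‖A a b‖ ^ 2

/-- Hilbert–Schmidt norm -/
def hn {m n : Type} [Fintype m] [Fintype n] (A : Matrix m n ℂ) : ℝ := √(hs A)

/-- squared Euclidean norm -/
def nsq {m : Type} [Fintype m] (v : m → ℂ) : ℝ := ∑ a, ‖v a‖ ^ 2

/-- operator norm at most `ρ` -/
def Contr {r : ℕ} (ρ : ℝ) (S : CM r) : Prop := ∀ v, nsq (S *ᵥ v) ≤ ρ ^ 2 * nsq v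

/-- `iπ` -/
def ipi : ℂ := Real.pi * Complex.I

/-- Cayley transform (scattering matrix) -/
def cay {r : ℕ} (M : CM r) : CM r := (M - ipi • (1 : CM r)) * (M + ipi • (1 : CM r))⁻¹

/-- symmetric with positive semidefinite imaginary part -/
def HP {r : ℕ} (M : CM r) : Prop := M.IsSymm ∧ (imM M).PosSemidef

/-- `S ↦ u S uᵀ` -/
def act {r : ℕ} (u S : CM r) : CM r := u * S * uᵀ

def cayJ {r k : ℕ} (Z : Fin k → Jet r) : Fin k → CM r := fun j => cay (Matrix.of (Z j).1)

/-- expectation of a function of the scattering matrices in the Gaussian model -/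
def ES {n : ℕ} (μ : Measure (Conf n)) (r : ℕ) {k : ℕ} (w : Fin k → ℂ)
    (Φ : (Fin k → CM r) → ℝ) : ℝ :=
  EG μ r w fun Z => Φ (cayJ Z)

/-- asymptotic invariance under `S ↦ u S uᵀ` -/
def InvU {ι : Type} (F : Filter ι) (n : ι → ℕ) (μ : ∀ i, Measure (Conf (n i))) {r : ℕ}
    (u : CM r) : Prop :=
  ∀ (k : ℕ) (w : Fin k → ℂ), (∀ j, 0 < (w j).im) → ∀ Φ : (Fin k → CM r) → ℝ, Continuous Φ →
    Tendsto (fun i => ES (μ i) r w (fun S => Φ fun j => act u (S j)) - ES (μ i) r w Φ) F (𝓝 0)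

/-- `e^{iθ}` at `a`, `e^{-iθ}` at `b`, `1` elsewhere -/
def dg {r : ℕ} (a b : Fin r) (θ : ℝ) : CM r :=
  diagonal fun c => if c = a then Complex.exp (θ * Complex.I)
    else if c = b then Complex.exp (-(θ * Complex.I)) else 1

/-- `Re (2 (1 - S)⁻¹ - 1)_{bb}` -/
def pois {r : ℕ} (b : Fin r) (S : CM r) : ℝ := 2 * ((1 - S)⁻¹ b b).re - 1

/-- Poisson kernel -/
def Pk (x : ℂ) : ℝ := (1 - ‖x‖ ^ 2) / ‖1 - x‖ ^ 2

/-- the observable, in terms of scattering matrices -/
def Fs {r k : ℕ} (b : Fin r) (c : Fin k → ℝ) (S : Fin k → CM r) : ℝ :=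
  Real.exp (-∑ j, c j * (Real.pi * pois b (S j)))

/-- the observable, in terms of jets -/
def Fm {r k : ℕ} (b : Fin r) (c : Fin k → ℝ) (Z : Fin k → Jet r) : ℝ :=
  Real.exp (-∑ j, c j * ((Z j).1 b b).im)

/-- `S j = v (T j) vᵀ` with `T j ≈ 1 + 2πi (w j - E) / r` -/
def Near {r k : ℕ} (α ε : ℝ) (w : Fin k → ℂ) (S : Fin k → CM r) : Prop :=
  ∃ E : ℝ, |E| ≤ 1 ∧ ∃ v ∈ unitary (CM r), ∃ T : Fin k → CM r, ∀ j, S j = act v (T j) ∧
    (T j).IsSymm ∧ hn (T j - 1) ≤ α ∧ ‖trace (T j - 1) - 2 * ipi * (w j - E)‖ ≤ ε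

/-! ## The Gaussian model: effective resolvent -/

section Model
variable {n r : ℕ}

def gM (g : Fin r × Fin n → ℝ) : Matrix (Fin r) (Fin n) ℂ := Matrix.of fun b l => (g (b, l) : ℂ)

def lamW (p : Conf n) (w : ℂ) : Matrix (Fin n) (Fin n) ℂ := diagonal fun l => ((p.1 l : ℂ) - w)⁻¹

def MG (p : Conf n) (g : Fin r × Fin n → ℝ) (w : ℂ) : CM r := Matrix.of (jetG p g w).1

def AG (p : Conf n) (g : Fin r × Fin n → ℝ) (w : ℂ) : CM r := (MG p g w + ipi • (1 : CM r))⁻¹

def BG (p : Conf n) (g : Fin r × Fin n → ℝ) (w : ℂ) : Matrix (Fin r) (Fin n) ℂ :=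
  AG p g w * gM g * lamW p w

def GE (p : Conf n) (g : Fin r × Fin n → ℝ) (w : ℂ) : Matrix (Fin n) (Fin n) ℂ :=
  lamW p w - lamW p w * (gM g)ᵀ * AG p g w * gM g * lamW p w

/-- `w` is in the closed upper half plane and is not a point of the configuration -/
def OKw (p : Conf n) (w : ℂ) : Prop := 0 ≤ w.im ∧ ∀ l, (p.1 l : ℂ) ≠ w

/-- column `l` set to zero -/
def zc (l : Fin n) (g : Fin r × Fin n → ℝ) : Fin r × Fin n → ℝ :=
  fun q => if q.2 = l then 0 else g q

/-- column `l` -/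
def colG (l : Fin n) (g : Fin r × Fin n → ℝ) : Fin r → ℂ := fun b => (g (b, l) : ℂ)

/-- `g_lᵀ A^{(l)} g_l` -/
def qG (p : Conf n) (g : Fin r × Fin n → ℝ) (w : ℂ) (l : Fin n) : ℂ :=
  colG l g ⬝ᵥ (AG p (zc l g) w *ᵥ colG l g)

def fq (p : Conf n) (g : Fin r × Fin n → ℝ) (w : ℂ) (l : Fin n) : ℂ :=
  qG p g w l - trace (AG p (zc l g) w)

def rq (p : Conf n) (g : Fin r × Fin n → ℝ) (w : ℂ) (l : Fin n) : ℝ :=
  nsq ((BG p (zc l g) w)ᵀ *ᵥ colG l g) / hs (BG p (zc l g) w)

/-- the height `i (1 + r / 2π)` -/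
def wK (r : ℕ) : ℂ := ((1 + r / (2 * Real.pi) : ℝ) : ℂ) * Complex.I

end Model

/-! ## Compact groups -/

/-- normalised Haar measure of a compact group -/
def haarP (K : Type) [Group K] [TopologicalSpace K] [IsTopologicalGroup K] [CompactSpace K]
    [MeasurableSpace K] [BorelSpace K] : Measure K :=
  Measure.haarMeasure ⊤

section Haar
variable (K : Type) [Group K] [TopologicalSpace K] [IsTopologicalGroup K] [CompactSpace K]
    [MeasurableSpace K] [BorelSpace K]

instance : (haarP K).IsHaarMeasure := by unfold haarP; infer_instance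

instance : IsProbabilityMeasure (haarP K) :=
  ⟨by simpa [haarP] using (Measure.haarMeasure_self (G := K) (K₀ := ⊤))⟩

instance : (haarP K).IsMulRightInvariant := by
  refine ⟨fun g => ?_⟩
  have : IsProbabilityMeasure ((haarP K).map (· * g)) :=
    Measure.isProbabilityMeasure_map (measurable_mul_const g).aemeasurable
  exact Measure.isHaarMeasure_eq_of_isProbabilityMeasure _ _

end Haar

/-- unitary matrices with determinant `± 1` -/
def GG (r : ℕ) : Subgroup (unitary (CM r)) where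
  carrier := {u | (u : CM r).det ^ 2 = 1}
  mul_mem' := fun {a b} ha hb => by
    simp only [Set.mem_ofPred_eq, Submonoid.coe_mul, det_mul, mul_pow] at *
    rw [ha, hb, one_mul]
  one_mem' := by simp
  inv_mem' := fun {a} ha => by
    simp only [Set.mem_ofPred_eq] at *
    have h : (a : CM r).det * ((a⁻¹ : unitary (CM r)) : CM r).det = 1 := by
      rw [← det_mul, ← Submonoid.coe_mul, mul_inv_cancel]; simp
    have := congrArg (· ^ 2) h
    simpa [mul_pow, ha] using this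

def GG.mat {r : ℕ} (u : GG r) : CM r := u.1.1

theorem GG.mat_mul {r : ℕ} (u v : GG r) : GG.mat (u * v) = GG.mat u * GG.mat v := rfl
theorem GG.mat_one {r : ℕ} : GG.mat (1 : GG r) = 1 := rfl
theorem GG.mat_unitary {r : ℕ} (u : GG r) : GG.mat u ∈ unitary (CM r) := u.1.2
theorem GG.det_sq {r : ℕ} (u : GG r) : (GG.mat u).det ^ 2 = 1 := u.2

def GG.mk' {r : ℕ} (M : CM r) (h : M ∈ unitary (CM r)) (hd : M.det ^ 2 = 1) : GG r := ⟨⟨M, h⟩, hd⟩

@[simp] theorem GG.mat_mk' {r : ℕ} (M : CM r) (h : M ∈ unitary (CM r)) (hd : M.det ^ 2 = 1) :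
    GG.mat (GG.mk' M h hd) = M := rfl

@[fun_prop] theorem GG.continuous_mat {r : ℕ} : Continuous (GG.mat (r := r)) :=
  continuous_subtype_val.comp continuous_subtype_val

theorem GG.isEmbedding_mat {r : ℕ} : Topology.IsEmbedding (GG.mat (r := r)) :=
  Topology.IsEmbedding.subtypeVal.comp Topology.IsEmbedding.subtypeVal

theorem isCompact_unitary (𝕜 : Type) [RCLike 𝕜] (r : ℕ) :
    IsCompact (unitary (Matrix (Fin r) (Fin r) 𝕜) : Set (Matrix (Fin r) (Fin r) 𝕜)) := by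
  have hc : IsClosed (unitary (Matrix (Fin r) (Fin r) 𝕜) : Set (Matrix (Fin r) (Fin r) 𝕜)) := by
    have : (unitary (Matrix (Fin r) (Fin r) 𝕜) : Set (Matrix (Fin r) (Fin r) 𝕜)) =
        {M | star M * M = 1} ∩ {M | M * star M = 1} := rfl
    rw [this]
    exact (isClosed_eq (by fun_prop) continuous_const).inter
      (isClosed_eq (by fun_prop) continuous_const)
  have hK : IsCompact (Set.pi Set.univ fun _ : Fin r => Set.pi Set.univ fun _ : Fin r =>
      Metric.closedBall (0 : 𝕜) 1) :=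
    isCompact_univ_pi fun _ => isCompact_univ_pi fun _ => isCompact_closedBall _ _
  refine hK.of_isClosed_subset hc fun M hM i _ j _ => ?_
  simpa using entry_norm_bound_of_unitary hM i j

instance (r : ℕ) : CompactSpace (GG r) := by
  have hr : Set.range (GG.mat (r := r)) =
      (unitary (CM r) : Set (CM r)) ∩ {M | M.det ^ 2 = 1} := by
    ext M
    constructor
    · rintro ⟨p, rfl⟩
      exact ⟨GG.mat_unitary p, GG.det_sq p⟩
    · rintro ⟨h1, h2⟩
      exact ⟨GG.mk' M h1 h2, rfl⟩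
  have : IsCompact (Set.range (GG.mat (r := r))) := by
    rw [hr]
    exact (isCompact_unitary ℂ r).inter_right (isClosed_eq (by fun_prop) continuous_const)
  rw [← isCompact_univ_iff, GG.isEmbedding_mat.isCompact_iff]
  simpa using this

instance (r : ℕ) : SecondCountableTopology (GG r) :=
  haveI : SecondCountableTopology (CM r) :=
    inferInstanceAs (SecondCountableTopology (Fin r → Fin r → ℂ))
  GG.isEmbedding_mat.secondCountableTopology

instance (r : ℕ) : MeasurableSpace (GG r) := borel _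
instance (r : ℕ) : BorelSpace (GG r) := ⟨rfl⟩

/-- Haar probability measure on `GG r` -/
abbrev νG (r : ℕ) : Measure (GG r) := haarP (GG r)

/-- the real orthogonal group -/
def OG (r : ℕ) : Type := unitary (RM r)

instance (r : ℕ) : Group (OG r) := inferInstanceAs (Group (unitary (RM r)))
instance (r : ℕ) : TopologicalSpace (OG r) := inferInstanceAs (TopologicalSpace (unitary (RM r)))
instance (r : ℕ) : IsTopologicalGroup (OG r) :=
  inferInstanceAs (IsTopologicalGroup (unitary (RM r)))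
instance (r : ℕ) : CompactSpace (OG r) := isCompact_iff_compactSpace.1 (isCompact_unitary ℝ r)

def OG.mat {r : ℕ} (O : OG r) : RM r := Subtype.val (p := fun M => M ∈ unitary (RM r)) O

theorem OG.mat_mul {r : ℕ} (u v : OG r) : OG.mat (u * v) = OG.mat u * OG.mat v := rfl

theorem OG.mul_tr {r : ℕ} (O : OG r) : OG.mat O * (OG.mat O)ᵀ = 1 := by
  have : OG.mat O * star (OG.mat O) = 1 := (Subtype.prop (p := fun M => M ∈ unitary (RM r)) O).2
  simpa [star_eq_conjTranspose] using this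

def OG.mk' {r : ℕ} (O : RM r) (h : O * Oᵀ = 1) : OG r :=
  (⟨O, by
    rw [Matrix.mem_unitaryGroup_iff]
    simpa [star_eq_conjTranspose] using h⟩ : unitary (RM r))

@[simp] theorem OG.mat_mk' {r : ℕ} (O : RM r) (h : O * Oᵀ = 1) : OG.mat (OG.mk' O h) = O := rfl

@[fun_prop] theorem OG.continuous_mat {r : ℕ} : Continuous (OG.mat (r := r)) :=
  continuous_subtype_val

theorem OG.isEmbedding_mat {r : ℕ} : Topology.IsEmbedding (OG.mat (r := r)) :=
  Topology.IsEmbedding.subtypeVal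

instance (r : ℕ) : SecondCountableTopology (OG r) :=
  haveI : SecondCountableTopology (RM r) :=
    inferInstanceAs (SecondCountableTopology (Fin r → Fin r → ℝ))
  OG.isEmbedding_mat.secondCountableTopology

instance (r : ℕ) : MeasurableSpace (OG r) := borel _
instance (r : ℕ) : BorelSpace (OG r) := ⟨rfl⟩

/-- Haar probability measure on the orthogonal group -/
abbrev νO (r : ℕ) : Measure (OG r) := haarP (OG r)

/-! ## The circular model `W = u uᵀ` -/

section Circ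
variable {r : ℕ}

def WW (u : GG r) : CM r := GG.mat u * (GG.mat u)ᵀ

/-- `(1 - ζ W)⁻¹` -/
def Rz (ζ : ℂ) (u : GG r) : CM r := (1 - ζ • WW u)⁻¹

/-- `e^{2πi w / r}` -/
def zt (r : ℕ) (w : ℂ) : ℂ := Complex.exp (2 * ipi * w / r)

/-- the observable in the circular model, rotated by `t` -/
def Ft {k : ℕ} (b : Fin r) (c : Fin k → ℝ) (w : Fin k → ℂ) (t : ℝ) (u : GG r) : ℝ :=
  Fs b c fun j => zt r (w j + t) • WW u

def Psi {k : ℕ} (b : Fin r) (c : Fin k → ℝ) (w : Fin k → ℂ) (t : ℝ) : ℝ :=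
  ∫ u, Ft b c w t u ∂(νG r)

/-- `∂_t Ft` -/
def dFt {k : ℕ} (b : Fin r) (c : Fin k → ℝ) (w : Fin k → ℂ) (t : ℝ) (u : GG r) : ℝ :=
  Ft b c w t u * -∑ j, c j * (Real.pi * (2 * (2 * ipi / r *
    (Rz (zt r (w j + t)) u * (Rz (zt r (w j + t)) u - 1)) b b).re))

/-- `σ = tr R / r - 1` -/
def sg (ζ : ℂ) (u : GG r) : ℂ := (r : ℂ)⁻¹ * trace (Rz ζ u) - 1

/-- `τ = tr R (R - 1) / r²` -/
def tauG (ζ : ℂ) (u : GG r) : ℂ := ((r : ℂ)⁻¹) ^ 2 * trace (Rz ζ u * (Rz ζ u - 1))

/-- the loop-equation polynomial -/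
def LL (ζ : ℂ) (u : GG r) : ℂ := sg ζ u * (1 + sg ζ u) + (1 - 2 / r) * tauG ζ u

/-- traceless symmetric directions -/
def Xab (a b : Fin r) : RM r :=
  single a b 1 + single b a 1 - (if a = b then 2 / (r : ℝ) else 0) • (1 : RM r)

/-- `γ t = exp (i t X)` -/
def IsFlow (X : RM r) (γ : ℝ → GG r) : Prop :=
  γ 0 = 1 ∧ (∀ s t, γ (s + t) = γ s * γ t) ∧ Continuous γ ∧
    ∀ a b, HasDerivAt (fun t => GG.mat (γ t) a b) (Complex.I * X a b) 0

/-- `F' X` is the derivative of `F` along the flow of `X` -/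
structure Der (F : GG r → ℂ) (F' : RM r → GG r → ℂ) : Prop where
  cont : Continuous F
  cont' : ∀ X, Continuous (F' X)
  der : ∀ X γ, X.IsSymm → IsFlow X γ → ∀ u, HasDerivAt (fun t => F (γ t * u)) (F' X u) 0

/-- derivative of `Rz ζ` along `X` -/
def dR (ζ : ℂ) (X : RM r) (u : GG r) : CM r :=
  Complex.I • (Rz ζ u * (ζ • (cx X * WW u + WW u * cx X)) * Rz ζ u)

/-- derivative of `sg ζ` along `X` -/
def dsg (ζ : ℂ) (X : RM r) (u : GG r) : ℂ := (r : ℂ)⁻¹ * trace (dR ζ X u)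

/-- contraction of a matrix with a derivative -/
def SX (Y : CM r) (F' : RM r → GG r → ℂ) (u : GG r) : ℂ := ∑ a, ∑ b, Y a b * F' (Xab a b) u

/-- `W = O diag(λ) Oᵀ` -/
def Dz (u : GG r) (O : RM r) (lam : Fin r → ℂ) : Prop :=
  O * Oᵀ = 1 ∧ (∀ a, ‖lam a‖ = 1) ∧ WW u = cx O * diagonal lam * (cx O)ᵀ

/-- radius at height `a` -/
def rad (r : ℕ) (a : ℝ) : ℝ := (r - a) / (r + a)

end Circ

end

end Crest.Agent.R166
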