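/-!
# Row 166, parts C and D (replaces sections C and D of `MATH.lean`)

Goal (`PartCD`): two families with H0 and H1 have asymptotically equal Laplace functionals.

* `lap = E exp(-Σ g_l² ψ(x_l))`, `ψ = (e^{2h}-1)/2`, and `ψ ≈ Σ c_j Im 1/(x - w_j)`, `c_j ≥ 0`; so `lap ≈ E Fm`,
  `Fm = exp(-Σ c_j Im M_bb(w_j))`, for any number `r` of channels (D5a, D5b).
* `S = cay M = (M - iπ)(M + iπ)⁻¹` is a symmetric contraction, `Im M_bb = π pois b S` (C1).  H0 gives tightness (C2); H1 and
  `O(r)` give asymptotic invariance of the law of `(S(w_j))_j` under `S ↦ u S uᵀ` for all `u` in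
  `GG r = {u unitary, det² = 1}` (C3–C6), hence under Haar averaging, and `tr S = O(√r)`.
* Effective resolvent `G = Λ - ΛΓᵀAΓΛ`, `A = (M + iπ)⁻¹`, `B = AΓΛ` (D0).  Removing one column at a time (D1):
  `G_ll ≈ 1/(x_l - i - ir/2π)`, `hs G(i) = O(1/r)`, `Im tr G(i) ≈ Im s(i(1 + r/2π)) ≈ π`.
* Deterministically (D2): for a real `E`, `S(E) = v vᵀ` and `S(w) = v T vᵀ`, `hn (T - 1) = O(r^{-1/2})`, `tr (T - 1) ≈ 2πi (w - E)`.
* Haar perturbation (D3): averaging over `O(r)` spreads the traceless part of `T`, so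
  `∫ Fs(u S uᵀ) du ≈ Psi_r(t) = ∫ Fs(e^{2πi(w + t)/r} u uᵀ) du` for some real `t`.
* Exact loop equations on the compact group (D4): moments of `σ`, near orthogonality of the scales, so `Psi_r' → 0`
  uniformly and `Psi_r(t) ≈ Psi_r(0)` (period 1).  The number `Psi_r(0)` does not depend on the family.
-/
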