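import Crest.Agent.R166.C1b

/-! # Resolvent identities of the Gaussian model -/

set_option autoImplicit false
set_option linter.unusedVariables false
set_option linter.unusedSectionVars false

open MeasureTheory ProbabilityTheory Filter Topology Matrix
open scoped ENNReal

namespace Crest.Agent.R166

variable {n r : ℕ} {p : Conf n} {g : Fin r × Fin n → ℝ} {w w' : ℂ}

theorem MG_eq (p : Conf n) (g : Fin r × Fin n → ℝ) (w : ℂ) :
    MG p g w = gM g * lamW p w * (gM g)ᵀ - (p.2 : ℂ) • (1 : CM r) := by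
  sorry

theorem OKw_of_pos (p : Conf n) (hw : 0 < w.im) : OKw p w := by
  sorry

theorem MG_HP (h : OKw p w) : HP (MG p g w) := by
  sorry

theorem AG_symm (h : OKw p w) : (AG p g w).IsSymm := by
  sorry

theorem GE_symm (h : OKw p w) : (GE p g w).IsSymm := by
  sorry

theorem lamW_sub (h : OKw p w) (h' : OKw p w') :
    lamW p w - lamW p w' = (w - w') • (lamW p w * lamW p w') := by
  sorry

/-- `A - A' = -A (M - M') A'`, `M - M' = (w - w') Γ Λ Λ' Γᵀ` -/
theorem AG_sub (h : OKw p w) (h' : OKw p w') :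
    AG p g w - AG p g w' = -((w - w') • (BG p g w * (BG p g w')ᵀ)) := by
  sorry

theorem cay_sub (h : OKw p w) (h' : OKw p w') :
    cay (MG p g w) - cay (MG p g w') = (2 * ipi * (w - w')) • (BG p g w * (BG p g w')ᵀ) := by
  sorry

theorem BG_sub (h : OKw p w) (h' : OKw p w') :
    BG p g w - BG p g w' = (w - w') • (BG p g w * GE p g w') := by
  sorry

theorem GE_sub (h : OKw p w) (h' : OKw p w') :
    GE p g w - GE p g w' = (w - w') • (GE p g w * GE p g w') := by
  sorry

/-- Ward identity: the same computation with the conjugate data `(conj w, -iπ)`: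
`conj A - A = conj A ((M - conj M) + 2iπ) A`.  It is convenient to prove one abstract identity for
`Λ, Λ'` diagonal with `Λ - Λ' = s Λ Λ'` and `A = (ΓΛΓᵀ + z)⁻¹`, `A' = (ΓΛ'Γᵀ + z')⁻¹`:
`G - G' = s G G' + (z - z') Bᵀ B'`. -/
theorem GE_ward (h : OKw p w) :
    GE p g w - (GE p g w).map (starRingEnd ℂ) =
      (2 * Complex.I * w.im) • (GE p g w * (GE p g w).map (starRingEnd ℂ)) +
        (2 * ipi) • ((BG p g w)ᵀ * (BG p g w).map (starRingEnd ℂ)) := by
  sorry

theorem ward_trace (h : OKw p w) :
    (trace (GE p g w)).im = w.im * hs (GE p g w) + Real.pi * hs (BG p g w) := by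
  sorry

/-- at a real point, `cay M * conj B = B` -/
theorem cay_mul_conj_BG (h : OKw p w) (hw : w.im = 0) :
    cay (MG p g w) * (BG p g w).map (starRingEnd ℂ) = BG p g w := by
  sorry

theorem cay_MG_unitary (h : OKw p w) (hw : w.im = 0) : cay (MG p g w) ∈ unitary (CM r) := by
  sorry

theorem continuous_AG (hw : 0 < w.im) :
    Continuous fun q : Conf n × (Fin r × Fin n → ℝ) => AG q.1 q.2 w := by
  sorry

theorem continuous_BG (hw : 0 < w.im) :
    Continuous fun q : Conf n × (Fin r × Fin n → ℝ) => BG q.1 q.2 w := by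
  sorry

theorem continuous_GE (hw : 0 < w.im) :
    Continuous fun q : Conf n × (Fin r × Fin n → ℝ) => GE q.1 q.2 w := by
  sorry

theorem trace_AG (h : OKw p w) :
    trace (AG p g w) = (r - trace (cay (MG p g w))) / (2 * ipi) := by
  sorry

theorem hs_AG_le (h : OKw p w) : hs (AG p g w) ≤ r / Real.pi ^ 2 := by
  sorry

theorem im_sF (p : Conf n) (w : ℂ) :
    (sF p w).im = w.im * ∑ l, (‖(p.1 l : ℂ) - w‖ ^ 2)⁻¹ := by
  sorry

end Crest.Agent.R166
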