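import Crest.Agent.R166.D1b

/-! # The effective resolvent on the good event (deterministic) -/

set_option autoImplicit false
set_option linter.unusedVariables false
set_option linter.unusedSectionVars false

open MeasureTheory ProbabilityTheory Filter Topology Matrix
open scoped ENNReal

namespace Crest.Agent.R166

/-- `K = r/2π`, `D_l = x_l - wK r`, `|D_l| ≥ K`, `Σ 1/|D_l|² ≤ 2π/K ≤ 40/r` (`im_sF`).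
`e_l = q_l + iK = f_l + (tr A^{(l)} - tr A) + (tr A + iK)`, `|tr A + iK| ≤ t/2π` (`trace_AG`), so
`|e_l| ≤ |D_l|/2`, `den_l = x_l - i + q_l = D_l + e_l`, `|G_ll| ≤ 2/|D_l|`.
`π|a_l|² ≤ |q_l| ≤ 3|D_l|/2`, so `|a_l|² |G_ll|² ρ_l ≤ 2ρ_l/|D_l| ≤ 2√(Λ/r) ≤ 1/4`; with `rank1_BG`,
`rank1_GE_off`, `rq_mul`: `hn B^{(l)} ≤ hn B + hn B^{(l)}/2`.  `|tr G - Σ 1/D_l| ≤ 2Σ|e_l|/|D_l|² ≤
2√(40Λ/r) + 80(1+t)/r` (Cauchy–Schwarz), `π hs B ≤ Im tr G ≤ 3π` (`ward_trace`),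
`hs G = Σ_l |G_ll|²(1 + h_l) ≤ 160/r + 16 hs B √(40Λ)/r`.  (`C = 1000` is enough.) -/
theorem good_det : ∃ C : ℝ, 0 < C ∧ ∀ {n r : ℕ} (p : Conf n) (g : Fin r × Fin n → ℝ) (Λ t : ℝ),
    1 ≤ Λ → 0 ≤ t → C * Λ ≤ r → C * t ≤ r → (sF p (wK r)).im ≤ 2 * Real.pi →
    ‖trace (cay (MG p g Complex.I))‖ ≤ t →
    ∑ l, ‖fq p g Complex.I l‖ ^ 4 / ‖(p.1 l : ℂ) - wK r‖ ^ 4 ≤ Λ / r →
    ∑ l, ‖fq p g Complex.I l‖ ^ 2 / ‖(p.1 l : ℂ) - wK r‖ ^ 2 ≤ Λ →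
    ∑ l, rq p g Complex.I l ^ 2 / ‖(p.1 l : ℂ) - wK r‖ ^ 2 ≤ Λ / r →
    hs (GE p g Complex.I) ≤ C * Λ / r ∧
      |(trace (GE p g Complex.I)).im - (sF p (wK r)).im| ≤ C * (√(Λ / r) + (t + 1) / r) := by
  sorry

end Crest.Agent.R166
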