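import Crest.Agent.R166.D1a
import Crest.Agent.R166.D1c

/-! # The effective resolvent is small with high probability -/

set_option autoImplicit false
set_option linter.unusedVariables false
set_option linter.unusedSectionVars false

open MeasureTheory ProbabilityTheory Filter Topology Matrix
open scoped ENNReal

namespace Crest.Agent.R166

theorem measurable_fq {n r : ℕ} {w : ℂ} (hw : 0 < w.im) (l : Fin n) :
    Measurable fun q : Conf n × (Fin r × Fin n → ℝ) => fq q.1 q.2 w l := by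
  sorry

theorem measurable_rq {n r : ℕ} {w : ℂ} (hw : 0 < w.im) (l : Fin n) :
    Measurable fun q : Conf n × (Fin r × Fin n → ℝ) => rq q.1 q.2 w l := by
  sorry

/-- `lintegral_col`, `gpi_quad`, `gpi_nsq_sq`, `hs_AG_le` -/
theorem col_moments : ∃ C : ℝ, 0 < C ∧ ∀ {n r : ℕ} (p : Conf n) {w : ℂ}, 0 < w.im → ∀ l : Fin n,
    ∫⁻ g, ENNReal.ofReal (‖fq p g w l‖ ^ 2) ∂(gpi (Fin r × Fin n)) ≤ ENNReal.ofReal (C * r) ∧
    ∫⁻ g, ENNReal.ofReal (‖fq p g w l‖ ^ 4) ∂(gpi (Fin r × Fin n)) ≤ ENNReal.ofReal (C * r ^ 2) ∧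
    ∫⁻ g, ENNReal.ofReal (rq p g w l ^ 2) ∂(gpi (Fin r × Fin n)) ≤ ENNReal.ofReal C := by
  sorry

/-- The set is contained in the measurable set where `Im s ≤ 2π` and one of the three sums of
`good_det` is too large; `Measure.prod_apply`, Markov for fixed `p` (`Σ 1/|D_l|² ≤ 40/r`,
`|D_l| ≥ r/2π`). -/
theorem gauss_good : ∃ C : ℝ, 0 < C ∧ ∀ {n r : ℕ} (μ : Measure (Conf n)) [IsProbabilityMeasure μ]
    (Λ t : ℝ), 1 ≤ Λ → 0 ≤ t → C * Λ ≤ r → C * t ≤ r →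
    (μ.prod (gpi (Fin r × Fin n))) {q | (sF q.1 (wK r)).im ≤ 2 * Real.pi ∧
      ‖trace (cay (MG q.1 q.2 Complex.I))‖ ≤ t ∧
      ¬ (hs (GE q.1 q.2 Complex.I) ≤ C * Λ / r ∧
        |(trace (GE q.1 q.2 Complex.I)).im - (sF q.1 (wK r)).im| ≤
          C * (√(Λ / r) + (t + 1) / r))} ≤ ENNReal.ofReal (C / Λ) := by
  sorry

end Crest.Agent.R166
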