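import Crest.Agent.R166.C0

/-! # Gaussian quadratic forms -/

set_option autoImplicit false
set_option linter.unusedVariables false
set_option linter.unusedSectionVars false

open MeasureTheory ProbabilityTheory Filter Topology Matrix
open scoped ENNReal

namespace Crest.Agent.R166

/-- Replace `N` by its symmetrisation, split into real and imaginary parts (real symmetric,
Hilbert–Schmidt norms `≤ hn N`), diagonalise (`exists_eigenbasis`), rotate (`gpi_map_orth`) and use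
`gpi_bilin_sq_le`, `gpi_bilin_four_le` with one channel (or the polynomial calculus `g2E` of
`Gauss2Aux`). -/
theorem gpi_quad : ∃ C : ℝ, 0 < C ∧ ∀ {r : ℕ} (N : CM r),
    ∫⁻ γ, ENNReal.ofReal (‖(fun b => (γ b : ℂ)) ⬝ᵥ (N *ᵥ fun b => (γ b : ℂ)) - trace N‖ ^ 2)
      ∂(gpi (Fin r)) ≤ ENNReal.ofReal (C * hs N) ∧
    ∫⁻ γ, ENNReal.ofReal (‖(fun b => (γ b : ℂ)) ⬝ᵥ (N *ᵥ fun b => (γ b : ℂ)) - trace N‖ ^ 4)
      ∂(gpi (Fin r)) ≤ ENNReal.ofReal (C * hs N ^ 2) := by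
  sorry

/-- `nsq (Bᵀ γ) = γᵀ N γ` with `N = B Bᴴ`, `tr N = hs B`, `hn N ≤ hs B` -/
theorem gpi_nsq_sq : ∃ C : ℝ, 0 < C ∧ ∀ {r n : ℕ} (B : Matrix (Fin r) (Fin n) ℂ),
    ∫⁻ γ, ENNReal.ofReal ((nsq (Bᵀ *ᵥ fun b => (γ b : ℂ)) / hs B) ^ 2) ∂(gpi (Fin r)) ≤
      ENNReal.ofReal C := by
  sorry

/-- resampling one column: `gpi_map_sum` and `gpi_map_inj` with the injection
`(b, m) ↦ if m = l then inr b else inl (b, m)` -/
theorem lintegral_col {r n : ℕ} (l : Fin n) {f : (Fin r × Fin n → ℝ) → (Fin r → ℝ) → ℝ≥0∞}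
    (hf : Measurable fun x : (Fin r × Fin n → ℝ) × (Fin r → ℝ) => f x.1 x.2) :
    ∫⁻ g, f (zc l g) (fun b => g (b, l)) ∂(gpi (Fin r × Fin n)) =
      ∫⁻ g, ∫⁻ γ, f (zc l g) γ ∂(gpi (Fin r)) ∂(gpi (Fin r × Fin n)) := by
  sorry

end Crest.Agent.R166
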