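import Crest.Agent.R166.D0

/-! # Removing one column (Sherman–Morrison) -/

set_option autoImplicit false
set_option linter.unusedVariables false
set_option linter.unusedSectionVars false

open MeasureTheory ProbabilityTheory Filter Topology Matrix
open scoped ENNReal

namespace Crest.Agent.R166

variable {n r : ℕ} {p : Conf n} {g : Fin r × Fin n → ℝ} {w : ℂ}

theorem rank1_MG (p : Conf n) (g : Fin r × Fin n → ℝ) (w : ℂ) (l : Fin n) :
    MG p g w = MG p (zc l g) w + ((p.1 l : ℂ) - w)⁻¹ • vecMulVec (colG l g) (colG l g) := by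
  sorry

/-- `HP.im_form` -/
theorem rank1_im (hw : 0 < w.im) (l : Fin n) :
    Real.pi * nsq (AG p (zc l g) w *ᵥ colG l g) ≤ -(qG p g w l).im := by
  sorry

theorem rank1_den (hw : 0 < w.im) (l : Fin n) : (p.1 l : ℂ) - w + qG p g w l ≠ 0 := by
  sorry

theorem rank1_AG (hw : 0 < w.im) (l : Fin n) :
    AG p g w = AG p (zc l g) w - ((p.1 l : ℂ) - w + qG p g w l)⁻¹ •
      vecMulVec (AG p (zc l g) w *ᵥ colG l g) (AG p (zc l g) w *ᵥ colG l g) := by
  sorry

theorem rank1_GE_diag (hw : 0 < w.im) (l : Fin n) :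
    GE p g w l l = ((p.1 l : ℂ) - w + qG p g w l)⁻¹ := by
  sorry

theorem rank1_GE_off (hw : 0 < w.im) {l m : Fin n} (h : m ≠ l) :
    GE p g w l m =
      -(((p.1 l : ℂ) - w + qG p g w l)⁻¹ * ((BG p (zc l g) w)ᵀ *ᵥ colG l g) m) := by
  sorry

theorem rank1_BG_zero (p : Conf n) (g : Fin r × Fin n → ℝ) (w : ℂ) (l : Fin n) (b : Fin r) :
    BG p (zc l g) w b l = 0 := by
  sorry

theorem rank1_BG (hw : 0 < w.im) {l m : Fin n} (h : m ≠ l) (b : Fin r) :
    BG p g w b m = BG p (zc l g) w b m + (AG p (zc l g) w *ᵥ colG l g) b * GE p g w l m := by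
  sorry

/-- `|aᵀ a| ≤ nsq a` and `|den| ≥ π nsq a` -/
theorem rank1_trace (hw : 0 < w.im) (l : Fin n) :
    ‖trace (AG p (zc l g) w) - trace (AG p g w)‖ ≤ Real.pi⁻¹ := by
  sorry

theorem rq_nonneg (p : Conf n) (g : Fin r × Fin n → ℝ) (w : ℂ) (l : Fin n) : 0 ≤ rq p g w l := by
  sorry

/-- also when `hs = 0` -/
theorem rq_mul (p : Conf n) (g : Fin r × Fin n → ℝ) (w : ℂ) (l : Fin n) :
    rq p g w l * hs (BG p (zc l g) w) = nsq ((BG p (zc l g) w)ᵀ *ᵥ colG l g) := by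
  sorry

end Crest.Agent.R166
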