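import Crest.Agent.R166.D0
import Crest.Agent.R166.C4

/-! # Factorisation of the scattering matrix (deterministic) -/

set_option autoImplicit false
set_option linter.unusedVariables false
set_option linter.unusedSectionVars false

open MeasureTheory ProbabilityTheory Filter Topology Matrix
open scoped ENNReal

namespace Crest.Agent.R166

/-- Pick a real `E ∈ [0,1]` off the configuration.  From `GE_sub`: `hn G(z) ≤ 2γ` for `z = E, w j`
(`|z - i| γ ≤ 1/2`), `|tr G(E) - tr G(i)| ≤ 4γ² ≤ γ`; `π hs B(E) = Im tr G(E)` (`ward_trace`), so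
`hs B ≤ 2`, `|hs B - 1| ≤ (ε + γ)/π`.  `S(E) = v vᵀ` (`symm_unitary_factor`), `T = v* S(w) (v*)ᵀ`,
`β = v* B(E)`; `T - 1 = 2πi (w - E) [β βᵀ + (w - E) β G(w) βᵀ]` (`cay_sub`, `BG_sub` with the roles
exchanged).  `B Bᵀ = S conj(B) Bᵀ` (`cay_mul_conj_BG`), so `β = conj β`, `tr β βᵀ = hs B`,
`π hn (β βᵀ) = π hn (Bᵀ conj B) ≤ hn G(E)` (`GE_ward`; `hs (X Xᴴ) = hs (Xᴴ X)`). -/
theorem factor_S {n r k : ℕ} (p : Conf n) (g : Fin r × Fin n → ℝ) {L γ ε : ℝ} {w : Fin k → ℂ}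
    (hw : ∀ j, 0 < (w j).im) (hL : ∀ j, ‖w j‖ ≤ L) (hL1 : 1 ≤ L)
    (hγ : hn (GE p g Complex.I) ≤ γ) (hγL : 8 * L * γ ≤ 1)
    (hε : |(trace (GE p g Complex.I)).im - Real.pi| ≤ ε) (hε1 : ε ≤ 1) :
    Near (120 * L ^ 2 * γ) (120 * L ^ 2 * (ε + γ)) w fun j => cay (MG p g (w j)) := by
  sorry

end Crest.Agent.R166
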