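import Crest.Agent.R166.D3c

/-! # The Haar average of the observable is universal -/

set_option autoImplicit false
set_option linter.unusedVariables false
set_option linter.unusedSectionVars false

open MeasureTheory ProbabilityTheory Filter Topology Matrix
open scoped ENNReal

namespace Crest.Agent.R166

/-- `det v = e^{iγ}`, `v₀ = e^{-iγ/r} v ∈ GG r`, `act u (S j) = act (u v₀) (e^{2iγ/r} T j)`, right
invariance; `t = γ/π - E`, `ζ_j = zt r (w j + t) = e^{2iγ/r} zt r (w j - E)`,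
`|zt r z - 1 - 2πi z/r| ≤ (2π|z|/r)²` (`Complex.norm_exp_sub_one_sub_id_le`); `Fs_sub_le`,
`haar_pert` with `y = 2π min Im w j` (or one `y` per `j`), `Contr.of_act`, `Contr.smul`. -/
theorem haar_near {k : ℕ} {c : Fin k → ℝ} (hc : ∀ j, 0 ≤ c j) {w : Fin k → ℂ}
    (hw : ∀ j, 0 < (w j).im) {ε : ℝ} (hε : 0 < ε) : ∃ ε₂ : ℝ, 0 < ε₂ ∧ ∀ Λ : ℝ, 0 ≤ Λ → ∃ r₀ : ℕ,
    ∀ r : ℕ, r₀ ≤ r → ∀ (b : Fin r) (S : Fin k → CM r) (ρ : ℝ), 0 ≤ ρ → ρ < 1 →
      (∀ j, Contr ρ (S j)) → Near √(Λ / r) ε₂ w S →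
      ∃ t : ℝ, |∫ u, Fs b c (fun j => act (GG.mat u) (S j)) ∂(νG r) - Psi b c w t| ≤ ε := by
  sorry

end Crest.Agent.R166
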