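import Crest.Agent.R166.C0

/-! # Second moments under orthogonal conjugation; perturbation in the eigenbasis -/

set_option autoImplicit false
set_option linter.unusedVariables false
set_option linter.unusedSectionVars false

open MeasureTheory ProbabilityTheory Filter Topology Matrix
open scoped ENNReal

namespace Crest.Agent.R166

/-- `Y = O δ Oᵀ`.  Left invariance under permutation matrices: all off-diagonal second moments are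
equal, their sum is `≤ hs δ`.  The rotation by `45°` in the plane `(a, b)` maps `Y_ab` to
`(Y_bb - Y_aa)/2`; `r Y_aa = Σ_b (Y_aa - Y_bb)`. -/
theorem og_second_moment {r : ℕ} (hr : 2 ≤ r) {δ : CM r} (hδ : δ.IsSymm) (htr : trace δ = 0)
    (a b : Fin r) :
    ∫ Q, ‖(cx (OG.mat Q) * δ * (cx (OG.mat Q))ᵀ) a b‖ ^ 2 ∂(νO r) ≤ 4 * hs δ / (r * (r - 1)) := by
  sorry

/-- With `d_a = 1 - c μ_a²`, `Δ = diag μ Y diag μ`, the matrix is `O (diag d - Δ) Oᵀ`.  If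
`(diag d - Δ) y = e` put `z_a = √|d_a| y_a`; then `‖z‖ ≤ ‖e/√|d|‖ + ξ‖z‖`.  This gives injectivity
(`e = 0`), and for `e_a = O b a`: the entry is `Σ e_a y_a = Σ e_a²/d_a + Σ e_a d_a⁻¹ Δ_ab y_b`. -/
theorem diag_pert {r : ℕ} {O : RM r} (hO : O * Oᵀ = 1) {μ : Fin r → ℂ} (hμ : ∀ a, ‖μ a‖ = 1)
    {c : ℂ} (hc : ‖c‖ < 1) (Y : CM r) {ξ : ℝ} (h0 : 0 ≤ ξ) (h1 : ξ ≤ 1 / 2)
    (hξ : ∑ a, ∑ a', ‖Y a a'‖ ^ 2 / (‖1 - c * μ a ^ 2‖ * ‖1 - c * μ a' ^ 2‖) ≤ ξ ^ 2) (b : Fin r) :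
    ‖(1 - cx O * diagonal μ * (c • (1 : CM r) + Y) * diagonal μ * (cx O)ᵀ)⁻¹ b b -
        ∑ a, ((O b a : ℂ)) ^ 2 * (1 - c * μ a ^ 2)⁻¹‖ ≤
      2 * ξ * ∑ a, O b a ^ 2 * ‖1 - c * μ a ^ 2‖⁻¹ := by
  sorry

end Crest.Agent.R166
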