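import Crest.Agent.R166.C1a
import Crest.Agent.R166.C4

/-! # The circular model: spectral formulas, continuity, rotation averages -/

set_option autoImplicit false
set_option linter.unusedVariables false
set_option linter.unusedSectionVars false

open MeasureTheory ProbabilityTheory Filter Topology Matrix
open scoped ENNReal

namespace Crest.Agent.R166

variable {r : ℕ}

theorem Pk_eq {x : ℂ} (hx : ‖x‖ < 1) : Pk x = 2 * ((1 - x)⁻¹).re - 1 := by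
  sorry

theorem Pk_nonneg {x : ℂ} (hx : ‖x‖ < 1) : 0 ≤ Pk x := by
  sorry

@[fun_prop] theorem continuous_WW : Continuous (WW (r := r)) := by
  sorry

theorem contr_WW (ζ : ℂ) (u : GG r) : Contr ‖ζ‖ (ζ • WW u) := by
  sorry

theorem act_smul_one (ζ : ℂ) (u : GG r) : act (GG.mat u) (ζ • (1 : CM r)) = ζ • WW u := by
  sorry

theorem continuousOn_Rz : ContinuousOn (fun x : ℂ × GG r => Rz x.1 x.2) {x | ‖x.1‖ < 1} := by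
  sorry

theorem continuous_Rz {ζ : ℂ} (hζ : ‖ζ‖ < 1) : Continuous (Rz (r := r) ζ) := by
  sorry

theorem continuous_pois {ζ : ℂ} (hζ : ‖ζ‖ < 1) (b : Fin r) :
    Continuous fun u : GG r => pois b (ζ • WW u) := by
  sorry

theorem Rz_symm (ζ : ℂ) (u : GG r) : (Rz ζ u).IsSymm := by
  sorry

/-- `ζ W R = R - 1 = R ζ W` -/
theorem Rz_mul {ζ : ℂ} (hζ : ‖ζ‖ < 1) (u : GG r) :
    (ζ • WW u) * Rz ζ u = Rz ζ u - 1 ∧ Rz ζ u * (ζ • WW u) = Rz ζ u - 1 := by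
  sorry

section
variable {u : GG r} {O : RM r} {lam : Fin r → ℂ} {ζ : ℂ}

theorem Dz.norm_lt (h : Dz u O lam) (hζ : ‖ζ‖ < 1) (a : Fin r) : ‖ζ * lam a‖ < 1 := by
  sorry

theorem Dz.Rz_eq (h : Dz u O lam) (hζ : ‖ζ‖ < 1) :
    Rz ζ u = cx O * diagonal (fun a => (1 - ζ * lam a)⁻¹) * (cx O)ᵀ := by
  sorry

theorem Dz.Rz_diag (h : Dz u O lam) (hζ : ‖ζ‖ < 1) (b : Fin r) :
    Rz ζ u b b = ∑ a, (O b a : ℂ) ^ 2 * (1 - ζ * lam a)⁻¹ := by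
  sorry

theorem Dz.pois_eq (h : Dz u O lam) (hζ : ‖ζ‖ < 1) (b : Fin r) :
    pois b (ζ • WW u) = ∑ a, O b a ^ 2 * Pk (ζ * lam a) := by
  sorry

theorem Dz.sum_pois (h : Dz u O lam) (hζ : ‖ζ‖ < 1) :
    ∑ b, pois b (ζ • WW u) = ∑ a, Pk (ζ * lam a) := by
  sorry

theorem Dz.sg_eq (h : Dz u O lam) (hζ : ‖ζ‖ < 1) :
    sg ζ u = (r : ℂ)⁻¹ * ∑ a, (1 - ζ * lam a)⁻¹ - 1 := by
  sorry

theorem Dz.tauG_eq (h : Dz u O lam) (hζ : ‖ζ‖ < 1) :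
    tauG ζ u = ((r : ℂ)⁻¹) ^ 2 * ∑ a, (1 - ζ * lam a)⁻¹ * ((1 - ζ * lam a)⁻¹ - 1) := by
  sorry

theorem Dz.RR_diag (h : Dz u O lam) (hζ : ‖ζ‖ < 1) (b : Fin r) :
    (Rz ζ u * (Rz ζ u - 1)) b b =
      ∑ a, (O b a : ℂ) ^ 2 * ((1 - ζ * lam a)⁻¹ * ((1 - ζ * lam a)⁻¹ - 1)) := by
  sorry

/-- `1 + 2 Re σ` is the average Poisson kernel -/
theorem Dz.sg_re (h : Dz u O lam) (hζ : ‖ζ‖ < 1) (hr : 0 < r) :
    1 + 2 * (sg ζ u).re = (r : ℝ)⁻¹ * ∑ a, Pk (ζ * lam a) := by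
  sorry

end

/-- the scalar matrix `e^{iπ m / r}` lies in `GG r` -/
theorem exists_rot (hr : 0 < r) (m : ℕ) :
    ∃ z : GG r, ∀ u, WW (z * u) = Complex.exp (2 * ipi * m / r) • WW u := by
  sorry

/-- Average over the rotations `m < r` (left invariance):
`r⁻¹ Σ_m (1 - x ω^m)⁻¹ = (1 - x^r)⁻¹` (write `(1 - y)⁻¹ = (Σ_{i<r} y^i)/(1 - y^r)`), and
`Pk y ≤ (1 + |y|)/(1 - |y|)`. -/
theorem int_pois_le (hr : 0 < r) {ζ : ℂ} (hζ : ‖ζ‖ < 1) (b : Fin r) :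
    ∫ u, pois b (ζ • WW u) ∂(νG r) ≤ (1 + ‖ζ‖ ^ r) / (1 - ‖ζ‖ ^ r) := by
  sorry

theorem int_sg_re_le (hr : 0 < r) {ζ : ℂ} (hζ : ‖ζ‖ < 1) :
    ∫ u, (1 + 2 * (sg ζ u).re) ∂(νG r) ≤ (1 + ‖ζ‖ ^ r) / (1 - ‖ζ‖ ^ r) := by
  sorry

/-- `σ = |1 - ζλ| ≥ 2^{-J-1}`.  The term `j = 0` is `Pk 0 = 1`.  If `2^{-j-1} ≤ σ ≤ s = 2^{-j}` then
`|1 - (1-s)ζλ| ≤ 2s` and `1 - |(1-s)ζλ|² ≥ s`. -/
theorem dyadic {ζ lam : ℂ} (hζ : ‖ζ‖ < 1) (hl : ‖lam‖ = 1) {J : ℕ}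
    (hJ : (2⁻¹ : ℝ) ^ (J + 1) ≤ 1 - ‖ζ‖) :
    ‖1 - ζ * lam‖⁻¹ ≤
      8 * ∑ j ∈ Finset.range (J + 1), Pk (((1 - (2⁻¹ : ℝ) ^ j : ℝ) : ℂ) * ζ * lam) := by
  sorry

theorem norm_zt (hr : 0 < r) (w : ℂ) : ‖zt r w‖ = Real.exp (-(2 * Real.pi * w.im / r)) := by
  sorry

theorem norm_zt_lt (hr : 0 < r) {w : ℂ} (hw : 0 < w.im) (t : ℝ) : ‖zt r (w + t)‖ < 1 := by
  sorry

theorem continuous_Ft {k : ℕ} (b : Fin r) (c : Fin k → ℝ) {w : Fin k → ℂ}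
    (hw : ∀ j, 0 < (w j).im) : Continuous fun x : ℝ × GG r => Ft b c w x.1 x.2 := by
  sorry

theorem Ft_mem {k : ℕ} (b : Fin r) {c : Fin k → ℝ} (hc : ∀ j, 0 ≤ c j) {w : Fin k → ℂ}
    (hw : ∀ j, 0 < (w j).im) (t : ℝ) (u : GG r) : 0 ≤ Ft b c w t u ∧ Ft b c w t u ≤ 1 := by
  sorry

theorem Psi_periodic {k : ℕ} (b : Fin r) (c : Fin k → ℝ) (w : Fin k → ℂ) (t : ℝ) :
    Psi b c w (t + 1) = Psi b c w t := by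
  sorry

end Crest.Agent.R166
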