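import Crest.Agent.R166.D3a
import Crest.Agent.R166.D3b

/-! # Haar average of a perturbed scalar matrix -/

set_option autoImplicit false
set_option linter.unusedVariables false
set_option linter.unusedSectionVars false

open MeasureTheory ProbabilityTheory Filter Topology Matrix
open scoped ENNReal

namespace Crest.Agent.R166

theorem d3c_cont_cx {r : ℕ} : Continuous fun Q : OG r => cx (OG.mat Q) := by
  refine continuous_pi fun a => continuous_pi fun b => ?_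
  simp only [cx_apply]
  exact Complex.continuous_ofReal.comp
    ((continuous_apply b).comp ((continuous_apply a).comp OG.continuous_mat))

theorem d3c_cx_mul_tr {r : ℕ} {O : RM r} (hO : O * Oᵀ = 1) : cx O * (cx O)ᵀ = 1 := by
  rw [← cx_transpose, ← cx_mul, hO, cx_one]

theorem d3c_int {X : Type} [TopologicalSpace X] [CompactSpace X] [MeasurableSpace X]
    [OpensMeasurableSpace X] (μ : Measure X) [IsFiniteMeasure μ] {f : X → ℝ} (hf : Continuous f) :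
    Integrable f μ :=
  hf.integrable_of_hasCompactSupport (HasCompactSupport.of_compactSpace f)

theorem d3c_X {r : ℕ} (hr : 2 ≤ r) {δ : CM r} (hδ : δ.IsSymm) (htr : trace δ = 0)
    (d : Fin r → ℝ) (hd : ∀ a, 0 ≤ d a) :
    Integrable (fun Q : OG r => ∑ a, ∑ a',
      ‖(cx (OG.mat Q) * δ * (cx (OG.mat Q))ᵀ) a a'‖ ^ 2 / (d a * d a')) (νO r) ∧
    ∫ Q, (∑ a, ∑ a', ‖(cx (OG.mat Q) * δ * (cx (OG.mat Q))ᵀ) a a'‖ ^ 2 / (d a * d a')) ∂(νO r) ≤
      (4 * hn δ / r * ∑ a, (d a)⁻¹) ^ 2 / 2 := by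
  have hc : Continuous fun Q : OG r => cx (OG.mat Q) * δ * (cx (OG.mat Q))ᵀ :=
    (d3c_cont_cx.mul continuous_const).mul d3c_cont_cx.matrix_transpose
  have hi : ∀ a a', Integrable (fun Q : OG r =>
      ‖(cx (OG.mat Q) * δ * (cx (OG.mat Q))ᵀ) a a'‖ ^ 2 / (d a * d a')) (νO r) := fun a a' =>
    d3c_int _ (((((continuous_apply a').comp ((continuous_apply a).comp hc)).norm).pow 2).div_const _)
  refine ⟨integrable_finsetSum _ fun a _ => integrable_finsetSum _ fun a' _ => hi a a', ?_⟩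
  rw [integral_finsetSum _ fun a _ => integrable_finsetSum _ fun a' _ => hi a a']
  have hr' : (2 : ℝ) ≤ r := by exact_mod_cast hr
  have hK : 4 * hs δ / (r * (r - 1)) ≤ (4 * hn δ / r) ^ 2 / 2 := by
    rw [div_pow, mul_pow, hn_sq, div_div, div_le_div_iff₀ (by nlinarith) (by positivity)]
    have := hs_nonneg δ
    have h2 : (r : ℝ) ^ 2 * 2 * 4 ≤ 4 ^ 2 * (r * (r - 1)) := by nlinarith
    nlinarith [mul_le_mul_of_nonneg_left h2 this]
  calc ∑ a, ∫ Q, ∑ a', ‖(cx (OG.mat Q) * δ * (cx (OG.mat Q))ᵀ) a a'‖ ^ 2 / (d a * d a') ∂(νO r)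
      ≤ ∑ a, ∑ a', (4 * hn δ / r) ^ 2 / 2 * ((d a)⁻¹ * (d a')⁻¹) := by
        refine Finset.sum_le_sum fun a _ => ?_
        rw [integral_finsetSum _ fun a' _ => hi a a']
        refine Finset.sum_le_sum fun a' _ => ?_
        rw [integral_div, div_eq_mul_inv, mul_inv]
        exact mul_le_mul_of_nonneg_right ((og_second_moment hr hδ htr a a').trans hK)
          (mul_nonneg (inv_nonneg.2 (hd a)) (inv_nonneg.2 (hd a')))
    _ = _ := by
        simp_rw [← Finset.mul_sum]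
        rw [← Finset.sum_mul]
        ring

/-- `kak_of_diag`: `u = O diag μ O'`; by left invariance of `νO` replace `O' Q` by `Q`.  Off the
event `X² := Σ |Y_{aa'}|²/(|d_a||d_{a'}|) > ξ²` use `diag_pert` and `Dz.Rz_diag`; the event has
probability `≤ min 1 (E X²/ξ²) ≤ √(E X²)/ξ` and `E X² ≤ (Σ 1/|d_a|)² 8 hs δ/r²`
(`og_second_moment`).  (Pointwise: integrand `≤ X²/(ξ m) + m/ξ + ..`-type bounds avoid events; the
integrand is continuous by `Contr.act`, `Contr.unit`, `continuousOn_inv_unit`.) -/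
theorem haar_pert_fix {r : ℕ} (hr : 2 ≤ r) {u : GG r} {O : RM r} {lam : Fin r → ℂ}
    (h : Dz u O lam) {c : ℂ} (hc : ‖c‖ < 1) {δ : CM r} (hδ : δ.IsSymm) (htr : trace δ = 0)
    {ρ : ℝ} (h0 : 0 ≤ ρ) (h1 : ρ < 1) (hT : Contr ρ (c • (1 : CM r) + δ)) {ξ : ℝ} (hξ : 0 < ξ)
    (hξ' : ξ ≤ 1 / 2) (b : Fin r) :
    ∫ Q, min 1 ‖(1 - act (GG.mat u * cx (OG.mat Q)) (c • (1 : CM r) + δ))⁻¹ b b - Rz c u b b‖
        ∂(νO r) ≤
      4 * hn δ / (ξ * r) * ∑ a, ‖1 - c * lam a‖⁻¹ + 2 * ξ * ∑ a, O b a ^ 2 * ‖1 - c * lam a‖⁻¹ := by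
  obtain ⟨hO, hl, hW⟩ := id h
  obtain ⟨μ, O', hμ2, hμ, hO', hu⟩ := kak_of_diag (GG.mat_unitary u) hO hl hW
  set S1 := ∑ a, ‖1 - c * lam a‖⁻¹ with hS1
  set S2 := ∑ a, O b a ^ 2 * ‖1 - c * lam a‖⁻¹ with hS2
  set F : OG r → ℝ := fun Q => min 1 ‖(1 - cx O * diagonal μ *
    (c • (1 : CM r) + cx (OG.mat Q) * δ * (cx (OG.mat Q))ᵀ) * diagonal μ * (cx O)ᵀ)⁻¹ b b -
      ∑ a, ((O b a : ℂ)) ^ 2 * (1 - c * μ a ^ 2)⁻¹‖ with hF
  have hFQ : ∀ Q : OG r,
      min 1 ‖(1 - act (GG.mat u * cx (OG.mat Q)) (c • (1 : CM r) + δ))⁻¹ b b - Rz c u b b‖ =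
        F (OG.mk' O' hO' * Q) := by
    intro Q
    have h1 : cx (OG.mat (OG.mk' O' hO' * Q)) * (cx (OG.mat (OG.mk' O' hO' * Q)))ᵀ = 1 :=
      d3c_cx_mul_tr (OG.mul_tr _)
    have h2 : act (GG.mat u * cx (OG.mat Q)) (c • (1 : CM r) + δ) = cx O * diagonal μ *
        (c • (1 : CM r) + cx (OG.mat (OG.mk' O' hO' * Q)) * δ *
          (cx (OG.mat (OG.mk' O' hO' * Q)))ᵀ) * diagonal μ * (cx O)ᵀ := by
      have h3 : GG.mat u * cx (OG.mat Q) =
          cx O * diagonal μ * cx (OG.mat (OG.mk' O' hO' * Q)) := by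
        rw [hu, OG.mat_mul, OG.mat_mk', cx_mul, Matrix.mul_assoc]
      have h4 : c • (1 : CM r) + cx (OG.mat (OG.mk' O' hO' * Q)) * δ *
          (cx (OG.mat (OG.mk' O' hO' * Q)))ᵀ = cx (OG.mat (OG.mk' O' hO' * Q)) *
            (c • (1 : CM r) + δ) * (cx (OG.mat (OG.mk' O' hO' * Q)))ᵀ := by
        rw [Matrix.mul_add, Matrix.add_mul, Matrix.mul_smul, Matrix.mul_one, Matrix.smul_mul, h1]
      rw [h3, h4, act, transpose_mul, transpose_mul, diagonal_transpose]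
      simp only [Matrix.mul_assoc]
    rw [h2, h.Rz_diag hc b, hF]
    simp only [hμ2]
  simp_rw [hFQ]
  rw [integral_mul_left_eq_self]
  obtain ⟨hXi, hXle⟩ := d3c_X hr hδ htr (fun a => ‖1 - c * μ a ^ 2‖) fun a => norm_nonneg _
  set X : OG r → ℝ := fun Q => ∑ a, ∑ a', ‖(cx (OG.mat Q) * δ * (cx (OG.mat Q))ᵀ) a a'‖ ^ 2 /
    (‖1 - c * μ a ^ 2‖ * ‖1 - c * μ a' ^ 2‖) with hX
  have hS1' : ∑ a, ‖1 - c * μ a ^ 2‖⁻¹ = S1 := by simp only [hμ2, hS1]
  have hS2' : ∑ a, O b a ^ 2 * ‖1 - c * μ a ^ 2‖⁻¹ = S2 := by simp only [hμ2, hS2]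
  rw [hS1'] at hXle
  have hS10 : 0 ≤ S1 := Finset.sum_nonneg fun a _ => inv_nonneg.2 (norm_nonneg _)
  have hS20 : 0 ≤ S2 :=
    Finset.sum_nonneg fun a _ => mul_nonneg (sq_nonneg _) (inv_nonneg.2 (norm_nonneg _))
  set M := 4 * hn δ / r * S1 with hM
  have hM0 : 0 ≤ M := by have := hn_nonneg δ; positivity
  have hX0 : ∀ Q, 0 ≤ X Q := fun Q =>
    Finset.sum_nonneg fun a _ => Finset.sum_nonneg fun a' _ => by positivity
  have key : ∀ m : ℝ, 0 < m → M ≤ m → ∫ Q, F Q ∂(νO r) ≤ m / ξ + 2 * ξ * S2 := by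
    intro m hm hMm
    have hpt : ∀ Q, F Q ≤ X Q / (2 * m * ξ) + (m / (2 * ξ) + 2 * ξ * S2) := by
      intro Q
      have hXQ := hX0 Q
      by_cases hq : X Q ≤ ξ ^ 2
      · have := diag_pert hO hμ hc _ hξ.le hξ' hq b
        rw [hS2'] at this
        have h5 : F Q ≤ 2 * ξ * S2 := (min_le_right _ _).trans this
        have : 0 ≤ X Q / (2 * m * ξ) := by positivity
        have : 0 ≤ m / (2 * ξ) := by positivity
        linarith
      · have h5 : F Q ≤ 1 := min_le_left _ _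
        have h6 : 1 ≤ X Q / (2 * m * ξ) + m / (2 * ξ) := by
          have : X Q / (2 * m * ξ) + m / (2 * ξ) = (X Q + m ^ 2) / (2 * m * ξ) := by
            field_simp
          rw [this, le_div_iff₀ (by positivity)]
          nlinarith [sq_nonneg (m - ξ)]
        have : 0 ≤ 2 * ξ * S2 := by positivity
        linarith
    have h7 := integral_mono_of_nonneg (μ := νO r) (f := F)
      (g := fun Q => X Q / (2 * m * ξ) + (m / (2 * ξ) + 2 * ξ * S2))
      (Eventually.of_forall fun Q => le_min zero_le_one (norm_nonneg _))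
      ((hXi.div_const _).add (integrable_const _)) (Eventually.of_forall hpt)
    rw [integral_add (hXi.div_const _) (integrable_const _), integral_div, integral_const] at h7
    simp only [probReal_univ, smul_eq_mul, one_mul] at h7
    have h8 : (∫ Q, X Q ∂(νO r)) / (2 * m * ξ) ≤ m / (2 * ξ) := by
      rw [div_le_div_iff₀ (by positivity) (by positivity)]
      have : M ^ 2 ≤ m ^ 2 := pow_le_pow_left₀ hM0 hMm 2
      nlinarith [mul_le_mul_of_nonneg_right (hXle.trans (by nlinarith : M ^ 2 / 2 ≤ m ^ 2)) hξ.le]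
    have h9 : m / ξ = m / (2 * ξ) + m / (2 * ξ) := by field_simp; ring
    linarith
  have hr0 : (0 : ℝ) < r := by exact_mod_cast (by omega : 0 < r)
  have h10 : 4 * hn δ / (ξ * r) * S1 = M / ξ := by rw [hM]; field_simp
  rw [h10]
  refine le_of_forall_pos_le_add fun η hη => ?_
  have := key (M + η * ξ) (by positivity) (by nlinarith [mul_pos hη hξ])
  have h11 : (M + η * ξ) / ξ = M / ξ + η := by field_simp
  linarith

theorem d3c_param {y θ : ℝ} (hy : 0 < y) (hθ : 0 < θ) (Λ : ℝ) : ∃ r₀ : ℕ, ∀ r : ℕ, r₀ ≤ r →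
    ∃ J : ℕ, (2⁻¹ : ℝ) ^ (J + 1) ≤ y / (2 * r) ∧ Λ / r ≤ (θ / ((J : ℝ) + 1) ^ 2) ^ 2 := by
  set L := max Λ 1 with hL
  have hL0 : 0 < L := lt_of_lt_of_le one_pos (le_max_right _ _)
  have ht := tendsto_pow_const_div_const_pow_of_one_lt 4 (by norm_num : (1 : ℝ) < 2)
  have hθ' : 0 < θ ^ 2 * y / (4 * L) := by positivity
  obtain ⟨N, hN⟩ := eventually_atTop.1 (ht.eventually (gt_mem_nhds hθ'))
  obtain ⟨r₀, hr₀⟩ := exists_nat_ge (2 ^ N * y / 2 + 1)
  refine ⟨r₀, fun r hr => ?_⟩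
  have hr1 : 2 ^ N * y / 2 + 1 ≤ (r : ℝ) := hr₀.trans (by exact_mod_cast hr)
  have h2N : (0 : ℝ) < 2 ^ N := by positivity
  have hr0 : (0 : ℝ) < r := by nlinarith [mul_pos h2N hy]
  have hx : (2 : ℝ) ^ N ≤ 2 * r / y := by rw [le_div_iff₀ hy]; linarith
  obtain ⟨J, hJ1, hJ2⟩ := exists_nat_pow_near ((one_le_pow₀ (by norm_num)).trans hx)
    (by norm_num : (1 : ℝ) < 2)
  have hNJ : N ≤ J + 1 := by
    have := hx.trans_lt hJ2
    exact ((pow_lt_pow_iff_right₀ (by norm_num : (1 : ℝ) < 2)).1 this).le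
  have h2J : (0 : ℝ) < 2 ^ (J + 1) := by positivity
  refine ⟨J, ?_, ?_⟩
  · rw [inv_pow, inv_eq_one_div, div_le_div_iff₀ h2J (by positivity)]
    rw [div_lt_iff₀ hy] at hJ2
    linarith
  · have h1 := hN (J + 1) hNJ
    push_cast at h1
    rw [div_lt_div_iff₀ h2J (by positivity)] at h1
    rw [le_div_iff₀ hy] at hJ1
    rw [div_pow, div_le_div_iff₀ hr0 (by positivity)]
    have h3 : Λ * (((J : ℝ) + 1) ^ 2) ^ 2 ≤ L * ((J : ℝ) + 1) ^ 4 := by
      rw [← pow_mul]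
      exact mul_le_mul_of_nonneg_right (le_max_left _ _) (by positivity)
    have h4 : θ ^ 2 * y * 2 ^ (J + 1) ≤ 4 * (θ ^ 2 * r) := by
      rw [pow_succ (2 : ℝ) J]
      nlinarith [mul_le_mul_of_nonneg_left hJ1 (sq_nonneg θ)]
    linarith

theorem d3c_half {ζ c lam : ℂ} (hl : ‖lam‖ = 1) (hcζ : ‖c - ζ‖ ≤ (1 - ‖ζ‖) / 2) :
    ‖1 - ζ * lam‖ / 2 ≤ ‖1 - c * lam‖ := by
  have h1 : 1 - ‖ζ‖ ≤ ‖1 - ζ * lam‖ := by
    have := norm_sub_norm_le (1 : ℂ) (ζ * lam)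
    rwa [norm_one, norm_mul, hl, mul_one] at this
  have h2 : ‖1 - ζ * lam‖ ≤ ‖1 - c * lam‖ + ‖c - ζ‖ := by
    have := norm_add_le (1 - c * lam) ((c - ζ) * lam)
    rwa [norm_mul, hl, mul_one,
      show 1 - c * lam + (c - ζ) * lam = 1 - ζ * lam by ring] at this
  linarith

theorem d3c_norm_lt {ζ c : ℂ} (hζ : ‖ζ‖ < 1) (hcζ : ‖c - ζ‖ ≤ (1 - ‖ζ‖) / 2) : ‖c‖ < 1 := by
  have := norm_add_le (c - ζ) ζ
  rw [sub_add_cancel] at this
  linarith

theorem d3c_pos {ζ lam : ℂ} (hζ : ‖ζ‖ < 1) (hl : ‖lam‖ = 1) : 0 < ‖1 - ζ * lam‖ := by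
  have := norm_sub_norm_le (1 : ℂ) (ζ * lam)
  rw [norm_one, norm_mul, hl, mul_one] at this
  linarith

theorem d3c_shift {r : ℕ} {ζ c : ℂ} (hζ : ‖ζ‖ < 1) (hcζ : ‖c - ζ‖ ≤ (1 - ‖ζ‖) / 2) (u : GG r)
    (b : Fin r) :
    ‖Rz c u b b - Rz ζ u b b‖ ≤ 2 * ‖c - ζ‖ / (1 - ‖ζ‖) * pois b (ζ • WW u) := by
  obtain ⟨O, lam, h⟩ := exists_Dz u
  have hc := d3c_norm_lt hζ hcζ
  rw [h.Rz_diag hc, h.Rz_diag hζ, h.pois_eq hζ, ← Finset.sum_sub_distrib, Finset.mul_sum]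
  refine (norm_sum_le _ _).trans (Finset.sum_le_sum fun a _ => ?_)
  have hl := h.2.1 a
  have h1 := d3c_pos hζ hl
  have h2 := d3c_pos hc hl
  have h3 := d3c_half hl hcζ
  have h1' : 1 - ζ * lam a ≠ 0 := norm_pos_iff.1 h1
  have h2' : 1 - c * lam a ≠ 0 := norm_pos_iff.1 h2
  have h4 : (O b a : ℂ) ^ 2 * (1 - c * lam a)⁻¹ - (O b a : ℂ) ^ 2 * (1 - ζ * lam a)⁻¹ =
      (O b a : ℂ) ^ 2 * ((c - ζ) * lam a / ((1 - c * lam a) * (1 - ζ * lam a))) := by
    rw [← mul_sub, inv_sub_inv h2' h1']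
    congr 2
    ring
  rw [h4, norm_mul, norm_pow, Complex.norm_real, Real.norm_eq_abs, sq_abs, norm_div, norm_mul,
    norm_mul, hl, mul_one, mul_left_comm]
  refine mul_le_mul_of_nonneg_left ?_ (sq_nonneg _)
  rw [Pk, norm_mul, hl, mul_one]
  have h5 : 0 < 1 - ‖ζ‖ := by linarith
  have h6 : 2 * ‖c - ζ‖ / (1 - ‖ζ‖) * ((1 - ‖ζ‖ ^ 2) / ‖1 - ζ * lam a‖ ^ 2) =
      ‖c - ζ‖ * (1 + ‖ζ‖) / (‖1 - ζ * lam a‖ / 2 * ‖1 - ζ * lam a‖) := by
    field_simp
    ring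
  rw [h6]
  refine div_le_div₀ (by positivity) ?_ (by positivity) (mul_le_mul_of_nonneg_right h3 h1.le)
  nlinarith [norm_nonneg (c - ζ), norm_nonneg ζ]

theorem d3c_main {r : ℕ} (hr : 2 ≤ r) (b : Fin r) {ζ c : ℂ} (hζ : ‖ζ‖ < 1)
    (hcζ : ‖c - ζ‖ ≤ (1 - ‖ζ‖) / 2) {δ : CM r} (hδ : δ.IsSymm) (htr : trace δ = 0)
    {ρ : ℝ} (h0 : 0 ≤ ρ) (h1 : ρ < 1) (hT : Contr ρ (c • (1 : CM r) + δ)) {ξ : ℝ} (hξ : 0 < ξ)
    (hξ' : ξ ≤ 1 / 2) {J : ℕ} (hJ : (2⁻¹ : ℝ) ^ (J + 1) ≤ 1 - ‖ζ‖) {κ : ℝ}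
    (hκ : ∀ ζ' : ℂ, ‖ζ'‖ ≤ ‖ζ‖ → ∀ b', ∫ u, pois b' (ζ' • WW u) ∂(νG r) ≤ κ) :
    Continuous (fun u : GG r =>
      min 1 ‖(1 - act (GG.mat u) (c • (1 : CM r) + δ))⁻¹ b b - Rz c u b b‖) ∧
    ∫ u, min 1 ‖(1 - act (GG.mat u) (c • (1 : CM r) + δ))⁻¹ b b - Rz c u b b‖ ∂(νG r) ≤
      (64 * hn δ / ξ + 32 * ξ) * ((J + 1) * κ) := by
  have hc := d3c_norm_lt hζ hcζ
  set G : GG r → ℝ := fun u =>
    min 1 ‖(1 - act (GG.mat u) (c • (1 : CM r) + δ))⁻¹ b b - Rz c u b b‖ with hG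
  have hGc : Continuous G := by
    have h2 : Continuous fun u : GG r => 1 - act (GG.mat u) (c • (1 : CM r) + δ) :=
      continuous_const.sub ((GG.continuous_mat.mul continuous_const).mul
        GG.continuous_mat.matrix_transpose)
    have h3 : Continuous fun u : GG r => (1 - act (GG.mat u) (c • (1 : CM r) + δ))⁻¹ :=
      continuousOn_inv_unit.comp_continuous h2 fun u => (hT.act (GG.mat_unitary u)).unit h0 h1
    refine continuous_const.min (Continuous.norm (Continuous.sub ?_ ?_))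
    · exact (continuous_apply b).comp ((continuous_apply b).comp h3)
    · exact (continuous_apply b).comp ((continuous_apply b).comp (continuous_Rz hc))
  refine ⟨hGc, ?_⟩
  set e : OG r → GG r := fun Q =>
    GG.mk' (cx (OG.mat Q)) (cx_mem_unitary (OG.mul_tr Q)) (det_cx_sq (OG.mul_tr Q)) with he
  have hec : Continuous e := GG.isEmbedding_mat.continuous_iff.2 d3c_cont_cx
  have hWe : ∀ u Q, WW (u * e Q) = WW u := fun u Q => by
    have : GG.mat (e Q) = cx (OG.mat Q) := rfl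
    rw [WW, WW, GG.mat_mul, this, transpose_mul, Matrix.mul_assoc, ← Matrix.mul_assoc (cx _),
      d3c_cx_mul_tr (OG.mul_tr Q), Matrix.one_mul]
  have hF : ∫ u, G u ∂(νG r) = ∫ u, ∫ Q, G (u * e Q) ∂(νO r) ∂(νG r) := by
    rw [integral_integral_swap]
    · simp_rw [integral_mul_right_eq_self]
      simp
    · exact d3c_int _ (hGc.comp (continuous_fst.mul (hec.comp continuous_snd)))
  set z : ℕ → ℂ := fun j => ((1 - (2⁻¹ : ℝ) ^ j : ℝ) : ℂ) * ζ with hz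
  have hzle : ∀ j, ‖z j‖ ≤ ‖ζ‖ := fun j => by
    rw [hz]
    simp only [norm_mul, Complex.norm_real, Real.norm_eq_abs]
    refine mul_le_of_le_one_left (norm_nonneg _) (abs_le.2 ⟨?_, ?_⟩)
    · have : (2⁻¹ : ℝ) ^ j ≤ 1 := pow_le_one₀ (by norm_num) (by norm_num)
      linarith
    · have : (0 : ℝ) ≤ 2⁻¹ ^ j := by positivity
      linarith
  have hzlt : ∀ j, ‖z j‖ < 1 := fun j => (hzle j).trans_lt hζ
  have hr0 : (0 : ℝ) < r := by exact_mod_cast (by omega : 0 < r)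
  have hA : 0 ≤ 4 * hn δ / (ξ * r) := by have := hn_nonneg δ; positivity
  set H : GG r → ℝ := fun u =>
    4 * hn δ / (ξ * r) * (16 * ∑ j ∈ Finset.range (J + 1), ∑ b', pois b' (z j • WW u)) +
      2 * ξ * (16 * ∑ j ∈ Finset.range (J + 1), pois b (z j • WW u)) with hH
  have hpi : ∀ j b', Integrable (fun u : GG r => pois b' (z j • WW u)) (νG r) := fun j b' =>
    d3c_int _ (continuous_pois (hzlt j) b')
  have hi1 : Integrable (fun u : GG r =>
      ∑ j ∈ Finset.range (J + 1), ∑ b', pois b' (z j • WW u)) (νG r) :=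
    integrable_finsetSum _ fun j _ => integrable_finsetSum _ fun b' _ => hpi j b'
  have hi2 : Integrable (fun u : GG r =>
      ∑ j ∈ Finset.range (J + 1), pois b (z j • WW u)) (νG r) :=
    integrable_finsetSum _ fun j _ => hpi j b
  have hpt : ∀ u, ∫ Q, G (u * e Q) ∂(νO r) ≤ H u := by
    intro u
    obtain ⟨O, lam, h⟩ := exists_Dz u
    have h2 : ∀ Q, G (u * e Q) = min 1
        ‖(1 - act (GG.mat u * cx (OG.mat Q)) (c • (1 : CM r) + δ))⁻¹ b b - Rz c u b b‖ := by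
      intro Q
      rw [hG]
      simp only [Rz, hWe]
      rfl
    simp_rw [h2]
    refine (haar_pert_fix hr h hc hδ htr h0 h1 hT hξ hξ' b).trans ?_
    have h3 : ∀ a, ‖1 - c * lam a‖⁻¹ ≤ 16 * ∑ j ∈ Finset.range (J + 1), Pk (z j * lam a) := by
      intro a
      have hl := h.2.1 a
      have h4 := dyadic hζ hl hJ
      have h5 := d3c_half hl hcζ
      have h6 := d3c_pos hζ hl
      have h7 : ‖1 - c * lam a‖⁻¹ ≤ (‖1 - ζ * lam a‖ / 2)⁻¹ := inv_anti₀ (by positivity) h5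
      rw [inv_div, div_eq_mul_inv] at h7
      simp only [hz]
      linarith
    refine add_le_add (mul_le_mul_of_nonneg_left ?_ hA)
      (mul_le_mul_of_nonneg_left ?_ (by positivity))
    · simp_rw [fun j => h.sum_pois (hzlt j)]
      rw [Finset.sum_comm, Finset.mul_sum]
      exact Finset.sum_le_sum fun a _ => h3 a
    · simp_rw [fun j => h.pois_eq (hzlt j) b]
      rw [Finset.sum_comm, Finset.mul_sum]
      refine Finset.sum_le_sum fun a _ => ?_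
      rw [← Finset.mul_sum, mul_left_comm]
      exact mul_le_mul_of_nonneg_left (h3 a) (sq_nonneg _)
  have hHi : Integrable H (νG r) :=
    ((hi1.const_mul _).const_mul _).add ((hi2.const_mul _).const_mul _)
  rw [hF]
  refine (integral_mono_of_nonneg (Eventually.of_forall fun u =>
    integral_nonneg fun Q => le_min zero_le_one (norm_nonneg _)) hHi
    (Eventually.of_forall hpt)).trans ?_
  rw [hH, integral_add ((hi1.const_mul _).const_mul _) ((hi2.const_mul _).const_mul _),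
    integral_const_mul, integral_const_mul, integral_const_mul, integral_const_mul,
    integral_finsetSum _ fun j _ => integrable_finsetSum _ fun b' _ => hpi j b',
    integral_finsetSum _ fun j _ => hpi j b]
  have h8 : ∑ j ∈ Finset.range (J + 1), ∫ u, ∑ b', pois b' (z j • WW u) ∂(νG r) ≤
      (J + 1) * (r * κ) := by
    calc _ ≤ ∑ j ∈ Finset.range (J + 1), (r * κ : ℝ) := by
          refine Finset.sum_le_sum fun j _ => ?_
          rw [integral_finsetSum _ fun b' _ => hpi j b']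
          calc _ ≤ ∑ b' : Fin r, κ := Finset.sum_le_sum fun b' _ => hκ _ (hzle j) b'
            _ = _ := by simp
      _ = _ := by simp
  have h9 : ∑ j ∈ Finset.range (J + 1), ∫ u, pois b (z j • WW u) ∂(νG r) ≤ (J + 1) * κ := by
    calc _ ≤ ∑ j ∈ Finset.range (J + 1), κ := Finset.sum_le_sum fun j _ => hκ _ (hzle j) b
      _ = _ := by simp
  calc _ ≤ 4 * hn δ / (ξ * r) * (16 * ((J + 1) * (r * κ))) + 2 * ξ * (16 * ((J + 1) * κ)) := by
        gcongr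
    _ = _ := by field_simp; ring

/-- `c = tr T / r`, `δ = T - c` (`hs_sub_trace_le`), `|c - ζ| ≤ ε₂/r ≤ (1 - |ζ|)/2` as
`1 - |ζ| ≥ y/(2r)` for `r ≥ y`; so `|1 - cλ| ≥ |1 - ζλ|/2` and
`|Rz c - Rz ζ|_bb ≤ 2|c - ζ| pois/(1 - |ζ|²)`.  Right invariance of `νG` under `cx Q` and Fubini
reduce to `haar_pert_fix` (`W(uQ) = W(u)`); bound the two sums by `dyadic`, `Dz.pois_eq`,
`Dz.sum_pois`, integrate with `int_pois_le` (`|(1-s)ζ|^r ≤ e^{-y}`).  With `ξ = (Λ/r)^{1/4}` and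
`J ≈ log₂ (2r/y)` the total is `≤ C_y ((J+1) (Λ/r)^{1/4} + ε₂)`.  (If `Λ ≤ 0` replace it by `1`.) -/
theorem haar_pert {y ε : ℝ} (hy : 0 < y) (hε : 0 < ε) : ∃ ε₂ : ℝ, 0 < ε₂ ∧ ∀ Λ : ℝ, ∃ r₀ : ℕ,
    ∀ r : ℕ, r₀ ≤ r → ∀ (b : Fin r) (ζ : ℂ) (T : CM r) (ρ : ℝ), 0 ≤ ρ → ρ < 1 → Contr ρ T →
      T.IsSymm → ‖ζ‖ ≤ Real.exp (-(y / r)) → hs (T - ζ • (1 : CM r)) ≤ Λ / r →
      ‖trace T - r * ζ‖ ≤ ε₂ →
      ∫ u, min 1 ‖(1 - act (GG.mat u) T)⁻¹ b b - Rz ζ u b b‖ ∂(νG r) ≤ ε := by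
  have hey : Real.exp (-y) < 1 := Real.exp_lt_one_iff.2 (by linarith)
  have hey0 := Real.exp_pos (-y)
  set κ := (1 + Real.exp (-y)) / (1 - Real.exp (-y)) with hκ
  have hκ0 : 0 < κ := div_pos (by linarith) (by linarith)
  refine ⟨min (y / 4) (ε * y / (8 * κ)), lt_min (by positivity) (by positivity), fun Λ => ?_⟩
  set η := min (1 / 2) (ε / (128 * κ)) with hη
  have hη0 : 0 < η := lt_min (by norm_num) (by positivity)
  obtain ⟨r₀, hr₀⟩ := d3c_param hy (by positivity : 0 < ε * η / (256 * κ)) Λ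
  obtain ⟨r₁, hr₁⟩ := exists_nat_ge y
  refine ⟨max (max r₀ r₁) 2, fun r hr b ζ T ρ h0 h1 hT hTs hζ hΛ htr => ?_⟩
  have hr2 : 2 ≤ r := (le_max_right _ _).trans hr
  have hry : y ≤ r := hr₁.trans (by
    exact_mod_cast ((le_max_right _ _).trans (le_max_left _ _)).trans hr)
  obtain ⟨J, hJ1, hJ2⟩ := hr₀ r (((le_max_left _ _).trans (le_max_left _ _)).trans hr)
  have hr0 : (0 : ℝ) < r := by exact_mod_cast (by omega : 0 < r)
  have hrc : (r : ℂ) ≠ 0 := by exact_mod_cast hr0.ne'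
  have hgap : y / (2 * r) ≤ 1 - ‖ζ‖ := by
    have hx0 : 0 < y / r := by positivity
    have hx1 : y / r ≤ 1 := (div_le_one hr0).2 hry
    have h2 : Real.exp (-(y / r)) ≤ 1 - y / r / 2 := by
      rw [Real.exp_neg, inv_le_comm₀ (Real.exp_pos _) (by linarith)]
      refine le_trans ?_ (Real.add_one_le_exp _)
      rw [inv_le_iff_one_le_mul₀ (by linarith)]
      nlinarith
    have h3 : y / (2 * r) = y / r / 2 := by field_simp
    linarith
  have hgap0 : 0 < y / (2 * r) := by positivity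
  have hζ1 : ‖ζ‖ < 1 := by linarith
  set c : ℂ := (r : ℂ)⁻¹ * trace T with hc
  set δ : CM r := T - c • (1 : CM r) with hδ
  have hTe : T = c • (1 : CM r) + δ := by rw [hδ]; abel
  have hδs : δ.IsSymm := hTs.sub (Matrix.isSymm_one.smul c)
  have hδt : trace δ = 0 := by
    rw [hδ, trace_sub, trace_smul, trace_one, Fintype.card_fin, hc, smul_eq_mul]
    field_simp
    ring
  have hcζ0 : ‖c - ζ‖ ≤ min (y / 4) (ε * y / (8 * κ)) / r := by
    have : c - ζ = (trace T - r * ζ) / r := by rw [hc]; field_simp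
    rw [this, norm_div, Complex.norm_natCast]
    exact div_le_div_of_nonneg_right htr hr0.le
  have hcζ : ‖c - ζ‖ ≤ (1 - ‖ζ‖) / 2 := by
    have h2 : min (y / 4) (ε * y / (8 * κ)) / r ≤ y / 4 / r :=
      div_le_div_of_nonneg_right (min_le_left _ _) hr0.le
    have h3 : y / 4 / r = y / (2 * r) / 2 := by field_simp; ring
    linarith
  have hκb : ∀ ζ' : ℂ, ‖ζ'‖ ≤ ‖ζ‖ → ∀ b', ∫ u, pois b' (ζ' • WW u) ∂(νG r) ≤ κ := by
    intro ζ' hζ' b'
    refine (int_pois_le (by omega) (hζ'.trans_lt hζ1) b').trans ?_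
    have h2 : ‖ζ'‖ ^ r ≤ Real.exp (-y) := by
      refine (pow_le_pow_left₀ (norm_nonneg _) (hζ'.trans hζ) r).trans (le_of_eq ?_)
      rw [← Real.exp_nat_mul]
      congr 1
      field_simp
    exact div_le_div₀ (by linarith) (by linarith) (by linarith) (by linarith)
  have hJ0 : (0 : ℝ) < J + 1 := by positivity
  have hξ0 : 0 < η / (J + 1) := by positivity
  have hξ1 : η / (J + 1) ≤ 1 / 2 :=
    (div_le_self hη0.le (by linarith [(Nat.cast_nonneg J : (0 : ℝ) ≤ J)])).trans (min_le_left _ _)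
  obtain ⟨hGc, hGi⟩ := d3c_main hr2 b hζ1 hcζ hδs hδt h0 h1 (hTe ▸ hT) hξ0 hξ1
    (hJ1.trans hgap) hκb
  rw [← hTe] at hGc hGi
  have hn1 : hn δ ≤ ε * η / (256 * κ) / ((J : ℝ) + 1) ^ 2 := by
    refine (pow_le_pow_iff_left₀ (hn_nonneg _) (by positivity) two_ne_zero).1 ?_
    rw [hn_sq]
    exact ((hs_sub_trace_le T ζ).trans hΛ).trans hJ2
  have hG1 : (64 * hn δ / (η / (J + 1)) + 32 * (η / (J + 1))) * ((J + 1) * κ) ≤ ε / 2 := by
    have h2 : (64 * hn δ / (η / (J + 1)) + 32 * (η / (J + 1))) * ((J + 1) * κ) =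
        64 * κ / η * ((J : ℝ) + 1) ^ 2 * hn δ + 32 * κ * η := by field_simp
    have h3 : 64 * κ / η * ((J : ℝ) + 1) ^ 2 * (ε * η / (256 * κ) / ((J : ℝ) + 1) ^ 2) = ε / 4 := by
      field_simp; ring
    have h4 : 32 * κ * (ε / (128 * κ)) = ε / 4 := by field_simp; ring
    have h5 := mul_le_mul_of_nonneg_left hn1 (by positivity : 0 ≤ 64 * κ / η * ((J : ℝ) + 1) ^ 2)
    have h6 := mul_le_mul_of_nonneg_left (min_le_right (1 / 2) (ε / (128 * κ)))
      (by positivity : 0 ≤ 32 * κ)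
    rw [h2]
    linarith
  have hA : 2 * ‖c - ζ‖ / (1 - ‖ζ‖) ≤ ε / (2 * κ) := by
    have h2 : ‖c - ζ‖ ≤ ε * y / (8 * κ) / r :=
      hcζ0.trans (div_le_div_of_nonneg_right (min_le_right _ _) hr0.le)
    have h3 : 2 * (ε * y / (8 * κ) / r) / (y / (2 * r)) = ε / (2 * κ) := by field_simp; ring
    rw [← h3]
    exact div_le_div₀ (by positivity) (by linarith) hgap0 hgap
  have hA0 : 0 ≤ 2 * ‖c - ζ‖ / (1 - ‖ζ‖) := div_nonneg (by positivity) (by linarith)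
  have hpi : Integrable (fun u : GG r => pois b (ζ • WW u)) (νG r) :=
    d3c_int _ (continuous_pois hζ1 b)
  have hpt : ∀ u : GG r, min 1 ‖(1 - act (GG.mat u) T)⁻¹ b b - Rz ζ u b b‖ ≤
      min 1 ‖(1 - act (GG.mat u) T)⁻¹ b b - Rz c u b b‖ +
        2 * ‖c - ζ‖ / (1 - ‖ζ‖) * pois b (ζ • WW u) := by
    intro u
    have h2 := d3c_shift hζ1 hcζ u b
    have h3 := norm_sub_le_norm_sub_add_norm_sub ((1 - act (GG.mat u) T)⁻¹ b b) (Rz c u b b)
      (Rz ζ u b b)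
    have h4 := norm_nonneg (Rz c u b b - Rz ζ u b b)
    rcases le_total 1 ‖(1 - act (GG.mat u) T)⁻¹ b b - Rz c u b b‖ with h5 | h5
    · rw [min_eq_left h5]
      exact (min_le_left _ _).trans (by linarith)
    · rw [min_eq_right h5]
      exact (min_le_right _ _).trans (by linarith)
  refine (integral_mono_of_nonneg (g := fun u =>
    min 1 ‖(1 - act (GG.mat u) T)⁻¹ b b - Rz c u b b‖ +
      2 * ‖c - ζ‖ / (1 - ‖ζ‖) * pois b (ζ • WW u)) (Eventually.of_forall fun u =>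
    le_min zero_le_one (norm_nonneg _)) ((d3c_int _ hGc).add (hpi.const_mul _))
    (Eventually.of_forall hpt)).trans ?_
  rw [integral_add (d3c_int _ hGc) (hpi.const_mul _), integral_const_mul]
  have h7 : 2 * ‖c - ζ‖ / (1 - ‖ζ‖) * ∫ u, pois b (ζ • WW u) ∂(νG r) ≤ ε / (2 * κ) * κ :=
    (mul_le_mul_of_nonneg_left (hκb ζ le_rfl b) hA0).trans (mul_le_mul_of_nonneg_right hA hκ0.le)
  have h8 : ε / (2 * κ) * κ = ε / 2 := by field_simp
  linarith

end Crest.Agent.R166
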