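import Crest.Agent.R166.D4d

/-! # Asymptotic rotation invariance of the circular model -/

set_option autoImplicit false
set_option linter.unusedVariables false
set_option linter.unusedSectionVars false

open MeasureTheory ProbabilityTheory Filter Topology Matrix
open scoped ENNReal

namespace Crest.Agent.R166

/-- Scales `a_m = 2^m a₀`, `m < N`.  `D_m = a_m Im LL`, `D̃_m = a_m Im σ`, `A = N⁻¹ Σ D̃_m`,
`θ = (2π)⁻¹ Psi'(t)`.  `|∫ D̃_m F - θ| ≤ √(C/a₀) + C(1/a₀ + 2^N a₀/r)`; for `m < l`,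
`∫ D̃_m D̃_l ≤ 6·2^{m-l} + C/√a₀`; so `∫ A² ≤ (C + 12)/N + C/√a₀` and `|∫ A F| ≤ √(∫ A²)`. -/
theorem dPsi_small {k : ℕ} {c : Fin k → ℝ} (hc : ∀ j, 0 ≤ c j) {w : Fin k → ℂ}
    (hw : ∀ j, 0 < (w j).im) {ε : ℝ} (hε : 0 < ε) : ∃ r₀ : ℕ, ∀ r : ℕ, r₀ ≤ r →
    ∀ (b : Fin r) (t : ℝ), 0 ≤ t → t ≤ 1 → |∫ u, dFt b c w t u ∂(νG r)| ≤ ε := by
  sorry

/-- mean value inequality on `[0, 1]` and `Psi_periodic` (`Function.Periodic`, `Int.fract`) -/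
theorem Psi_const {k : ℕ} {c : Fin k → ℝ} (hc : ∀ j, 0 ≤ c j) {w : Fin k → ℂ}
    (hw : ∀ j, 0 < (w j).im) {ε : ℝ} (hε : 0 < ε) : ∃ r₀ : ℕ, ∀ r : ℕ, r₀ ≤ r →
    ∀ (b : Fin r) (t : ℝ), |Psi b c w t - Psi b c w 0| ≤ ε := by
  sorry

end Crest.Agent.R166
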