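import Crest.Agent.R166.D3b

/-! # Flows and the derivative calculus on `GG r` (model: `Crest/Agent/R174/Haar.lean`) -/

set_option autoImplicit false
set_option linter.unusedVariables false
set_option linter.unusedSectionVars false

open MeasureTheory ProbabilityTheory Filter Topology Matrix
open scoped ENNReal

namespace Crest.Agent.R166

variable {r : ℕ}

/-- `γ t = rfc hX (fun x => exp (i t x))` (`E/Res.lean`), or `O diag(e^{i t ξ}) Oᵀ` from
`exists_eigenbasis` with `conj_diag_mul`; `det = exp (i t tr X) = 1` -/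
theorem exists_flow {X : RM r} (hX : X.IsSymm) (htr : trace X = 0) : ∃ γ, IsFlow X γ := by
  sorry

theorem Xab_symm (a b : Fin r) : (Xab a b).IsSymm := by
  sorry

theorem Xab_trace (a b : Fin r) : trace (Xab a b) = 0 := by
  sorry

theorem integrable_GG {E : Type} [NormedAddCommGroup E] {f : GG r → E} (hf : Continuous f) :
    Integrable f (νG r) := by
  sorry

theorem hasDerivAt_integral_GG {E : Type} [NormedAddCommGroup E] [NormedSpace ℝ E]
    [CompleteSpace E] (F F' : ℝ → GG r → E) (hF : ∀ s, Continuous (F s))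
    (hF' : Continuous fun x : ℝ × GG r => F' x.1 x.2)
    (hd : ∀ s u, HasDerivAt (fun s => F s u) (F' s u) s) (t : ℝ) :
    HasDerivAt (fun s => ∫ u, F s u ∂(νG r)) (∫ u, F' t u ∂(νG r)) t := by
  sorry

variable {F G : GG r → ℂ} {F' G' : RM r → GG r → ℂ}

theorem Der.integral_zero (h : Der F F') {X : RM r} (hX : X.IsSymm) (htr : trace X = 0) :
    ∫ u, F' X u ∂(νG r) = 0 := by
  sorry

theorem Der.congr (h : Der F F') (h1 : ∀ u, G u = F u) (h2 : ∀ X u, G' X u = F' X u) :
    Der G G' := by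
  sorry

theorem Der.const (z : ℂ) : Der (fun _ : GG r => z) (fun _ _ => 0) := by
  sorry

theorem Der.add (h : Der F F') (h' : Der G G') :
    Der (fun u => F u + G u) (fun X u => F' X u + G' X u) := by
  sorry

theorem Der.const_mul (h : Der F F') (z : ℂ) :
    Der (fun u => z * F u) (fun X u => z * F' X u) := by
  sorry

theorem Der.mul (h : Der F F') (h' : Der G G') :
    Der (fun u => F u * G u) (fun X u => F' X u * G u + F u * G' X u) := by
  sorry

theorem Der.conj (h : Der F F') :
    Der (fun u => (starRingEnd ℂ) (F u)) (fun X u => (starRingEnd ℂ) (F' X u)) := by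
  sorry

theorem Der.inv (h : Der F F') (h0 : ∀ u, F u ≠ 0) :
    Der (fun u => (F u)⁻¹) (fun X u => -F' X u / F u ^ 2) := by
  sorry

theorem Der.re (h : Der F F') :
    Der (fun u => ((F u).re : ℂ)) (fun X u => ((F' X u).re : ℂ)) := by
  sorry

theorem Der.im (h : Der F F') :
    Der (fun u => ((F u).im : ℂ)) (fun X u => ((F' X u).im : ℂ)) := by
  sorry

theorem Der.cexp (h : Der F F') :
    Der (fun u => Complex.exp (F u)) (fun X u => Complex.exp (F u) * F' X u) := by
  sorry

theorem Der.sum {κ : Type} (s : Finset κ) {f : κ → GG r → ℂ} {f' : κ → RM r → GG r → ℂ}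
    (h : ∀ j ∈ s, Der (f j) (f' j)) :
    Der (fun u => ∑ j ∈ s, f j u) (fun X u => ∑ j ∈ s, f' j X u) := by
  sorry

/-- entrywise derivative of the inverse along a differentiable curve of invertible matrices
(`N_t⁻¹ - N_s⁻¹ = -N_t⁻¹ (N_t - N_s) N_s⁻¹` and continuity, or `det`/`adjugate`) -/
theorem hasDerivAt_inv_entry {N : ℝ → CM r} {N' : CM r} {s : ℝ}
    (hN : ∀ a b, HasDerivAt (fun t => N t a b) (N' a b) s) (hu : IsUnit (N s).det) (a b : Fin r) :
    HasDerivAt (fun t => (N t)⁻¹ a b) (-((N s)⁻¹ * N' * (N s)⁻¹) a b) s := by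
  sorry

/-- `W (γ t * u) = γ_t W γ_tᵀ` has derivative `i (X W + W X)` -/
theorem der_Rz {ζ : ℂ} (hζ : ‖ζ‖ < 1) (a b : Fin r) :
    Der (fun u : GG r => Rz ζ u a b) (fun X u => dR ζ X u a b) := by
  sorry

theorem der_sg {ζ : ℂ} (hζ : ‖ζ‖ < 1) : Der (sg (r := r) ζ) (dsg ζ) := by
  sorry

end Crest.Agent.R166
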