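import Crest.Agent.R166.D4a

/-! # The loop equation of the circular model -/

set_option autoImplicit false
set_option linter.unusedVariables false
set_option linter.unusedSectionVars false

open MeasureTheory ProbabilityTheory Filter Topology Matrix
open scoped ENNReal

namespace Crest.Agent.R166

variable {r : ℕ}

/-- with `N = ζ W R = R - 1` (`Rz_mul`): `dR X = i (R X N + N X R)`, and
`Σ_ab (dR (Xab a b))_ab = i (2 tr R tr N + (2 - 4/r) tr (R N))` (symmetry of `R`, `N`) -/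
theorem sum_dR (hr : 0 < r) {ζ : ℂ} (hζ : ‖ζ‖ < 1) (u : GG r) :
    ∑ a, ∑ b, dR ζ (Xab a b) u a b = 2 * Complex.I * (r : ℂ) ^ 2 * LL ζ u := by
  sorry

theorem continuous_LL {ζ : ℂ} (hζ : ‖ζ‖ < 1) : Continuous (LL (r := r) ζ) := by
  sorry

/-- `Der.integral_zero` for `Rz ζ u a b * F u` along `Xab a b`, summed over `a, b` -/
theorem loop_eq (hr : 0 < r) {ζ : ℂ} (hζ : ‖ζ‖ < 1) {F : GG r → ℂ} {F' : RM r → GG r → ℂ}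
    (h : Der F F') :
    ∫ u, (LL ζ u * F u + (2 * Complex.I * (r : ℂ) ^ 2)⁻¹ * SX (Rz ζ u) F' u) ∂(νG r) = 0 := by
  sorry

/-- imaginary part of `loop_eq` for a real test function -/
theorem loop_eq_im (hr : 0 < r) {ζ : ℂ} (hζ : ‖ζ‖ < 1) {f : GG r → ℝ} {f' : RM r → GG r → ℝ}
    (h : Der (fun u => (f u : ℂ)) (fun X u => (f' X u : ℂ))) :
    ∫ u, (LL ζ u).im * f u ∂(νG r) =
      (2 * (r : ℝ) ^ 2)⁻¹ * ∫ u, ∑ a, ∑ b, (Rz ζ u a b).re * f' (Xab a b) u ∂(νG r) := by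
  sorry

section
variable {u : GG r} {O : RM r} {lam : Fin r → ℂ} {ζ : ℂ}

/-- `Σ_ab Y_ab Xab a b = 2 Y - (2/r) tr Y` for symmetric `Y`, `dR` is linear in `X`, and all
matrices are diagonal in the basis `O` -/
theorem Dz.sum_dR (h : Dz u O lam) (hζ : ‖ζ‖ < 1) (y : Fin r → ℂ) :
    ∑ a, ∑ a', (cx O * diagonal y * (cx O)ᵀ) a a' • dR ζ (Xab a a') u =
      cx O * diagonal (fun a => 4 * Complex.I * ((1 - ζ * lam a)⁻¹ * ((1 - ζ * lam a)⁻¹ - 1)) *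
        (y a - (r : ℂ)⁻¹ * ∑ a', y a')) * (cx O)ᵀ := by
  sorry

theorem Dz.SX_dsg (h : Dz u O lam) (hζ : ‖ζ‖ < 1) (y : Fin r → ℂ) :
    SX (cx O * diagonal y * (cx O)ᵀ) (dsg ζ) u =
      4 * Complex.I / r * ∑ a, (1 - ζ * lam a)⁻¹ * ((1 - ζ * lam a)⁻¹ - 1) *
        (y a - (r : ℂ)⁻¹ * ∑ a', y a') := by
  sorry

theorem Dz.SX_dR (h : Dz u O lam) (hζ : ‖ζ‖ < 1) (y : Fin r → ℂ) (b : Fin r) :
    SX (cx O * diagonal y * (cx O)ᵀ) (fun X u => dR ζ X u b b) u =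
      4 * Complex.I * ∑ a, (O b a : ℂ) ^ 2 * ((1 - ζ * lam a)⁻¹ * ((1 - ζ * lam a)⁻¹ - 1)) *
        (y a - (r : ℂ)⁻¹ * ∑ a', y a') := by
  sorry

/-- covariance with `σ(ζ')` and with its conjugate at the same point: with `p = 1 + 2 Re σ`,
`κ = r (1 - |ζ|²)`; `Σ|k_a|² = r p/(1 - |ζ|²)`, `|k_a - avg k| ≤ 2/(1 - |ζ|) ≤ 4/(1 - |ζ|²)` -/
theorem norm_SX_dsg_le (hr : 0 < r) (hζ : ‖ζ‖ < 1) (u : GG r) :
    ‖(2 * Complex.I * (r : ℂ) ^ 2)⁻¹ * SX (Rz ζ u) (dsg ζ) u‖ ≤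
        8 * (1 + 2 * (sg ζ u).re) / (r * (1 - ‖ζ‖ ^ 2)) ^ 2 ∧
      ‖(2 * Complex.I * (r : ℂ) ^ 2)⁻¹ *
          SX (Rz ζ u) (fun X u => (starRingEnd ℂ) (dsg ζ X u)) u‖ ≤
        8 * (1 + 2 * (sg ζ u).re) / (r * (1 - ‖ζ‖ ^ 2)) ^ 2 := by
  sorry

theorem norm_tauG_le (hr : 0 < r) (hζ : ‖ζ‖ < 1) (u : GG r) :
    ‖tauG ζ u‖ ≤ (1 + 2 * (sg ζ u).re) / (r * (1 - ‖ζ‖ ^ 2)) := by
  sorry

theorem sg_re_nonneg (hr : 0 < r) (hζ : ‖ζ‖ < 1) (u : GG r) : 0 ≤ 1 + 2 * (sg ζ u).re := by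
  sorry

/-- real parts of the entries: `Re k = (1 + Pk)/2` -/
theorem Dz.sum_re_mul (h : Dz u O lam) (hζ : ‖ζ‖ < 1) (F' : RM r → GG r → ℂ) :
    ∑ a, ∑ b, ((Rz ζ u a b).re : ℂ) * F' (Xab a b) u =
      SX (cx O * diagonal (fun a => (((1 + Pk (ζ * lam a)) / 2 : ℝ) : ℂ)) * (cx O)ᵀ) F' u := by
  sorry

end

end Crest.Agent.R166
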