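import Crest.Agent.R166.D4b

/-! # Moments of `σ` and the scale estimates -/

set_option autoImplicit false
set_option linter.unusedVariables false
set_option linter.unusedSectionVars false

open MeasureTheory ProbabilityTheory Filter Topology Matrix
open scoped ENNReal

namespace Crest.Agent.R166

theorem d4c_one_add {s : ℂ} (h : 0 ≤ 1 + 2 * s.re) :
    1 ≤ 2 * ‖1 + s‖ ∧ 1 + 2 * s.re ≤ 2 * ‖1 + s‖ ∧ ‖s‖ ≤ 3 * ‖1 + s‖ := by
  have h1 := Complex.re_le_norm (1 + s)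
  rw [Complex.add_re, Complex.one_re] at h1
  have h2 : ‖s‖ ≤ ‖1 + s‖ + 1 := by
    simpa using norm_sub_le (1 + s) 1
  refine ⟨by linarith, by linarith, by linarith⟩

theorem d4c_coef {r : ℕ} (hr : 0 < r) : ‖(1 - 2 / r : ℂ)‖ ≤ 1 := by
  have h1 : (1 : ℝ) ≤ r := by exact_mod_cast hr
  have e : (1 - 2 / r : ℂ) = ((1 - 2 / r : ℝ) : ℂ) := by push_cast; ring
  rw [e, Complex.norm_real, Real.norm_eq_abs, abs_le]
  have h2 : (2 : ℝ) / r ≤ 2 := div_le_self (by norm_num) h1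
  have h3 : 0 ≤ (2 : ℝ) / r := by positivity
  constructor <;> linarith

theorem d4c_key {r : ℕ} (hr : 0 < r) {ζ : ℂ} (hζ : ‖ζ‖ < 1) {F α β : GG r → ℂ}
    (h : Der F fun X u => α u * dsg ζ X u + β u * (starRingEnd ℂ) (dsg ζ X u))
    {g e : GG r → ℝ} (hg : Continuous g) (he : Continuous e)
    (hF : ∀ u, sg ζ u * (1 + sg ζ u) * F u = g u)
    (hb : ∀ u, ‖F u‖ * ((1 + 2 * (sg ζ u).re) / (r * (1 - ‖ζ‖ ^ 2))) +
      (‖α u‖ + ‖β u‖) * (8 * (1 + 2 * (sg ζ u).re) / (r * (1 - ‖ζ‖ ^ 2)) ^ 2) ≤ e u) :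
    ∫ u, g u ∂(νG r) ≤ ∫ u, e u ∂(νG r) := by
  have h0 := loop_eq hr hζ h
  have hc : Continuous fun u => LL ζ u * F u + (2 * Complex.I * (r : ℂ) ^ 2)⁻¹ * SX (Rz ζ u)
      (fun X u => α u * dsg ζ X u + β u * (starRingEnd ℂ) (dsg ζ X u)) u := by
    refine ((continuous_LL hζ).mul h.cont).add (continuous_const.mul ?_)
    exact continuous_finset_sum _ fun a _ => continuous_finset_sum _ fun b _ =>
      ((continuous_Rz hζ).matrix_elem a b).mul (h.cont' _)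
  have h1 := integral_re (𝕜 := ℂ) (integrable_GG hc)
  rw [h0, map_zero] at h1
  rw [← sub_nonpos, ← integral_sub (integrable_GG hg) (integrable_GG he), ← h1]
  refine integral_mono (integrable_GG (hg.sub he))
    (integrable_GG (RCLike.continuous_re.comp hc)) fun u => ?_
  obtain ⟨h2, h3⟩ := norm_SX_dsg_le hr hζ u
  have h4 := norm_tauG_le hr hζ u
  set c : ℂ := (2 * Complex.I * (r : ℂ) ^ 2)⁻¹
  have e1 : LL ζ u * F u + c * SX (Rz ζ u)
      (fun X u => α u * dsg ζ X u + β u * (starRingEnd ℂ) (dsg ζ X u)) u =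
      g u + ((1 - 2 / r) * tauG ζ u * F u + α u * (c * SX (Rz ζ u) (dsg ζ) u) +
        β u * (c * SX (Rz ζ u) (fun X u => (starRingEnd ℂ) (dsg ζ X u)) u)) := by
    have e2 : SX (Rz ζ u) (fun X u => α u * dsg ζ X u + β u * (starRingEnd ℂ) (dsg ζ X u)) u =
        α u * SX (Rz ζ u) (dsg ζ) u +
          β u * SX (Rz ζ u) (fun X u => (starRingEnd ℂ) (dsg ζ X u)) u := by
      simp only [SX, Finset.mul_sum, ← Finset.sum_add_distrib]
      refine Finset.sum_congr rfl fun a _ => Finset.sum_congr rfl fun b _ => ?_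
      ring
    rw [e2, ← hF, LL]
    ring
  simp only [RCLike.re_to_complex]
  rw [e1, Complex.add_re, Complex.ofReal_re]
  set E := (1 - 2 / r) * tauG ζ u * F u + α u * (c * SX (Rz ζ u) (dsg ζ) u) +
        β u * (c * SX (Rz ζ u) (fun X u => (starRingEnd ℂ) (dsg ζ X u)) u) with hE
  have h5 : ‖E‖ ≤ e u := by
    refine le_trans ?_ (hb u)
    refine (norm_add₃_le).trans ?_
    rw [norm_mul, norm_mul, norm_mul (α u), norm_mul (β u)]
    have h6 := mul_le_mul (d4c_coef hr) h4 (norm_nonneg _) zero_le_one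
    have h7 := mul_le_mul_of_nonneg_right h6 (norm_nonneg (F u))
    have h8 := mul_le_mul_of_nonneg_left h2 (norm_nonneg (α u))
    have h9 := mul_le_mul_of_nonneg_left h3 (norm_nonneg (β u))
    linarith
  have h6 := (abs_le.1 ((Complex.abs_re_le_norm E).trans h5)).1
  linarith

/-- `loop_eq` with `F = conj σ/(1 + σ)` and `F = conj σ² σ/(1 + σ)`; `Re (1 + σ) = (1 + p)/2`, so
`|1 + σ| ≥ 1/2`, `p ≤ 2|1 + σ|`, `|σ| ≤ 3|1 + σ|`.  Pointwise `2|σ|/κ ≤ |σ|²/2 + 2/κ²`,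
`2|σ|³/κ ≤ |σ|⁴/2 + 2|σ|²/κ²`.  Result `132/κ²`, `196·132/κ⁴`. -/
theorem sg_moments : ∃ C : ℝ, 0 < C ∧ ∀ {r : ℕ}, 0 < r → ∀ {ζ : ℂ}, ‖ζ‖ < 1 →
    ∫ u, ‖sg ζ u‖ ^ 2 ∂(νG r) ≤ C / (r * (1 - ‖ζ‖ ^ 2)) ^ 2 ∧
      ∫ u, ‖sg ζ u‖ ^ 4 ∂(νG r) ≤ C / (r * (1 - ‖ζ‖ ^ 2)) ^ 4 := by
  refine ⟨132 ^ 2, by norm_num, fun {r} hr {ζ} hζ => ?_⟩
  have hκ : 0 < (r : ℝ) * (1 - ‖ζ‖ ^ 2) := by
    have h1 : (0 : ℝ) < r := by exact_mod_cast hr
    have h2 := norm_nonneg ζ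
    exact mul_pos h1 (by nlinarith)
  set κ : ℝ := r * (1 - ‖ζ‖ ^ 2) with hκdef
  have hd := der_sg (r := r) hζ
  have hc := hd.cont
  have hfacts := fun u : GG r => d4c_one_add (sg_re_nonneg hr hζ u)
  have hne : ∀ u : GG r, 1 + sg ζ u ≠ 0 := fun u h0 => by
    have := (hfacts u).1
    rw [h0, norm_zero] at this
    norm_num at this
  have hinv := ((Der.const 1).add hd).inv hne
  have i2 : Integrable (fun u => ‖sg ζ u‖ ^ 2) (νG r) := integrable_GG (by fun_prop)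
  have i4 : Integrable (fun u => ‖sg ζ u‖ ^ 4) (νG r) := integrable_GG (by fun_prop)
  have hb : ∀ u : GG r, ‖(1 + sg ζ u)⁻¹‖ * (1 + 2 * (sg ζ u).re) ≤ 2 ∧ ‖(1 + sg ζ u)⁻¹‖ ≤ 2 ∧
      ‖sg ζ u‖ * ‖(1 + sg ζ u)⁻¹‖ ≤ 3 := fun u => by
    obtain ⟨h1, h2, h3⟩ := hfacts u
    have h0 : 0 < ‖1 + sg ζ u‖ := by linarith
    rw [norm_inv]
    refine ⟨?_, ?_, ?_⟩
    · rw [inv_mul_le_iff₀ h0]; linarith
    · rw [inv_le_iff_one_le_mul₀ h0]; linarith
    · rw [mul_inv_le_iff₀ h0]; linarith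
  have h2 : ∫ u, ‖sg ζ u‖ ^ 2 ∂(νG r) ≤ 132 / κ ^ 2 := by
    have := d4c_key hr hζ (F := fun u => (starRingEnd ℂ) (sg ζ u) * (1 + sg ζ u)⁻¹)
      (α := fun u => -((starRingEnd ℂ) (sg ζ u) * (1 + sg ζ u)⁻¹ * (1 + sg ζ u)⁻¹))
      (β := fun u => (1 + sg ζ u)⁻¹)
      ((hd.conj.mul hinv).congr (fun _ => rfl) fun X u => by
        have := hne u
        field_simp
        ring)
      (g := fun u => ‖sg ζ u‖ ^ 2) (e := fun u => ‖sg ζ u‖ ^ 2 / 2 + 66 / κ ^ 2)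
      (by fun_prop) (by fun_prop)
      (fun u => by
        have := hne u
        push_cast
        rw [← Complex.mul_conj']
        field_simp)
      (fun u => by
        obtain ⟨h1, h2, h3⟩ := hb u
        have h0 := sg_re_nonneg hr hζ u
        rw [← hκdef, norm_neg, norm_mul, norm_mul, norm_mul, Complex.norm_conj]
        set p := 1 + 2 * (sg ζ u).re
        set s := ‖sg ζ u‖
        set q := ‖(1 + sg ζ u)⁻¹‖
        have hs : 0 ≤ s := norm_nonneg _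
        have hq : 0 ≤ q := norm_nonneg _
        have e : s * q * (p / κ) + (s * q * q + q) * (8 * p / κ ^ 2) =
            s * (q * p) * κ⁻¹ + 8 * (s * q + 1) * (q * p) * κ⁻¹ ^ 2 := by
          field_simp
        have hi : 0 < κ⁻¹ := inv_pos.2 hκ
        rw [e, div_eq_mul_inv 66, ← inv_pow]
        set t := κ⁻¹
        have h4 : s * (q * p) * t ≤ s * 2 * t := by gcongr
        have h5 : 8 * (s * q + 1) * (q * p) * t ^ 2 ≤ 8 * (3 + 1) * 2 * t ^ 2 := by gcongr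
        nlinarith [sq_nonneg (s - 2 * t)])
    rw [integral_add (i2.div_const 2) (integrable_const _), integral_div, integral_const] at this
    simp only [probReal_univ, smul_eq_mul, one_mul] at this
    have e : 132 / κ ^ 2 = 2 * (66 / κ ^ 2) := by ring
    linarith
  have h4 : ∫ u, ‖sg ζ u‖ ^ 4 ∂(νG r) ≤ 132 ^ 2 / κ ^ 4 := by
    have := d4c_key hr hζ
      (F := fun u => (starRingEnd ℂ) (sg ζ u) * (starRingEnd ℂ) (sg ζ u) * sg ζ u * (1 + sg ζ u)⁻¹)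
      (α := fun u => (starRingEnd ℂ) (sg ζ u) * (starRingEnd ℂ) (sg ζ u) * (1 + sg ζ u)⁻¹ *
        (1 + sg ζ u)⁻¹)
      (β := fun u => 2 * (starRingEnd ℂ) (sg ζ u) * sg ζ u * (1 + sg ζ u)⁻¹)
      ((((hd.conj.mul hd.conj).mul hd).mul hinv).congr (fun _ => rfl) fun X u => by
        have := hne u
        field_simp
        ring)
      (g := fun u => ‖sg ζ u‖ ^ 4)
      (e := fun u => ‖sg ζ u‖ ^ 4 / 2 + 66 / κ ^ 2 * ‖sg ζ u‖ ^ 2)
      (by fun_prop) (by fun_prop)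
      (fun u => by
        have := hne u
        push_cast
        rw [show (4 : ℕ) = 2 * 2 from rfl, pow_mul, ← Complex.mul_conj']
        field_simp)
      (fun u => by
        obtain ⟨h1, h2, h3⟩ := hb u
        have h0 := sg_re_nonneg hr hζ u
        rw [← hκdef]
        simp only [norm_mul, Complex.norm_conj, Complex.norm_ofNat]
        set p := 1 + 2 * (sg ζ u).re
        set s := ‖sg ζ u‖
        set q := ‖(1 + sg ζ u)⁻¹‖
        have hs : 0 ≤ s := norm_nonneg _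
        have hq : 0 ≤ q := norm_nonneg _
        have e : s * s * s * q * (p / κ) + (s * s * q * q + 2 * s * s * q) * (8 * p / κ ^ 2) =
            s ^ 3 * (q * p) * κ⁻¹ + 8 * s ^ 2 * (q + 2) * (q * p) * κ⁻¹ ^ 2 := by
          field_simp
        have hi : 0 < κ⁻¹ := inv_pos.2 hκ
        rw [e, div_eq_mul_inv 66, ← inv_pow]
        set t := κ⁻¹
        have h4 : s ^ 3 * (q * p) * t ≤ s ^ 3 * 2 * t := by gcongr
        have h5 : 8 * s ^ 2 * (q + 2) * (q * p) * t ^ 2 ≤ 8 * s ^ 2 * (2 + 2) * 2 * t ^ 2 := by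
          gcongr
        nlinarith [sq_nonneg (s ^ 2 - 2 * s * t)])
    rw [integral_add (i4.div_const 2) (i2.const_mul _), integral_div, integral_const_mul] at this
    have h3 := mul_le_mul_of_nonneg_left h2 (show 0 ≤ 66 / κ ^ 2 by positivity)
    have e : 132 ^ 2 / κ ^ 4 = 2 * (66 / κ ^ 2 * (132 / κ ^ 2)) := by
      field_simp
      norm_num
    linarith
  refine ⟨h2.trans ?_, h4⟩
  gcongr
  norm_num

/-- elementary facts on `ρ = (r - a)/(r + a)` (`ρ ≤ 1 - a/r`, `ρ^r ≤ e^{-a} ≤ 1/2`) -/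
theorem rad_facts {r : ℕ} {a : ℝ} (h1 : 1 ≤ a) (h2 : a ≤ r) :
    0 ≤ rad r a ∧ rad r a < 1 ∧ a / r ≤ 1 - rad r a ∧ a ≤ r * (1 - rad r a ^ 2) ∧
      rad r a ^ r ≤ 1 / 2 ∧ (1 + rad r a) / (1 - rad r a) = r / a := by
  have ha : 0 < a := by linarith
  have hr : (0 : ℝ) < r := by linarith
  have hs : 0 < (r : ℝ) + a := by linarith
  have e1 : 1 - rad r a = 2 * a / (r + a) := by
    unfold rad
    field_simp
    ring
  have h0 : 0 ≤ rad r a := div_nonneg (by linarith) hs.le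
  have h3 : a / r ≤ 1 - rad r a := by
    rw [e1, div_le_div_iff₀ hr hs]
    nlinarith
  have h4 : 0 < a / r := by positivity
  refine ⟨h0, by linarith, h3, ?_, ?_, ?_⟩
  · rw [div_le_iff₀ hr] at h3
    have : 0 ≤ (1 - rad r a) * r * rad r a := mul_nonneg (by linarith) h0
    nlinarith
  · have h5 : rad r a ≤ Real.exp (-(a / r)) := by
      have := Real.add_one_le_exp (-(a / r))
      linarith
    have h6 := pow_le_pow_left₀ h0 h5 r
    rw [← Real.exp_nat_mul] at h6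
    have e2 : (r : ℝ) * -(a / r) = -a := by field_simp
    rw [e2] at h6
    refine h6.trans ?_
    rw [Real.exp_neg, one_div]
    refine inv_anti₀ (by norm_num) ?_
    have := Real.add_one_le_exp a
    linarith
  · rw [e1]
    unfold rad
    field_simp
    ring

theorem d4c_norm_lt {r : ℕ} {a : ℝ} (h1 : 1 ≤ a) (h2 : a ≤ r) {ρ : ℝ} (h0 : 0 ≤ ρ)
    (hρ : ρ ≤ rad r a) : ‖(ρ : ℂ)‖ < 1 := by
  rw [Complex.norm_real, Real.norm_of_nonneg h0]
  exact hρ.trans_lt (rad_facts h1 h2).2.1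

theorem d4c_mom {C : ℝ} (hC : 0 < C) (h : ∀ {r : ℕ}, 0 < r → ∀ {ζ : ℂ}, ‖ζ‖ < 1 →
    ∫ u, ‖sg ζ u‖ ^ 2 ∂(νG r) ≤ C / (r * (1 - ‖ζ‖ ^ 2)) ^ 2 ∧
      ∫ u, ‖sg ζ u‖ ^ 4 ∂(νG r) ≤ C / (r * (1 - ‖ζ‖ ^ 2)) ^ 4) {r : ℕ} {a : ℝ} (h1 : 1 ≤ a)
    (h2 : a ≤ r) {ρ : ℝ} (h0 : 0 ≤ ρ) (hρ : ρ ≤ rad r a) :
    ∫ u, ‖sg ρ u‖ ^ 2 ∂(νG r) ≤ C / a ^ 2 ∧ ∫ u, ‖sg ρ u‖ ^ 4 ∂(νG r) ≤ C / a ^ 4 := by
  have ha : 0 < a := by linarith
  have hr : (0 : ℝ) < r := by linarith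
  obtain ⟨h3, h4⟩ := h (r := r) (by exact_mod_cast hr) (d4c_norm_lt h1 h2 h0 hρ)
  rw [Complex.norm_real, Real.norm_of_nonneg h0] at h3 h4
  have h5 : a ≤ r * (1 - ρ ^ 2) := by
    refine (rad_facts h1 h2).2.2.2.1.trans ?_
    gcongr
  exact ⟨h3.trans (by gcongr), h4.trans (by gcongr)⟩

theorem bessel_diag : ∃ C : ℝ, 0 < C ∧ ∀ {r : ℕ} {a : ℝ}, 1 ≤ a → a ≤ r →
    ∫ u, (a * (sg (rad r a) u).im) ^ 2 ∂(νG r) ≤ C := by
  obtain ⟨C, hC, h⟩ := sg_moments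
  refine ⟨C, hC, fun {r a} h1 h2 => ?_⟩
  have ha : 0 < a := by linarith
  obtain ⟨h3, -⟩ := d4c_mom hC h h1 h2 (rad_facts h1 h2).1 le_rfl
  have hζ := d4c_norm_lt h1 h2 (rad_facts h1 h2).1 le_rfl
  have hc := (der_sg (r := r) hζ).cont
  have h4 : ∫ u, (a * (sg (rad r a) u).im) ^ 2 ∂(νG r) ≤
      ∫ u, a ^ 2 * ‖sg (rad r a) u‖ ^ 2 ∂(νG r) := by
    have hi : Continuous fun u : GG r => (sg (rad r a) u).im := Complex.continuous_im.comp hc
    refine integral_mono (integrable_GG ((continuous_const.mul hi).pow 2)) (integrable_GG (by fun_prop)) fun u => ?_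
    simp only [mul_pow]
    exact mul_le_mul_of_nonneg_left (sq_le_sq' (abs_le.1 (Complex.abs_im_le_norm _)).1
      (abs_le.1 (Complex.abs_im_le_norm _)).2) (sq_nonneg a)
  rw [integral_const_mul] at h4
  refine h4.trans ?_
  rw [le_div_iff₀ (by positivity)] at h3
  linarith

theorem d4c_norm_k {x : ℂ} {ρ : ℝ} (h : ‖x‖ ≤ ρ) (h1 : ρ < 1) : ‖(1 - x)⁻¹‖ ≤ (1 - ρ)⁻¹ := by
  rw [norm_inv]
  refine inv_anti₀ (by linarith) ?_
  have := norm_sub_norm_le 1 x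
  rw [norm_one] at this
  linarith

theorem d4c_tau {r : ℕ} (hr : 0 < r) {ρ β : ℝ} (h0 : 0 ≤ ρ) (h1 : ρ < 1) (hβ : 0 < β)
    (hβ1 : β ≤ 1) (u : GG r) :
    ‖tauG ρ u‖ ≤ (‖sg ρ u‖ + ‖sg ((1 - β) * ρ : ℝ) u‖) / (r * β) +
      β * (1 + 2 * (sg ρ u).re) / (r * (1 - ρ ^ 2) * (1 - ρ)) := by
  obtain ⟨O, lam, hD⟩ := exists_Dz u
  have hr' : (0 : ℝ) < r := by exact_mod_cast hr
  have g1 : 0 ≤ (1 - β) * ρ := mul_nonneg (by linarith) h0
  have g2 : (1 - β) * ρ ≤ ρ := by nlinarith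
  have hζ : ‖(ρ : ℂ)‖ < 1 := by rwa [Complex.norm_real, Real.norm_of_nonneg h0]
  have hζ' : ‖(((1 - β) * ρ : ℝ) : ℂ)‖ < 1 := by
    rw [Complex.norm_real, Real.norm_of_nonneg g1]
    linarith
  have hn : ∀ a, ‖(ρ : ℂ) * lam a‖ = ρ := fun a => by
    rw [norm_mul, hD.2.1, mul_one, Complex.norm_real, Real.norm_of_nonneg h0]
  have hn' : ∀ a, ‖(((1 - β) * ρ : ℝ) : ℂ) * lam a‖ ≤ ρ := fun a => by
    rw [norm_mul, hD.2.1, mul_one, Complex.norm_real, Real.norm_of_nonneg g1]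
    exact g2
  have hne : ∀ x : ℂ, ‖x‖ ≤ ρ → 1 - x ≠ 0 := fun x hx h => by
    rw [sub_eq_zero] at h
    rw [← h, norm_one] at hx
    linarith
  have hrc : (r : ℂ) ≠ 0 := by exact_mod_cast hr.ne'
  have hβc : (β : ℂ) ≠ 0 := by exact_mod_cast hβ.ne'
  have e : tauG ρ u = (sg ρ u - sg ((1 - β) * ρ : ℝ) u) / (r * β) +
      β / r ^ 2 * ∑ a, (ρ * lam a) ^ 2 * (1 - ρ * lam a)⁻¹ ^ 2 *
        (1 - (((1 - β) * ρ : ℝ) : ℂ) * lam a)⁻¹ := by
    rw [hD.tauG_eq hζ, hD.sg_eq hζ, hD.sg_eq hζ', sub_sub_sub_cancel_right, ← mul_sub,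
      ← Finset.sum_sub_distrib, Finset.mul_sum, Finset.mul_sum, Finset.mul_sum, Finset.sum_div,
      ← Finset.sum_add_distrib]
    refine Finset.sum_congr rfl fun a _ => ?_
    have k1 := hne _ (hn a).le
    have k2 := hne _ (hn' a)
    have k3 : (((1 - β) * ρ : ℝ) : ℂ) * lam a = (1 - β) * (ρ * lam a) := by
      push_cast
      ring
    rw [k3] at k2 ⊢
    generalize (ρ : ℂ) * lam a = x at k1 k2 ⊢
    obtain ⟨y, hy⟩ : ∃ y, y = 1 - (1 - (β : ℂ)) * x := ⟨_, rfl⟩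
    rw [← hy] at k2 ⊢
    field_simp
    rw [hy]
    ring
  have hρ2 : 0 < 1 - ρ ^ 2 := by nlinarith
  have h2 : ‖∑ a, (ρ * lam a) ^ 2 * (1 - ρ * lam a)⁻¹ ^ 2 *
      (1 - (((1 - β) * ρ : ℝ) : ℂ) * lam a)⁻¹‖ ≤
      ∑ a, Pk (ρ * lam a) * ((1 - ρ ^ 2)⁻¹ * (1 - ρ)⁻¹) := by
    refine (norm_sum_le _ _).trans (Finset.sum_le_sum fun a _ => ?_)
    rw [norm_mul, norm_mul, norm_pow, norm_pow, hn, ← mul_assoc]
    have e2 : Pk (ρ * lam a) * (1 - ρ ^ 2)⁻¹ = ‖(1 - ρ * lam a)⁻¹‖ ^ 2 := by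
      rw [Pk, hn, norm_inv]
      field_simp
    rw [e2]
    refine mul_le_mul ?_ (d4c_norm_k (hn' a) h1) (norm_nonneg _) (by positivity)
    exact mul_le_of_le_one_left (by positivity) (by linarith)
  rw [← Finset.sum_mul] at h2
  rw [e, hD.sg_re hζ hr]
  refine (norm_add_le _ _).trans (add_le_add ?_ ?_)
  · rw [norm_div, norm_mul, Complex.norm_natCast, Complex.norm_real, Real.norm_of_nonneg hβ.le]
    exact div_le_div_of_nonneg_right (norm_sub_le _ _) (by positivity)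
  · rw [norm_mul, norm_div, norm_pow, Complex.norm_natCast, Complex.norm_real,
      Real.norm_of_nonneg hβ.le]
    refine (mul_le_mul_of_nonneg_left h2 (by positivity)).trans (le_of_eq ?_)
    have : 0 < 1 - ρ := by linarith
    field_simp

/-- `Im LL - Im σ = Im (σ² + (1 - 2/r) τ)`.  With `β = √a/r`, `ζ' = (1 - β) ρ`, `x = ρλ`:
`k(x') - k(x) = -β x k² + β² x² k² k'`, i.e. `τ = (σ - σ')/(rβ) + (β/r²) Σ x² k² k'`, the last term is
`≤ √a p/a²`; `p = 1 + 2 Re σ`. -/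
theorem bessel_err : ∃ C : ℝ, 0 < C ∧ ∀ {r : ℕ} {a : ℝ}, 1 ≤ a → a ≤ r →
    ∫ u, (a * (LL (rad r a) u).im - a * (sg (rad r a) u).im) ^ 2 ∂(νG r) ≤ C / a := by
  obtain ⟨C, hC, h⟩ := sg_moments
  refine ⟨62 * C + 12, by positivity, fun {r a} h1 h2 => ?_⟩
  have ha : 0 < a := by linarith
  have hr : (0 : ℝ) < r := by linarith
  have hr' : 0 < r := by exact_mod_cast hr
  obtain ⟨f1, f2, f3, f4, -, -⟩ := rad_facts h1 h2
  have hs1 : 1 ≤ √a := Real.one_le_sqrt.2 h1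
  have hs2 : √a * √a = a := Real.mul_self_sqrt ha.le
  have hβ0 : 0 < √a / r := by positivity
  have hβ1 : √a / r ≤ 1 := by
    rw [div_le_one hr]
    nlinarith
  set ρ := rad r a with hρ
  have g1 : 0 ≤ (1 - √a / r) * ρ := mul_nonneg (by linarith) f1
  have g2 : (1 - √a / r) * ρ ≤ ρ := by nlinarith
  obtain ⟨m2, m4⟩ := d4c_mom hC h h1 h2 f1 le_rfl
  obtain ⟨m2', -⟩ := d4c_mom hC h h1 h2 g1 g2
  have hζ := d4c_norm_lt h1 h2 f1 le_rfl
  have hζ' := d4c_norm_lt h1 h2 g1 g2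
  have hc := (der_sg (r := r) hζ).cont
  have hc' := (der_sg (r := r) hζ').cont
  have hL := continuous_LL (r := r) hζ
  set ρ' := (1 - √a / r) * ρ with hρ'
  have i2 : Integrable (fun u => ‖sg ρ u‖ ^ 2) (νG r) := integrable_GG (by fun_prop)
  have i2' : Integrable (fun u => ‖sg ρ' u‖ ^ 2) (νG r) := integrable_GG (by fun_prop)
  have i4 : Integrable (fun u => ‖sg ρ u‖ ^ 4) (νG r) := integrable_GG (by fun_prop)
  have h4 : ∫ u, (a * (LL ρ u).im - a * (sg ρ u).im) ^ 2 ∂(νG r) ≤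
      ∫ u, (2 * a ^ 2 * ‖sg ρ u‖ ^ 4 + (6 * a + 48 / a) * ‖sg ρ u‖ ^ 2 +
        6 * a * ‖sg ρ' u‖ ^ 2 + 12 / a) ∂(νG r) := by
    have hi : Continuous fun u : GG r => (sg ρ u).im := Complex.continuous_im.comp hc
    have hi' : Continuous fun u : GG r => (LL ρ u).im := Complex.continuous_im.comp hL
    refine integral_mono
      (integrable_GG (((continuous_const.mul hi').sub (continuous_const.mul hi)).pow 2)) (integrable_GG (by fun_prop)) fun u => ?_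
    have h5 := d4c_tau hr' f1 f2 hβ0 hβ1 u
    have hp0 := sg_re_nonneg hr' hζ u
    have hp1 : 1 + 2 * (sg ρ u).re ≤ 1 + 2 * ‖sg ρ u‖ := by
      linarith [Complex.re_le_norm (sg ρ u)]
    have h6 : |(LL ρ u).im - (sg ρ u).im| ≤ ‖sg ρ u‖ ^ 2 + ‖tauG ρ u‖ := by
      rw [← Complex.sub_im]
      refine (Complex.abs_im_le_norm _).trans ?_
      have e : LL ρ u - sg ρ u = sg ρ u ^ 2 + (1 - 2 / r) * tauG ρ u := by
        rw [LL]; ring
      rw [e]
      refine (norm_add_le _ _).trans ?_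
      rw [norm_pow, norm_mul]
      have := mul_le_mul_of_nonneg_right (d4c_coef hr') (norm_nonneg (tauG ρ u))
      linarith
    set p := 1 + 2 * (sg ρ u).re
    set s := ‖sg ρ u‖
    set s' := ‖sg ρ' u‖
    set t := ‖tauG ρ u‖
    have hs : 0 ≤ s := norm_nonneg _
    have hs' : 0 ≤ s' := norm_nonneg _
    have ht : 0 ≤ t := norm_nonneg _
    have h7 : √a / r * p / (r * (1 - ρ ^ 2) * (1 - ρ)) ≤ √a / r * p / (a * (a / r)) := by
      have : 0 ≤ r * (1 - ρ ^ 2) := by linarith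
      gcongr
    have h8 : a * t ≤ √a * s + √a * s' + p / √a := by
      have e : a * ((s + s') / (r * (√a / r)) + √a / r * p / (a * (a / r))) =
          √a * s + √a * s' + p / √a := by
        generalize √a = b at *
        subst hs2
        field_simp
      rw [← e]
      exact mul_le_mul_of_nonneg_left (h5.trans (by linarith)) ha.le
    have h9 : (a * t) ^ 2 ≤ 3 * (a * s ^ 2 + a * s' ^ 2 + p ^ 2 / a) := by
      have e1 : (√a * s) ^ 2 = a * s ^ 2 := by rw [mul_pow, Real.sq_sqrt ha.le]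
      have e2 : (√a * s') ^ 2 = a * s' ^ 2 := by rw [mul_pow, Real.sq_sqrt ha.le]
      have e3 : (p / √a) ^ 2 = p ^ 2 / a := by rw [div_pow, Real.sq_sqrt ha.le]
      rw [← e1, ← e2, ← e3]
      have := pow_le_pow_left₀ (by positivity) h8 2
      nlinarith [sq_nonneg (√a * s - √a * s'), sq_nonneg (√a * s - p / √a),
        sq_nonneg (√a * s' - p / √a)]
    have h10 : p ^ 2 / a ≤ (2 + 8 * s ^ 2) / a := by
      gcongr
      nlinarith [sq_nonneg (1 - 2 * s)]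
    have h11 : (a * (LL ρ u).im - a * (sg ρ u).im) ^ 2 ≤ (a * s ^ 2 + a * t) ^ 2 := by
      rw [← mul_sub, ← mul_add, mul_pow, mul_pow]
      exact mul_le_mul_of_nonneg_left (sq_le_sq' (abs_le.1 h6).1 (abs_le.1 h6).2) (sq_nonneg a)
    have e4 : (2 + 8 * s ^ 2) / a = 2 / a + 8 / a * s ^ 2 := by ring
    have e5 : 48 / a = 6 * (8 / a) := by ring
    have e6 : 12 / a = 6 * (2 / a) := by ring
    simp only []
    rw [e5, e6]
    nlinarith [sq_nonneg (a * s ^ 2 - a * t)]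
  have j1 : Integrable (fun u => 2 * a ^ 2 * ‖sg ρ u‖ ^ 4 + (6 * a + 48 / a) * ‖sg ρ u‖ ^ 2)
    (νG r) := (i4.const_mul _).add (i2.const_mul _)
  have j2 : Integrable (fun u => 2 * a ^ 2 * ‖sg ρ u‖ ^ 4 + (6 * a + 48 / a) * ‖sg ρ u‖ ^ 2 +
    6 * a * ‖sg ρ' u‖ ^ 2) (νG r) := j1.add (i2'.const_mul _)
  rw [integral_add j2 (integrable_const _), integral_add j1 (i2'.const_mul _),
    integral_add (i4.const_mul _) (i2.const_mul _), integral_const_mul, integral_const_mul,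
    integral_const_mul, integral_const] at h4
  simp only [probReal_univ, smul_eq_mul, one_mul] at h4
  refine h4.trans ?_
  have k1 := mul_le_mul_of_nonneg_left m4 (show 0 ≤ 2 * a ^ 2 by positivity)
  have k2 := mul_le_mul_of_nonneg_left m2 (show 0 ≤ 6 * a + 48 / a by positivity)
  have k3 := mul_le_mul_of_nonneg_left m2' (show 0 ≤ 6 * a by positivity)
  have e1 : 2 * a ^ 2 * (C / a ^ 4) = 2 * (C / a) * a⁻¹ := by field_simp
  have e2 : (6 * a + 48 / a) * (C / a ^ 2) = 6 * (C / a) + 48 * (C / a) * a⁻¹ ^ 2 := by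
    field_simp
  have e3 : 6 * a * (C / a ^ 2) = 6 * (C / a) := by field_simp
  have e4 : (62 * C + 12) / a = 62 * (C / a) + 12 / a := by ring
  have k4 : a⁻¹ ≤ 1 := inv_le_one_of_one_le₀ h1
  have k5 : a⁻¹ ^ 2 ≤ 1 := pow_le_one₀ (by positivity) k4
  have k6 : 0 ≤ C / a := by positivity
  rw [e1] at k1
  rw [e2] at k2
  rw [e3] at k3
  rw [e4]
  nlinarith

/-- `loop_eq_im` with `f = Im σ(ρ')`, `Dz.sum_re_mul`, `Dz.SX_dsg`: the sum is at most
`(2/r)(1 - ρ')⁻² Σ|P_a - p| ≤ 4 p r²/a'²`; `int_sg_re_le` gives `∫ p ≤ 3`. -/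
theorem bessel_orth {r : ℕ} {a a' : ℝ} (h1 : 1 ≤ a) (h2 : a ≤ r) (h1' : 1 ≤ a') (h2' : a' ≤ r) :
    |∫ u, (a * (LL (rad r a) u).im) * (a' * (sg (rad r a') u).im) ∂(νG r)| ≤ 6 * a / a' := by
  have ha : 0 < a := by linarith
  have ha' : 0 < a' := by linarith
  have hr : (0 : ℝ) < r := by linarith
  have hr' : 0 < r := by exact_mod_cast hr
  obtain ⟨f1, f2, -, -, f5, -⟩ := rad_facts h1 h2
  obtain ⟨g1, g2, g3, -⟩ := rad_facts h1' h2'
  have hζ := d4c_norm_lt h1 h2 f1 le_rfl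
  have hζ' := d4c_norm_lt h1' h2' g1 le_rfl
  set ρ := rad r a
  set ρ' := rad r a'
  have hl := loop_eq_im hr' hζ (f := fun u => (sg ρ' u).im) (f' := fun X u => (dsg ρ' X u).im)
    (der_sg hζ').im
  have hc := (der_sg (r := r) hζ).cont
  have hp : ∫ u, (1 + 2 * (sg ρ u).re) ∂(νG r) ≤ 3 := by
    refine (int_sg_re_le hr' hζ).trans ?_
    rw [Complex.norm_real, Real.norm_of_nonneg f1, div_le_iff₀ (by linarith)]
    linarith
  have hpt : ∀ u : GG r, ‖∑ b, ∑ c, (Rz ρ u b c).re * (dsg ρ' (Xab b c) u).im‖ ≤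
      4 * (r / a') ^ 2 * (1 + 2 * (sg ρ u).re) := by
    intro u
    obtain ⟨O, lam, hD⟩ := exists_Dz u
    have e : ∑ b, ∑ c, (Rz ρ u b c).re * (dsg ρ' (Xab b c) u).im =
        (∑ b, ∑ c, ((Rz ρ u b c).re : ℂ) * dsg ρ' (Xab b c) u).im := by
      simp only [Complex.im_sum, Complex.im_ofReal_mul]
    rw [e, hD.sum_re_mul hζ, hD.SX_dsg hζ', hD.sg_re hζ hr']
    refine (Complex.abs_im_le_norm _).trans ?_
    have hP : ∀ b, 0 ≤ Pk (ρ * lam b) := fun b => Pk_nonneg (hD.norm_lt hζ b)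
    set p : ℝ := (r : ℝ)⁻¹ * ∑ b, Pk (ρ * lam b) with hp
    have hp0 : 0 ≤ p := mul_nonneg (by positivity) (Finset.sum_nonneg fun b _ => hP b)
    have hrc : (r : ℂ) ≠ 0 := by exact_mod_cast hr'.ne'
    have e2 : (r : ℂ)⁻¹ * ∑ b, (((1 + Pk (ρ * lam b)) / 2 : ℝ) : ℂ) = ((1 + p) / 2 : ℝ) := by
      rw [hp]
      push_cast
      rw [← Finset.sum_div, Finset.sum_add_distrib]
      simp only [Finset.sum_const, Finset.card_univ, Fintype.card_fin, nsmul_eq_mul, mul_one]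
      field_simp
    rw [e2]
    have h3 : ‖∑ b, (1 - ρ' * lam b)⁻¹ * ((1 - ρ' * lam b)⁻¹ - 1) *
        ((((1 + Pk (ρ * lam b)) / 2 : ℝ) : ℂ) - ((1 + p) / 2 : ℝ))‖ ≤
        ∑ b, (r / a') ^ 2 * ((Pk (ρ * lam b) + p) / 2) := by
      refine (norm_sum_le _ _).trans (Finset.sum_le_sum fun b _ => ?_)
      have hn : ‖(ρ' : ℂ) * lam b‖ = ρ' := by
        rw [norm_mul, hD.2.1, mul_one, Complex.norm_real, Real.norm_of_nonneg g1]
      have hne : 1 - (ρ' : ℂ) * lam b ≠ 0 := fun h => by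
        rw [sub_eq_zero] at h
        rw [← h, norm_one] at hn
        linarith
      have e3 : (1 - ρ' * lam b)⁻¹ * ((1 - ρ' * lam b)⁻¹ - 1) =
          (ρ' * lam b) * (1 - ρ' * lam b)⁻¹ ^ 2 := by
        field_simp
        ring
      have h4 : ‖(1 - (ρ' : ℂ) * lam b)⁻¹‖ ≤ r / a' := by
        refine (d4c_norm_k hn.le g2).trans ?_
        rw [← inv_div]
        exact inv_anti₀ (by positivity) g3
      rw [norm_mul, e3, norm_mul, norm_pow, hn, ← Complex.ofReal_sub, Complex.norm_real,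
        Real.norm_eq_abs]
      refine mul_le_mul ?_ ?_ (abs_nonneg _) (by positivity)
      · exact (mul_le_of_le_one_left (by positivity) g2.le).trans
          (pow_le_pow_left₀ (norm_nonneg _) h4 2)
      · have := hP b
        rw [abs_le]
        constructor <;> linarith
    rw [← Finset.mul_sum, ← Finset.sum_div, Finset.sum_add_distrib] at h3
    simp only [Finset.sum_const, Finset.card_univ, Fintype.card_fin, nsmul_eq_mul] at h3
    have e4 : ∑ b, Pk (ρ * lam b) = r * p := by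
      rw [hp]
      field_simp
    rw [norm_mul, norm_div, norm_mul, Complex.norm_I, Complex.norm_natCast, Complex.norm_ofNat]
    refine (mul_le_mul_of_nonneg_left h3 (by positivity)).trans (le_of_eq ?_)
    rw [e4]
    field_simp
    ring
  have hre : Continuous fun u : GG r => (sg ρ u).re := Complex.continuous_re.comp hc
  have h3 := norm_integral_le_of_norm_le (μ := νG r)
    (g := fun u => 4 * (r / a') ^ 2 * (1 + 2 * (sg ρ u).re))
    (integrable_GG (continuous_const.mul (continuous_const.add (continuous_const.mul hre))))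
    (Eventually.of_forall hpt)
  rw [integral_const_mul] at h3
  have e : ∫ u, (a * (LL ρ u).im) * (a' * (sg ρ' u).im) ∂(νG r) =
      a * a' * ∫ u, (LL ρ u).im * (sg ρ' u).im ∂(νG r) := by
    rw [← integral_const_mul]
    congr 1
    funext u
    ring
  rw [e, hl, abs_mul, abs_of_pos (mul_pos ha ha'), abs_mul,
    abs_of_pos (show 0 < (2 * (r : ℝ) ^ 2)⁻¹ by positivity), ← Real.norm_eq_abs]
  have h4 := h3.trans (mul_le_mul_of_nonneg_left hp (by positivity))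
  refine (mul_le_mul_of_nonneg_left (mul_le_mul_of_nonneg_left h4 (by positivity))
    (by positivity)).trans (le_of_eq ?_)
  field_simp
  ring

end Crest.Agent.R166
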