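import Crest.Agent.R166.D4c

/-! # The loop equation tested against the observable -/

set_option autoImplicit false
set_option linter.unusedVariables false
set_option linter.unusedSectionVars false

open MeasureTheory ProbabilityTheory Filter Topology Matrix
open scoped ENNReal

namespace Crest.Agent.R166

theorem d4d_contRz {r : ℕ} (hr : 0 < r) {w : ℂ} (hw : 0 < w.im) :
    Continuous fun x : ℝ × GG r => Rz (zt r (w + x.1)) x.2 :=
  continuousOn_Rz.comp_continuous (f := fun x : ℝ × GG r => (zt r (w + x.1), x.2))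
    (Continuous.prodMk (by unfold zt; fun_prop) continuous_snd) fun x => norm_zt_lt hr hw x.1

theorem continuous_dFt {r k : ℕ} (b : Fin r) (c : Fin k → ℝ) {w : Fin k → ℂ}
    (hw : ∀ j, 0 < (w j).im) : Continuous fun x : ℝ × GG r => dFt b c w x.1 x.2 := by
  refine (continuous_Ft b c hw).mul (Continuous.neg (continuous_finsetSum _ fun j _ => ?_))
  have h := d4d_contRz b.pos (hw j)
  exact continuous_const.mul (continuous_const.mul (continuous_const.mul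
    (Complex.continuous_re.comp (continuous_const.mul
      ((h.matrix_mul (h.sub continuous_const)).matrix_elem b b)))))

theorem d4d_deriv {r : ℕ} (b : Fin r) {w : ℂ} (hw : 0 < w.im) (u : GG r) (s : ℝ) :
    HasDerivAt (fun t : ℝ => (Rz (zt r (w + t)) u b b).re)
      (2 * ipi / r * (Rz (zt r (w + s)) u * (Rz (zt r (w + s)) u - 1)) b b).re s := by
  have hζ := norm_zt_lt b.pos hw s
  have h1 : HasDerivAt (fun t : ℝ => zt r (w + t)) (2 * ipi / r * zt r (w + s)) s := by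
    have := ((((hasDerivAt_id s).ofReal_comp.const_add w).const_mul (2 * ipi)).div_const
      (r : ℂ)).cexp
    refine HasDerivAt.congr_deriv this ?_
    simp only [zt, id, Complex.ofReal_one]
    ring
  have h2 : (1 - zt r (w + s) • WW u) * Rz (zt r (w + s)) u = 1 := by
    rw [Matrix.sub_mul, (Rz_mul hζ u).1, Matrix.one_mul, sub_sub_cancel]
  have h3 := hasDerivAt_inv_entry (N := fun t : ℝ => 1 - zt r (w + t) • WW u)
    (N' := -((2 * ipi / r) • (zt r (w + s) • WW u))) (s := s) (fun a a' => by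
      have := (h1.mul_const (WW u a a')).const_sub ((1 : CM r) a a')
      refine HasDerivAt.congr_deriv this ?_
      simp only [Matrix.neg_apply, Matrix.smul_apply, smul_eq_mul, mul_assoc])
    (Matrix.isUnit_det_of_right_inverse h2) b b
  have h4 : -(Rz (zt r (w + s)) u * -((2 * ipi / r) • (zt r (w + s) • WW u)) *
      Rz (zt r (w + s)) u) b b =
      2 * ipi / r * (Rz (zt r (w + s)) u * (Rz (zt r (w + s)) u - 1)) b b := by
    rw [Matrix.mul_neg, Matrix.neg_mul, Matrix.mul_smul, Matrix.smul_mul, Matrix.mul_assoc,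
      (Rz_mul hζ u).1, Matrix.neg_apply, neg_neg, Matrix.smul_apply, smul_eq_mul]
  rw [← h4]
  exact Complex.reCLM.hasFDerivAt.comp_hasDerivAt s h3

/-- `hasDerivAt_integral_GG`, `hasDerivAt_inv_entry`, `Rz_mul` -/
theorem Psi_hasDerivAt {r k : ℕ} (b : Fin r) (c : Fin k → ℝ) {w : Fin k → ℂ}
    (hw : ∀ j, 0 < (w j).im) (t : ℝ) :
    HasDerivAt (Psi b c w) (∫ u, dFt b c w t u ∂(νG r)) t := by
  refine hasDerivAt_integral_GG (fun s u => Ft b c w s u) (fun s u => dFt b c w s u)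
    (fun s => Continuous.uncurry_left (f := fun s u => Ft b c w s u) s (continuous_Ft b c hw))
    (continuous_dFt b c hw)
    (fun s u => ?_) t
  exact (HasDerivAt.fun_sum (u := Finset.univ) fun j _ =>
    (((((d4d_deriv b (hw j) u s).const_mul 2).sub_const 1).const_mul Real.pi).const_mul
      (c j))).neg.exp

theorem d4d_der {r k : ℕ} (b : Fin r) (c : Fin k → ℝ) {w : Fin k → ℂ}
    (hw : ∀ j, 0 < (w j).im) (t : ℝ) :
    Der (fun u => (Ft b c w t u : ℂ)) (fun X u => ((Ft b c w t u *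
      -∑ j, c j * (Real.pi * (2 * (dR (zt r (w j + t)) X u b b).re)) : ℝ) : ℂ)) := by
  have h := ((Der.sum Finset.univ fun j _ =>
    ((((der_Rz (norm_zt_lt b.pos (hw j) t) b b).re.const_mul 2).add (Der.const (-1))).const_mul
      (Real.pi : ℂ)).const_mul (c j : ℂ)).const_mul (-1)).cexp
  have e : ∀ u, (Ft b c w t u : ℂ) = Complex.exp (-1 * ∑ j, (c j : ℂ) * ((Real.pi : ℂ) *
      (2 * ((Rz (zt r (w j + t)) u b b).re : ℂ) + -1))) := by
    intro u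
    simp only [Ft, Fs, pois, Rz]
    push_cast
    simp only [neg_one_mul, sub_eq_add_neg]
  refine h.congr e fun X u => ?_
  rw [← e]
  push_cast
  simp only [neg_one_mul, add_zero]

theorem d4d_k {x : ℂ} (hx : ‖x‖ < 1) :
    ‖(1 - x)⁻¹ * ((1 - x)⁻¹ - 1)‖ ≤ (‖1 - x‖ ^ 2)⁻¹ := by
  have h0 : 1 - x ≠ 0 := fun h => by rw [← sub_eq_zero.1 h] at hx; simp at hx
  have h1 : (1 - x)⁻¹ - 1 = x * (1 - x)⁻¹ := by field_simp; ring
  rw [h1, norm_mul, norm_mul, norm_inv, ← inv_pow, sq]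
  exact mul_le_mul_of_nonneg_left (mul_le_of_le_one_left (by positivity) hx.le) (by positivity)

theorem d4d_P {ρ p q : ℝ} {lam : ℂ} (hl : ‖lam‖ = 1) (h0 : 0 ≤ ρ) (h1 : ρ < 1) (hp : 0 ≤ p)
    (hq : (1 + ρ) / (1 - ρ) = q) :
    |Pk (ρ * lam) - p - q| ≤ q * (‖1 - lam‖ ^ 2 * (‖1 - ρ * lam‖ ^ 2)⁻¹) + p := by
  have e1 : lam.re * lam.re + lam.im * lam.im = 1 := by
    rw [← Complex.normSq_apply, Complex.normSq_eq_norm_sq, hl, one_pow]
  have e2 : ‖1 - ρ * lam‖ ^ 2 = (1 - ρ) ^ 2 + ρ * ‖1 - lam‖ ^ 2 := by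
    simp only [← Complex.normSq_eq_norm_sq, Complex.normSq_apply, Complex.sub_re, Complex.sub_im,
      Complex.one_re, Complex.one_im, Complex.re_ofReal_mul, Complex.im_ofReal_mul]
    linear_combination (ρ ^ 2 - ρ) * e1
  have e3 : ‖(ρ : ℂ) * lam‖ = ρ := by rw [norm_mul, hl, mul_one, Complex.norm_of_nonneg h0]
  have h2 : 0 < 1 - ρ := by linarith
  have hm : 0 ≤ ‖1 - lam‖ ^ 2 := by positivity
  have hN : 0 < (1 - ρ) ^ 2 + ρ * ‖1 - lam‖ ^ 2 := by positivity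
  have hq0 : 0 ≤ q := by rw [← hq]; positivity
  have e4 : Pk (ρ * lam) - q = -(ρ * (q * (‖1 - lam‖ ^ 2 * (‖1 - ρ * lam‖ ^ 2)⁻¹))) := by
    rw [Pk, e3, e2, ← hq]
    field_simp
    ring
  have h3 : 0 ≤ q * (‖1 - lam‖ ^ 2 * (‖1 - ρ * lam‖ ^ 2)⁻¹) := by positivity
  have h4 := mul_le_of_le_one_left h3 h1.le
  have h5 := mul_nonneg h0 h3
  rw [abs_le]
  constructor <;> linarith

theorem d4d_C {ζ lam : ℂ} {C : ℝ} (hl : ‖lam‖ = 1) (hζ : ‖ζ‖ < 1) (hC0 : 0 ≤ C)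
    (hC : ‖1 - ζ‖ ≤ C * (1 - ‖ζ‖)) : ‖1 - lam‖ ^ 2 * (‖1 - ζ * lam‖ ^ 2)⁻¹ ≤ (1 + C) ^ 2 := by
  have h1 : 1 - ‖ζ‖ ≤ ‖1 - ζ * lam‖ := by
    have := norm_sub_norm_le (1 : ℂ) (ζ * lam)
    rwa [norm_one, norm_mul, hl, mul_one] at this
  have h2 : 0 < ‖1 - ζ * lam‖ := by linarith
  have h3 : ‖1 - lam‖ ≤ ‖1 - ζ * lam‖ + ‖1 - ζ‖ := by
    have := norm_sub_le (1 - ζ * lam) (lam * (1 - ζ))
    rwa [norm_mul, hl, one_mul, show 1 - ζ * lam - lam * (1 - ζ) = 1 - lam by ring] at this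
  have h4 : ‖1 - lam‖ ≤ (1 + C) * ‖1 - ζ * lam‖ := by
    have := mul_le_mul_of_nonneg_left h1 hC0
    linarith
  rw [← div_eq_mul_inv, div_le_iff₀ (by positivity), ← mul_pow]
  exact pow_le_pow_left₀ (norm_nonneg _) h4 2

theorem d4d_term {r a ρ p C y : ℝ} {ζ lam : ℂ} (hl : ‖lam‖ = 1) (hζ : ‖ζ‖ < 1) (hC0 : 0 ≤ C)
    (hC : ‖1 - ζ‖ ≤ C * (1 - ‖ζ‖)) (hy : 0 < y) (hr : 0 < r) (hy' : y / r ≤ 1 - ‖ζ‖) (ha : 0 < a)
    (h0 : 0 ≤ ρ) (h1 : ρ < 1) (hp : 0 ≤ p) (hq : (1 + ρ) / (1 - ρ) = r / a)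
    (ha' : a ≤ r * (1 - ρ ^ 2)) :
    a / r ^ 2 * (‖(1 - ζ * lam)⁻¹ * ((1 - ζ * lam)⁻¹ - 1)‖ * |Pk (ρ * lam) - p - r / a|) ≤
      (1 + C) ^ 2 * Pk (ρ * lam) / a + a / r * p / y * Pk (ζ * lam) := by
  have e3 : ‖(ρ : ℂ) * lam‖ = ρ := by rw [norm_mul, hl, mul_one, Complex.norm_of_nonneg h0]
  have e4 : ‖ζ * lam‖ = ‖ζ‖ := by rw [norm_mul, hl, mul_one]
  have k1 := d4d_k (x := ζ * lam) (by rwa [e4])
  have k2 := d4d_P hl h0 h1 hp hq
  have k3 := d4d_C hl hζ hC0 hC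
  rw [Pk, e3] at k2
  rw [Pk, Pk, e3, e4, div_eq_mul_inv (1 - ρ ^ 2), div_eq_mul_inv (1 - ‖ζ‖ ^ 2)]
  rw [div_eq_mul_inv (1 - ρ ^ 2)] at k2
  have hK : 0 ≤ (‖1 - ζ * lam‖ ^ 2)⁻¹ := by positivity
  have hQ : 0 ≤ (‖1 - ρ * lam‖ ^ 2)⁻¹ := by positivity
  generalize (‖1 - ζ * lam‖ ^ 2)⁻¹ = K at *
  generalize (‖1 - ρ * lam‖ ^ 2)⁻¹ = Q at *
  have k4 : y / r ≤ 1 - ‖ζ‖ ^ 2 := by
    have := norm_nonneg ζ
    nlinarith
  have k5 : r⁻¹ ≤ (1 - ρ ^ 2) / a := by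
    rw [inv_eq_one_div, div_le_div_iff₀ hr ha]
    linarith
  have k6 : r⁻¹ ≤ (1 - ‖ζ‖ ^ 2) / y := by
    rw [div_le_iff₀ hr] at k4
    rw [inv_eq_one_div, div_le_div_iff₀ hr hy]
    linarith
  calc _ ≤ a / r ^ 2 * (K * (r / a * (‖1 - lam‖ ^ 2 * Q) + p)) := by
        gcongr
    _ = (‖1 - lam‖ ^ 2 * K) * Q * r⁻¹ + a / r * p * K * r⁻¹ := by
        field_simp
    _ ≤ (1 + C) ^ 2 * Q * ((1 - ρ ^ 2) / a) + a / r * p * K * ((1 - ‖ζ‖ ^ 2) / y) := by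
        gcongr
    _ = _ := by ring

theorem d4d_zt {r : ℕ} {w : ℂ} (hw : 0 < w.im) (hr : 2 * Real.pi * (‖w‖ + 1) ≤ r) {t : ℝ}
    (h0 : 0 ≤ t) (h1 : t ≤ 1) :
    Real.pi * w.im / r ≤ 1 - ‖zt r (w + t)‖ ∧
      ‖1 - zt r (w + t)‖ ≤ 4 * (‖w‖ + 1) / w.im * (1 - ‖zt r (w + t)‖) := by
  have hpi := Real.pi_pos
  have hr0 : (0 : ℝ) < r := lt_of_lt_of_le (by positivity) hr
  have hr1 : 0 < r := Nat.cast_pos.1 hr0
  have h2 : w.im ≤ ‖w‖ := (le_abs_self _).trans (Complex.abs_im_le_norm w)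
  have k1 : Real.pi * w.im / r ≤ 1 - ‖zt r (w + t)‖ := by
    rw [norm_zt hr1, Complex.add_im, Complex.ofReal_im, add_zero]
    have h3 : 2 * Real.pi * w.im / r = 2 * (Real.pi * w.im / r) := by ring
    have h4 : 2 * Real.pi * w.im / r ≤ 1 := by
      rw [div_le_one hr0]
      nlinarith
    have h5 : 0 < Real.pi * w.im / r := by positivity
    rw [h3] at h4 ⊢
    generalize Real.pi * w.im / r = x at *
    have h6 := Real.add_one_le_exp (2 * x)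
    have h7 : Real.exp (-(2 * x)) * Real.exp (2 * x) = 1 := by rw [← Real.exp_add]; simp
    have h8 := Real.exp_pos (-(2 * x))
    by_contra h9
    have h10 : 1 - x < Real.exp (-(2 * x)) := by linarith
    have h11 : (1 - x) * (2 * x + 1) < Real.exp (-(2 * x)) * Real.exp (2 * x) :=
      mul_lt_mul h10 h6 (by linarith) h8.le
    nlinarith
  refine ⟨k1, ?_⟩
  have h3 : ‖2 * ipi * (w + t) / r‖ ≤ 2 * Real.pi * (‖w‖ + 1) / r := by
    have h4 : ‖w + t‖ ≤ ‖w‖ + 1 := (norm_add_le _ _).trans (by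
      rw [Complex.norm_of_nonneg h0]; linarith)
    have h5 : ‖ipi‖ = Real.pi := by
      rw [ipi, norm_mul, Complex.norm_I, mul_one, Complex.norm_of_nonneg hpi.le]
    rw [norm_div, norm_mul, norm_mul, h5, Complex.norm_natCast, Complex.norm_two]
    gcongr
  have h4 := Complex.norm_exp_sub_one_le (h3.trans ((div_le_one hr0).2 hr))
  rw [norm_sub_rev]
  calc _ ≤ 2 * (2 * Real.pi * (‖w‖ + 1) / r) := h4.trans (by gcongr)
    _ = 4 * (‖w‖ + 1) / w.im * (Real.pi * w.im / r) := by field_simp; ring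
    _ ≤ _ := by gcongr

theorem d4d_one {r : ℕ} (b : Fin r) {w : ℂ} (hw : 0 < w.im) (hr : 2 * Real.pi * (‖w‖ + 1) ≤ r)
    {a t : ℝ} (ha : 1 ≤ a) (ha' : a ≤ r) (h0 : 0 ≤ t) (h1 : t ≤ 1) (u : GG r) :
    |a * (2 * (r : ℝ) ^ 2)⁻¹ * (∑ x, ∑ x', (Rz (rad r a) u x x').re *
        (dR (zt r (w + t)) (Xab x x') u b b).re) -
      (2 * Real.pi)⁻¹ * (2 * ipi / r *
        (Rz (zt r (w + t)) u * (Rz (zt r (w + t)) u - 1)) b b).re| ≤
      (1 + 4 * (‖w‖ + 1) / w.im) ^ 2 * pois b (((rad r a : ℝ) : ℂ) • WW u) / a +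
        a / r * (1 + 2 * (sg (rad r a) u).re) / (Real.pi * w.im) *
          pois b (zt r (w + t) • WW u) := by
  obtain ⟨O, lam, h⟩ := exists_Dz u
  obtain ⟨r0, r1, -, r3, -, r5⟩ := rad_facts ha ha'
  have hρ : ‖((rad r a : ℝ) : ℂ)‖ < 1 := by rwa [Complex.norm_of_nonneg r0]
  have hζ := norm_zt_lt b.pos hw t
  obtain ⟨z1, z2⟩ := d4d_zt hw hr h0 h1
  have hp := sg_re_nonneg b.pos hρ u
  have hp' := h.sg_re hρ b.pos
  have hr0 : (0 : ℝ) < r := Nat.cast_pos.2 b.pos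
  have hr1 : (r : ℂ) ≠ 0 := Nat.cast_ne_zero.2 b.pos.ne'
  have ha0 : 0 < a := by linarith
  have ha1 : (a : ℂ) ≠ 0 := Complex.ofReal_ne_zero.2 ha0.ne'
  have hpi : (Real.pi : ℂ) ≠ 0 := Complex.ofReal_ne_zero.2 Real.pi_ne_zero
  generalize 1 + 2 * (sg (rad r a) u).re = p at *
  generalize zt r (w + t) = ζ at *
  generalize rad r a = ρ at *
  have e1 := h.sum_re_mul hρ fun X u => dR ζ X u b b
  rw [h.SX_dR hζ] at e1
  have e2 : (r : ℂ)⁻¹ * ∑ x, (((1 + Pk (ρ * lam x)) / 2 : ℝ) : ℂ) = (1 + p) / 2 := by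
    rw [hp']
    push_cast
    rw [← Finset.sum_div, Finset.sum_add_distrib, Finset.sum_const, Finset.card_univ,
      Fintype.card_fin, nsmul_eq_mul]
    field_simp
  rw [e2] at e1
  have e3 := congrArg Complex.re e1
  simp only [Complex.re_sum, Complex.re_ofReal_mul] at e3
  rw [e3, h.RR_diag hζ, h.pois_eq hζ, h.pois_eq hρ, ← Complex.re_ofReal_mul,
    ← Complex.re_ofReal_mul, ← Complex.sub_re]
  simp only [Finset.mul_sum, Finset.sum_div]
  rw [← Finset.sum_sub_distrib, ← Finset.sum_add_distrib]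
  refine (Complex.abs_re_le_norm _).trans ((norm_sum_le _ _).trans
    (Finset.sum_le_sum fun x _ => ?_))
  have e4 := d4d_term (h.2.1 x) hζ (by positivity) z2 (by positivity) hr0 z1 ha0 r0 r1 hp r5 r3
  generalize (1 - ζ * lam x)⁻¹ * ((1 - ζ * lam x)⁻¹ - 1) = K at *
  generalize Pk (ρ * lam x) = P at *
  have e5 : ((a * (2 * (r : ℝ) ^ 2)⁻¹ : ℝ) : ℂ) * (4 * Complex.I * ((O b x : ℂ) ^ 2 * K *
      ((((1 + P) / 2 : ℝ) : ℂ) - (1 + p) / 2))) -
      (((2 * Real.pi)⁻¹ : ℝ) : ℂ) * (2 * ipi / r * ((O b x : ℂ) ^ 2 * K)) =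
      ((O b x ^ 2 * (a / r ^ 2) : ℝ) : ℂ) * (K * ((P - p - r / a : ℝ) : ℂ)) * Complex.I := by
    rw [ipi]
    push_cast
    field_simp
    ring
  rw [e5, norm_mul, norm_mul, norm_mul, Complex.norm_I, mul_one,
    Complex.norm_of_nonneg (by positivity), Complex.norm_real, Real.norm_eq_abs, mul_assoc]
  refine (mul_le_mul_of_nonneg_left e4 (sq_nonneg _)).trans (le_of_eq ?_)
  ring

theorem d4d_pois {r : ℕ} (b : Fin r) {ζ : ℂ} (hζ : ‖ζ‖ < 1) (u : GG r) :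
    0 ≤ pois b (ζ • WW u) := by
  obtain ⟨O, lam, h⟩ := exists_Dz u
  rw [h.pois_eq hζ]
  exact Finset.sum_nonneg fun x _ => mul_nonneg (sq_nonneg _) (Pk_nonneg (h.norm_lt hζ x))

theorem d4d_f {r k : ℕ} (b : Fin r) {c : Fin k → ℝ} (hc : ∀ j, 0 ≤ c j) {w : Fin k → ℂ}
    (hw : ∀ j, 0 < (w j).im) (t : ℝ) (u : GG r) (j : Fin k) :
    Ft b c w t u * (c j * (Real.pi * pois b (zt r (w j + t) • WW u))) ≤ 1 := by
  have h0 : ∀ j, 0 ≤ c j * (Real.pi * pois b (zt r (w j + t) • WW u)) := fun j =>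
    mul_nonneg (hc j) (mul_nonneg Real.pi_pos.le (d4d_pois b (norm_zt_lt b.pos (hw j) t) u))
  have h1 := Finset.single_le_sum (fun j _ => h0 j) (Finset.mem_univ j)
  have h2 := Real.add_one_le_exp (∑ j, c j * (Real.pi * pois b (zt r (w j + t) • WW u)))
  rw [Ft, Fs, Real.exp_neg, inv_mul_le_iff₀ (Real.exp_pos _)]
  linarith

theorem d4d_point {r k : ℕ} (b : Fin r) {c : Fin k → ℝ} (hc : ∀ j, 0 ≤ c j) {w : Fin k → ℂ}
    (hw : ∀ j, 0 < (w j).im) (hr : ∀ j, 2 * Real.pi * (‖w j‖ + 1) ≤ r)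
    {a t : ℝ} (ha : 1 ≤ a) (ha' : a ≤ r) (h0 : 0 ≤ t) (h1 : t ≤ 1) (u : GG r) :
    |a * (2 * (r : ℝ) ^ 2)⁻¹ * (∑ x, ∑ x', (Rz (rad r a) u x x').re * (Ft b c w t u *
        -∑ j, c j * (Real.pi * (2 * (dR (zt r (w j + t)) (Xab x x') u b b).re)))) -
      (2 * Real.pi)⁻¹ * dFt b c w t u| ≤
      (∑ j, 2 * Real.pi * c j * (1 + 4 * (‖w j‖ + 1) / (w j).im) ^ 2) / a *
          pois b (((rad r a : ℝ) : ℂ) • WW u) +
        (∑ j, 2 / (Real.pi * (w j).im)) * (a / r) * (1 + 2 * (sg (rad r a) u).re) := by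
  obtain ⟨r0, r1, -⟩ := rad_facts ha ha'
  have hρ : ‖((rad r a : ℝ) : ℂ)‖ < 1 := by rwa [Complex.norm_of_nonneg r0]
  have hp := sg_re_nonneg b.pos hρ u
  have hq := d4d_pois b hρ u
  obtain ⟨f0, f1⟩ := Ft_mem b hc hw t u
  have e1 : ∑ x, ∑ x', (Rz (rad r a) u x x').re * (Ft b c w t u *
      -∑ j, c j * (Real.pi * (2 * (dR (zt r (w j + t)) (Xab x x') u b b).re))) =
      ∑ j, -(Ft b c w t u * c j * Real.pi * 2) * ∑ x, ∑ x', (Rz (rad r a) u x x').re *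
        (dR (zt r (w j + t)) (Xab x x') u b b).re := by
    simp only [Finset.mul_sum, ← Finset.sum_neg_distrib]
    rw [Finset.sum_comm (s := (Finset.univ : Finset (Fin k)))]
    refine Finset.sum_congr rfl fun x _ => ?_
    rw [Finset.sum_comm]
    exact Finset.sum_congr rfl fun j _ => Finset.sum_congr rfl fun x' _ => by ring
  rw [e1, dFt, ← Finset.sum_neg_distrib, Finset.mul_sum, Finset.mul_sum, Finset.mul_sum,
    ← Finset.sum_sub_distrib, Finset.sum_div, Finset.sum_mul, Finset.sum_mul, Finset.sum_mul,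
    ← Finset.sum_add_distrib]
  refine (Finset.abs_sum_le_sum_abs _ _).trans (Finset.sum_le_sum fun j _ => ?_)
  have e2 := d4d_one b (hw j) (hr j) ha ha' h0 h1 u
  have e3 := d4d_f b hc hw t u j
  have hcj := hc j
  have hwj := hw j
  have hpi := Real.pi_pos
  have ha0 : 0 < a := by linarith
  generalize (∑ x, ∑ x', (Rz (rad r a) u x x').re *
    (dR (zt r (w j + t)) (Xab x x') u b b).re) = S at *
  generalize (2 * ipi / r * (Rz (zt r (w j + t)) u * (Rz (zt r (w j + t)) u - 1)) b b).re = T at *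
  generalize pois b (((rad r a : ℝ) : ℂ) • WW u) = q at *
  generalize pois b (zt r (w j + t) • WW u) = q' at *
  generalize 1 + 2 * (sg (rad r a) u).re = p at *
  generalize Ft b c w t u = f at *
  have e4 : a * (2 * (r : ℝ) ^ 2)⁻¹ * (-(f * c j * Real.pi * 2) * S) -
      (2 * Real.pi)⁻¹ * (f * -(c j * (Real.pi * (2 * T)))) =
      -(f * c j * Real.pi * 2 * (a * (2 * (r : ℝ) ^ 2)⁻¹ * S - (2 * Real.pi)⁻¹ * T)) := by ring
  rw [e4, abs_neg, abs_mul, abs_of_nonneg (by positivity)]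
  calc _ ≤ f * c j * Real.pi * 2 * ((1 + 4 * (‖w j‖ + 1) / (w j).im) ^ 2 * q / a +
        a / r * p / (Real.pi * (w j).im) * q') := by gcongr
    _ = f * (2 * Real.pi * c j * (1 + 4 * (‖w j‖ + 1) / (w j).im) ^ 2 / a * q) +
        f * (c j * (Real.pi * q')) * (2 / (Real.pi * (w j).im) * (a / r) * p) := by ring
    _ ≤ _ := add_le_add (mul_le_of_le_one_left (by positivity) f1)
        (mul_le_of_le_one_left (by positivity) e3)

/-- `loop_eq_im` with `f = Ft`, `f' X = f · (-Σ c_j π 2 Re (dR ζ_j X)_bb)`; `Dz.sum_re_mul`,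
`Dz.SX_dR` give `Re [2i Σ e_a² k^j (k^j - 1)(P_a - p)]`, `e_a = O b a`, `P_a = Pk (ρ λ_a)`.  Write
`P_a - p = r/a - (r/a) ρ |1 - λ|² |k|² - p` (`|1 - ρλ|² = (1-ρ)² + ρ|1-λ|²`).  The first term gives
`dFt/2π`.  Second: `|1 - λ||k^j| ≤ 1 + |1 - ζ_j|/(1 - |ζ_j|) ≤ C_j` (`|1 - ζ_j| ≤ 4π|w_j + t|/r`,
`1 - |ζ_j| ≥ π Im w_j/r` for large `r`), `Σ e²|k|² = pois/(1 - ρ²)`, `∫ pois ≤ 3`.  Third:
`Σ e²|k^j|² = pois_j/(1 - |ζ_j|²)`, `f π c_j pois_j ≤ 1`, `∫ p ≤ 3`. -/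
theorem bessel_F {k : ℕ} {c : Fin k → ℝ} (hc : ∀ j, 0 ≤ c j) {w : Fin k → ℂ}
    (hw : ∀ j, 0 < (w j).im) : ∃ (C : ℝ) (r₀ : ℕ), 0 < C ∧ ∀ r : ℕ, r₀ ≤ r →
    ∀ (b : Fin r) (a t : ℝ), 1 ≤ a → a ≤ r → 0 ≤ t → t ≤ 1 →
      |∫ u, a * (LL (rad r a) u).im * Ft b c w t u ∂(νG r) -
        (2 * Real.pi)⁻¹ * ∫ u, dFt b c w t u ∂(νG r)| ≤ C * (1 / a + a / r) := by
  have hpi := Real.pi_pos
  have hA : 0 ≤ ∑ j, 2 * Real.pi * c j * (1 + 4 * (‖w j‖ + 1) / (w j).im) ^ 2 :=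
    Finset.sum_nonneg fun j _ => by have := hc j; positivity
  have hB : 0 ≤ ∑ j, 2 / (Real.pi * (w j).im) :=
    Finset.sum_nonneg fun j _ => by have := hw j; positivity
  refine ⟨3 * (∑ j, 2 * Real.pi * c j * (1 + 4 * (‖w j‖ + 1) / (w j).im) ^ 2) +
    3 * (∑ j, 2 / (Real.pi * (w j).im)) + 1, ⌈∑ j, 2 * Real.pi * (‖w j‖ + 1)⌉₊, by positivity,
    fun r hr b a t ha ha' h0 h1 => ?_⟩
  have hr' : ∀ j, 2 * Real.pi * (‖w j‖ + 1) ≤ r := fun j =>
    (Finset.single_le_sum (f := fun j => 2 * Real.pi * (‖w j‖ + 1)) (fun j _ => by positivity)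
      (Finset.mem_univ j)).trans (Nat.ceil_le.1 hr)
  obtain ⟨r0, r1, -, -, r4, -⟩ := rad_facts ha ha'
  have hρ : ‖((rad r a : ℝ) : ℂ)‖ < 1 := by rwa [Complex.norm_of_nonneg r0]
  have hd := d4d_der b c hw t
  have hpt := d4d_point b hc hw hr' ha ha' h0 h1
  have i1 : Integrable (fun u : GG r => ∑ x, ∑ x', (Rz (rad r a) u x x').re * (Ft b c w t u *
      -∑ j, c j * (Real.pi * (2 * (dR (zt r (w j + t)) (Xab x x') u b b).re)))) (νG r) :=
    integrable_GG (continuous_finsetSum _ fun x _ => continuous_finsetSum _ fun x' _ =>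
      (Complex.continuous_re.comp ((continuous_Rz hρ).matrix_elem x x')).mul
        ((Complex.continuous_re.comp (hd.cont' (Xab x x'))).congr fun u => Complex.ofReal_re _))
  have i2 : Integrable (fun u : GG r => dFt b c w t u) (νG r) :=
    integrable_GG (Continuous.uncurry_left (f := fun s u => dFt b c w s u) t
      (continuous_dFt b c hw))
  have i3 : Integrable (fun u : GG r => pois b (((rad r a : ℝ) : ℂ) • WW u)) (νG r) :=
    integrable_GG (continuous_pois hρ b)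
  have i4 : Integrable (fun u : GG r => 1 + 2 * (sg (rad r a) u).re) (νG r) :=
    integrable_GG (continuous_const.add (continuous_const.mul
      (Complex.continuous_re.comp (der_sg hρ).cont)))
  have h3 : (1 + ‖((rad r a : ℝ) : ℂ)‖ ^ r) / (1 - ‖((rad r a : ℝ) : ℂ)‖ ^ r) ≤ 3 := by
    rw [Complex.norm_of_nonneg r0, div_le_iff₀ (by linarith)]
    linarith
  have j3 := (int_pois_le b.pos hρ b).trans h3
  have j4 := (int_sg_re_le b.pos hρ).trans h3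
  simp only [mul_assoc a]
  rw [integral_const_mul, loop_eq_im b.pos hρ hd, ← mul_assoc, ← integral_const_mul,
    ← integral_const_mul, ← integral_sub (i1.const_mul _) (i2.const_mul _), ← Real.norm_eq_abs]
  refine (norm_integral_le_of_norm_le ((i3.const_mul _).add (i4.const_mul _))
    (ae_of_all _ hpt)).trans ?_
  simp only [Pi.add_apply]
  rw [integral_add (i3.const_mul _) (i4.const_mul _), integral_const_mul, integral_const_mul]
  have ha0 : 0 < a := by linarith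
  generalize (∑ j, 2 * Real.pi * c j * (1 + 4 * (‖w j‖ + 1) / (w j).im) ^ 2) = A at *
  generalize (∑ j, 2 / (Real.pi * (w j).im)) = B at *
  have k1 : 0 ≤ 1 / a := by positivity
  have k2 : 0 ≤ a / r := by positivity
  calc _ ≤ A / a * 3 + B * (a / r) * 3 := by gcongr
    _ = 3 * A * (1 / a) + 3 * B * (a / r) := by ring
    _ ≤ _ := by nlinarith [mul_nonneg hA k2, mul_nonneg hB k1]

end Crest.Agent.R166
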