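import Crest.Agent.R166.CDefs

/-! # Approximation by Poisson kernels -/

set_option autoImplicit false
set_option linter.unusedVariables false
set_option linter.unusedSectionVars false

open MeasureTheory ProbabilityTheory Filter Topology Matrix
open scoped ENNReal

namespace Crest.Agent.R166

/-- `P_η(t) = η/(π(t² + η²))`, `ψ_η = ψ * P_η`.  `(1 + x²)|ψ_η(x) - ψ(x)| ≤ ε/2` for small `η`
(uniform continuity for `|x| ≤ 2R + 1`, `ψ_η(x) ≤ Cη/x²` beyond); Riemann sums: cut `[-R, R]` into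
`k` intervals `I_j` with left ends `u_j`, `c_j = π⁻¹ ∫_{I_j} ψ`, `w_j = u_j + iη`, and
`(1 + x²)|P_η(x - u) - P_η(x - u')| ≤ C(η, R)|u - u'|`. -/
theorem poisson_approx {ψ : ℝ → ℝ} (hc : Continuous ψ) (hK : HasCompactSupport ψ)
    (hp : ∀ x, 0 ≤ ψ x) {ε : ℝ} (hε : 0 < ε) :
    ∃ (k : ℕ) (c : Fin k → ℝ) (w : Fin k → ℂ), (∀ j, 0 ≤ c j) ∧ (∀ j, 0 < (w j).im) ∧
      ∀ x : ℝ, |ψ x - ∑ j, c j * (1 / ((x : ℂ) - w j)).im| ≤ ε / (1 + x ^ 2) := by
  sorry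

end Crest.Agent.R166
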