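import Crest.Agent.R166.D0

/-! # The Laplace functional through one channel -/

set_option autoImplicit false
set_option linter.unusedVariables false
set_option linter.unusedSectionVars false

open MeasureTheory ProbabilityTheory Filter Topology Matrix
open scoped ENNReal

namespace Crest.Agent.R166

/-- `∫ exp (-a t²) dγ(t) = (1 + 2a)^{-1/2}` and independence (`gpi_map_inj`, `integral_fintype_prod`) -/
theorem gauss_laplace {r n : ℕ} (b : Fin r) (h : Fin n → ℝ) (hp : ∀ l, 0 ≤ h l) :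
    ∫ g, Real.exp (-∑ l, (Real.exp (2 * h l) - 1) / 2 * g (b, l) ^ 2) ∂(gpi (Fin r × Fin n)) =
      Real.exp (-∑ l, h l) := by
  sorry

/-- For fixed `p`: `Σ_j c_j Im M_bb(w_j) = Σ_l g_l² ψ̃(x_l)`, both exponents are `≥ 0`, so the two
inner integrals differ by at most `min 1 (η Σ_l 1/(1 + x_l²))`, and
`Σ 1/(1 + x²) ≤ K Im s(iK)` for `K ≥ 1` (`im_sF`); `Im s(iK) ≤ π + 1` off an event of probability
`ε/2` (H0). -/
theorem lap_approx {ι : Type} {F : Filter ι} {n : ι → ℕ} {μ : ∀ i, Measure (Conf (n i))}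
    (hf : IsFam n μ) (h0 : H0 F n μ) {h : ℝ → ℝ} (hc : Continuous h) (hp : ∀ t, 0 ≤ h t)
    {ε : ℝ} (hε : 0 < ε) : ∃ η : ℝ, 0 < η ∧ ∀ (k : ℕ) (c : Fin k → ℝ) (w : Fin k → ℂ),
      (∀ j, 0 ≤ c j) → (∀ j, 0 < (w j).im) →
      (∀ x : ℝ, |(Real.exp (2 * h x) - 1) / 2 - ∑ j, c j * (1 / ((x : ℂ) - w j)).im| ≤
        η / (1 + x ^ 2)) →
      ∀ (r : ℕ) (b : Fin r), ∀ᶠ i in F, |lap (μ i) h - EG (μ i) r w (Fm b c)| ≤ ε := by
  sorry

end Crest.Agent.R166
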