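import Crest.Agent.R166.DDefs

/-! # Coupling: definitions.  Scales: T = M^3 steps, half-width W = M^32, range M^8, R ≥ 8 W -/

set_option autoImplicit false
set_option linter.unusedVariables false
set_option linter.unusedSectionVars false

open MeasureTheory ProbabilityTheory Filter Topology Matrix
open scoped ENNReal BoundedContinuousFunction

namespace Crest.Agent.R166

noncomputable section
open Classical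

/-- squared overlaps of the new and the old eigenvectors -/
def Pm {n : ℕ} (κ : ℝ) (x g : Fin n → ℝ) (j l : Fin n) : ℝ :=
  (g l ^ 2 / (x l - stepX κ x g j) ^ 2) / ∑ l', g l' ^ 2 / (x l' - stepX κ x g j) ^ 2

/-- `(1 + |k|)^{3/2}` -/
def w32 (k : ℝ) : ℝ := (1 + |k|) * √(1 + |k|)

section
variable {R : ℕ}

/-- next label -/
def nxt (j : Fin (2 * R + 1)) : Fin (2 * R + 1) := ⟨min (j + 1) (2 * R), by omega⟩

def chi (M : ℕ) (j : Fin (2 * R + 1)) : ℝ := max 0 (1 - |lab j| / (2 * (M : ℝ) ^ 32))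

def Rig0 (M : ℕ) (x : Fin (2 * R + 1) → ℝ) : Prop :=
  ∀ l, |x l - lab l| ≤ M + |lab l| ^ (1 / 32 : ℝ)

def Glob (M : ℕ) (x : Fin (2 * R + 1) → ℝ) : Prop :=
  StrictMono x ∧ ∀ l, |lab l| + (M : ℝ) ^ 3 ≤ R →
    |x l - lab l| ≤ 2 * (M : ℝ) ^ 3 + M + |lab l| ^ (1 / 32 : ℝ)

def Ctl (M : ℕ) (x y : Fin (2 * R + 1) → ℝ) : Prop :=
  Glob M x ∧ Glob M y ∧ ∀ l, |y l - x l| ≤ 2 * (2 * (M : ℝ) ^ 3 + M + |lab l| ^ (1 / 32 : ℝ))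

def LocRig (m : ℝ) (M : ℕ) (x : Fin (2 * R + 1) → ℝ) (j : Fin (2 * R + 1)) : Prop :=
  ∀ l, |lab l| + (M : ℝ) ^ 3 ≤ R →
    |x l - x j - (lab l - lab j)| ≤ m * √(1 + |lab l - lab j|)

def GGood (m : ℝ) (g : Fin (2 * R + 1) → ℝ) (j : Fin (2 * R + 1)) : Prop :=
  1 / m ≤ g j ^ 2 ∧ 1 / m ≤ g (nxt j) ^ 2 ∧ |∑ l, (g l ^ 2 - 1) / (lab l - lab j)| ≤ m ∧
    ∑ l, (g l ^ 2 + 1) / w32 (lab l - lab j) ≤ m

def Blk (M : ℕ) (g : Fin (2 * R + 1) → ℝ) : Prop :=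
  ∀ j : Fin (2 * R + 1), |lab j| ≤ 2 * (M : ℝ) ^ 32 → ∃ l, |lab l - lab j| ≤ M ∧ 1 / 4 ≤ g l ^ 2

def Sg (M : ℕ) (g : Fin (2 * R + 1) → ℝ) : ℝ :=
  ∑ j : Fin (2 * R + 1), if |lab j| ≤ 2 * (M : ℝ) ^ 32 then ∑ l, g l ^ 2 / w32 (lab l - lab j) else 0

def Out (M : ℕ) (g : Fin (2 * R + 1) → ℝ) : Prop :=
  (∑ l, if (R : ℝ) < |lab l| + (M : ℝ) ^ 3 then g l ^ 2 else 0) ≤ R

/-- localised energy of the difference -/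
def En (M : ℕ) (x y : Fin (2 * R + 1) → ℝ) : ℝ := ∑ j, chi M j * (y j - x j) ^ 2

def badPos (m : ℝ) (M : ℕ) (x : Fin (2 * R + 1) → ℝ) : ℝ :=
  (((Finset.Icc (-(2 * (M : ℤ) ^ 32)) (2 * (M : ℤ) ^ 32)).filter fun u =>
    ¬ PosRig m (M ^ 8) x u).card : ℝ)

def badLab (m : ℝ) (M : ℕ) (x : Fin (2 * R + 1) → ℝ) : ℝ :=
  ((Finset.univ.filter fun j => |lab j| ≤ (M : ℝ) ^ 32 ∧ ¬ LocRig m M x j).card : ℝ)

def badG (m : ℝ) (M : ℕ) (g : Fin (2 * R + 1) → ℝ) : ℝ :=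
  ((Finset.univ.filter fun j => |lab j| ≤ (M : ℝ) ^ 32 ∧ ¬ GGood m g j).card : ℝ)

/-- excess of the gaps over `A` -/
def gapX (A : ℝ) (M : ℕ) (x : Fin (2 * R + 1) → ℝ) : ℝ :=
  ∑ j, if |lab j| ≤ (M : ℝ) ^ 32 then max 0 (x (nxt j) - x j - A) else 0

/-- dissipation at the good labels -/
def Dis (m : ℝ) (M : ℕ) (x y g : Fin (2 * R + 1) → ℝ) : ℝ :=
  ∑ j, if |lab j| ≤ (M : ℝ) ^ 32 ∧ LocRig m M x j ∧ LocRig m M y j ∧ GGood m g j then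
    ((y (nxt j) - x (nxt j)) - (y j - x j)) ^ 2 else 0

def lapI (h : ℝ → ℝ) (M : ℕ) (x : Fin (2 * R + 1) → ℝ) : ℝ :=
  ∫ τ in (-(M : ℝ) ^ 32)..((M : ℝ) ^ 32), lapW h x τ

/-- what is needed from the noise -/
def NoiseOK (M : ℕ) (g : Noise (2 * R + 1)) : Prop :=
  (∀ t l, (g t).1 l ≠ 0 ∧ (g t).2 l ≠ 0) ∧
  (∀ t < M ^ 3, Blk M (g t).1 ∧ Blk M (g t).2 ∧ Out M (g t).1) ∧
  ∑ t ∈ Finset.range (M ^ 3), (Sg M (g t).1 + Sg M (g t).2) ≤ (M : ℝ) ^ 36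

end

end

end Crest.Agent.R166
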