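import Crest.Agent.R166.DC0

/-! # Coupling: secular equation, interlacing, double stochasticity -/

set_option autoImplicit false
set_option linter.unusedVariables false
set_option linter.unusedSectionVars false

open MeasureTheory ProbabilityTheory Filter Topology Matrix
open scoped ENNReal BoundedContinuousFunction

namespace Crest.Agent.R166

section
variable {n : ℕ} {κ : ℝ} {x g : Fin n → ℝ}

theorem DC1_symm (κ : ℝ) (x g : Fin n → ℝ) :
    (Matrix.diagonal x + κ • Matrix.vecMulVec g g).IsSymm := by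
  refine Matrix.IsSymm.ext fun i j => ?_
  by_cases h : i = j
  · subst h; rfl
  · simp [Matrix.diagonal_apply_ne _ h, Matrix.diagonal_apply_ne _ (Ne.symm h),
      Matrix.vecMulVec_apply, mul_comm]

/-- the explicit eigenvectors -/
theorem DC1_core (hκ : κ ≠ 0) (hx : StrictMono x) (hg : ∀ l, g l ≠ 0) :
    ∃ (U : Matrix (Fin n) (Fin n) ℝ) (s : Fin n → ℝ), U * Uᵀ = 1 ∧ Uᵀ * U = 1 ∧
      (∀ j, s j ≠ 0) ∧ (∀ j, s j = ∑ l, g l * U j l) ∧ (∀ j l, x l - stepX κ x g j ≠ 0) ∧
      ∀ j l, U j l = -(κ * s j) * (g l / (x l - stepX κ x g j)) := by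
  obtain ⟨U, h1, h2, h3⟩ := exists_eigenbasis (DC1_symm κ x g)
  have e : ∀ j l, (x l - stepX κ x g j) * U j l = -(κ * ∑ l', g l' * U j l') * g l := by
    intro j l
    have h := congrFun (h3 j) l
    rw [Matrix.add_mulVec, Matrix.smul_mulVec, Pi.add_apply, Matrix.mulVec_diagonal,
      Matrix.vecMulVec_mulVec] at h
    simp only [Pi.smul_apply, smul_eq_mul, dotProduct, MulOpposite.smul_eq_mul_unop,
      MulOpposite.unop_op] at h
    unfold stepX
    linear_combination h
  have hs : ∀ j, ∑ l', g l' * U j l' ≠ 0 := by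
    intro j h0
    have hn : ∑ l, U j l * U j l = 1 := by
      have := congrFun (congrFun h1 j) j
      simpa [Matrix.mul_apply] using this
    obtain ⟨l0, hl0⟩ : ∃ l0, U j l0 ≠ 0 := by
      by_contra hh
      push Not at hh
      simp [hh] at hn
    have e' : ∀ l, (x l - stepX κ x g j) * U j l = 0 := fun l => by rw [e, h0]; ring
    have h4 : x l0 - stepX κ x g j = 0 := (mul_eq_zero.1 (e' l0)).resolve_right hl0
    have h5 : ∀ l, l ≠ l0 → U j l = 0 := fun l hl =>
      (mul_eq_zero.1 (e' l)).resolve_left fun h6 => hl (hx.injective (by linarith))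
    rw [Finset.sum_eq_single l0 (fun l _ hl => by rw [h5 l hl, mul_zero]) (by simp)] at h0
    exact mul_ne_zero (hg l0) hl0 h0
  have hne : ∀ j l, x l - stepX κ x g j ≠ 0 := by
    intro j l h0
    have := e j l
    rw [h0, zero_mul] at this
    exact mul_ne_zero (neg_ne_zero.2 (mul_ne_zero hκ (hs j))) (hg l) this.symm
  refine ⟨U, fun j => ∑ l', g l' * U j l', h1, h2, hs, fun _ => rfl, hne, fun j l => ?_⟩
  have := hne j l
  rw [← mul_div_assoc, eq_div_iff this, ← e, mul_comm]

/-- between two different eigenvalues there is an old point -/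
theorem DC1_sep (hκ : κ ≠ 0) (hx : StrictMono x) (hg : ∀ l, g l ≠ 0) {i j : Fin n} (hij : i < j) :
    ∃ l, stepX κ x g i < x l ∧ x l < stepX κ x g j := by
  obtain ⟨U, s, h1, h2, hs, hs', hne, hU⟩ := DC1_core hκ hx hg
  have hle : stepX κ x g i ≤ stepX κ x g j := evs_mono _ hij.le
  by_contra hh
  push Not at hh
  have h0 : ∑ l, U i l * U j l = 0 := by
    have := congrFun (congrFun h1 i) j
    simpa [Matrix.mul_apply, Matrix.one_apply_ne hij.ne] using this
  have h3 : ∑ l, U i l * U j l = (κ * s i) * (κ * s j) *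
      ∑ l, g l ^ 2 / ((x l - stepX κ x g i) * (x l - stepX κ x g j)) := by
    rw [Finset.mul_sum]
    refine Finset.sum_congr rfl fun l _ => ?_
    have := hne i l
    have := hne j l
    rw [hU i l, hU j l]
    field_simp
  have h4 : 0 < ∑ l, g l ^ 2 / ((x l - stepX κ x g i) * (x l - stepX κ x g j)) := by
    refine Finset.sum_pos (fun l _ => div_pos (by have := hg l; positivity) ?_) ⟨i, Finset.mem_univ _⟩
    rcases lt_or_gt_of_ne (hne i l) with h | h
    · exact mul_pos_of_neg_of_neg h (by linarith)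
    · refine mul_pos h (lt_of_le_of_ne ?_ (hne j l).symm)
      linarith [hh l (by linarith)]
  rw [h0] at h3
  exact mul_ne_zero (mul_ne_zero (mul_ne_zero hκ (hs i)) (mul_ne_zero hκ (hs j))) h4.ne' h3.symm

theorem DC1_idx (hκ : κ ≠ 0) (hx : StrictMono x) (hg : ∀ l, g l ≠ 0) :
    StrictMono fun j => (Finset.univ.filter fun l => x l < stepX κ x g j).card := by
  intro i j hij
  obtain ⟨l, h1, h2⟩ := DC1_sep hκ hx hg hij
  refine Finset.card_lt_card ((Finset.ssubset_iff_of_subset fun a ha => ?_).2 ⟨l, ?_, ?_⟩)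
  · simp only [Finset.mem_filter, Finset.mem_univ, true_and] at ha ⊢
    linarith
  · simpa using h2
  · simpa using h1.le

theorem DC1_Pm (hκ : κ ≠ 0) (hx : StrictMono x) (hg : ∀ l, g l ≠ 0) :
    ∃ U : Matrix (Fin n) (Fin n) ℝ, U * Uᵀ = 1 ∧ Uᵀ * U = 1 ∧
      ∀ j l, Pm κ x g j l = U j l * U j l := by
  obtain ⟨U, s, h1, h2, hs, hs', hne, hU⟩ := DC1_core hκ hx hg
  refine ⟨U, h1, h2, fun j l => ?_⟩
  have e : ∀ l, U j l * U j l = (κ * s j) ^ 2 * (g l ^ 2 / (x l - stepX κ x g j) ^ 2) := by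
    intro l
    rw [hU j l, ← div_pow]
    ring
  have hn : ∑ l, U j l * U j l = 1 := by
    have := congrFun (congrFun h1 j) j
    simpa [Matrix.mul_apply] using this
  simp only [e, ← Finset.mul_sum] at hn
  have hS : ∑ l, g l ^ 2 / (x l - stepX κ x g j) ^ 2 ≠ 0 := fun h0 => by
    rw [h0, mul_zero] at hn; exact zero_ne_one hn
  rw [Pm, e, div_eq_iff hS, mul_right_comm, hn, one_mul]

theorem stepX_ne (hκ : κ ≠ 0) (hx : StrictMono x) (hg : ∀ l, g l ≠ 0) (j l : Fin n) :
    stepX κ x g j ≠ x l := by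
  obtain ⟨U, s, h1, h2, hs, hs', hne, hU⟩ := DC1_core hκ hx hg
  exact (sub_ne_zero.1 (hne j l)).symm

theorem stepX_secular (hκ : κ ≠ 0) (hx : StrictMono x) (hg : ∀ l, g l ≠ 0) (j : Fin n) :
    1 + κ * ∑ l, g l ^ 2 / (x l - stepX κ x g j) = 0 := by
  obtain ⟨U, s, h1, h2, hs, hs', hne, hU⟩ := DC1_core hκ hx hg
  have h3 : s j = -(κ * s j) * ∑ l, g l ^ 2 / (x l - stepX κ x g j) := by
    rw [Finset.mul_sum]
    refine (hs' j).trans (Finset.sum_congr rfl fun l _ => ?_)
    rw [hU j l]
    ring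
  refine mul_left_cancel₀ (hs j) ?_
  linear_combination h3

theorem stepX_strictMono (hκ : κ ≠ 0) (hx : StrictMono x) (hg : ∀ l, g l ≠ 0) :
    StrictMono (stepX κ x g) := by
  intro i j hij
  obtain ⟨l, h1, h2⟩ := DC1_sep hκ hx hg hij
  exact h1.trans h2

theorem stepX_interlace_pos (hκ : 0 < κ) (hx : StrictMono x) (hg : ∀ l, g l ≠ 0) (j l : Fin n) :
    x l < stepX κ x g j ↔ l ≤ j := by
  have hidx := DC1_idx hκ.ne' hx hg
  set idx : Fin n → ℕ := fun j => (Finset.univ.filter fun l => x l < stepX κ x g j).card with hi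
  have hle : ∀ j, idx j ≤ n := fun j => by
    simpa using Finset.card_le_univ (Finset.univ.filter fun l => x l < stepX κ x g j)
  have hpos : ∀ j, 0 < idx j := by
    intro j
    by_contra h0
    have h1 : ∀ l, stepX κ x g j ≤ x l := by
      intro l
      by_contra h2
      exact h0 (Finset.card_pos.2 ⟨l, by simpa using h2⟩)
    have h2 := stepX_secular hκ.ne' hx hg j
    have h3 : 0 ≤ ∑ l, g l ^ 2 / (x l - stepX κ x g j) :=
      Finset.sum_nonneg fun l _ => div_nonneg (sq_nonneg _) (sub_nonneg.2 (h1 l))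
    nlinarith [mul_nonneg hκ.le h3]
  have hf : StrictMono fun j : Fin n =>
      (⟨idx j - 1, by have := hle j; have := hpos j; omega⟩ : Fin n) := by
    intro a b hab
    have h1 : idx a < idx b := hidx hab
    have := hpos a
    simp only [Fin.mk_lt_mk]
    omega
  have h1 : idx j - 1 = j := congrArg Fin.val (hf.apply_eq (x := j))
  have h2 : (l : ℕ) < idx j ↔ x l < stepX κ x g j :=
    Tuple.lt_card_lt_iff_apply_lt_of_monotone hx.monotone
  have := hpos j
  rw [← h2, Fin.le_def]
  omega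

theorem stepX_interlace_neg (hκ : κ < 0) (hx : StrictMono x) (hg : ∀ l, g l ≠ 0) (j l : Fin n) :
    x l < stepX κ x g j ↔ l < j := by
  have hidx := DC1_idx hκ.ne hx hg
  set idx : Fin n → ℕ := fun j => (Finset.univ.filter fun l => x l < stepX κ x g j).card with hi
  have hlt : ∀ j, idx j < n := by
    intro j
    by_contra h0
    have h1 : ∀ l, x l < stepX κ x g j := fun l =>
      (Tuple.lt_card_lt_iff_apply_lt_of_monotone hx.monotone).1
        (lt_of_lt_of_le l.2 (not_lt.1 h0))
    have h2 := stepX_secular hκ.ne hx hg j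
    have h3 : ∑ l, g l ^ 2 / (x l - stepX κ x g j) ≤ 0 :=
      Finset.sum_nonpos fun l _ => div_nonpos_of_nonneg_of_nonpos (sq_nonneg _)
        (sub_nonpos.2 (h1 l).le)
    nlinarith [mul_nonneg_of_nonpos_of_nonpos hκ.le h3]
  have hf : StrictMono fun j : Fin n => (⟨idx j, hlt j⟩ : Fin n) := fun a b hab => hidx hab
  have h1 : idx j = j := congrArg Fin.val (hf.apply_eq (x := j))
  have h2 : (l : ℕ) < idx j ↔ x l < stepX κ x g j :=
    Tuple.lt_card_lt_iff_apply_lt_of_monotone hx.monotone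
  rw [← h2, Fin.lt_def, h1]

theorem Pm_nonneg (κ : ℝ) (x g : Fin n → ℝ) (j l : Fin n) : 0 ≤ Pm κ x g j l := by
  exact div_nonneg (by positivity) (Finset.sum_nonneg fun _ _ => by positivity)

theorem Pm_row (hκ : κ ≠ 0) (hx : StrictMono x) (hg : ∀ l, g l ≠ 0) (j : Fin n) :
    ∑ l, Pm κ x g j l = 1 := by
  obtain ⟨U, h1, h2, h3⟩ := DC1_Pm hκ hx hg
  have := congrFun (congrFun h1 j) j
  simpa [Matrix.mul_apply, h3] using this

theorem Pm_col (hκ : κ ≠ 0) (hx : StrictMono x) (hg : ∀ l, g l ≠ 0) (l : Fin n) :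
    ∑ j, Pm κ x g j l = 1 := by
  obtain ⟨U, h1, h2, h3⟩ := DC1_Pm hκ hx hg
  have := congrFun (congrFun h2 l) l
  simpa [Matrix.mul_apply, h3] using this

theorem continuous_stepX (κ : ℝ) :
    Continuous fun q : (Fin n → ℝ) × (Fin n → ℝ) => stepX κ q.1 q.2 := by
  refine continuous_evs (A := fun q : (Fin n → ℝ) × (Fin n → ℝ) =>
    Matrix.diagonal q.1 + κ • Matrix.vecMulVec q.2 q.2) ?_ fun q => DC1_symm κ q.1 q.2
  exact continuous_fst.matrix_diagonal.add
    ((continuous_snd.matrix_vecMulVec continuous_snd).const_smul κ)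

theorem measurable_chainX (t : ℕ) :
    Measurable fun q : (Fin n → ℝ) × Noise n => chainX q.1 q.2 t := by
  induction t with
  | zero => exact measurable_fst
  | succ t ih =>
    have hg : Measurable fun q : (Fin n → ℝ) × Noise n => q.2 t :=
      (measurable_pi_apply t).comp measurable_snd
    have key : ∀ (κ : ℝ) {a b : (Fin n → ℝ) × Noise n → Fin n → ℝ}, Measurable a → Measurable b →
        Measurable fun q => stepX κ (a q) (b q) := by
      intro κ a b ha hb
      have h1 := (continuous_stepX (n := n) κ).measurable.comp (ha.prodMk hb)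
      exact h1
    simp only [chainX]
    exact key (-1) (key 1 ih hg.fst) hg.snd

end

end Crest.Agent.R166
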