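import Crest.Agent.R166.DC0

/-! # Coupling: the noise is good with high probability -/

set_option autoImplicit false
set_option linter.unusedVariables false
set_option linter.unusedSectionVars false

open MeasureTheory ProbabilityTheory Filter Topology Matrix
open scoped ENNReal BoundedContinuousFunction

namespace Crest.Agent.R166

/-- Markov inequality for the number of bad events (no measurability needed) -/
theorem markov_count {Ω K : Type} [MeasurableSpace Ω] (μ : Measure Ω) (s : Finset K)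
    (S : K → Set Ω) {δ a : ℝ} (hδ : 0 ≤ δ) (ha : 0 < a) (h : ∀ k ∈ s, μ (S k) ≤ ENNReal.ofReal δ) :
    μ {ω | a < ((by classical exact (s.filter fun k => ω ∈ S k).card : ℕ) : ℝ)} ≤
      ENNReal.ofReal (s.card * δ / a) := by
  classical
  set f : Ω → ℝ≥0∞ := fun ω => ∑ k ∈ s, (toMeasurable μ (S k)).indicator 1 ω with hf
  have hm : Measurable f := Finset.measurable_sum _ fun k _ =>
    measurable_one.indicator (measurableSet_toMeasurable _ _)
  have h1 : ∫⁻ ω, f ω ∂μ ≤ ENNReal.ofReal (s.card * δ) := by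
    rw [hf, lintegral_finsetSum _ fun k _ =>
      measurable_one.indicator (measurableSet_toMeasurable _ _), ENNReal.ofReal_mul (Nat.cast_nonneg _),
      ENNReal.ofReal_natCast, ← nsmul_eq_mul]
    refine Finset.sum_le_card_nsmul _ _ _ fun k hk => ?_
    rw [lintegral_indicator_one (measurableSet_toMeasurable _ _), measure_toMeasurable]
    exact h k hk
  rw [ENNReal.ofReal_div_of_pos ha]
  refine le_trans (measure_mono fun ω hω => ?_) ((meas_ge_le_lintegral_div (ε := ENNReal.ofReal a)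
    hm.aemeasurable (ENNReal.ofReal_pos.2 ha).ne' ENNReal.ofReal_ne_top).trans
      (ENNReal.div_le_div_right h1 _))
  refine (ENNReal.ofReal_le_ofReal (le_of_lt hω)).trans ?_
  rw [ENNReal.ofReal_natCast, Finset.card_filter, Nat.cast_sum]
  refine Finset.sum_le_sum fun k _ => ?_
  split_ifs with hk
  · rw [Set.indicator_of_mem (subset_toMeasurable _ _ hk)]
    simp
  · simp

theorem noise_fst (n t : ℕ) : MeasurePreserving (fun g : Noise n => (g t).1) (noise n) (gpi (Fin n)) := by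
  exact measurePreserving_fst.comp
    (measurePreserving_eval_infinitePi (fun _ : ℕ => (gpi (Fin n)).prod (gpi (Fin n))) t)

theorem noise_snd (n t : ℕ) : MeasurePreserving (fun g : Noise n => (g t).2) (noise n) (gpi (Fin n)) := by
  exact measurePreserving_snd.comp
    (measurePreserving_eval_infinitePi (fun _ : ℕ => (gpi (Fin n)).prod (gpi (Fin n))) t)

theorem dc9_pre {Ω Ω' : Type} [MeasurableSpace Ω] [MeasurableSpace Ω'] {μ : Measure Ω}
    {ν : Measure Ω'} {φ : Ω → Ω'} (h : MeasurePreserving φ μ ν) (s : Set Ω') :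
    μ (φ ⁻¹' s) ≤ ν s := by
  rw [← h.map_eq]
  exact Measure.le_map_apply h.aemeasurable s

theorem dc9_int {Ω Ω' : Type} [MeasurableSpace Ω] [MeasurableSpace Ω'] {μ : Measure Ω}
    {ν : Measure Ω'} {φ : Ω → Ω'} (h : MeasurePreserving φ μ ν) {f : Ω' → ℝ}
    (hf : Integrable f ν) : Integrable (fun x => f (φ x)) μ ∧ ∫ x, f (φ x) ∂μ = ∫ y, f y ∂ν := by
  refine ⟨h.integrable_comp_of_integrable hf, ?_⟩
  rw [← h.map_eq] at hf ⊢
  exact (integral_map h.aemeasurable hf.aestronglyMeasurable).symm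

theorem dc9_markov {Ω : Type} [MeasurableSpace Ω] {μ : Measure Ω} [IsFiniteMeasure μ] {f : Ω → ℝ}
    (h0 : ∀ x, 0 ≤ f x) (hi : Integrable f μ) {a B : ℝ} (ha : 0 < a) (hB : ∫ x, f x ∂μ ≤ B) :
    μ {x | a < f x} ≤ ENNReal.ofReal (B / a) := by
  have h1 := mul_meas_ge_le_integral_of_nonneg (Eventually.of_forall h0) hi a
  have h2 : {x | a < f x} ⊆ {x | a ≤ f x} := fun x (hx : a < f x) => hx.le
  refine (measure_mono h2).trans ?_
  rw [← ofReal_measureReal]
  refine ENNReal.ofReal_le_ofReal ?_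
  rw [le_div_iff₀ ha, mul_comm]
  exact h1.trans hB

theorem dc9_sq {I : Type} [Fintype I] [DecidableEq I] (a : I → ℝ) :
    Integrable (fun g : I → ℝ => ∑ l, a l * g l ^ 2) (gpi I) ∧
      ∫ g, ∑ l, a l * g l ^ 2 ∂(gpi I) = ∑ l, a l := by
  have e : (fun g : I → ℝ => ∑ l, a l * g l ^ 2) = fun g => MvPolynomial.eval g
      (∑ l, MvPolynomial.C (a l) * (MvPolynomial.X l * MvPolynomial.X l) : MvPolynomial I ℝ) := by
    funext g
    simp [sq]
  rw [e]
  refine ⟨g2_int _, ?_⟩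
  rw [← g2E_apply, map_sum]
  simp [g2E_C_mul, g2E_XX]

theorem dc9_var {I : Type} [Fintype I] [DecidableEq I] (a : I → ℝ) :
    Integrable (fun g : I → ℝ => (∑ l, a l * (g l ^ 2 - 1)) ^ 2) (gpi I) ∧
      ∫ g, (∑ l, a l * (g l ^ 2 - 1)) ^ 2 ∂(gpi I) = 2 * ∑ l, a l ^ 2 := by
  have e : (fun g : I → ℝ => (∑ l, a l * (g l ^ 2 - 1)) ^ 2) = fun g => MvPolynomial.eval g
      (∑ l, ∑ l', MvPolynomial.C (a l * a l') * (g2xi l l * g2xi l' l') : MvPolynomial I ℝ) := by
    funext g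
    simp only [sq, Finset.sum_mul_sum, map_sum, map_mul, MvPolynomial.eval_C, g2xi, map_sub,
      MvPolynomial.eval_X, if_true]
    refine Finset.sum_congr rfl fun l _ => Finset.sum_congr rfl fun l' _ => by ring
  rw [e]
  refine ⟨g2_int _, ?_⟩
  rw [← g2E_apply, map_sum, Finset.mul_sum]
  refine Finset.sum_congr rfl fun l _ => ?_
  rw [map_sum, Finset.sum_eq_single l]
  · rw [g2E_C_mul, g2E_xi_xi]
    simp only [if_true]
    ring
  · intro l' _ hl
    rw [g2E_C_mul, g2E_xi_xi]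
    simp [hl.symm]
  · simp

theorem dc9_w32_pos (k : ℝ) : 0 < w32 k := by
  unfold w32
  positivity

theorem dc9_w32_sum : ∃ C : ℝ, 0 < C ∧ ∀ (R : ℕ) (j : Fin (2 * R + 1)),
    ∑ l : Fin (2 * R + 1), 1 / w32 (lab l - lab j) ≤ C := by
  have h1 : Summable fun n : ℕ => 1 / w32 n := by
    have h := (summable_nat_add_iff 1).2 (Real.summable_one_div_nat_rpow.2 (by norm_num : (1 : ℝ) < 3 / 2))
    refine h.congr fun n => ?_
    have h0 : (0 : ℝ) < 1 + n := by positivity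
    rw [w32, Nat.abs_cast, Real.sqrt_eq_rpow, show (3 / 2 : ℝ) = 1 + 1 / 2 by norm_num, Nat.cast_add,
      Nat.cast_one, add_comm (n : ℝ), Real.rpow_add h0, Real.rpow_one]
  have h2 : Summable fun k : ℤ => 1 / w32 k := by
    refine Summable.of_nat_of_neg (by simpa using h1) ?_
    simpa [w32] using h1
  refine ⟨∑' k : ℤ, 1 / w32 k + 1, ?_, fun R j => ?_⟩
  · have : 0 ≤ ∑' k : ℤ, 1 / w32 k := tsum_nonneg fun k => (one_div_pos.2 (dc9_w32_pos _)).le
    linarith
  · have h3 := h2.sum_le_tsum (Finset.univ.image fun l : Fin (2 * R + 1) => ((l : ℕ) : ℤ) - (j : ℕ))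
      fun k _ => (one_div_pos.2 (dc9_w32_pos _)).le
    rw [Finset.sum_image fun l _ l' _ e => Fin.ext (by simpa using e)] at h3
    refine le_trans (le_of_eq (Finset.sum_congr rfl fun l _ => ?_)) (h3.trans (by linarith))
    simp [lab]

theorem dc9_inv_sq {R : ℕ} (l j : Fin (2 * R + 1)) :
    (1 / (lab l - lab j)) ^ 2 ≤ 4 * (1 / w32 (lab l - lab j)) := by
  rcases eq_or_ne l j with rfl | h
  · have := dc9_w32_pos (lab l - lab l)
    rw [sub_self] at this ⊢
    rw [div_zero, zero_pow two_ne_zero]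
    positivity
  · have h1 : 1 ≤ |lab l - lab j| := by
      have e : lab l - lab j = ((((l : ℕ) : ℤ) - (j : ℕ) : ℤ) : ℝ) := by simp [lab]
      rw [e, ← Int.cast_abs]
      have : ((l : ℕ) : ℤ) - (j : ℕ) ≠ 0 := fun e => h (Fin.ext (by omega))
      exact_mod_cast Int.one_le_abs this
    generalize lab l - lab j = k at h1
    have h2 : √(1 + |k|) ≤ 1 + |k| := Real.sqrt_le_iff.2 ⟨by positivity, by nlinarith⟩
    have h3 : w32 k ≤ 4 * k ^ 2 := by
      rw [w32, ← sq_abs]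
      nlinarith
    have h4 := dc9_w32_pos k
    rw [div_pow, one_pow, mul_one_div, div_le_div_iff₀ (by linarith) h4]
    linarith

theorem dc9_small {δ : ℝ} (hδ : 0 ≤ δ) :
    gaussianReal 0 1 {x : ℝ | x ^ 2 < δ ^ 2} ≤ ENNReal.ofReal δ := by
  have h1 : {x : ℝ | x ^ 2 < δ ^ 2} ⊆ Set.Icc (-δ) δ := fun x hx =>
    abs_le.1 (abs_le_of_sq_le_sq (le_of_lt hx) hδ)
  refine (measure_mono h1).trans ?_
  rw [gaussianReal_apply _ one_ne_zero]
  have h2 : ∀ x, gaussianPDF 0 1 x ≤ ENNReal.ofReal (1 / 2) := fun x => by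
    refine ENNReal.ofReal_le_ofReal ?_
    rw [gaussianPDFReal]
    have h3 : (2 : ℝ) ≤ √(2 * Real.pi * (1 : NNReal)) := by
      refine Real.le_sqrt_of_sq_le ?_
      have := Real.two_le_pi
      push_cast
      linarith
    have h4 : Real.exp (-(x - 0) ^ 2 / (2 * (1 : NNReal))) ≤ 1 := by
      refine Real.exp_le_one_iff.2 (div_nonpos_of_nonpos_of_nonneg ?_ (by positivity))
      exact neg_nonpos.2 (sq_nonneg _)
    calc _ ≤ (2 : ℝ)⁻¹ * 1 := by gcongr
      _ = 1 / 2 := by norm_num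
  refine (lintegral_mono h2).trans ?_
  rw [setLIntegral_const, Real.volume_Icc, ← ENNReal.ofReal_mul (by norm_num)]
  exact ENNReal.ofReal_le_ofReal (by linarith)

theorem dc9_eval {I : Type} [Fintype I] (l : I) :
    MeasurePreserving (fun g : I → ℝ => g l) (gpi I) (gaussianReal 0 1) :=
  measurePreserving_eval (fun _ : I => gaussianReal 0 1) l

theorem dc9_card_mid (R N : ℕ) :
    (Finset.univ.filter fun j : Fin (2 * R + 1) => |lab j| ≤ (N : ℝ)).card ≤ 2 * N + 1 := by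
  have h : (Finset.Icc (-(N : ℤ)) N).card = 2 * N + 1 := by
    rw [Int.card_Icc]
    omega
  rw [← h]
  refine Finset.card_le_card_of_injOn (fun j => ((j : ℕ) : ℤ) - R) (fun j hj => ?_)
    fun l _ l' _ e => Fin.ext (by simpa using e)
  have h1 := abs_le.1 (Finset.mem_filter.1 (Finset.mem_coe.1 hj)).2
  rw [lab] at h1
  refine Finset.mem_coe.2 (Finset.mem_Icc.2 ⟨?_, ?_⟩)
  · exact_mod_cast h1.1
  · exact_mod_cast h1.2

theorem dc9_card_out (R N : ℕ) :
    (Finset.univ.filter fun j : Fin (2 * R + 1) => (R : ℝ) < |lab j| + N).card ≤ 2 * N := by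
  have h : (Finset.range N ∪ Finset.Ioc (2 * R - N) (2 * R)).card ≤ 2 * N := by
    refine (Finset.card_union_le _ _).trans ?_
    rw [Finset.card_range, Nat.card_Ioc]
    omega
  refine le_trans (Finset.card_le_card_of_injOn (fun j => (j : ℕ)) (fun j hj => ?_)
    fun l _ l' _ e => Fin.ext e) h
  have h1 := (Finset.mem_filter.1 (Finset.mem_coe.1 hj)).2
  have h2 := j.2
  rw [lab] at h1
  have h3 : (R : ℤ) < |((j : ℕ) : ℤ) - R| + N := by exact_mod_cast h1
  simp only [Finset.mem_coe, Finset.mem_union, Finset.mem_range, Finset.mem_Ioc]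
  rcases abs_cases (((j : ℕ) : ℤ) - R) with h4 | h4 <;> omega

theorem dc9_blk {M R : ℕ} (hR : 2 * M ^ 32 + M ≤ R) :
    gpi (Fin (2 * R + 1)) {g | ¬ Blk M g} ≤ ENNReal.ofReal ((4 * M ^ 32 + 1) * (1 / 2) ^ M) := by
  classical
  set S := Finset.univ.filter fun j : Fin (2 * R + 1) => |lab j| ≤ ((2 * M ^ 32 : ℕ) : ℝ) with hS
  have h1 : {g : Fin (2 * R + 1) → ℝ | ¬ Blk M g} ⊆
      ⋃ j ∈ S, {g | ∀ l, |lab l - lab j| ≤ M → g l ^ 2 < (1 / 2) ^ 2} := by
    intro g hg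
    simp only [Blk, Set.mem_ofPred_eq, not_forall, not_exists, not_and, not_le] at hg
    obtain ⟨j, hj, hg⟩ := hg
    refine Set.mem_biUnion (x := j) (Finset.mem_filter.2 ⟨Finset.mem_univ _, by exact_mod_cast hj⟩)
      fun l hl => ?_
    have := hg l hl
    linarith
  have h2 : ∀ j ∈ S, gpi (Fin (2 * R + 1))
      {g | ∀ l, |lab l - lab j| ≤ M → g l ^ 2 < (1 / 2) ^ 2} ≤ ENNReal.ofReal ((1 / 2) ^ M) := by
    intro j hj
    have hj1 := (abs_le.1 (Finset.mem_filter.1 hj).2).2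
    rw [lab] at hj1
    have hj2 : ((j : ℕ) : ℤ) - R ≤ ((2 * M ^ 32 : ℕ) : ℤ) := by exact_mod_cast hj1
    set ι : Fin M → Fin (2 * R + 1) := fun a => ⟨j + a, by have := a.2; omega⟩ with hι
    have hinj : Function.Injective ι := fun a a' e => Fin.ext (by simpa [hι] using e)
    have hmp : MeasurePreserving (fun (g : Fin (2 * R + 1) → ℝ) a => g (ι a)) (gpi _) (gpi _) :=
      ⟨by fun_prop, gpi_map_inj ι hinj⟩
    refine le_trans (measure_mono fun g hg => ?_) ((dc9_pre hmp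
      (Set.univ.pi fun _ => {x : ℝ | x ^ 2 < (1 / 2) ^ 2})).trans ?_)
    · intro a _
      refine hg (ι a) ?_
      have : (a : ℝ) ≤ M := by exact_mod_cast a.2.le
      simp [hι, lab, this]
    · rw [gpi, Measure.pi_pi, Finset.prod_const, Finset.card_univ, Fintype.card_fin,
        ENNReal.ofReal_pow (by norm_num)]
      exact pow_le_pow_left' (dc9_small (by norm_num)) _
  refine (measure_mono h1).trans ((measure_biUnion_finset_le _ _).trans
    ((Finset.sum_le_card_nsmul _ _ _ h2).trans ?_))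
  rw [nsmul_eq_mul, ← ENNReal.ofReal_natCast, ← ENNReal.ofReal_mul (Nat.cast_nonneg _)]
  refine ENNReal.ofReal_le_ofReal (mul_le_mul_of_nonneg_right ?_ (by positivity))
  have h3 : S.card ≤ 2 * (2 * M ^ 32) + 1 := dc9_card_mid R _
  have h4 : (S.card : ℝ) ≤ 2 * (2 * M ^ 32) + 1 := by exact_mod_cast h3
  linarith

theorem dc9_out {M R : ℕ} (hR : 0 < R) :
    gpi (Fin (2 * R + 1)) {g | ¬ Out M g} ≤ ENNReal.ofReal (2 * M ^ 3 / R) := by
  classical
  obtain ⟨h1, h2⟩ := dc9_sq fun l : Fin (2 * R + 1) =>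
    if (R : ℝ) < |lab l| + (M : ℝ) ^ 3 then (1 : ℝ) else 0
  refine le_trans (measure_mono fun g hg => ?_) (dc9_markov (a := R) (fun g => Finset.sum_nonneg
    fun l _ => mul_nonneg (by split_ifs <;> norm_num) (sq_nonneg _)) h1 (by exact_mod_cast hR) ?_)
  · simpa [Out] using hg
  · rw [h2, Finset.sum_boole]
    have := dc9_card_out R (M ^ 3)
    exact_mod_cast this

theorem dc9_Sg {C : ℝ} (hC0 : 0 < C) (hC : ∀ (R : ℕ) (j : Fin (2 * R + 1)),
    ∑ l : Fin (2 * R + 1), 1 / w32 (lab l - lab j) ≤ C) (M R : ℕ) :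
    (∀ g : Fin (2 * R + 1) → ℝ, 0 ≤ Sg M g) ∧ Integrable (Sg M) (gpi (Fin (2 * R + 1))) ∧
      ∫ g, Sg M g ∂(gpi (Fin (2 * R + 1))) ≤ (4 * M ^ 32 + 1) * C := by
  classical
  set S := Finset.univ.filter fun j : Fin (2 * R + 1) => |lab j| ≤ ((2 * M ^ 32 : ℕ) : ℝ) with hS
  have e : Sg (R := R) M = fun g => ∑ l, (∑ j ∈ S, 1 / w32 (lab l - lab j)) * g l ^ 2 := by
    funext g
    simp only [Finset.sum_mul]
    rw [Finset.sum_comm, hS, Finset.sum_filter, Sg]
    refine Finset.sum_congr rfl fun j _ => ?_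
    push_cast
    split_ifs
    · exact Finset.sum_congr rfl fun l _ => by ring
    · rfl
  rw [e]
  obtain ⟨h1, h2⟩ := dc9_sq fun l : Fin (2 * R + 1) => ∑ j ∈ S, 1 / w32 (lab l - lab j)
  refine ⟨fun g => Finset.sum_nonneg fun l _ => mul_nonneg (Finset.sum_nonneg fun j _ =>
    (one_div_pos.2 (dc9_w32_pos _)).le) (sq_nonneg _), h1, ?_⟩
  rw [h2, Finset.sum_comm]
  refine (Finset.sum_le_card_nsmul _ _ _ fun j _ => hC R j).trans ?_
  rw [nsmul_eq_mul]
  have h3 : S.card ≤ 2 * (2 * M ^ 32) + 1 := dc9_card_mid R _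
  have h4 : (S.card : ℝ) ≤ 2 * (2 * M ^ 32) + 1 := by exact_mod_cast h3
  exact mul_le_mul_of_nonneg_right (by linarith) hC0.le

theorem dc9_zero (n : ℕ) : noise n {g | ¬ ∀ t l, (g t).1 l ≠ 0 ∧ (g t).2 l ≠ 0} = 0 := by
  have h0 : gaussianReal 0 1 {0} = 0 := by
    have := nullSingletonClass_gaussianReal (μ := 0) (v := 1) one_ne_zero
    exact measure_singleton 0
  change ∀ᵐ g ∂(noise n), ∀ t l, (g t).1 l ≠ 0 ∧ (g t).2 l ≠ 0
  rw [ae_all_iff]
  intro t
  rw [ae_all_iff]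
  intro l
  have h1 := dc9_pre ((dc9_eval l).comp (noise_fst n t)) {0}
  have h2 := dc9_pre ((dc9_eval l).comp (noise_snd n t)) {0}
  rw [h0, nonpos_iff_eq_zero] at h1 h2
  exact Eventually.and (measure_eq_zero_iff_ae_notMem.1 h1) (measure_eq_zero_iff_ae_notMem.1 h2)

theorem noiseOK_whp {ε : ℝ} (hε : 0 < ε) : ∀ᶠ M : ℕ in atTop, ∀ᶠ R : ℕ in atTop,
    noise (2 * R + 1) {g | ¬ NoiseOK M g} ≤ ENNReal.ofReal ε := by
  obtain ⟨C, hC0, hC⟩ := dc9_w32_sum
  have t1 : Tendsto (fun M : ℕ => 10 * ((M : ℝ) ^ 35 * (1 / 2) ^ M)) atTop (𝓝 (10 * 0)) :=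
    (tendsto_pow_const_mul_const_pow_of_abs_lt_one 35 (by norm_num [abs_of_pos])).const_mul _
  have t2 : Tendsto (fun M : ℕ => 10 * C / M) atTop (𝓝 0) :=
    tendsto_const_div_atTop_nhds_zero_nat _
  rw [mul_zero] at t1
  have hε3 : 0 < ε / 3 := by positivity
  filter_upwards [t1.eventually (gt_mem_nhds hε3), t2.eventually (gt_mem_nhds hε3),
    eventually_ge_atTop 1] with M m1 m2 hM
  have t3 : Tendsto (fun R : ℕ => (M : ℝ) ^ 3 * (2 * M ^ 3) / R) atTop (𝓝 0) :=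
    tendsto_const_div_atTop_nhds_zero_nat _
  filter_upwards [t3.eventually (gt_mem_nhds hε3), eventually_ge_atTop (2 * M ^ 32 + M)]
    with R r1 hR
  have hM1 : (1 : ℝ) ≤ M := by exact_mod_cast hM
  have hM32 : (1 : ℝ) ≤ (M : ℝ) ^ 32 := one_le_pow₀ hM1
  set B := (4 * (M : ℝ) ^ 32 + 1) * (1 / 2) ^ M with hB
  set O := 2 * (M : ℝ) ^ 3 / R with hO
  have hB0 : 0 ≤ B := by positivity
  have hO0 : 0 ≤ O := by positivity
  have h1 : {g : Noise (2 * R + 1) | ¬ NoiseOK M g} ⊆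
      {g | ¬ ∀ t l, (g t).1 l ≠ 0 ∧ (g t).2 l ≠ 0} ∪ ((⋃ t ∈ Finset.range (M ^ 3),
        ((fun g => (g t).1) ⁻¹' {g | ¬ Blk M g} ∪ (fun g => (g t).2) ⁻¹' {g | ¬ Blk M g} ∪
          (fun g => (g t).1) ⁻¹' {g | ¬ Out M g})) ∪
        {g | (M : ℝ) ^ 36 < ∑ t ∈ Finset.range (M ^ 3), (Sg M (g t).1 + Sg M (g t).2)}) := by
    intro g hg
    by_contra hcon
    simp only [Set.mem_union, Set.mem_ofPred_eq, Set.mem_iUnion, Set.mem_preimage, not_or, not_not,
      not_exists, not_lt, Finset.mem_range] at hcon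
    exact hg ⟨hcon.1, fun t ht => ⟨(hcon.2.1 t ht).1.1, (hcon.2.1 t ht).1.2, (hcon.2.1 t ht).2⟩,
      hcon.2.2⟩
  have h2 : noise (2 * R + 1) (⋃ t ∈ Finset.range (M ^ 3),
      ((fun g => (g t).1) ⁻¹' {g | ¬ Blk M g} ∪ (fun g => (g t).2) ⁻¹' {g | ¬ Blk M g} ∪
        (fun g => (g t).1) ⁻¹' {g | ¬ Out M g})) ≤ ENNReal.ofReal (M ^ 3 * (B + B + O)) := by
    refine (measure_biUnion_finset_le _ _).trans ((Finset.sum_le_card_nsmul _ _
      (ENNReal.ofReal (B + B + O)) fun t _ => ?_).trans ?_)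
    · rw [ENNReal.ofReal_add (by positivity) hO0, ENNReal.ofReal_add hB0 hB0]
      refine (measure_union_le _ _).trans (add_le_add ((measure_union_le _ _).trans (add_le_add
        ((dc9_pre (noise_fst _ t) _).trans (dc9_blk hR))
        ((dc9_pre (noise_snd _ t) _).trans (dc9_blk hR))))
        ((dc9_pre (noise_fst _ t) _).trans (dc9_out (by omega))))
    · rw [Finset.card_range, nsmul_eq_mul, ← ENNReal.ofReal_natCast,
        ← ENNReal.ofReal_mul (Nat.cast_nonneg _), Nat.cast_pow]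
  obtain ⟨s0, s1, s2⟩ := dc9_Sg hC0 hC M R
  have h3 : noise (2 * R + 1)
      {g | (M : ℝ) ^ 36 < ∑ t ∈ Finset.range (M ^ 3), (Sg M (g t).1 + Sg M (g t).2)} ≤
      ENNReal.ofReal (M ^ 3 * (2 * ((4 * M ^ 32 + 1) * C)) / M ^ 36) := by
    have hi : ∀ t, Integrable (fun g : Noise (2 * R + 1) => Sg M (g t).1 + Sg M (g t).2) (noise _) :=
      fun t => (dc9_int (noise_fst _ t) s1).1.add (dc9_int (noise_snd _ t) s1).1
    refine dc9_markov (fun g => Finset.sum_nonneg fun t _ => add_nonneg (s0 _) (s0 _))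
      (integrable_finsetSum _ fun t _ => hi t) (by positivity) ?_
    rw [integral_finsetSum _ fun t _ => hi t]
    refine (Finset.sum_le_card_nsmul _ _ (2 * ((4 * M ^ 32 + 1) * C)) fun t _ => ?_).trans ?_
    · rw [integral_add (dc9_int (noise_fst _ t) s1).1 (dc9_int (noise_snd _ t) s1).1,
        (dc9_int (noise_fst _ t) s1).2, (dc9_int (noise_snd _ t) s1).2]
      linarith
    · rw [Finset.card_range, nsmul_eq_mul, Nat.cast_pow]
  refine (measure_mono h1).trans ((measure_union_le _ _).trans ?_)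
  rw [dc9_zero, zero_add]
  refine (measure_union_le _ _).trans ((add_le_add h2 h3).trans ?_)
  rw [← ENNReal.ofReal_add (by positivity) (by positivity)]
  refine ENNReal.ofReal_le_ofReal ?_
  have a1 : (M : ℝ) ^ 3 * (B + B) ≤ 10 * ((M : ℝ) ^ 35 * (1 / 2) ^ M) :=
    calc (M : ℝ) ^ 3 * (B + B) = 2 * (M : ℝ) ^ 3 * (4 * M ^ 32 + 1) * (1 / 2) ^ M := by
          rw [hB]; ring
      _ ≤ 2 * (M : ℝ) ^ 3 * (4 * M ^ 32 + M ^ 32) * (1 / 2) ^ M := by gcongr
      _ = _ := by ring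
  have a2 : (M : ℝ) ^ 3 * O = M ^ 3 * (2 * M ^ 3) / R := by rw [hO]; ring
  have a3 : (M : ℝ) ^ 3 * (2 * ((4 * M ^ 32 + 1) * C)) / M ^ 36 ≤ 10 * C / M :=
    calc _ ≤ (M : ℝ) ^ 3 * (2 * ((4 * M ^ 32 + M ^ 32) * C)) / M ^ 36 := by gcongr
      _ = _ := by field_simp; ring
  linarith

theorem gGood_whp {ε : ℝ} (hε : 0 < ε) : ∃ m : ℝ, ∀ (R : ℕ) (j : Fin (2 * R + 1)),
    gpi (Fin (2 * R + 1)) {g | ¬ GGood m g j} ≤ ENNReal.ofReal ε := by
  obtain ⟨C, hC0, hC⟩ := dc9_w32_sum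
  set s := max 1 ((2 + 10 * C) / ε) with hs
  have hs1 : 1 ≤ s := le_max_left _ _
  have hs0 : 0 < s := by linarith
  have hs2 : (2 + 10 * C) / s ≤ ε := by
    rw [div_le_iff₀ hs0, mul_comm ε, ← div_le_iff₀ hε]
    exact le_max_right _ _
  refine ⟨s ^ 2, fun R j => ?_⟩
  have h1 : {g : Fin (2 * R + 1) → ℝ | ¬ GGood (s ^ 2) g j} ⊆
      ((fun g => g j) ⁻¹' {x | x ^ 2 < (1 / s) ^ 2} ∪ (fun g => g (nxt j)) ⁻¹' {x | x ^ 2 < (1 / s) ^ 2}) ∪
      ({g | s < (∑ l, 1 / (lab l - lab j) * (g l ^ 2 - 1)) ^ 2} ∪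
        {g | s < ∑ l, 1 / w32 (lab l - lab j) * g l ^ 2 +
          ∑ l : Fin (2 * R + 1), 1 / w32 (lab l - lab j)}) := by
    intro g hg
    by_contra hcon
    simp only [Set.mem_union, Set.mem_ofPred_eq, Set.mem_preimage, not_or, not_lt, div_pow,
      one_pow] at hcon
    have hss : s ≤ s ^ 2 := by nlinarith
    refine hg ⟨hcon.1.1, hcon.1.2, ?_, ?_⟩
    · have e : ∑ l, (g l ^ 2 - 1) / (lab l - lab j) = ∑ l, 1 / (lab l - lab j) * (g l ^ 2 - 1) :=
        Finset.sum_congr rfl fun l _ => by ring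
      rw [e]
      refine abs_le_of_sq_le_sq (hcon.2.1.trans (hss.trans ?_)) (by positivity)
      nlinarith
    · refine le_trans (le_of_eq ?_) (hcon.2.2.trans hss)
      rw [← Finset.sum_add_distrib]
      exact Finset.sum_congr rfl fun l _ => by ring
  have hw : ∀ l : Fin (2 * R + 1), 0 ≤ 1 / w32 (lab l - lab j) := fun l =>
    (one_div_pos.2 (dc9_w32_pos _)).le
  have h2 := fun l : Fin (2 * R + 1) =>
    (dc9_pre (dc9_eval l) _).trans (dc9_small (one_div_pos.2 hs0).le)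
  obtain ⟨v1, v2⟩ := dc9_var fun l : Fin (2 * R + 1) => 1 / (lab l - lab j)
  have h3 := dc9_markov (B := 8 * C) (fun g => sq_nonneg _) v1 hs0 (by
    have := Finset.sum_le_sum fun l (_ : l ∈ Finset.univ) => dc9_inv_sq l j
    rw [← Finset.mul_sum] at this
    have := hC R j
    linarith)
  obtain ⟨u1, u2⟩ := dc9_sq fun l : Fin (2 * R + 1) => 1 / w32 (lab l - lab j)
  have h4 := dc9_markov (B := 2 * C) (f := fun g : Fin (2 * R + 1) → ℝ =>
      ∑ l, 1 / w32 (lab l - lab j) * g l ^ 2 + ∑ l : Fin (2 * R + 1), 1 / w32 (lab l - lab j))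
    (fun g => add_nonneg (Finset.sum_nonneg fun l _ => mul_nonneg (hw l) (sq_nonneg _))
      (Finset.sum_nonneg fun l _ => hw l)) (u1.add (integrable_const _)) hs0 (by
    rw [integral_add u1 (integrable_const _), u2, integral_const, probReal_univ, one_smul]
    have := hC R j
    linarith)
  refine (measure_mono h1).trans ((measure_union_le _ _).trans ((add_le_add
    ((measure_union_le _ _).trans (add_le_add (h2 j) (h2 (nxt j))))
    ((measure_union_le _ _).trans (add_le_add h3 h4))).trans ?_))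
  rw [← ENNReal.ofReal_add (by positivity) (by positivity),
    ← ENNReal.ofReal_add (by positivity) (by positivity),
    ← ENNReal.ofReal_add (by positivity) (by positivity)]
  refine ENNReal.ofReal_le_ofReal (le_trans (le_of_eq ?_) hs2)
  ring

theorem badG_whp {ε : ℝ} (hε : 0 < ε) : ∃ m : ℝ, ∀ M : ℕ, 1 ≤ M → ∀ R : ℕ,
    noise (2 * R + 1) {g | ε * (M : ℝ) ^ 35 < ∑ t ∈ Finset.range (M ^ 3), badG m M (g t).1} ≤
      ENNReal.ofReal ε := by
  classical
  obtain ⟨m, hm⟩ := gGood_whp (ε := ε ^ 2 / 3) (by positivity)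
  refine ⟨m, fun M hM R => ?_⟩
  have hM1 : (1 : ℝ) ≤ M := by exact_mod_cast hM
  have hM32 : (1 : ℝ) ≤ (M : ℝ) ^ 32 := one_le_pow₀ hM1
  set S := Finset.univ.filter fun j : Fin (2 * R + 1) => |lab j| ≤ ((M ^ 32 : ℕ) : ℝ) with hS
  have h1 := markov_count (noise (2 * R + 1)) (Finset.range (M ^ 3) ×ˢ S)
    (fun k => (fun g : Noise (2 * R + 1) => (g k.1).1) ⁻¹' {g | ¬ GGood m g k.2})
    (δ := ε ^ 2 / 3) (a := ε * (M : ℝ) ^ 35) (by positivity) (by positivity)
    fun k _ => (dc9_pre (noise_fst _ k.1) _).trans (hm R k.2)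
  refine le_trans (measure_mono fun g hg => ?_) (h1.trans (ENNReal.ofReal_le_ofReal ?_))
  · rw [Set.mem_ofPred_eq] at hg ⊢
    refine lt_of_lt_of_le hg (le_of_eq ?_)
    rw [Finset.card_filter, Finset.sum_product, Nat.cast_sum]
    refine Finset.sum_congr rfl fun t _ => ?_
    rw [← Finset.card_filter, hS, Finset.filter_filter, badG]
    push_cast
    congr
  · have h3 : S.card ≤ 2 * M ^ 32 + 1 := dc9_card_mid R _
    have h4 : (S.card : ℝ) ≤ 2 * M ^ 32 + 1 := by exact_mod_cast h3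
    rw [Finset.card_product, Finset.card_range, div_le_iff₀ (by positivity)]
    push_cast
    calc (M : ℝ) ^ 3 * S.card * (ε ^ 2 / 3) ≤ M ^ 3 * (3 * M ^ 32) * (ε ^ 2 / 3) := by
          gcongr
          linarith
      _ = _ := by ring

end Crest.Agent.R166
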