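import Crest.Agent.R166.DC2
import Crest.Agent.R166.DC9

/-! # Coupling: consequences of the window-family hypotheses -/

set_option autoImplicit false
set_option linter.unusedVariables false
set_option linter.unusedSectionVars false

open MeasureTheory ProbabilityTheory Filter Topology Matrix
open scoped ENNReal BoundedContinuousFunction

namespace Crest.Agent.R166

section
variable {ι : Type} {G : Filter ι} {R : ι → ℕ} {ν : ∀ i, Measure (Fin (2 * R i + 1) → ℝ)}
  {h : ℝ → ℝ} {ℓ : ι → ℝ}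

theorem dc10_exp_lip {a b : ℝ} (ha : 0 ≤ a) (hb : 0 ≤ b) :
    |Real.exp (-a) - Real.exp (-b)| ≤ |a - b| := by
  have key : ∀ a b : ℝ, 0 ≤ a → Real.exp (-a) - Real.exp (-b) ≤ |a - b| := by
    intro a b ha
    have h1 : Real.exp (-b) = Real.exp (-a) * Real.exp (a - b) := by
      rw [← Real.exp_add]; congr 1; ring
    have h2 := Real.add_one_le_exp (a - b)
    have h3 : Real.exp (-a) ≤ 1 := Real.exp_le_one_iff.2 (by linarith)
    have h4 := Real.exp_pos (-a)
    have h5 := neg_abs_le (a - b)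
    have h6 := abs_nonneg (a - b)
    rw [h1]
    nlinarith
  rw [abs_le]
  have h1 := key b a hb
  rw [abs_sub_comm] at h1
  exact ⟨by linarith, key a b ha⟩

theorem dc10_lapW_mem (hp : ∀ t, 0 ≤ h t) {n : ℕ} (x : Fin n → ℝ) (τ : ℝ) :
    0 ≤ lapW h x τ ∧ lapW h x τ ≤ 1 :=
  ⟨(Real.exp_pos _).le, Real.exp_le_one_iff.2 (neg_nonpos.2 (Finset.sum_nonneg fun _ _ => hp _))⟩

theorem dc10_cont_lapW (hc : Continuous h) (n : ℕ) :
    Continuous fun p : (Fin n → ℝ) × ℝ => lapW h p.1 p.2 := by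
  unfold lapW
  fun_prop

/-- only boundedly many points are seen from the window -/
theorem dc10_det (hp : ∀ t, 0 ≤ h t) {S : ℝ} (hS : ∀ t, S ≤ ‖t‖ → h t = 0) {M L r : ℕ}
    (hL : 2 * ((M : ℝ) ^ 32 + S + 2 * (M : ℝ) ^ 3 + M + 1) ≤ L) (hL1 : 1 ≤ L) (hr : L + M ^ 3 ≤ r)
    {x : Fin (2 * r + 1) → ℝ} (hx : Glob M x) {ω d : ℝ} (hω0 : 0 ≤ ω)
    (hω : ∀ a b, |a - b| < d → |h a - h b| ≤ ω) {τ τ' : ℝ} (hτ : |τ| ≤ (M : ℝ) ^ 32)
    (hτ' : |τ'| ≤ (M : ℝ) ^ 32) (hd : |τ - τ'| < d) :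
    |lapW h x τ - lapW h x τ'| ≤ (2 * L + 1) * ω := by
  have hLr : L ≤ r := le_trans (Nat.le_add_right _ _) hr
  let lp : Fin (2 * r + 1) := ⟨r + L, by omega⟩
  let lm : Fin (2 * r + 1) := ⟨r - L, by omega⟩
  have e1 : lab lp = L := by simp [lab, lp]
  have e2 : lab lm = -L := by simp [lab, lm, Nat.cast_sub hLr]
  have hL1' : (1 : ℝ) ≤ L := by exact_mod_cast hL1
  have hr' : (L : ℝ) + (M : ℝ) ^ 3 ≤ r := by exact_mod_cast hr
  have hab : |(L : ℝ)| = L := abs_of_nonneg (by linarith)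
  have hrp : (L : ℝ) ^ (1 / 32 : ℝ) ≤ 1 + 1 / 32 * ((L : ℝ) - 1) := by
    have := rpow_one_add_le_one_add_mul_self (s := (L : ℝ) - 1) (by linarith)
      (p := 1 / 32) (by norm_num) (by norm_num)
    rwa [add_sub_cancel] at this
  have hp1 := hx.2 lp (by rw [e1, hab]; exact hr')
  have hm1 := hx.2 lm (by rw [e2, abs_neg, hab]; exact hr')
  rw [e1, hab] at hp1
  rw [e2, abs_neg, hab] at hm1
  have hp2 := (abs_le.1 hp1).1
  have hm2 := (abs_le.1 hm1).2
  have hz : ∀ l, l ∉ Finset.Icc lm lp → ∀ σ : ℝ, |σ| ≤ (M : ℝ) ^ 32 → h (x l - σ) = 0 := by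
    intro l hl σ hσ
    have hσ' := abs_le.1 hσ
    refine hS _ ?_
    rw [Real.norm_eq_abs, le_abs]
    rw [Finset.mem_Icc, not_and_or, not_le, not_le] at hl
    rcases hl with hl | hl
    · have := hx.1 hl
      right; linarith
    · have := hx.1 hl
      left; linarith
  unfold lapW
  refine (dc10_exp_lip (Finset.sum_nonneg fun _ _ => hp _) (Finset.sum_nonneg fun _ _ => hp _)).trans ?_
  rw [← Finset.sum_sub_distrib]
  refine (Finset.abs_sum_le_sum_abs _ _).trans ?_
  rw [← Finset.sum_subset (Finset.subset_univ (Finset.Icc lm lp))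
    (fun l _ hl => by rw [hz l hl τ hτ, hz l hl τ' hτ', sub_self, abs_zero])]
  refine (Finset.sum_le_card_nsmul _ _ ω fun l _ => hω _ _ ?_).trans ?_
  · rwa [sub_sub_sub_cancel_left, abs_sub_comm]
  · have : (Finset.Icc lm lp).card = 2 * L + 1 := by
      rw [Fin.card_Icc]; simp only [lp, lm]; omega
    rw [this, nsmul_eq_mul]; push_cast; exact le_rfl

theorem dc10_noise_ne (n : ℕ) : ∀ᵐ g ∂noise n, ∀ t l, (g t).1 l ≠ 0 ∧ (g t).2 l ≠ 0 := by
  have := nullSingletonClass_gaussianReal (μ := 0) (v := 1) one_ne_zero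
  have h0 : ∀ l : Fin n, ∀ᵐ y ∂gpi (Fin n), y l ≠ 0 := fun l =>
    (measurePreserving_eval (fun _ => gaussianReal 0 1) l).quasiMeasurePreserving.ae
      ((gaussianReal 0 1).ae_ne 0)
  refine ae_all_iff.2 fun t => ae_all_iff.2 fun l => ?_
  exact ((noise_fst n t).quasiMeasurePreserving.ae (h0 l)).and
    ((noise_snd n t).quasiMeasurePreserving.ae (h0 l))

theorem WinFam.badPos_whp (H : WinFam G R ν h ℓ) {ε : ℝ} (hε : 0 < ε) : ∃ m : ℝ, ∀ M : ℕ, 1 ≤ M →
    ∀ᶠ i in G, ((ν i).prod (noise _)) {q | ε * (M : ℝ) ^ 35 <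
      ∑ t ∈ Finset.range (M ^ 3), badPos m M (chainX q.1 q.2 t)} ≤ ENNReal.ofReal ε := by
  classical
  obtain ⟨m, hm⟩ := H.loc (ε ^ 2 / 5) (by positivity)
  refine ⟨m, fun M hM => ?_⟩
  set s : Finset (ℕ × ℤ) :=
    Finset.range (M ^ 3) ×ˢ Finset.Icc (-(2 * (M : ℤ) ^ 32)) (2 * (M : ℤ) ^ 32) with hs
  have hM' : (1 : ℝ) ≤ M := by exact_mod_cast hM
  have hcard : (s.card : ℝ) ≤ 5 * (M : ℝ) ^ 35 := by
    have e : (Finset.Icc (-(2 * (M : ℤ) ^ 32)) (2 * (M : ℤ) ^ 32)).card = 4 * M ^ 32 + 1 := by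
      rw [Int.card_Icc]
      have : 2 * (M : ℤ) ^ 32 + 1 - -(2 * (M : ℤ) ^ 32) = ((4 * M ^ 32 + 1 : ℕ) : ℤ) := by
        push_cast; ring
      rw [this, Int.toNat_natCast]
    rw [hs, Finset.card_product, Finset.card_range, e]
    push_cast
    have h1 : (1 : ℝ) ≤ (M : ℝ) ^ 32 := one_le_pow₀ hM'
    calc (M : ℝ) ^ 3 * (4 * (M : ℝ) ^ 32 + 1) ≤ (M : ℝ) ^ 3 * (4 * (M : ℝ) ^ 32 + (M : ℝ) ^ 32) := by
          gcongr
      _ = 5 * (M : ℝ) ^ 35 := by ring
  filter_upwards [(Filter.eventually_all_finset s).2 fun k _ => hm k.1 k.2 (M ^ 8)] with i hi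
  have h1 := markov_count ((ν i).prod (noise _)) s
    (fun k => {q | ¬ PosRig m (M ^ 8) (chainX q.1 q.2 k.1) k.2}) (δ := ε ^ 2 / 5)
    (a := ε * (M : ℝ) ^ 35) (by positivity) (by positivity) hi
  refine le_trans (le_of_eq ?_) (h1.trans (ENNReal.ofReal_le_ofReal ?_))
  · congr 1
    ext q
    simp only [Set.mem_ofPred_eq, badPos, hs, Finset.card_filter, Finset.sum_product, Nat.cast_sum]
  · rw [div_le_iff₀ (by positivity)]
    nlinarith [mul_le_mul_of_nonneg_right hcard (by positivity : 0 ≤ ε ^ 2 / 5)]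

theorem measurable_lapI (hc : Continuous h) (M r t : ℕ) :
    Measurable fun q : (Fin (2 * r + 1) → ℝ) × Noise (2 * r + 1) => lapI h M (chainX q.1 q.2 t) := by
  have : Continuous fun x : Fin (2 * r + 1) → ℝ => lapI h M x :=
    intervalIntegral.continuous_parametric_intervalIntegral_of_continuous'
      (f := fun x τ => lapW h x τ) (dc10_cont_lapW hc _) _ _
  exact this.measurable.comp (measurable_chainX t)

theorem lapI_mem (hc : Continuous h) (hp : ∀ t, 0 ≤ h t) (M : ℕ) {r : ℕ} (x : Fin (2 * r + 1) → ℝ) :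
    0 ≤ lapI h M x ∧ lapI h M x ≤ 2 * (M : ℝ) ^ 32 := by
  have hW : -(M : ℝ) ^ 32 ≤ (M : ℝ) ^ 32 := by
    have : (0 : ℝ) ≤ (M : ℝ) ^ 32 := by positivity
    linarith
  refine ⟨intervalIntegral.integral_nonneg hW fun τ _ => (dc10_lapW_mem hp x τ).1, ?_⟩
  have h1 : Continuous fun τ => lapW h x τ :=
    (dc10_cont_lapW hc _).comp (continuous_const.prodMk continuous_id)
  have h2 := intervalIntegral.integral_mono_on hW (h1.intervalIntegrable (μ := volume) _ _)
    (continuous_const.intervalIntegrable _ _) fun τ _ => (dc10_lapW_mem hp x τ).2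
  refine h2.trans (le_of_eq ?_)
  simp only [intervalIntegral.integral_const, smul_eq_mul]
  ring

theorem WinFam.lapI_mean (H : WinFam G R ν h ℓ) (hR : Tendsto R G atTop) (hc : Continuous h)
    (hK : HasCompactSupport h) (hp : ∀ t, 0 ≤ h t) {ε : ℝ} (hε : 0 < ε) :
    ∀ᶠ M : ℕ in atTop, ∀ᶠ i in G,
      |∫ q, ∑ t ∈ Finset.range (M ^ 3), lapI h M (chainX q.1 q.2 t) ∂((ν i).prod (noise _)) -
        2 * (M : ℝ) ^ 35 * ℓ i| ≤ ε * (M : ℝ) ^ 35 := by
  obtain ⟨S, -, hS⟩ := hK.exists_pos_le_norm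
  have hη : 0 < ε / 6 := by positivity
  filter_upwards [H.rig (ε / 6) hη] with M hrig
  set W : ℝ := (M : ℝ) ^ 32 with hW
  have hW0 : 0 ≤ W := by positivity
  obtain ⟨L₀, hL₀⟩ := exists_nat_ge (2 * ((M : ℝ) ^ 32 + S + 2 * (M : ℝ) ^ 3 + M + 1))
  set L := L₀ + 1 with hLdef
  have hL : 2 * ((M : ℝ) ^ 32 + S + 2 * (M : ℝ) ^ 3 + M + 1) ≤ L := by
    rw [hLdef]; push_cast; linarith
  have hω0 : 0 < ε / 6 / (2 * L + 1) := by positivity
  obtain ⟨d, hd, hω⟩ := Metric.uniformContinuous_iff.1 (hK.uniformContinuous_of_continuous hc) _ hω0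
  obtain ⟨N, hN, hNf, hcov⟩ := finite_cover_balls_of_compact (isCompact_Icc (a := -W) (b := W)) hd
  have hnet : ∀ᶠ i in G, ∀ t ∈ Finset.range (M ^ 3), ∀ τ ∈ N,
      |∫ q, lapW h (chainX q.1 q.2 t) τ ∂((ν i).prod (noise _)) - ℓ i| ≤ ε / 6 :=
    (Filter.eventually_all_finset _).2 fun t _ =>
      (Filter.eventually_all_finite hNf).2 fun τ _ => H.lapl t τ _ hη
  filter_upwards [hrig, hnet, hR.eventually (eventually_ge_atTop (L + M ^ 3))] with i h1 h2 h3
  have := H.prob i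
  set P := (ν i).prod (noise (2 * R i + 1)) with hP
  have hmeas : ∀ t, Measurable fun p : ℝ × ((Fin (2 * R i + 1) → ℝ) × Noise (2 * R i + 1)) =>
      lapW h (chainX p.2.1 p.2.2 t) p.1 := fun t =>
    (dc10_cont_lapW hc _).measurable.comp
      (((measurable_chainX t).comp measurable_snd).prodMk measurable_fst)
  have hint : ∀ t τ, Integrable (fun q => lapW h (chainX q.1 q.2 t) τ) P := fun t τ =>
    Integrable.of_bound ((hmeas t).comp measurable_prodMk_left).aestronglyMeasurable 1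
      (Eventually.of_forall fun q => by
        rw [Real.norm_of_nonneg (dc10_lapW_mem hp _ _).1]; exact (dc10_lapW_mem hp _ _).2)
  set B : Set (Fin (2 * R i + 1) → ℝ) :=
    {x | ∃ l, M + |lab l| ^ (1 / 32 : ℝ) < |x l - lab l|} with hB
  have hBm : MeasurableSet B := by
    rw [hB, Set.ofPred_exists]
    exact MeasurableSet.iUnion fun l => measurableSet_lt measurable_const (by fun_prop)
  have hB' : MeasurableSet (Prod.fst ⁻¹' B : Set ((Fin (2 * R i + 1) → ℝ) × Noise (2 * R i + 1))) :=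
    measurable_fst hBm
  have hPB : P.real (Prod.fst ⁻¹' B) ≤ ε / 6 := by
    rw [measureReal_def, hP, measurePreserving_fst.measure_preimage hBm.nullMeasurableSet]
    exact ENNReal.toReal_le_of_le_ofReal hη.le h1
  have hae : ∀ᵐ q ∂P, StrictMono q.1 ∧ ∀ t l, (q.2 t).1 l ≠ 0 ∧ (q.2 t).2 l ≠ 0 :=
    (measurePreserving_fst.quasiMeasurePreserving.ae (H.mono i)).and
      (measurePreserving_snd.quasiMeasurePreserving.ae (dc10_noise_ne _))
  have hall : ∀ t ∈ Finset.range (M ^ 3), ∀ τ ∈ Set.Icc (-W) W,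
      |∫ q, lapW h (chainX q.1 q.2 t) τ ∂P - ℓ i| ≤ ε / 2 := by
    intro t ht τ hτ
    obtain ⟨τ', hτ', hdist⟩ := Set.mem_iUnion₂.1 (hcov hτ)
    have a1 := h2 t ht τ' hτ'
    have a2 : |∫ q, lapW h (chainX q.1 q.2 t) τ ∂P - ∫ q, lapW h (chainX q.1 q.2 t) τ' ∂P| ≤
        ε / 6 + ε / 6 := by
      rw [← integral_sub (hint t τ) (hint t τ')]
      have hi : Integrable (fun q => ε / 6 + (Prod.fst ⁻¹' B).indicator (fun _ => (1 : ℝ)) q) P :=
        (integrable_const _).add ((integrable_const _).indicator hB')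
      have a3 := norm_integral_le_of_norm_le (f := fun q =>
        lapW h (chainX q.1 q.2 t) τ - lapW h (chainX q.1 q.2 t) τ') hi ?_
      · rw [integral_add (integrable_const _) ((integrable_const _).indicator hB'),
          integral_indicator hB'] at a3
        simp only [integral_const, probReal_univ, smul_eq_mul, one_mul, mul_one,
          measureReal_restrict_apply_univ, Real.norm_eq_abs] at a3
        linarith
      · filter_upwards [hae] with q hq
        rw [Real.norm_eq_abs]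
        by_cases hqB : q ∈ Prod.fst ⁻¹' B
        · rw [Set.indicator_of_mem hqB, abs_le]
          have b1 := dc10_lapW_mem hp (chainX q.1 q.2 t) τ
          have b2 := dc10_lapW_mem hp (chainX q.1 q.2 t) τ'
          constructor <;> linarith [b1.1, b1.2, b2.1, b2.2]
        · rw [Set.indicator_of_notMem hqB, add_zero]
          have hr0 : Rig0 M q.1 := fun l => not_lt.1 fun hl => hqB ⟨l, hl⟩
          have hG := (chain_ctl hq.1 hq.1 hr0 hr0 hq.2 (Finset.mem_range.1 ht)).1.1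
          refine (dc10_det hp hS hL (by omega) h3 hG hω0.le (d := d)
            (fun a b hab => (hω hab).le) (abs_le.2 hτ) (abs_le.2 (hN hτ')) hdist).trans (le_of_eq ?_)
          field_simp
    have a4 := abs_sub_le (∫ q, lapW h (chainX q.1 q.2 t) τ ∂P)
      (∫ q, lapW h (chainX q.1 q.2 t) τ' ∂P) (ℓ i)
    linarith
  have hWW : -W ≤ W := by linarith
  have hterm : ∀ t ∈ Finset.range (M ^ 3),
      |∫ q, lapI h M (chainX q.1 q.2 t) ∂P - 2 * W * ℓ i| ≤ ε * W := by
    intro t ht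
    have hi : Integrable (Function.uncurry fun τ (q : (Fin (2 * R i + 1) → ℝ) × Noise (2 * R i + 1)) =>
        lapW h (chainX q.1 q.2 t) τ) ((volume.restrict (Set.uIoc (-W) W)).prod P) := by
      have : IsFiniteMeasure (volume.restrict (Set.uIoc (-W) W)) := by
        rw [Set.uIoc_of_le hWW]; infer_instance
      exact Integrable.of_bound (hmeas t).aestronglyMeasurable 1
        (Eventually.of_forall fun q => by
          rw [Function.uncurry, Real.norm_of_nonneg (dc10_lapW_mem hp _ _).1]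
          exact (dc10_lapW_mem hp _ _).2)
    have e1 := intervalIntegral_integral_swap hi
    have hi2 : IntervalIntegrable (fun τ => ∫ q, lapW h (chainX q.1 q.2 t) τ ∂P) volume (-W) W :=
      intervalIntegrable_iff.2 hi.integral_prod_left
    have e2 : ∫ q, lapI h M (chainX q.1 q.2 t) ∂P - 2 * W * ℓ i =
        ∫ τ in (-W)..W, (∫ q, lapW h (chainX q.1 q.2 t) τ ∂P - ℓ i) := by
      rw [intervalIntegral.integral_sub hi2 intervalIntegrable_const, e1]
      simp only [intervalIntegral.integral_const, smul_eq_mul, lapI, ← hW]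
      ring
    rw [e2, ← Real.norm_eq_abs]
    refine (intervalIntegral.norm_integral_le_of_norm_le_const (C := ε / 2) fun τ hτ => ?_).trans
      (le_of_eq ?_)
    · rw [Set.uIoc_of_le hWW] at hτ
      exact hall t ht τ ⟨hτ.1.le, hτ.2⟩
    · rw [abs_of_nonneg (by linarith)]; ring
  have hI : ∀ t, Integrable (fun q => lapI h M (chainX q.1 q.2 t)) P := fun t =>
    Integrable.of_bound (measurable_lapI hc M _ t).aestronglyMeasurable (2 * (M : ℝ) ^ 32)
      (Eventually.of_forall fun q => by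
        rw [Real.norm_of_nonneg (lapI_mem hc hp M _).1]; exact (lapI_mem hc hp M _).2)
  rw [integral_finsetSum _ fun t _ => hI t]
  have e3 : 2 * (M : ℝ) ^ 35 * ℓ i = ∑ t ∈ Finset.range (M ^ 3), 2 * W * ℓ i := by
    rw [Finset.sum_const, Finset.card_range, nsmul_eq_mul, hW]; push_cast; ring
  rw [e3, ← Finset.sum_sub_distrib]
  refine (Finset.abs_sum_le_sum_abs _ _).trans ((Finset.sum_le_sum hterm).trans (le_of_eq ?_))
  rw [Finset.sum_const, Finset.card_range, nsmul_eq_mul, hW]; push_cast; ring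

end

end Crest.Agent.R166
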