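import Crest.Agent.R166.DC1

/-! # Coupling: contraction in one step -/

set_option autoImplicit false
set_option linter.unusedVariables false
set_option linter.unusedSectionVars false

open MeasureTheory ProbabilityTheory Filter Topology Matrix
open scoped ENNReal BoundedContinuousFunction

namespace Crest.Agent.R166

section
variable {n : ℕ} {κ : ℝ} {x y g : Fin n → ℝ}

theorem DC2_pos (hκ : κ ≠ 0) (hx : StrictMono x) (hy : StrictMono y) (hg : ∀ l, g l ≠ 0)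
    (j l : Fin n) : 0 < g l ^ 2 / ((x l - stepX κ x g j) * (y l - stepX κ y g j)) := by
  have h : x l < stepX κ x g j ↔ y l < stepX κ y g j := by
    rcases hκ.lt_or_gt with h | h
    · rw [stepX_interlace_neg h hx hg, stepX_interlace_neg h hy hg]
    · rw [stepX_interlace_pos h hx hg, stepX_interlace_pos h hy hg]
  refine div_pos (sq_pos_of_ne_zero (hg l)) ?_
  rcases (stepX_ne hκ hx hg j l).lt_or_gt with h1 | h1
  · rcases (stepX_ne hκ hy hg j l).lt_or_gt with h2 | h2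
    · exact mul_pos (sub_pos.2 h1) (sub_pos.2 h2)
    · exact absurd (h.2 h2) h1.not_gt
  · exact mul_pos_of_neg_of_neg (sub_neg.2 h1) (sub_neg.2 (h.1 h1))

theorem DC2_sum_pos (hκ : κ ≠ 0) (hx : StrictMono x) (hy : StrictMono y) (hg : ∀ l, g l ≠ 0)
    (j : Fin n) : 0 < ∑ l, g l ^ 2 / ((x l - stepX κ x g j) * (y l - stepX κ y g j)) :=
  Finset.sum_pos (fun l _ => DC2_pos hκ hx hy hg j l) ⟨j, Finset.mem_univ j⟩

/-- two-point identity -/
theorem DC2_two (hκ : κ ≠ 0) (hx : StrictMono x) (hy : StrictMono y) (hg : ∀ l, g l ≠ 0)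
    (j : Fin n) :
    (∑ l, g l ^ 2 / ((x l - stepX κ x g j) * (y l - stepX κ y g j))) *
        (stepX κ y g j - stepX κ x g j) =
      ∑ l, g l ^ 2 / ((x l - stepX κ x g j) * (y l - stepX κ y g j)) * (y l - x l) := by
  have h1 := stepX_secular hκ hx hg j
  have h2 := stepX_secular hκ hy hg j
  have h3 : ∑ l, g l ^ 2 / (y l - stepX κ y g j) = ∑ l, g l ^ 2 / (x l - stepX κ x g j) :=
    mul_left_cancel₀ hκ (by linarith)
  rw [← sub_eq_zero, ← Finset.sum_sub_distrib] at h3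
  rw [← sub_eq_zero, Finset.sum_mul, ← Finset.sum_sub_distrib, ← h3]
  refine Finset.sum_congr rfl fun l _ => ?_
  have h4 := sub_ne_zero.2 (stepX_ne hκ hx hg j l).symm
  have h5 := sub_ne_zero.2 (stepX_ne hκ hy hg j l).symm
  field_simp
  ring

/-- maximum principle -/
theorem stepX_sub_le (hκ : κ ≠ 0) (hx : StrictMono x) (hy : StrictMono y) (hg : ∀ l, g l ≠ 0)
    {B : ℝ} (hB : ∀ l, |y l - x l| ≤ B) (j : Fin n) : |stepX κ y g j - stepX κ x g j| ≤ B := by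
  have h1 := DC2_sum_pos hκ hx hy hg j
  refine le_of_mul_le_mul_left ?_ h1
  rw [← abs_of_pos h1, ← abs_mul, DC2_two hκ hx hy hg j, abs_of_pos h1, Finset.sum_mul]
  refine (Finset.abs_sum_le_sum_abs _ _).trans (Finset.sum_le_sum fun l _ => ?_)
  rw [abs_mul, abs_of_pos (DC2_pos hκ hx hy hg j l)]
  exact mul_le_mul_of_nonneg_left (hB l) (DC2_pos hκ hx hy hg j l).le

theorem DC2_mono (hx : StrictMono x) (hy : StrictMono y) {θ : ℝ} (hθ : θ ∈ Set.Ioo (0 : ℝ) 1) :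
    StrictMono fun l => x l + θ * (y l - x l) := fun l l' h => by
  have h1 := mul_pos (sub_pos.2 hθ.2) (sub_pos.2 (hx h))
  have h2 := mul_pos hθ.1 (sub_pos.2 (hy h))
  simp only
  linarith

theorem DC2_cont (κ : ℝ) (x y g : Fin n → ℝ) (j : Fin n) :
    Continuous fun θ : ℝ => stepX κ (fun l => x l + θ * (y l - x l)) g j :=
  (continuous_apply j).comp ((continuous_stepX κ).comp
    (f := fun θ : ℝ => ((fun l => x l + θ * (y l - x l)), g)) (by fun_prop))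

theorem DC2_deriv (hκ : κ ≠ 0) (hx : StrictMono x) (hy : StrictMono y) (hg : ∀ l, g l ≠ 0)
    (j : Fin n) {θ : ℝ} (hθ : θ ∈ Set.Ioo (0 : ℝ) 1) :
    HasDerivAt (fun θ : ℝ => stepX κ (fun l => x l + θ * (y l - x l)) g j)
      (∑ l, Pm κ (fun l => x l + θ * (y l - x l)) g j l * (y l - x l)) θ := by
  have hc := DC2_cont κ x y g j
  have hne := fun l => sub_ne_zero.2 (stepX_ne hκ (DC2_mono hx hy hθ) hg j l).symm
  have hp := fun {θ' : ℝ} (h : θ' ∈ Set.Ioo (0 : ℝ) 1) =>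
    DC2_sum_pos hκ (DC2_mono hx hy hθ) (DC2_mono hx hy h) hg j
  have ht := fun {θ' : ℝ} (h : θ' ∈ Set.Ioo (0 : ℝ) 1) =>
    DC2_two hκ (DC2_mono hx hy hθ) (DC2_mono hx hy h) hg j
  simp only [Pm]
  generalize hF : (fun θ : ℝ => stepX κ (fun l => x l + θ * (y l - x l)) g j) = F at hc ⊢
  simp only [show ∀ θ, stepX κ (fun l => x l + θ * (y l - x l)) g j = F θ from congrFun hF]
    at hne hp ht ⊢
  have ha : ∀ l, ContinuousAt (fun θ' => g l ^ 2 /
      ((x l + θ * (y l - x l) - F θ) * (x l + θ' * (y l - x l) - F θ'))) θ := fun l =>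
    continuousAt_const.div (by fun_prop) (mul_ne_zero (hne l) (hne l))
  have h1 := ((tendsto_finsetSum Finset.univ fun l _ => (ha l).tendsto.mul_const (y l - x l)).div
    (tendsto_finsetSum Finset.univ fun l _ => (ha l).tendsto) (hp hθ).ne').mono_left
    (nhdsWithin_le_nhds (s := {θ}ᶜ))
  rw [hasDerivAt_iff_tendsto_slope]
  convert h1.congr' ?_ using 2
  · simp only [Finset.sum_div, sq, div_mul_eq_mul_div]
  · filter_upwards [self_mem_nhdsWithin, nhdsWithin_le_nhds (Ioo_mem_nhds hθ.1 hθ.2)]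
      with θ' h2 h3
    rw [Pi.div_apply, slope_def_field, div_eq_div_iff (hp h3).ne' (sub_ne_zero.2 h2),
      mul_comm (F θ' - F θ), ht h3, Finset.sum_mul]
    exact Finset.sum_congr rfl fun l _ => by ring

/-- mean value form of `v' = P v` -/
theorem stepX_mvt (hκ : κ ≠ 0) (hx : StrictMono x) (hy : StrictMono y) (hg : ∀ l, g l ≠ 0)
    {c : Fin n → ℝ} (hc : ∀ j, 0 ≤ c j) : ∃ θ : ℝ, 0 ≤ θ ∧ θ ≤ 1 ∧
      ∑ j, c j * (stepX κ y g j - stepX κ x g j) ^ 2 ≤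
        ∑ j, c j * (∑ l, Pm κ (fun l => x l + θ * (y l - x l)) g j l * (y l - x l)) ^ 2 := by
  obtain ⟨θ, hθ, h⟩ := exists_hasDerivAt_eq_slope
    (fun θ : ℝ => ∑ j, c j * (stepX κ y g j - stepX κ x g j) *
      stepX κ (fun l => x l + θ * (y l - x l)) g j)
    (fun θ => ∑ j, c j * (stepX κ y g j - stepX κ x g j) *
      ∑ l, Pm κ (fun l => x l + θ * (y l - x l)) g j l * (y l - x l)) zero_lt_one
    (continuous_finsetSum _ fun j _ => (DC2_cont κ x y g j).const_mul _).continuousOn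
    fun θ hθ => HasDerivAt.fun_sum fun j _ => (DC2_deriv hκ hx hy hg j hθ).const_mul _
  refine ⟨θ, hθ.1.le, hθ.2.le, ?_⟩
  simp only [one_mul, zero_mul, add_zero, add_sub_cancel, sub_zero, div_one,
    ← Finset.sum_sub_distrib] at h
  have h1 : ∀ v w : Fin n → ℝ, ∑ j, c j * v j * w j = ∑ j, c j * v j ^ 2 →
      ∑ j, c j * v j ^ 2 ≤ ∑ j, c j * w j ^ 2 := fun v w e => by
    have h2 : ∑ j, 2 * (c j * v j * w j) ≤ ∑ j, (c j * v j ^ 2 + c j * w j ^ 2) :=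
      Finset.sum_le_sum fun j _ => by linarith [mul_nonneg (hc j) (sq_nonneg (v j - w j))]
    rw [← Finset.mul_sum, Finset.sum_add_distrib, e] at h2
    linarith
  exact h1 _ _ (h.trans (Finset.sum_congr rfl fun j _ => by ring))

/-- localised contraction for a doubly stochastic matrix -/
theorem stoch_ineq {P : Fin n → Fin n → ℝ} (h0 : ∀ j l, 0 ≤ P j l) (hr : ∀ j, ∑ l, P j l = 1)
    (hcol : ∀ l, ∑ j, P j l = 1) {c : Fin n → ℝ} (hc : ∀ j, 0 ≤ c j) (v : Fin n → ℝ)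
    (σ : Fin n → Fin n) :
    ∑ j, c j * (∑ l, P j l * v l) ^ 2 ≤
      ∑ l, c l * v l ^ 2 + ∑ j, ∑ l, P j l * max 0 (c j - c l) * v l ^ 2 -
        ∑ j, c j * (P j j * P j (σ j)) * (v (σ j) - v j) ^ 2 := by
  have h1 : ∀ j, (∑ l, P j l * v l) ^ 2 ≤
      ∑ l, P j l * v l ^ 2 - P j j * P j (σ j) * (v (σ j) - v j) ^ 2 := fun j => by
    have hT : ∀ l l', 0 ≤ P j l * P j l' * (v l - v l') ^ 2 := fun l l' =>
      mul_nonneg (mul_nonneg (h0 j l) (h0 j l')) (sq_nonneg _)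
    have e : ∑ l, ∑ l', P j l * P j l' * (v l - v l') ^ 2 =
        (∑ l, P j l * v l ^ 2) * (∑ l, P j l) + (∑ l, P j l) * (∑ l, P j l * v l ^ 2)
          - 2 * ((∑ l, P j l * v l) * ∑ l, P j l * v l) := by
      simp only [Finset.sum_mul_sum]
      simp only [Finset.mul_sum, ← Finset.sum_add_distrib, ← Finset.sum_sub_distrib]
      exact Finset.sum_congr rfl fun l _ => Finset.sum_congr rfl fun l' _ => by ring
    rw [hr j] at e
    have h2 : ∀ l, 0 ≤ ∑ l', P j l * P j l' * (v l - v l') ^ 2 := fun l =>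
      Finset.sum_nonneg fun l' _ => hT l l'
    by_cases hσ : j = σ j
    · rw [← hσ]
      linarith [Finset.sum_nonneg fun l (_ : l ∈ Finset.univ) => h2 l]
    · have h3 := Finset.add_le_sum (fun l (_ : l ∈ Finset.univ) => h2 l) (Finset.mem_univ j)
        (Finset.mem_univ (σ j)) hσ
      have h4 := Finset.single_le_sum (fun l (_ : l ∈ Finset.univ) => hT j l)
        (Finset.mem_univ (σ j))
      have h5 := Finset.single_le_sum (fun l (_ : l ∈ Finset.univ) => hT (σ j) l)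
        (Finset.mem_univ j)
      linarith
  have h2 : ∑ l, c l * v l ^ 2 = ∑ j, ∑ l, P j l * c l * v l ^ 2 := by
    rw [Finset.sum_comm]
    refine Finset.sum_congr rfl fun l _ => ?_
    rw [← Finset.sum_mul, ← Finset.sum_mul, hcol l, one_mul]
  rw [h2, ← Finset.sum_add_distrib, ← Finset.sum_sub_distrib]
  refine Finset.sum_le_sum fun j _ => (mul_le_mul_of_nonneg_left (h1 j) (hc j)).trans ?_
  rw [mul_sub, ← mul_assoc, ← Finset.sum_add_distrib, Finset.mul_sum]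
  refine sub_le_sub_right (Finset.sum_le_sum fun l _ => ?_) _
  have h3 := mul_le_mul_of_nonneg_right (le_max_right 0 (c j - c l))
    (mul_nonneg (h0 j l) (sq_nonneg (v l)))
  linarith

end

/-- `z` is squeezed between shifts of `x` -/
def DC2_Bet {n : ℕ} (x z : Fin n → ℝ) (a b : ℕ) : Prop :=
  StrictMono z ∧ ∀ l l' : Fin n, ((l' : ℕ) + a ≤ l → x l' ≤ z l) ∧ ((l : ℕ) + b ≤ l' → z l ≤ x l')

theorem DC2_Bet.pos {n : ℕ} {x z g : Fin n → ℝ} {a b : ℕ} (h : DC2_Bet x z a b)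
    (hg : ∀ l, g l ≠ 0) : DC2_Bet x (stepX 1 z g) a (b + 1) := by
  refine ⟨stepX_strictMono one_ne_zero h.1 hg, fun l l' => ⟨fun hl => ((h.2 l l').1 hl).trans
    ((stepX_interlace_pos one_pos h.1 hg l l).2 le_rfl).le, fun hl => ?_⟩⟩
  have hlt : (l : ℕ) + 1 < n := by omega
  refine le_trans (not_lt.1 fun h1 => ?_) ((h.2 ⟨l + 1, hlt⟩ l').2 (by simp only; omega))
  have h2 : (l : ℕ) + 1 ≤ l := (stepX_interlace_pos one_pos h.1 hg l _).1 h1
  omega

theorem DC2_Bet.neg {n : ℕ} {x z g : Fin n → ℝ} {a b : ℕ} (h : DC2_Bet x z a b)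
    (hg : ∀ l, g l ≠ 0) : DC2_Bet x (stepX (-1) z g) (a + 1) b := by
  have hκ : (-1 : ℝ) < 0 := by norm_num
  refine ⟨stepX_strictMono hκ.ne h.1 hg, fun l l' => ⟨fun hl => ?_, fun hl => le_trans
    (not_lt.1 fun h1 => ((stepX_interlace_neg hκ h.1 hg l l).1 h1).false) ((h.2 l l').2 hl)⟩⟩
  have hlt : (l : ℕ) - 1 < n := by omega
  refine ((h.2 ⟨l - 1, hlt⟩ l').1 (by simp only; omega)).trans
    ((stepX_interlace_neg hκ h.1 hg l _).2 ?_).le
  change (l : ℕ) - 1 < l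
  omega

theorem DC2_chain {n : ℕ} {x : Fin n → ℝ} {g : Noise n} (hx : StrictMono x)
    (hg : ∀ t l, (g t).1 l ≠ 0 ∧ (g t).2 l ≠ 0) (t : ℕ) : DC2_Bet x (chainX x g t) t t := by
  induction t with
  | zero => exact ⟨hx, fun l l' => ⟨fun h => hx.monotone h, fun h => hx.monotone h⟩⟩
  | succ t ih => exact (ih.pos fun l => (hg t l).1).neg fun l => (hg t l).2

theorem DC2_sup {n : ℕ} {x y : Fin n → ℝ} {g : Noise n} (hx : StrictMono x) (hy : StrictMono y)
    (hg : ∀ t l, (g t).1 l ≠ 0 ∧ (g t).2 l ≠ 0) {B : ℝ} (hB : ∀ l, |y l - x l| ≤ B) (t : ℕ) :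
    ∀ l, |chainX y g t l - chainX x g t l| ≤ B := by
  induction t with
  | zero => exact hB
  | succ t ih =>
    have h1 := DC2_chain hx hg t
    have h2 := DC2_chain hy hg t
    exact stepX_sub_le (by norm_num) (h1.pos fun l => (hg t l).1).1
      (h2.pos fun l => (hg t l).1).1 (fun l => (hg t l).2)
      (stepX_sub_le one_ne_zero h1.1 h2.1 (fun l => (hg t l).1) ih)

theorem DC2_rp {u a T : ℝ} (hu : 0 ≤ u) (ha : 0 ≤ a) (hT : 1 ≤ T) (h : u ≤ a + T) :
    u ^ (1 / 32 : ℝ) ≤ a ^ (1 / 32 : ℝ) + T :=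
  (Real.rpow_le_rpow hu h (by norm_num)).trans
    ((Real.rpow_add_le_add_rpow ha (by linarith) (by norm_num) (by norm_num)).trans
      (add_le_add_right (Real.rpow_le_self_of_one_le hT (by norm_num)) _))

theorem DC2_lab {R : ℕ} (l : Fin (2 * R + 1)) : lab l = ((l : ℕ) : ℝ) - R := rfl

theorem DC2_glob {R M a b : ℕ} {x z : Fin (2 * R + 1) → ℝ} (hx : Rig0 M x) (h : DC2_Bet x z a b)
    (hM : 1 ≤ M ^ 3) (ha : a ≤ M ^ 3) (hb : b ≤ M ^ 3) : Glob M z := by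
  refine ⟨h.1, fun l hl => ?_⟩
  have hT : (1 : ℝ) ≤ (M : ℝ) ^ 3 := by exact_mod_cast hM
  have h1 : M ^ 3 ≤ (l : ℕ) := by
    have : (M : ℝ) ^ 3 ≤ ((l : ℕ) : ℝ) := by linarith [neg_abs_le (lab l), DC2_lab l]
    exact_mod_cast this
  have h2 : (l : ℕ) + M ^ 3 ≤ 2 * R := by
    have : ((l : ℕ) : ℝ) + (M : ℝ) ^ 3 ≤ 2 * R := by
      linarith [le_abs_self (lab l), DC2_lab l]
    exact_mod_cast this
  obtain ⟨lm, hlm⟩ : ∃ lm : Fin (2 * R + 1), (lm : ℕ) + M ^ 3 = l :=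
    ⟨⟨l - M ^ 3, by omega⟩, by simp only; omega⟩
  obtain ⟨lp, hlp⟩ : ∃ lp : Fin (2 * R + 1), (lp : ℕ) = l + M ^ 3 := ⟨⟨l + M ^ 3, by omega⟩, rfl⟩
  have e1 : lab lm = lab l - (M : ℝ) ^ 3 := by
    simp only [lab, ← hlm]
    push_cast
    ring
  have e2 : lab lp = lab l + (M : ℝ) ^ 3 := by
    simp only [lab, hlp]
    push_cast
    ring
  have b1 := DC2_rp (abs_nonneg (lab lm)) (abs_nonneg (lab l)) hT (by
    rw [e1]
    exact (abs_sub _ _).trans_eq (by rw [abs_of_nonneg (by positivity : 0 ≤ (M : ℝ) ^ 3)]))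
  have b2 := DC2_rp (abs_nonneg (lab lp)) (abs_nonneg (lab l)) hT (by
    rw [e2]
    exact (abs_add_le _ _).trans_eq (by rw [abs_of_nonneg (by positivity : 0 ≤ (M : ℝ) ^ 3)]))
  have c1 := (h.2 l lm).1 (by omega)
  have c2 := (h.2 l lp).2 (by omega)
  have d1 := (abs_le.1 (hx lm)).1
  have d2 := (abs_le.1 (hx lp)).2
  rw [abs_le]
  constructor <;> linarith

theorem DC2_ctl {R M : ℕ} {z z' : Fin (2 * R + 1) → ℝ} (h : Glob M z) (h' : Glob M z')
    (hM : 1 ≤ M ^ 3) (hB : ∀ l, |z' l - z l| ≤ 2 * (M + (R : ℝ) ^ (1 / 32 : ℝ))) : Ctl M z z' := by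
  refine ⟨h, h', fun l => ?_⟩
  have hT : (1 : ℝ) ≤ (M : ℝ) ^ 3 := by exact_mod_cast hM
  by_cases hl : |lab l| + (M : ℝ) ^ 3 ≤ R
  · have h1 := abs_le.1 (h.2 l hl)
    have h2 := abs_le.1 (h'.2 l hl)
    rw [abs_le]
    constructor <;> linarith [h1.1, h1.2, h2.1, h2.2]
  · linarith [hB l, DC2_rp (Nat.cast_nonneg R) (abs_nonneg (lab l)) hT (not_le.1 hl).le]

/-- a priori control along the coupled chains -/
theorem chain_ctl {R M : ℕ} {x y : Fin (2 * R + 1) → ℝ} {g : Noise (2 * R + 1)}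
    (hx : StrictMono x) (hy : StrictMono y) (hx' : Rig0 M x) (hy' : Rig0 M y)
    (hg : ∀ t l, (g t).1 l ≠ 0 ∧ (g t).2 l ≠ 0) {t : ℕ} (ht : t < M ^ 3) :
    Ctl M (chainX x g t) (chainX y g t) ∧
      Ctl M (stepX 1 (chainX x g t) (g t).1) (stepX 1 (chainX y g t) (g t).1) := by
  have hM : 1 ≤ M ^ 3 := by omega
  have hB : ∀ l, |y l - x l| ≤ 2 * (M + (R : ℝ) ^ (1 / 32 : ℝ)) := fun l => by
    have h0 : ((l : ℕ) : ℝ) ≤ 2 * R := by exact_mod_cast Nat.lt_succ_iff.1 l.2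
    have h1 : |lab l| ≤ R := abs_le.2 ⟨by linarith [DC2_lab l, Nat.cast_nonneg (α := ℝ) l],
      by linarith [DC2_lab l]⟩
    have h2 := Real.rpow_le_rpow (abs_nonneg _) h1 (by norm_num : (0 : ℝ) ≤ 1 / 32)
    have h3 := abs_le.1 (hx' l)
    have h4 := abs_le.1 (hy' l)
    rw [abs_le]
    constructor <;> linarith [h3.1, h3.2, h4.1, h4.2]
  have h1 := DC2_chain hx hg t
  have h2 := DC2_chain hy hg t
  have h3 := DC2_sup hx hy hg hB t
  exact ⟨DC2_ctl (DC2_glob hx' h1 hM ht.le ht.le) (DC2_glob hy' h2 hM ht.le ht.le) hM h3,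
    DC2_ctl (DC2_glob hx' (h1.pos fun l => (hg t l).1) hM ht.le ht)
      (DC2_glob hy' (h2.pos fun l => (hg t l).1) hM ht.le ht) hM
      (stepX_sub_le one_ne_zero h1.1 h2.1 (fun l => (hg t l).1) h3)⟩

end Crest.Agent.R166
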