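import Crest.Agent.R166.DC1

/-! # Coupling: the boundary term -/

set_option autoImplicit false
set_option linter.unusedVariables false
set_option linter.unusedSectionVars false

open MeasureTheory ProbabilityTheory Filter Topology Matrix
open scoped ENNReal BoundedContinuousFunction

namespace Crest.Agent.R166

theorem DC3_D {m u a : ℝ} (hm : 0 ≤ m) (hmu : m ≤ u) (hu : 2 ≤ u) (ha : 0 ≤ a)
    (h : a ≤ (2 * u) ^ 32) : 2 * m ^ 3 + m + a ^ (1 / 32 : ℝ) ≤ 3 * u ^ 3 := by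
  have h1 : a ^ (1 / 32 : ℝ) ≤ 2 * u := by
    refine (Real.rpow_le_rpow ha h (by norm_num)).trans (le_of_eq ?_)
    rw [← Real.rpow_natCast, ← Real.rpow_mul (by linarith)]
    norm_num
  have h2 : m ^ 3 ≤ u ^ 3 := by gcongr
  have h3 : 3 * u ≤ u ^ 3 := by nlinarith [mul_le_mul hu hu (by norm_num) (by linarith : 0 ≤ u)]
  linarith

theorem DC3_Dk {m a k : ℝ} (hm : 2 ≤ m) (ha : 0 ≤ a) (hk : 0 ≤ k) (h : a ≤ 2 * m ^ 32 + k) :
    (k ≤ 8 * m ^ 32 ∧ 2 * m ^ 3 + m + a ^ (1 / 32 : ℝ) ≤ 3 * m ^ 3) ∨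
      ∃ u, m ≤ u ∧ u ^ 32 = 2 * k ∧ 2 * m ^ 3 + m + a ^ (1 / 32 : ℝ) ≤ 3 * u ^ 3 := by
  have hm0 : 0 ≤ m := by linarith
  have hW : 0 ≤ m ^ 32 := by positivity
  rcases le_total k (8 * m ^ 32) with h1 | h1
  · refine Or.inl ⟨h1, DC3_D hm0 le_rfl hm ha ?_⟩
    rw [mul_pow]
    linarith
  · have h2 : ((2 * k) ^ (((32 : ℕ) : ℝ)⁻¹)) ^ 32 = 2 * k :=
      Real.rpow_inv_natCast_pow (by positivity) (by norm_num)
    have h3 : 0 ≤ (2 * k) ^ (((32 : ℕ) : ℝ)⁻¹) := by positivity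
    generalize (2 * k) ^ (((32 : ℕ) : ℝ)⁻¹) = u at *
    have h4 : m ≤ u := le_of_pow_le_pow_left₀ (n := 32) (by norm_num) h3 (by linarith)
    refine Or.inr ⟨u, h4, h2, DC3_D hm0 h4 (by linarith) ha ?_⟩
    rw [mul_pow, h2]
    linarith

theorem DC3_sep {m a k : ℝ} (hm : 2 ≤ m) (ha : 0 ≤ a) (hk : 20 * m ^ 3 ≤ k)
    (h : a ≤ 2 * m ^ 32 + k) : 2 * m ^ 3 + m + a ^ (1 / 32 : ℝ) + 4 * m ^ 3 ≤ k / 2 := by
  have hm0 : 0 ≤ m := by linarith
  have h0 : 0 ≤ m ^ 3 := by positivity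
  rcases DC3_Dk hm ha (by linarith) h with ⟨-, h1⟩ | ⟨u, h1, h2, h3⟩
  · linarith
  · have h4 : m ^ 3 ≤ u ^ 3 := by gcongr
    have h5 : (2 : ℝ) ^ 29 ≤ u ^ 29 := by gcongr; linarith
    have h6 : (2 : ℝ) ^ 29 * u ^ 3 ≤ u ^ 29 * u ^ 3 := by
      gcongr
      linarith
    have h7 : u ^ 29 * u ^ 3 = 2 * k := by rw [← h2]; ring
    norm_num at h6
    linarith

theorem DC3_far {m a k c v : ℝ} (hm : 2 ≤ m) (ha : 0 ≤ a) (hk : 0 ≤ k) (h : a ≤ 2 * m ^ 32 + k)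
    (hc0 : 0 ≤ c) (hc1 : c ≤ 1) (hc : c ≤ k / (2 * m ^ 32))
    (hv : |v| ≤ 2 * (2 * m ^ 3 + m + a ^ (1 / 32 : ℝ))) : m ^ 10 * (c * v ^ 2) ≤ 72 * √k := by
  have hm0 : 0 < m := by linarith
  have hs : √k ^ 2 = k := Real.sq_sqrt hk
  have hs0 := Real.sqrt_nonneg k
  generalize √k = s at *
  rcases DC3_Dk hm ha hk h with ⟨h1, h2⟩ | ⟨u, h1, h2, h3⟩
  · have h3 : v ^ 2 ≤ (6 * m ^ 3) ^ 2 := by
      rw [← sq_abs v]
      gcongr
      linarith
    have h4 : s ≤ 3 * m ^ 16 := le_of_pow_le_pow_left₀ (n := 2) (by norm_num) (by positivity) (by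
      have : (3 * m ^ 16) ^ 2 = 9 * m ^ 32 := by ring
      have : 0 ≤ m ^ 32 := by positivity
      linarith)
    calc m ^ 10 * (c * v ^ 2) ≤ m ^ 10 * (k / (2 * m ^ 32) * (6 * m ^ 3) ^ 2) := by gcongr
      _ = 18 * s * (s / m ^ 16) := by rw [← hs]; field_simp; ring
      _ ≤ 18 * s * (3 * m ^ 16 / m ^ 16) := by gcongr
      _ = 54 * s := by field_simp; ring
      _ ≤ _ := by linarith
  · have hu : 0 < u := by linarith
    have h4 : v ^ 2 ≤ (6 * u ^ 3) ^ 2 := by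
      rw [← sq_abs v]
      gcongr
      linarith
    have h5 : u ^ 16 ≤ 2 * s := le_of_pow_le_pow_left₀ (n := 2) (by norm_num) (by positivity) (by
      have : (u ^ 16) ^ 2 = u ^ 32 := by ring
      have : (2 * s) ^ 2 = 4 * s ^ 2 := by ring
      linarith)
    calc m ^ 10 * (c * v ^ 2) ≤ u ^ 10 * (1 * (6 * u ^ 3) ^ 2) := by gcongr
      _ = 36 * u ^ 16 := by ring
      _ ≤ _ := by linarith

theorem DC3_lab {R : ℕ} (n : ℕ) (hn : n ≤ 2 * R) : ∃ l : Fin (2 * R + 1), (l : ℕ) = n :=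
  ⟨⟨n, by omega⟩, rfl⟩

theorem DC3_lab_le {R : ℕ} {l j : Fin (2 * R + 1)} (h : lab l ≤ lab j) : l ≤ j := by
  unfold lab at h
  have : (l : ℕ) ≤ j := by exact_mod_cast (sub_le_sub_iff_right _).1 h
  exact this

theorem DC3_abs_lab {R : ℕ} (l : Fin (2 * R + 1)) : |lab l| ≤ R := by
  have h1 : ((l : ℕ) : ℝ) ≤ 2 * R := by exact_mod_cast Nat.lt_succ_iff.1 l.2
  have h2 : (0 : ℝ) ≤ (l : ℕ) := Nat.cast_nonneg _
  unfold lab
  rw [abs_le]
  constructor <;> linarith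

theorem DC3_chi {R M : ℕ} (hM : 0 < M) (j l : Fin (2 * R + 1)) :
    max 0 (chi M j - chi M l) ≤ 1 ∧
      max 0 (chi M j - chi M l) ≤ |lab l - lab j| / (2 * (M : ℝ) ^ 32) ∧
      (2 * (M : ℝ) ^ 32 < |lab j| → max 0 (chi M j - chi M l) = 0) := by
  have hW : 0 < 2 * (M : ℝ) ^ 32 := by positivity
  have h0 : 0 ≤ chi M l := le_max_left _ _
  have h1 : chi M j ≤ 1 := max_le zero_le_one (sub_le_self _ (by positivity))
  refine ⟨max_le zero_le_one (by linarith), max_le (by positivity) ?_, fun h => ?_⟩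
  · have h2 : 1 - |lab l| / (2 * (M : ℝ) ^ 32) ≤ chi M l := le_max_right _ _
    have h3 : |lab l| / (2 * (M : ℝ) ^ 32) ≤
        |lab l - lab j| / (2 * (M : ℝ) ^ 32) + |lab j| / (2 * (M : ℝ) ^ 32) := by
      rw [← add_div]
      gcongr
      have := abs_add_le (lab l - lab j) (lab j)
      rwa [sub_add_cancel] at this
    have h4 : 0 ≤ |lab l - lab j| / (2 * (M : ℝ) ^ 32) := by positivity
    have h5 : chi M j ≤ chi M l + |lab l - lab j| / (2 * (M : ℝ) ^ 32) :=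
      max_le (by linarith) (by linarith)
    linarith
  · have h2 : chi M j = 0 := max_eq_left (by
      rw [sub_nonpos, le_div_iff₀ hW]
      linarith)
    exact max_eq_left (by linarith)

section
variable {M R : ℕ} {κ : ℝ} {z g : Fin (2 * R + 1) → ℝ}

theorem DC3_pows {m : ℝ} (hm : 2 ≤ m) : 1 ≤ m ^ 3 ∧ m ≤ m ^ 3 ∧ 100 * m ^ 3 ≤ m ^ 32 := by
  have h0 : 0 ≤ m := by linarith
  have h5 : (2 : ℝ) ^ 29 * m ^ 3 ≤ m ^ 29 * m ^ 3 := by gcongr
  have h6 : m ^ 29 * m ^ 3 = m ^ 32 := by ring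
  have h1 : m ≤ m ^ 3 := le_self_pow₀ (by linarith) (by norm_num)
  norm_num at h5
  exact ⟨by linarith, h1, by linarith⟩

theorem DC3_reg (hM : 2 ≤ M) (hR : 8 * M ^ 32 ≤ R) (hz : Glob M z) {l : Fin (2 * R + 1)}
    (hl : |lab l| ≤ 3 * (M : ℝ) ^ 32) : |z l - lab l| ≤ 3 * (M : ℝ) ^ 3 := by
  have hm : (2 : ℝ) ≤ M := by exact_mod_cast hM
  have hR' : 8 * (M : ℝ) ^ 32 ≤ R := by exact_mod_cast hR
  obtain ⟨p1, p2, p3⟩ := DC3_pows hm
  refine (hz.2 l (by linarith)).trans (DC3_D (by linarith) le_rfl hm (abs_nonneg _) ?_)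
  rw [mul_pow]
  linarith

theorem DC3_step (hM : 2 ≤ M) (hR : 8 * M ^ 32 ≤ R) (hκ : κ ≠ 0) (hz : Glob M z)
    (hg : ∀ l, g l ≠ 0) {j : Fin (2 * R + 1)} (hj : |lab j| ≤ 2 * (M : ℝ) ^ 32) :
    |stepX κ z g j - lab j| ≤ 4 * (M : ℝ) ^ 3 := by
  have hm : (2 : ℝ) ≤ M := by exact_mod_cast hM
  have hR' : 8 * (M : ℝ) ^ 32 ≤ R := by exact_mod_cast hR
  obtain ⟨p1, p2, p3⟩ := DC3_pows hm
  have lo : ∀ l, l < j → z l < stepX κ z g j := fun l hl => by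
    rcases hκ.lt_or_gt with h | h
    · exact (stepX_interlace_neg h hz.1 hg j l).2 hl
    · exact (stepX_interlace_pos h hz.1 hg j l).2 hl.le
  have hi : ∀ l, j < l → stepX κ z g j ≤ z l := fun l hl => by
    rw [← not_lt]
    rcases hκ.lt_or_gt with h | h
    · rw [stepX_interlace_neg h hz.1 hg j l]
      exact not_lt.2 hl.le
    · rw [stepX_interlace_pos h hz.1 hg j l]
      exact not_le.2 hl
  obtain ⟨hj1, hj2⟩ := abs_le.1 hj
  have e : lab j = (j : ℕ) - R := rfl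
  have a1 : 1 ≤ (j : ℕ) := by
    have : (1 : ℝ) ≤ (j : ℕ) := by linarith
    exact_mod_cast this
  have a2 : (j : ℕ) + 1 ≤ 2 * R := by
    have : ((j : ℕ) : ℝ) + 1 ≤ 2 * R := by linarith
    exact_mod_cast this
  obtain ⟨l1, e1⟩ := DC3_lab (R := R) ((j : ℕ) - 1) (by omega)
  obtain ⟨l2, e2⟩ := DC3_lab (R := R) ((j : ℕ) + 1) a2
  have f1 : lab l1 = lab j - 1 := by
    unfold lab
    rw [e1, Nat.cast_sub a1]
    push_cast
    ring
  have f2 : lab l2 = lab j + 1 := by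
    unfold lab
    rw [e2]
    push_cast
    ring
  have b1 := lo l1 (by rw [Fin.lt_def]; omega)
  have b2 := hi l2 (by rw [Fin.lt_def]; omega)
  have c1 := abs_le.1 (DC3_reg hM hR hz (l := l1) (by rw [f1, abs_le]; constructor <;> linarith))
  have c2 := abs_le.1 (DC3_reg hM hR hz (l := l2) (by rw [f2, abs_le]; constructor <;> linarith))
  rw [abs_le]
  constructor <;> linarith [c1.1, c2.2]

theorem DC3_Pm (hM : 2 ≤ M) (hR : 8 * M ^ 32 ≤ R) (hκ : κ ≠ 0) (hz : Glob M z)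
    (hg : ∀ l, g l ≠ 0) (hb : Blk M g) {j : Fin (2 * R + 1)} (hj : |lab j| ≤ 2 * (M : ℝ) ^ 32)
    (l : Fin (2 * R + 1)) :
    Pm κ z g j l ≤ 256 * (M : ℝ) ^ 6 * (g l ^ 2 / (z l - stepX κ z g j) ^ 2) := by
  have hm : (2 : ℝ) ≤ M := by exact_mod_cast hM
  obtain ⟨p1, p2, p3⟩ := DC3_pows hm
  obtain ⟨l', h1, h2⟩ := hb j hj
  have h3 := abs_le.1 (DC3_step hM hR hκ hz hg hj)
  have h1' := abs_le.1 h1
  have hj' := abs_le.1 hj
  have h4 := abs_le.1 (DC3_reg hM hR hz (l := l') (by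
    rw [abs_le]; constructor <;> linarith [h1'.1, h1'.2, hj'.1, hj'.2]))
  have h5 : (z l' - stepX κ z g j) ^ 2 ≤ (8 * (M : ℝ) ^ 3) ^ 2 :=
    sq_le_sq' (by linarith [h1'.1, h3.2, h4.1]) (by linarith [h1'.2, h3.1, h4.2])
  have h6 : 0 < (z l' - stepX κ z g j) ^ 2 :=
    sq_pos_of_ne_zero (sub_ne_zero.2 (stepX_ne hκ hz.1 hg j l').symm)
  have h7 : 1 / 4 / (8 * (M : ℝ) ^ 3) ^ 2 ≤ ∑ l', g l' ^ 2 / (z l' - stepX κ z g j) ^ 2 := by
    refine le_trans ?_ (Finset.single_le_sum (f := fun l' => g l' ^ 2 / (z l' - stepX κ z g j) ^ 2)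
      (fun _ _ => by positivity) (Finset.mem_univ l'))
    gcongr
  unfold Pm
  calc _ ≤ (g l ^ 2 / (z l - stepX κ z g j) ^ 2) / (1 / 4 / (8 * (M : ℝ) ^ 3) ^ 2) := by gcongr
    _ = _ := by
      generalize g l ^ 2 / (z l - stepX κ z g j) ^ 2 = A
      field_simp
      ring

theorem DC3_gap (hM : 2 ≤ M) (hR : 8 * M ^ 32 ≤ R) (hκ : κ ≠ 0) (hz : Glob M z)
    (hg : ∀ l, g l ≠ 0) {j l : Fin (2 * R + 1)} (hj : |lab j| ≤ 2 * (M : ℝ) ^ 32)
    (hk : 20 * (M : ℝ) ^ 3 ≤ |lab l - lab j|) :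
    |lab l - lab j| / 4 ≤ |z l - stepX κ z g j| := by
  have hm : (2 : ℝ) ≤ M := by exact_mod_cast hM
  have hR' : 8 * (M : ℝ) ^ 32 ≤ R := by exact_mod_cast hR
  obtain ⟨p1, p2, p3⟩ := DC3_pows hm
  have h3 := abs_le.1 (DC3_step hM hR hκ hz hg hj)
  have hj' := abs_le.1 hj
  have reg : ∀ l : Fin (2 * R + 1), |lab l| + (M : ℝ) ^ 3 ≤ R →
      20 * (M : ℝ) ^ 3 ≤ |lab l - lab j| →
      |(z l - stepX κ z g j) - (lab l - lab j)| ≤ |lab l - lab j| / 2 := fun l h1 h2 => by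
    have h4 := abs_le.1 (hz.2 l h1)
    have h5 := DC3_sep hm (abs_nonneg (lab l)) h2 (by
      have := abs_add_le (lab l - lab j) (lab j)
      rw [sub_add_cancel] at this
      linarith)
    rw [abs_le]
    constructor <;> linarith [h4.1, h4.2, h3.1, h3.2]
  by_cases hl : |lab l| + (M : ℝ) ^ 3 ≤ R
  · have h1 := reg l hl hk
    have h2 := abs_sub_abs_le_abs_sub (lab l - lab j) (z l - stepX κ z g j)
    rw [abs_sub_comm] at h1
    linarith [abs_nonneg (lab l - lab j)]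
  · have hM3 : M ^ 3 ≤ R := by
      have : (M : ℝ) ^ 3 ≤ R := by linarith
      exact_mod_cast this
    have hl' := abs_le.1 (DC3_abs_lab l)
    rcases le_total 0 (lab l) with h0 | h0
    · rw [abs_of_nonneg h0] at hl
      obtain ⟨l', e⟩ := DC3_lab (R := R) (2 * R - M ^ 3) (by omega)
      have f : lab l' = R - (M : ℝ) ^ 3 := by
        unfold lab
        rw [e, Nat.cast_sub (by omega)]
        push_cast
        ring
      have h1 : 0 ≤ lab l' - lab j := by linarith [hj'.2]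
      have h2 := reg l' (by rw [f, abs_of_nonneg (by linarith)]; linarith)
        (by rw [abs_of_nonneg h1]; linarith [hj'.2])
      rw [abs_of_nonneg h1] at h2
      have h4 : z l' ≤ z l := hz.1.monotone (DC3_lab_le (by linarith))
      refine le_trans ?_ (le_abs_self _)
      rw [abs_of_nonneg (by linarith [hj'.2])]
      linarith [(abs_le.1 h2).1, hj'.1, hj'.2, hl'.2]
    · rw [abs_of_nonpos h0] at hl
      obtain ⟨l', e⟩ := DC3_lab (R := R) (M ^ 3) (by omega)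
      have f : lab l' = (M : ℝ) ^ 3 - R := by
        unfold lab
        rw [e]
        push_cast
        ring
      have h1 : lab l' - lab j ≤ 0 := by linarith [hj'.1]
      have h2 := reg l' (by rw [f, abs_of_nonpos (by linarith)]; linarith)
        (by rw [abs_of_nonpos h1]; linarith [hj'.1])
      rw [abs_of_nonpos h1] at h2
      have h4 : z l ≤ z l' := hz.1.monotone (DC3_lab_le (by linarith))
      refine le_trans ?_ (neg_le_abs _)
      rw [abs_of_nonpos (by linarith [hj'.1])]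
      linarith [(abs_le.1 h2).2, hj'.1, hj'.2, hl'.1]

theorem DC3_term (hM : 2 ≤ M) (hR : 8 * M ^ 32 ≤ R) (hκ : κ ≠ 0) (hz : Glob M z)
    (hg : ∀ l, g l ≠ 0) (hb : Blk M g) {j : Fin (2 * R + 1)} (hj : |lab j| ≤ 2 * (M : ℝ) ^ 32)
    (l : Fin (2 * R + 1)) {v : ℝ}
    (hv : |v| ≤ 2 * (2 * (M : ℝ) ^ 3 + M + |lab l| ^ (1 / 32 : ℝ))) :
    Pm κ z g j l * max 0 (chi M j - chi M l) * v ^ 2 ≤
      Pm κ z g j l * (360 * (M : ℝ) ^ 9 / (M : ℝ) ^ 32) +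
        1179648 / (M : ℝ) ^ 4 * (g l ^ 2 / w32 (lab l - lab j)) := by
  have hm : (2 : ℝ) ≤ M := by exact_mod_cast hM
  have hm0 : (0 : ℝ) < M := by linarith
  obtain ⟨p1, p2, p3⟩ := DC3_pows hm
  obtain ⟨c1, c2, -⟩ := DC3_chi (show 0 < M by omega) j l
  have c0 : 0 ≤ max 0 (chi M j - chi M l) := le_max_left _ _
  generalize max 0 (chi M j - chi M l) = c at *
  have hP := Pm_nonneg κ z g j l
  have hw : 0 < w32 (lab l - lab j) := by unfold w32; positivity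
  have ha : |lab l| ≤ 2 * (M : ℝ) ^ 32 + |lab l - lab j| := by
    have := abs_add_le (lab l - lab j) (lab j)
    rw [sub_add_cancel] at this
    linarith
  rcases le_total (|lab l - lab j|) (20 * (M : ℝ) ^ 3) with hk | hk
  · refine le_add_of_le_of_nonneg ?_ (by positivity)
    have h1 := DC3_D hm0.le le_rfl hm (abs_nonneg (lab l)) (by rw [mul_pow]; linarith)
    have h3 : v ^ 2 ≤ (6 * (M : ℝ) ^ 3) ^ 2 := by
      rw [← sq_abs v]
      gcongr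
      linarith
    have h4 : c ≤ 20 * (M : ℝ) ^ 3 / (2 * (M : ℝ) ^ 32) := c2.trans (by gcongr)
    calc _ ≤ Pm κ z g j l * (20 * (M : ℝ) ^ 3 / (2 * (M : ℝ) ^ 32)) * (6 * (M : ℝ) ^ 3) ^ 2 := by
          gcongr
      _ = _ := by ring
  · refine le_add_of_nonneg_of_le (by positivity) ?_
    have h1 := DC3_far hm (abs_nonneg _) (abs_nonneg _) ha c0 c1 c2 hv
    have h2 := DC3_gap hM hR hκ hz hg hj hk
    have h3 := DC3_Pm hM hR hκ hz hg hb hj l
    unfold w32 at *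
    have hk1 : 1 ≤ |lab l - lab j| := by linarith
    generalize |lab l - lab j| = k at *
    have hk0 : 0 < k := by linarith
    have h4 : (k / 4) ^ 2 ≤ (z l - stepX κ z g j) ^ 2 := by
      rw [← sq_abs (z l - _)]
      gcongr
    have h5 : Pm κ z g j l ≤ 256 * (M : ℝ) ^ 6 * (g l ^ 2 / (k / 4) ^ 2) := h3.trans (by gcongr)
    have h6 : c * v ^ 2 ≤ 72 * √k / (M : ℝ) ^ 10 := by
      rw [le_div_iff₀' (by positivity)]
      exact h1
    have hs : √k ^ 2 = k := Real.sq_sqrt hk0.le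
    have hs0 : 0 < √k := Real.sqrt_pos.2 hk0
    have h7 : √(1 + k) ≤ 2 * √k := by
      rw [Real.sqrt_le_left (by positivity), mul_pow, hs]
      linarith
    have h8 : (1 + k) * √(1 + k) ≤ 2 * k * (2 * √k) := by
      gcongr
      linarith
    calc Pm κ z g j l * c * v ^ 2 = Pm κ z g j l * (c * v ^ 2) := mul_assoc _ _ _
      _ ≤ 256 * (M : ℝ) ^ 6 * (g l ^ 2 / (k / 4) ^ 2) * (72 * √k / (M : ℝ) ^ 10) := by gcongr
      _ = 1179648 / (M : ℝ) ^ 4 * (g l ^ 2 / (2 * k * (2 * √k))) := by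
          generalize √k = s at *
          subst hs
          field_simp
          ring
      _ ≤ _ := by gcongr

theorem DC3_card (hR : 8 * M ^ 32 ≤ R) :
    ((Finset.univ.filter fun j : Fin (2 * R + 1) => |lab j| ≤ 2 * (M : ℝ) ^ 32).card : ℝ) ≤
      4 * (M : ℝ) ^ 32 + 1 := by
  have h : (Finset.univ.filter fun j : Fin (2 * R + 1) => |lab j| ≤ 2 * (M : ℝ) ^ 32).card ≤
      (Finset.Icc (R - 2 * M ^ 32) (R + 2 * M ^ 32)).card := by
    refine Finset.card_le_card_of_injOn (fun j => (j : ℕ)) (fun j hj => ?_)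
      fun a _ b _ h => Fin.ext h
    have h1 := abs_le.1 (Finset.mem_filter.1 (Finset.mem_coe.1 hj)).2
    unfold lab at h1
    have h2 : R ≤ (j : ℕ) + 2 * M ^ 32 := by
      have : (R : ℝ) ≤ (j : ℕ) + 2 * (M : ℝ) ^ 32 := by linarith [h1.1]
      exact_mod_cast this
    have h3 : (j : ℕ) ≤ R + 2 * M ^ 32 := by
      have : ((j : ℕ) : ℝ) ≤ R + 2 * (M : ℝ) ^ 32 := by linarith [h1.2]
      exact_mod_cast this
    simp only [Finset.coe_Icc, Set.mem_Icc]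
    omega
  rw [Nat.card_Icc] at h
  have h' : (Finset.univ.filter fun j : Fin (2 * R + 1) => |lab j| ≤ 2 * (M : ℝ) ^ 32).card ≤
      4 * M ^ 32 + 1 := by omega
  exact_mod_cast h'

end

theorem boundary_le : ∃ (C : ℝ) (M₀ : ℕ), ∀ M : ℕ, M₀ ≤ M → ∀ R : ℕ, 8 * M ^ 32 ≤ R →
    ∀ (κ : ℝ) (z g v : Fin (2 * R + 1) → ℝ), κ ≠ 0 → Glob M z → (∀ l, g l ≠ 0) → Blk M g →
      (∀ l, |v l| ≤ 2 * (2 * (M : ℝ) ^ 3 + M + |lab l| ^ (1 / 32 : ℝ))) →
      ∑ j, ∑ l, Pm κ z g j l * max 0 (chi M j - chi M l) * v l ^ 2 ≤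
        C * ((M : ℝ) ^ 9 + Sg M g / (M : ℝ) ^ 4) := by
  refine ⟨1179648, 2, fun M hM R hR κ z g v hκ hz hg hb hv => ?_⟩
  have hm : (2 : ℝ) ≤ M := by exact_mod_cast hM
  have hm0 : (0 : ℝ) < M := by linarith
  obtain ⟨p1, p2, p3⟩ := DC3_pows hm
  have key : ∀ j, ∑ l, Pm κ z g j l * max 0 (chi M j - chi M l) * v l ^ 2 ≤
      (if |lab j| ≤ 2 * (M : ℝ) ^ 32 then 360 * (M : ℝ) ^ 9 / (M : ℝ) ^ 32 else 0) +
        1179648 / (M : ℝ) ^ 4 *
          (if |lab j| ≤ 2 * (M : ℝ) ^ 32 then ∑ l, g l ^ 2 / w32 (lab l - lab j) else 0) := by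
    intro j
    split_ifs with hj
    · refine (Finset.sum_le_sum fun l _ => DC3_term hM hR hκ hz hg hb hj l (hv l)).trans (le_of_eq ?_)
      rw [Finset.sum_add_distrib, ← Finset.sum_mul, Pm_row hκ hz.1 hg, one_mul, ← Finset.mul_sum]
    · refine le_of_eq ?_
      rw [mul_zero, add_zero]
      refine Finset.sum_eq_zero fun l _ => ?_
      rw [(DC3_chi (show 0 < M by omega) j l).2.2 (not_le.1 hj), mul_zero, zero_mul]
  refine (Finset.sum_le_sum fun j _ => key j).trans ?_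
  rw [Finset.sum_add_distrib, ← Finset.mul_sum, ← Finset.sum_filter, Finset.sum_const, nsmul_eq_mul]
  have h1 := DC3_card (M := M) hR
  have h2 : ((Finset.univ.filter fun j : Fin (2 * R + 1) => |lab j| ≤ 2 * (M : ℝ) ^ 32).card : ℝ) *
      (360 * (M : ℝ) ^ 9 / (M : ℝ) ^ 32) ≤ 1800 * (M : ℝ) ^ 9 := by
    calc _ ≤ 5 * (M : ℝ) ^ 32 * (360 * (M : ℝ) ^ 9 / (M : ℝ) ^ 32) := by
          gcongr
          linarith
      _ = _ := by field_simp; ring
  have h3 : 0 ≤ (M : ℝ) ^ 9 := by positivity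
  change _ + 1179648 / (M : ℝ) ^ 4 * Sg M g ≤ _
  have h4 : 1179648 / (M : ℝ) ^ 4 * Sg M g = 1179648 * (Sg M g / (M : ℝ) ^ 4) := by ring
  linarith

end Crest.Agent.R166
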