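import Crest.Agent.R166.DC1

/-! # Coupling: lower bound on the overlaps at good labels -/

set_option autoImplicit false
set_option linter.unusedVariables false
set_option linter.unusedSectionVars false

open MeasureTheory ProbabilityTheory Filter Topology Matrix
open scoped ENNReal BoundedContinuousFunction

namespace Crest.Agent.R166

theorem DC4_w_pos (k : ℝ) : 0 < w32 k := by unfold w32; positivity

theorem DC4_core {m γ N C : ℝ} (hm : 0 < m) (hγ : 0 < γ) (hN : 0 ≤ N) (hC : 0 ≤ C) :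
    ∃ c : ℝ, 0 < c ∧ ∀ (n : ℕ) (q y : Fin n → ℝ) (j j' : Fin n) (S : Finset (Fin n)) (a b : ℝ),
      (∀ l, 0 ≤ q l) → 0 < a → 0 < b → a ≤ γ → b ≤ γ → y j = -a → y j' = b →
      (∀ l, y l ≤ -a ∨ b ≤ y l) → j ∈ S → j' ∈ S → ∑ l ∈ S, q l ≤ N →
      |∑ l ∈ Sᶜ, q l / y l| ≤ C → ∑ l ∈ Sᶜ, q l / y l ^ 2 ≤ C → 1 + ∑ l, q l / y l = 0 →
      1 / m ≤ q j → 1 / m ≤ q j' →
      c ≤ (q j / y j ^ 2 / ∑ l, q l / y l ^ 2) * (q j' / y j' ^ 2 / ∑ l, q l / y l ^ 2) := by
  obtain ⟨B, hB⟩ : ∃ B, B = m * (N + (1 + C) * γ) := ⟨_, rfl⟩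
  obtain ⟨E, hE⟩ : ∃ E, E = (N + C * γ ^ 2 + 1) * (1 + B ^ 2) := ⟨_, rfl⟩
  have hE0 : 0 < E := by rw [hE]; positivity
  refine ⟨1 / (m * E) * (1 / (m * E)), by positivity,
    fun n q y j j' S a b hq ha hb haγ hbγ hj hj' hy hjS hjS' hS hF hG hsec h1 h2 => ?_⟩
  rw [← Finset.sum_add_sum_compl S] at hsec
  have hF' := abs_le.1 hF
  have u1 : ∑ l ∈ S, q l / y l ≤ N / b - q j / a := by
    calc _ ≤ ∑ l ∈ S, (q l / b - if l = j then q j / a else 0) := by
          refine Finset.sum_le_sum fun l _ => ?_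
          have := div_nonneg (hq l) hb.le
          split_ifs with h
          · rw [h] at this ⊢
            rw [hj, div_neg]; linarith
          · rw [sub_zero]
            rcases hy l with h' | h'
            · exact (div_nonpos_of_nonneg_of_nonpos (hq l) (by linarith)).trans this
            · exact div_le_div_of_nonneg_left (hq l) hb h'
      _ ≤ _ := by
          rw [Finset.sum_sub_distrib, Finset.sum_ite_eq', if_pos hjS, ← Finset.sum_div]
          gcongr
  have u2 : q j' / b - N / a ≤ ∑ l ∈ S, q l / y l := by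
    calc _ ≤ ∑ l ∈ S, ((if l = j' then q j' / b else 0) - q l / a) := by
          rw [Finset.sum_sub_distrib, Finset.sum_ite_eq', if_pos hjS', ← Finset.sum_div]
          gcongr
      _ ≤ _ := by
          refine Finset.sum_le_sum fun l _ => ?_
          have := div_nonneg (hq l) ha.le
          split_ifs with h
          · rw [h] at this ⊢
            rw [hj']; linarith
          · rcases hy l with h' | h'
            · have := div_le_div_of_nonneg_left (hq l) ha (show a ≤ -y l by linarith)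
              rw [div_neg] at this
              linarith
            · have := div_nonneg (hq l) (show 0 ≤ y l by linarith)
              linarith
  have key : ∀ {a b t : ℝ}, 0 < a → 0 < b → b ≤ γ → 1 / m ≤ t → t / a ≤ N / b + (1 + C) →
      1 / a ≤ B * (1 / b) := fun {a b t} ha hb hbγ ht h => by
    have e1 : 1 / m / a ≤ t / a := div_le_div_of_nonneg_right ht ha.le
    have e2 : 1 + C ≤ (1 + C) * γ / b := by
      rw [le_div_iff₀ hb]; exact mul_le_mul_of_nonneg_left hbγ (by linarith)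
    calc 1 / a = m * (1 / m / a) := by field_simp
      _ ≤ m * (N / b + (1 + C) * γ / b) := mul_le_mul_of_nonneg_left (by linarith) hm.le
      _ = _ := by rw [hB]; ring
  have v1 := key ha hb hbγ h1 (by linarith [hF'.2])
  have v2 := key hb ha haγ h2 (by linarith [hF'.1])
  have hD : ∑ l, q l / y l ^ 2 ≤ (N + C * γ ^ 2 + 1) * ((1 / a) ^ 2 + (1 / b) ^ 2) := by
    rw [← Finset.sum_add_sum_compl S]
    have e1 : ∑ l ∈ S, q l / y l ^ 2 ≤ N * ((1 / a) ^ 2 + (1 / b) ^ 2) := by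
      refine le_trans ?_ (mul_le_mul_of_nonneg_right hS (by positivity))
      rw [Finset.sum_mul]
      refine Finset.sum_le_sum fun l _ => ?_
      rw [div_eq_mul_one_div]
      refine mul_le_mul_of_nonneg_left ?_ (hq l)
      rw [div_pow, div_pow, one_pow]
      rcases hy l with h' | h'
      · exact (one_div_le_one_div_of_le (by positivity) (by nlinarith)).trans
          (le_add_of_nonneg_right (by positivity))
      · exact (one_div_le_one_div_of_le (by positivity) (by nlinarith)).trans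
          (le_add_of_nonneg_left (by positivity))
    have e2 : 1 ≤ γ ^ 2 * (1 / a) ^ 2 := by
      rw [← mul_pow, mul_one_div]
      exact one_le_pow₀ ((one_le_div ha).2 haγ)
    have e3 : C ≤ C * γ ^ 2 * ((1 / a) ^ 2 + (1 / b) ^ 2) := by
      calc C = C * 1 := (mul_one C).symm
        _ ≤ C * (γ ^ 2 * ((1 / a) ^ 2 + (1 / b) ^ 2)) := by
          refine mul_le_mul_of_nonneg_left (e2.trans ?_) hC
          exact mul_le_mul_of_nonneg_left (le_add_of_nonneg_right (by positivity)) (by positivity)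
        _ = _ := by ring
    have e4 : 0 ≤ (1 / a) ^ 2 + (1 / b) ^ 2 := by positivity
    nlinarith
  have hD0 : 0 < ∑ l, q l / y l ^ 2 := by
    refine lt_of_lt_of_le ?_ (Finset.single_le_sum (f := fun l => q l / y l ^ 2)
      (fun l _ => div_nonneg (hq l) (sq_nonneg _)) (Finset.mem_univ j'))
    have : 0 < q j' := lt_of_lt_of_le (by positivity) h2
    simp only [hj']
    positivity
  have fin : ∀ {a b t : ℝ}, 0 < a → 0 < b → 1 / b ≤ B * (1 / a) → 1 / m ≤ t →
      ∑ l, q l / y l ^ 2 ≤ (N + C * γ ^ 2 + 1) * ((1 / a) ^ 2 + (1 / b) ^ 2) →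
      1 / (m * E) ≤ t / a ^ 2 / ∑ l, q l / y l ^ 2 := fun {a b t} ha hb h ht hD => by
    rw [le_div_iff₀ hD0]
    have e1 : (1 / b) ^ 2 ≤ (B * (1 / a)) ^ 2 := by gcongr
    calc _ ≤ 1 / (m * E) * ((N + C * γ ^ 2 + 1) * ((1 / a) ^ 2 + (B * (1 / a)) ^ 2)) := by
          refine mul_le_mul_of_nonneg_left (hD.trans ?_) (by positivity)
          gcongr
      _ = 1 / (m * E) * (E * (1 / a) ^ 2) := by rw [hE]; ring
      _ = 1 / m / a ^ 2 := by field_simp
      _ ≤ _ := by gcongr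
  have w1 := fin ha hb v2 h1 hD
  have w2 := fin hb ha v1 h2 (by rwa [add_comm ((1 / b) ^ 2)])
  rw [hj, hj', neg_sq]
  exact mul_le_mul w1 w2 (by positivity) (le_trans (by positivity) w1)

theorem DC4_reg {μ y d : ℝ} (hμ : 1 ≤ μ) (h : |y - d| ≤ μ * √(1 + |d|))
    (hd : (2 * μ + 1) ^ 2 ≤ |d|) :
    |y - d| ≤ |d| / 2 ∧ |1 / y - 1 / d| ≤ 8 * μ / w32 d ∧ 1 / y ^ 2 ≤ 16 / w32 d := by
  have h0 := abs_nonneg d
  obtain ⟨s, hs⟩ : ∃ s, s = √(1 + |d|) := ⟨_, rfl⟩
  have hs2 : s ^ 2 = 1 + |d| := by rw [hs, Real.sq_sqrt (by linarith)]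
  have hs1 : 2 * μ + 1 ≤ s := by
    rw [hs]; exact Real.le_sqrt_of_sq_le (by linarith)
  have hw : w32 d = s ^ 3 := by rw [w32, ← hs, ← hs2]; ring
  rw [← hs] at h
  have h1 : |y - d| ≤ |d| / 2 := by nlinarith
  have h2 : |d| / 2 ≤ |y| := by
    have := abs_sub_abs_le_abs_sub d y
    rw [abs_sub_comm] at this
    linarith
  have h3 : s ^ 2 / 2 ≤ |d| := by nlinarith
  have hs0 : 0 < s := by linarith
  have hd0 : 0 < |d| := lt_of_lt_of_le (by positivity) h3
  have hy0 : 0 < |y| := by linarith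
  have h4 : s ^ 2 / 4 ≤ |y| := by linarith
  refine ⟨h1, ?_, ?_⟩
  · rw [div_sub_div _ _ (abs_pos.1 hy0) (abs_pos.1 hd0), one_mul, mul_one, abs_div, abs_mul,
      abs_sub_comm, hw]
    calc _ ≤ μ * s / (s ^ 2 / 4 * (s ^ 2 / 2)) := by gcongr
      _ = _ := by field_simp; ring
  · rw [hw, ← sq_abs]
    calc _ ≤ 1 / (s ^ 2 / 4) ^ 2 := by gcongr
      _ = 16 / s ^ 4 := by field_simp; ring
      _ ≤ _ := div_le_div_of_nonneg_left (by norm_num) (by positivity)
          (pow_le_pow_right₀ (by linarith) (by norm_num))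

theorem DC4_out {R y d : ℝ} (hR : 1 ≤ R) (hy : 3 * R / 8 ≤ |y|) (hd : 3 * R / 4 ≤ |d|) :
    |1 / y - 1 / d| ≤ 4 / R ∧ 1 / y ^ 2 ≤ 8 / R := by
  constructor
  · refine (abs_sub _ _).trans ?_
    rw [abs_div, abs_div, abs_one]
    calc _ ≤ 1 / (3 * R / 8) + 1 / (3 * R / 4) := by gcongr
      _ = _ := by field_simp; ring
  · rw [← sq_abs]
    calc _ ≤ 1 / (3 * R / 8) ^ 2 := by gcongr
      _ ≤ _ := by
        rw [div_le_div_iff₀ (by positivity) (by positivity)]
        nlinarith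

theorem DC4_inv_le {R : ℕ} (l j : Fin (2 * R + 1)) : |1 / (lab l - lab j)| ≤ 1 := by
  have e : lab l - lab j = (((l : ℕ) - (j : ℕ) : ℤ) : ℝ) := by simp only [lab]; push_cast; ring
  rw [e]
  by_cases h : ((l : ℕ) - (j : ℕ) : ℤ) = 0
  · rw [h]; simp
  · rw [abs_div, abs_one]
    refine (div_le_one (by positivity)).2 ?_
    exact_mod_cast Int.one_le_abs h

theorem DC4_h (p q : ℕ) (h : p ≤ 2 * q) :
    ∑ k ∈ Finset.range p, 1 / ((k : ℝ) + 1) - ∑ k ∈ Finset.range q, 1 / ((k : ℝ) + 1) ≤ 1 := by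
  have h1 : ∑ k ∈ Finset.range p, 1 / ((k : ℝ) + 1) ≤
      ∑ k ∈ Finset.range (q + q), 1 / ((k : ℝ) + 1) :=
    Finset.sum_le_sum_of_subset_of_nonneg (Finset.range_mono (by omega)) fun _ _ _ => by positivity
  rw [Finset.sum_range_add] at h1
  have h2 : ∑ k ∈ Finset.range q, 1 / (((q + k : ℕ) : ℝ) + 1) ≤
      ∑ k ∈ Finset.range q, 1 / ((q : ℝ) + 1) :=
    Finset.sum_le_sum fun k _ => one_div_le_one_div_of_le (by positivity) (by
      push_cast; linarith [Nat.cast_nonneg (α := ℝ) k])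
  rw [Finset.sum_const, Finset.card_range, nsmul_eq_mul, mul_one_div] at h2
  have h3 : (q : ℝ) / (q + 1) ≤ 1 := (div_le_one (by positivity)).2 (by linarith)
  linarith

theorem DC4_harm {R : ℕ} (j : Fin (2 * R + 1)) (h1 : (j : ℕ) ≤ 2 * (2 * R - j))
    (h2 : 2 * R - j ≤ 2 * (j : ℕ)) : |∑ l : Fin (2 * R + 1), 1 / (lab l - lab j)| ≤ 1 := by
  have e : ∑ l : Fin (2 * R + 1), 1 / (lab l - lab j) = ∑ k ∈ Finset.range (2 * R - j), 1 / ((k : ℝ) + 1) -
      ∑ k ∈ Finset.range j, 1 / ((k : ℝ) + 1) := by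
    have e1 : ∑ l : Fin (2 * R + 1), 1 / (lab l - lab j) =
        ∑ l ∈ Finset.range (j + 1 + (2 * R - j)), 1 / ((l : ℝ) - (j : ℕ)) := by
      rw [show (j : ℕ) + 1 + (2 * R - j) = 2 * R + 1 by omega,
        ← Fin.sum_univ_eq_sum_range fun l => 1 / ((l : ℝ) - (j : ℕ))]
      exact Finset.sum_congr rfl fun l _ => by simp only [lab]; ring
    rw [e1, Finset.sum_range_add, Finset.sum_range_succ, sub_self, div_zero, add_zero,
      ← Finset.sum_range_reflect, sub_eq_neg_add, ← Finset.sum_neg_distrib]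
    congr 1
    · refine Finset.sum_congr rfl fun k hk => ?_
      have := Finset.mem_range.1 hk
      rw [Nat.cast_sub (by omega), Nat.cast_sub (by omega), ← div_neg]
      push_cast
      ring
    · exact Finset.sum_congr rfl fun k _ => by push_cast; ring
  rw [e, abs_le]
  exact ⟨by linarith [DC4_h _ _ h1], DC4_h _ _ h2⟩

set_option maxHeartbeats 800000 in
theorem Pm_lower (m : ℝ) : ∃ (c : ℝ) (M₀ : ℕ), 0 < c ∧ ∀ M : ℕ, M₀ ≤ M → ∀ R : ℕ, 8 * M ^ 32 ≤ R →
    ∀ (z g : Fin (2 * R + 1) → ℝ) (j : Fin (2 * R + 1)), StrictMono z → (∀ l, g l ≠ 0) →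
      |lab j| ≤ (M : ℝ) ^ 32 → LocRig m M z j → GGood m g j → Out M g →
      c ≤ Pm 1 z g j j * Pm 1 z g j (nxt j) := by
  by_cases hm : 1 ≤ m
  swap
  · refine ⟨1, 0, one_pos, fun M _ R _ z g j _ _ _ _ hG _ => absurd ?_ hm⟩
    refine le_trans ?_ ((Finset.single_le_sum (f := fun l => (g l ^ 2 + 1) / w32 (lab l - lab j))
      (fun l _ => div_nonneg (by positivity) (DC4_w_pos _).le) (Finset.mem_univ j)).trans hG.2.2.2)
    simp only [sub_self, w32, abs_zero, add_zero, Real.sqrt_one, mul_one, div_one]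
    nlinarith [sq_nonneg (g j)]
  have hm0 : 0 < m := by linarith
  set K : ℝ := (2 * (4 * m) + 1) ^ 2 with hK
  have hK1 : 1 < K := by nlinarith
  have hN : 0 ≤ w32 K * m := mul_nonneg (DC4_w_pos K).le hm0.le
  obtain ⟨c, hc0, hc⟩ := DC4_core (m := m) (γ := 1 + 2 * m) (N := w32 K * m)
    (C := 32 * m * m + 17 * m + 8 + w32 K * m) hm0 (by linarith) hN (by positivity)
  refine ⟨c, ⌈K⌉₊, hc0, fun M hM R hR z g j hz hg hj hL hG hO => ?_⟩
  have hKM : K ≤ M := (Nat.le_ceil K).trans (by exact_mod_cast hM)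
  have hM1 : 1 ≤ M := by
    have : (1 : ℝ) ≤ M := by linarith
    exact_mod_cast this
  have hM3 : 8 * M ^ 3 ≤ R :=
    le_trans (Nat.mul_le_mul_left _ (Nat.pow_le_pow_right hM1 (by norm_num))) hR
  have hMR : 8 * M ≤ R :=
    le_trans (Nat.mul_le_mul_left _ (Nat.le_self_pow (by norm_num) M)) hM3
  have hM3' : 8 * (M : ℝ) ^ 3 ≤ R := by exact_mod_cast hM3
  have hMR' : 8 * (M : ℝ) ≤ R := by exact_mod_cast hMR
  have hj8 : 8 * |lab j| ≤ R := by
    have : 8 * (M : ℝ) ^ 32 ≤ R := by exact_mod_cast hR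
    linarith
  have hj8' := abs_le.1 (show |lab j| ≤ R / 8 by linarith)
  have hR8 : (8 : ℝ) ≤ R := by linarith
  have hjv : lab j = ((j : ℕ) : ℝ) - R := rfl
  have hj1 : (j : ℕ) ≤ 2 * (2 * R - j) ∧ 2 * R - j ≤ 2 * (j : ℕ) ∧ (j : ℕ) + 1 ≤ 2 * R := by
    have a1 : 8 * (j : ℕ) ≤ 9 * R := by
      have : 8 * ((j : ℕ) : ℝ) ≤ 9 * R := by linarith [hj8'.2]
      exact_mod_cast this
    have a2 : 7 * R ≤ 8 * (j : ℕ) := by
      have : 7 * (R : ℝ) ≤ 8 * ((j : ℕ) : ℝ) := by linarith [hj8'.1]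
      exact_mod_cast this
    omega
  have hn : ((nxt j : Fin (2 * R + 1)) : ℕ) = j + 1 := min_eq_left hj1.2.2
  have hnl : lab (nxt j) - lab j = 1 := by simp only [lab, hn]; push_cast; ring
  set y := stepX 1 z g j with hy
  have hlt : ∀ l, z l < y ↔ l ≤ j := stepX_interlace_pos one_pos hz hg j
  have ha : z j < y := (hlt j).2 le_rfl
  have hb : y < z (nxt j) := lt_of_le_of_ne (not_lt.1 fun h => by
    have := Fin.le_def.1 ((hlt _).1 h); omega) (stepX_ne one_ne_zero hz hg j _)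
  have hgap : z (nxt j) - z j ≤ 1 + 2 * m := by
    have h1 := hL (nxt j) (by
      have : |lab (nxt j)| ≤ R / 8 + 1 := abs_le.2 ⟨by linarith [hj8'.1], by linarith [hj8'.2]⟩
      linarith)
    rw [hnl, abs_one] at h1
    have h2 : √(1 + 1) ≤ 2 := Real.sqrt_le_iff.2 ⟨by norm_num, by norm_num⟩
    have h3 := mul_le_mul_of_nonneg_left h2 hm0.le
    linarith [(abs_le.1 h1).2]
  -- regular labels
  have hreg : ∀ l, |lab l| + (M : ℝ) ^ 3 ≤ R →
      |(z l - y) - (lab l - lab j)| ≤ 4 * m * √(1 + |lab l - lab j|) := fun l hl => by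
    have h1 := abs_le.1 (hL l hl)
    have h2 : 1 ≤ √(1 + |lab l - lab j|) := Real.one_le_sqrt.2 (by linarith [abs_nonneg (lab l - lab j)])
    have h3 := mul_le_mul_of_nonneg_left h2 hm0.le
    rw [abs_le]
    constructor <;> nlinarith [h1.1, h1.2]
  -- outliers
  have hout : ∀ l, (R : ℝ) < |lab l| + (M : ℝ) ^ 3 →
      3 * R / 8 ≤ |z l - y| ∧ 3 * R / 4 ≤ |lab l - lab j| := fun l hl => by
    have hM30 : (0 : ℝ) ≤ (M : ℝ) ^ 3 := by positivity
    rcases le_total 0 (lab l) with h0 | h0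
    · rw [abs_of_nonneg h0] at hl
      obtain ⟨u, hu⟩ : ∃ u : Fin (2 * R + 1), lab u = R - (M : ℝ) ^ 3 :=
        ⟨⟨2 * R - M ^ 3, by omega⟩, by
          simp only [lab]; rw [Nat.cast_sub (by omega)]; push_cast; ring⟩
      have hul : u ≤ l := Fin.le_def.2 (by
        have : ((u : ℕ) : ℝ) ≤ ((l : ℕ) : ℝ) := by simp only [lab] at hu hl; linarith
        exact_mod_cast this)
      have hd : 3 * R / 4 ≤ lab u - lab j := by linarith [hj8'.2]
      have h1 := (DC4_reg (by linarith) (hreg u (by rw [hu, abs_of_nonneg (by linarith)]; linarith))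
        (by rw [abs_of_nonneg (by linarith)]; linarith)).1
      rw [abs_of_nonneg (show 0 ≤ lab u - lab j by linarith)] at h1
      have h2 := hz.monotone hul
      exact ⟨le_abs.2 (Or.inl (by linarith [(abs_le.1 h1).1])), le_abs.2 (Or.inl (by linarith))⟩
    · rw [abs_of_nonpos h0] at hl
      obtain ⟨u, hu⟩ : ∃ u : Fin (2 * R + 1), lab u = (M : ℝ) ^ 3 - R :=
        ⟨⟨M ^ 3, by omega⟩, by simp only [lab]; push_cast; ring⟩
      have hul : l ≤ u := Fin.le_def.2 (by
        have : ((l : ℕ) : ℝ) ≤ ((u : ℕ) : ℝ) := by simp only [lab] at hu hl; linarith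
        exact_mod_cast this)
      have hd : lab u - lab j ≤ -(3 * R / 4) := by linarith [hj8'.1]
      have h1 := (DC4_reg (by linarith) (hreg u (by rw [hu, abs_of_nonpos (by linarith)]; linarith))
        (by rw [abs_of_nonpos (by linarith)]; linarith)).1
      rw [abs_of_nonpos (show lab u - lab j ≤ 0 by linarith)] at h1
      have h2 := hz.monotone hul
      exact ⟨le_abs.2 (Or.inr (by linarith [(abs_le.1 h1).2])), le_abs.2 (Or.inr (by linarith))⟩
  -- far labels
  have hfar : ∀ l, K ≤ |lab l - lab j| →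
      |1 / (z l - y) - 1 / (lab l - lab j)| ≤ 32 * m / w32 (lab l - lab j) +
        (if (R : ℝ) < |lab l| + (M : ℝ) ^ 3 then (4 : ℝ) / R else 0) ∧
      1 / (z l - y) ^ 2 ≤ 16 / w32 (lab l - lab j) +
        (if (R : ℝ) < |lab l| + (M : ℝ) ^ 3 then (8 : ℝ) / R else 0) := fun l hl => by
    have hw := DC4_w_pos (lab l - lab j)
    split_ifs with h
    · obtain ⟨a1, a2⟩ := DC4_out (by linarith) (hout l h).1 (hout l h).2
      exact ⟨a1.trans (le_add_of_nonneg_left (by positivity)),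
        a2.trans (le_add_of_nonneg_left (by positivity))⟩
    · obtain ⟨-, a1, a2⟩ := DC4_reg (by linarith) (hreg l (not_lt.1 h)) hl
      exact ⟨by rw [add_zero]; refine a1.trans (le_of_eq (by ring)), by rw [add_zero]; exact a2⟩
  have hsw : ∑ l, g l ^ 2 / w32 (lab l - lab j) ≤ m :=
    (Finset.sum_le_sum fun l _ => div_le_div_of_nonneg_right (by linarith)
      (DC4_w_pos _).le).trans hG.2.2.2
  have hsum : ∀ (S : Finset (Fin (2 * R + 1))) (u : Fin (2 * R + 1) → ℝ) (α β : ℝ), 0 ≤ α →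
      0 ≤ β → (∀ l ∈ S, u l ≤ α / w32 (lab l - lab j) +
        (if (R : ℝ) < |lab l| + (M : ℝ) ^ 3 then β / R else 0)) →
      ∑ l ∈ S, g l ^ 2 * u l ≤ α * m + β := fun S u α β hα hβ h => by
    calc _ ≤ ∑ l ∈ S, (α * (g l ^ 2 / w32 (lab l - lab j)) +
          β / R * (if (R : ℝ) < |lab l| + (M : ℝ) ^ 3 then g l ^ 2 else 0)) := by
          refine Finset.sum_le_sum fun l hl => ?_
          refine (mul_le_mul_of_nonneg_left (h l hl) (sq_nonneg _)).trans (le_of_eq ?_)
          split_ifs <;> ring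
      _ ≤ ∑ l, (α * (g l ^ 2 / w32 (lab l - lab j)) +
          β / R * (if (R : ℝ) < |lab l| + (M : ℝ) ^ 3 then g l ^ 2 else 0)) := by
          refine Finset.sum_le_sum_of_subset_of_nonneg (Finset.subset_univ _) fun l _ _ => ?_
          have := DC4_w_pos (lab l - lab j)
          positivity
      _ ≤ α * m + β / R * R := by
          rw [Finset.sum_add_distrib, ← Finset.mul_sum, ← Finset.mul_sum]
          exact add_le_add (mul_le_mul_of_nonneg_left hsw hα)
            (mul_le_mul_of_nonneg_left hO (by positivity))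
      _ = _ := by field_simp
  set S := Finset.univ.filter fun l : Fin (2 * R + 1) => |lab l - lab j| < K with hS
  have hSc : ∀ l ∈ Sᶜ, K ≤ |lab l - lab j| := fun l hl => by simpa [hS] using hl
  have hnear : ∑ l ∈ S, g l ^ 2 ≤ w32 K * m := by
    have := hsum S (fun _ => 1) (w32 K) 0 (DC4_w_pos _).le le_rfl fun l hl => by
      have h1 : |lab l - lab j| ≤ |K| := by
        rw [abs_of_pos (by linarith : 0 < K)]; exact (Finset.mem_filter.1 hl).2.le
      rw [zero_div, ite_self, add_zero, one_le_div (DC4_w_pos _)]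
      unfold w32
      gcongr
    simpa using this
  have hF : |∑ l ∈ Sᶜ, g l ^ 2 / (z l - y)| ≤ 32 * m * m + 17 * m + 8 + w32 K * m := by
    have e : ∑ l ∈ Sᶜ, g l ^ 2 / (z l - y) =
        ∑ l ∈ Sᶜ, g l ^ 2 * (1 / (z l - y) - 1 / (lab l - lab j)) +
          ∑ l, (g l ^ 2 - 1) / (lab l - lab j) + ∑ l : Fin (2 * R + 1), 1 / (lab l - lab j) -
          ∑ l ∈ S, g l ^ 2 * (1 / (lab l - lab j)) := by
      rw [add_assoc, ← Finset.sum_add_distrib, ← Finset.sum_add_sum_compl S, eq_sub_iff_add_eq,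
        add_comm (∑ l ∈ S, _), ← add_assoc, ← Finset.sum_add_distrib]
      congr 1 <;> exact Finset.sum_congr rfl fun l _ => by ring
    have a1 : |∑ l ∈ Sᶜ, g l ^ 2 * (1 / (z l - y) - 1 / (lab l - lab j))| ≤ 32 * m * m + 4 := by
      refine (Finset.abs_sum_le_sum_abs _ _).trans (le_trans (le_of_eq ?_)
        (hsum Sᶜ _ (32 * m) 4 (by positivity) (by norm_num) fun l hl => (hfar l (hSc l hl)).1))
      exact Finset.sum_congr rfl fun l _ => by rw [abs_mul, abs_of_nonneg (sq_nonneg _)]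
    have a2 : |∑ l ∈ S, g l ^ 2 * (1 / (lab l - lab j))| ≤ w32 K * m := by
      refine (Finset.abs_sum_le_sum_abs _ _).trans (le_trans (Finset.sum_le_sum fun l _ => ?_) hnear)
      rw [abs_mul, abs_of_nonneg (sq_nonneg _)]
      exact mul_le_of_le_one_right (sq_nonneg _) (DC4_inv_le l j)
    have a3 := abs_le.1 (DC4_harm j hj1.1 hj1.2.1)
    have a4 := abs_le.1 hG.2.2.1
    rw [e, abs_le]
    constructor <;> linarith [(abs_le.1 a1).1, (abs_le.1 a1).2, (abs_le.1 a2).1, (abs_le.1 a2).2]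
  have hG2 : ∑ l ∈ Sᶜ, g l ^ 2 / (z l - y) ^ 2 ≤ 32 * m * m + 17 * m + 8 + w32 K * m := by
    have := hsum Sᶜ _ 16 8 (by norm_num) (by norm_num) fun l hl => (hfar l (hSc l hl)).2
    simp only [mul_one_div] at this
    have h2 : 0 ≤ 32 * m * m := by positivity
    linarith
  have hsec := stepX_secular one_ne_zero hz hg j
  rw [one_mul] at hsec
  exact hc _ (fun l => g l ^ 2) (fun l => z l - y) j (nxt j) S (y - z j) (z (nxt j) - y)
    (fun l => sq_nonneg _) (by linarith) (by linarith) (by linarith) (by linarith) (by ring) rfl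
    (fun l => by
      rcases le_or_gt l j with h | h
      · exact Or.inl (by linarith [hz.monotone h])
      · exact Or.inr (by
          linarith [hz.monotone (show nxt j ≤ l from Fin.le_def.2 (by rw [hn]; exact h))]))
    (by simp [hS]; linarith) (by simp [hS, hnl, hK1]) hnear hF hG2 hsec hG.1 hG.2.1

end Crest.Agent.R166
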