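import Crest.Agent.R166.DC2
import Crest.Agent.R166.DC3
import Crest.Agent.R166.DC4

/-! # Coupling: total dissipation -/

set_option autoImplicit false
set_option linter.unusedVariables false
set_option linter.unusedSectionVars false

open MeasureTheory ProbabilityTheory Filter Topology Matrix
open scoped ENNReal BoundedContinuousFunction

namespace Crest.Agent.R166

section DC5aux
variable {R : ℕ}

theorem DC5_chi_nonneg (M : ℕ) (j : Fin (2 * R + 1)) : 0 ≤ chi M j := le_max_left _ _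

theorem DC5_Sg_nonneg (M : ℕ) (g : Fin (2 * R + 1) → ℝ) : 0 ≤ Sg M g := by
  refine Finset.sum_nonneg fun j _ => ?_
  split_ifs
  · exact Finset.sum_nonneg fun l _ => by unfold w32; positivity
  · exact le_rfl

theorem DC5_En_nonneg (M : ℕ) (x y : Fin (2 * R + 1) → ℝ) : 0 ≤ En M x y :=
  Finset.sum_nonneg fun j _ => mul_nonneg (DC5_chi_nonneg M j) (sq_nonneg _)

theorem DC5_conv {a b c B θ : ℝ} (h0 : 0 ≤ θ) (h1 : θ ≤ 1) (ha : |a - c| ≤ B) (hb : |b - c| ≤ B) :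
    |a + θ * (b - a) - c| ≤ B := by
  have e : a + θ * (b - a) - c = (1 - θ) * (a - c) + θ * (b - c) := by ring
  rw [e]
  refine (abs_add_le _ _).trans ?_
  rw [abs_mul, abs_mul, abs_of_nonneg h0, abs_of_nonneg (by linarith : 0 ≤ 1 - θ)]
  have h2 := mul_le_mul_of_nonneg_left ha (by linarith : 0 ≤ 1 - θ)
  have h3 := mul_le_mul_of_nonneg_left hb h0
  linarith

theorem DC5_glob {M : ℕ} {x y : Fin (2 * R + 1) → ℝ} (hx : Glob M x) (hy : Glob M y) {θ : ℝ}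
    (h0 : 0 ≤ θ) (h1 : θ ≤ 1) : Glob M fun l => x l + θ * (y l - x l) := by
  refine ⟨fun a b hab => ?_, fun l hl => DC5_conv h0 h1 (hx.2 l hl) (hy.2 l hl)⟩
  have h2 := hx.1 hab
  have h3 := hy.1 hab
  show x a + θ * (y a - x a) < x b + θ * (y b - x b)
  rcases h0.eq_or_lt with rfl | h0'
  · simpa using h2
  · nlinarith [mul_pos h0' (sub_pos.2 h3), mul_nonneg (sub_nonneg.2 h1) (sub_pos.2 h2).le]

theorem DC5_loc {m : ℝ} {M : ℕ} {x y : Fin (2 * R + 1) → ℝ} {j : Fin (2 * R + 1)}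
    (hx : LocRig m M x j) (hy : LocRig m M y j) {θ : ℝ} (h0 : 0 ≤ θ) (h1 : θ ≤ 1) :
    LocRig m M (fun l => x l + θ * (y l - x l)) j := by
  intro l hl
  have := DC5_conv h0 h1 (hx l hl) (hy l hl)
  convert this using 2
  ring

end DC5aux

theorem DC5_half : ∃ (C : ℝ) (M₀ : ℕ), 0 ≤ C ∧ ∀ M : ℕ, M₀ ≤ M → ∀ R : ℕ, 8 * M ^ 32 ≤ R →
    ∀ (κ : ℝ) (x y g : Fin (2 * R + 1) → ℝ), κ ≠ 0 → (∀ l, g l ≠ 0) → Ctl M x y → Blk M g →
      ∃ θ : ℝ, 0 ≤ θ ∧ θ ≤ 1 ∧ En M (stepX κ x g) (stepX κ y g) +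
        ∑ j, chi M j * (Pm κ (fun l => x l + θ * (y l - x l)) g j j *
          Pm κ (fun l => x l + θ * (y l - x l)) g j (nxt j)) *
            ((y (nxt j) - x (nxt j)) - (y j - x j)) ^ 2
        ≤ En M x y + C * ((M : ℝ) ^ 9 + Sg M g / (M : ℝ) ^ 4) := by
  obtain ⟨C, M₀, hC⟩ := boundary_le
  refine ⟨|C|, M₀, abs_nonneg _, fun M hM R hR κ x y g hκ hg hc hb => ?_⟩
  obtain ⟨θ, h0, h1, h2⟩ := stepX_mvt hκ hc.1.1 hc.2.1.1 hg (c := chi M) (DC5_chi_nonneg M)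
  refine ⟨θ, h0, h1, ?_⟩
  have hz := DC5_glob hc.1 hc.2.1 h0 h1
  have h3 := stoch_ineq (P := Pm κ (fun l => x l + θ * (y l - x l)) g) (Pm_nonneg _ _ _)
    (Pm_row hκ hz.1 hg) (Pm_col hκ hz.1 hg) (c := chi M) (DC5_chi_nonneg M) (fun l => y l - x l) nxt
  have h4 := hC M hM R hR κ _ g (fun l => y l - x l) hκ hz hg hb hc.2.2
  have h5 : C * ((M : ℝ) ^ 9 + Sg M g / (M : ℝ) ^ 4) ≤ |C| * ((M : ℝ) ^ 9 + Sg M g / (M : ℝ) ^ 4) :=
    mul_le_mul_of_nonneg_right (le_abs_self _) (by have := DC5_Sg_nonneg M g; positivity)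
  unfold En
  linarith

theorem pair_step (m : ℝ) : ∃ (c C : ℝ) (M₀ : ℕ), 0 < c ∧ ∀ M : ℕ, M₀ ≤ M → ∀ R : ℕ,
    8 * M ^ 32 ≤ R → ∀ x y g₁ g₂ : Fin (2 * R + 1) → ℝ, (∀ l, g₁ l ≠ 0) → (∀ l, g₂ l ≠ 0) →
      Ctl M x y → Ctl M (stepX 1 x g₁) (stepX 1 y g₁) → Blk M g₁ → Blk M g₂ → Out M g₁ →
      En M (stepX (-1) (stepX 1 x g₁) g₂) (stepX (-1) (stepX 1 y g₁) g₂) + c * Dis m M x y g₁ ≤
        En M x y + C * ((M : ℝ) ^ 9 + (Sg M g₁ + Sg M g₂) / (M : ℝ) ^ 4) := by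
  obtain ⟨C, M₀, hC0, hC⟩ := DC5_half
  obtain ⟨c, M₁, hc0, hc⟩ := Pm_lower m
  refine ⟨c / 2, 2 * C, max (max M₀ M₁) 1, by positivity,
    fun M hM R hR x y g₁ g₂ hg₁ hg₂ hxy hxy' hb₁ hb₂ ho => ?_⟩
  have hM0 : M₀ ≤ M := ((le_max_left _ _).trans (le_max_left _ _)).trans hM
  have hM1 : M₁ ≤ M := ((le_max_right _ _).trans (le_max_left _ _)).trans hM
  have hM2 : (0 : ℝ) < M := by exact_mod_cast (le_max_right _ _).trans hM
  obtain ⟨θ, h0, h1, h2⟩ := hC M hM0 R hR 1 x y g₁ one_ne_zero hg₁ hxy hb₁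
  obtain ⟨θ', -, -, h3⟩ := hC M hM0 R hR (-1) _ _ g₂ (by norm_num) hg₂ hxy' hb₂
  have h4 : 0 ≤ ∑ j, chi M j *
      (Pm (-1) (fun l => stepX 1 x g₁ l + θ' * (stepX 1 y g₁ l - stepX 1 x g₁ l)) g₂ j j *
        Pm (-1) (fun l => stepX 1 x g₁ l + θ' * (stepX 1 y g₁ l - stepX 1 x g₁ l)) g₂ j (nxt j)) *
          ((stepX 1 y g₁ (nxt j) - stepX 1 x g₁ (nxt j)) - (stepX 1 y g₁ j - stepX 1 x g₁ j)) ^ 2 :=
    Finset.sum_nonneg fun j _ => mul_nonneg (mul_nonneg (DC5_chi_nonneg M j)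
      (mul_nonneg (Pm_nonneg _ _ _ _ _) (Pm_nonneg _ _ _ _ _))) (sq_nonneg _)
  have hz := DC5_glob hxy.1 hxy.2.1 h0 h1
  have h5 : c / 2 * Dis m M x y g₁ ≤ ∑ j, chi M j * (Pm 1 (fun l => x l + θ * (y l - x l)) g₁ j j *
      Pm 1 (fun l => x l + θ * (y l - x l)) g₁ j (nxt j)) *
        ((y (nxt j) - x (nxt j)) - (y j - x j)) ^ 2 := by
    unfold Dis
    rw [Finset.mul_sum]
    refine Finset.sum_le_sum fun j _ => ?_
    split_ifs with hj
    · refine mul_le_mul_of_nonneg_right ?_ (sq_nonneg _)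
      have h6 := hc M hM1 R hR _ g₁ j hz.1 hg₁ hj.1 (DC5_loc hj.2.1 hj.2.2.1 h0 h1) hj.2.2.2 ho
      have h7 : 1 / 2 ≤ chi M j := by
        refine le_trans ?_ (le_max_right _ _)
        have : |lab j| / (2 * (M : ℝ) ^ 32) ≤ 1 / 2 := by
          rw [div_le_iff₀ (by positivity)]
          linarith [hj.1]
        linarith
      calc c / 2 = 1 / 2 * c := by ring
        _ ≤ _ := mul_le_mul h7 h6 hc0.le (DC5_chi_nonneg M j)
    · rw [mul_zero]
      exact mul_nonneg (mul_nonneg (DC5_chi_nonneg M j)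
        (mul_nonneg (Pm_nonneg _ _ _ _ _) (Pm_nonneg _ _ _ _ _))) (sq_nonneg _)
  have h8 : 0 ≤ C * (Sg M g₁ / (M : ℝ) ^ 4) := by have := DC5_Sg_nonneg M g₁; positivity
  have h9 : 0 ≤ C * (Sg M g₂ / (M : ℝ) ^ 4) := by have := DC5_Sg_nonneg M g₂; positivity
  rw [add_div]
  linarith

theorem DC5_card {R : ℕ} (M : ℕ) :
    (((Finset.univ : Finset (Fin (2 * R + 1))).filter
      fun j => |lab j| ≤ 2 * (M : ℝ) ^ 32).card : ℝ) ≤ 4 * (M : ℝ) ^ 32 + 1 := by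
  have h := Finset.card_le_card_of_injOn (s := (Finset.univ : Finset (Fin (2 * R + 1))).filter
      fun j => |lab j| ≤ 2 * (M : ℝ) ^ 32) (t := Finset.Icc (-(2 * (M : ℤ) ^ 32)) (2 * (M : ℤ) ^ 32))
    (fun j => ((j : ℕ) : ℤ) - R) (fun j hj => by
      have h1 := (Finset.mem_filter.1 hj).2
      rw [lab, abs_le] at h1
      simp only [Finset.coe_Icc, Set.mem_Icc]
      constructor
      · exact_mod_cast h1.1
      · exact_mod_cast h1.2)
    (fun a _ b _ hab => Fin.ext (by simpa using hab))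
  rw [Int.card_Icc] at h
  have h2 : (2 * (M : ℤ) ^ 32 + 1 - -(2 * (M : ℤ) ^ 32)).toNat = 4 * M ^ 32 + 1 := by
    have : 2 * (M : ℤ) ^ 32 + 1 - -(2 * (M : ℤ) ^ 32) = ((4 * M ^ 32 + 1 : ℕ) : ℤ) := by
      push_cast; ring
    rw [this, Int.toNat_natCast]
  rw [h2] at h
  exact_mod_cast h

theorem DC5_En_le {R M : ℕ} (hM : 1 ≤ M) {x y : Fin (2 * R + 1) → ℝ} (hx : Rig0 M x)
    (hy : Rig0 M y) : En M x y ≤ 180 * (M : ℝ) ^ 34 := by
  have hM1 : (1 : ℝ) ≤ M := by exact_mod_cast hM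
  have h1 : ∀ j, chi M j * (y j - x j) ^ 2 ≤
      if |lab j| ≤ 2 * (M : ℝ) ^ 32 then 36 * (M : ℝ) ^ 2 else 0 := by
    intro j
    split_ifs with hj
    · have h2 : |lab j| ^ (1 / 32 : ℝ) ≤ 2 * M := by
        have h3 : |lab j| ≤ (2 * (M : ℝ)) ^ 32 := by
          rw [mul_pow]
          refine hj.trans ?_
          gcongr
          norm_num
        calc |lab j| ^ (1 / 32 : ℝ) ≤ ((2 * (M : ℝ)) ^ 32) ^ (1 / 32 : ℝ) := by gcongr
          _ = 2 * M := by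
            rw [one_div]
            exact_mod_cast Real.pow_rpow_inv_natCast (by positivity : (0 : ℝ) ≤ 2 * M)
              (by norm_num : 32 ≠ 0)
      have h4 : |y j - x j| ≤ 6 * M := by
        have e : y j - x j = (y j - lab j) - (x j - lab j) := by ring
        rw [e]
        refine (abs_sub _ _).trans ?_
        linarith [hx j, hy j]
      have h5 : (y j - x j) ^ 2 ≤ (6 * M) ^ 2 := by
        rw [← sq_abs]; gcongr
      have h6 : chi M j ≤ 1 := max_le zero_le_one (by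
        have : 0 ≤ |lab j| / (2 * (M : ℝ) ^ 32) := by positivity
        linarith)
      calc chi M j * (y j - x j) ^ 2 ≤ 1 * (6 * M) ^ 2 := by gcongr
        _ = _ := by ring
    · have : chi M j = 0 := max_eq_left (by
        have : 1 ≤ |lab j| / (2 * (M : ℝ) ^ 32) := by
          rw [le_div_iff₀ (by positivity)]
          linarith [not_le.1 hj]
        linarith)
      rw [this, zero_mul]
  refine (Finset.sum_le_sum fun j _ => h1 j).trans ?_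
  rw [← Finset.sum_filter, Finset.sum_const, nsmul_eq_mul]
  have h7 : (1 : ℝ) ≤ (M : ℝ) ^ 32 := one_le_pow₀ hM1
  calc _ ≤ (4 * (M : ℝ) ^ 32 + 1) * (36 * (M : ℝ) ^ 2) := by gcongr; exact DC5_card M
    _ ≤ (5 * (M : ℝ) ^ 32) * (36 * (M : ℝ) ^ 2) := by gcongr; linarith
    _ = _ := by ring

theorem total_dis (m : ℝ) : ∃ (C : ℝ) (M₀ : ℕ), ∀ M : ℕ, M₀ ≤ M → ∀ R : ℕ, 8 * M ^ 32 ≤ R →
    ∀ (x y : Fin (2 * R + 1) → ℝ) (g : Noise (2 * R + 1)), StrictMono x → StrictMono y →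
      Rig0 M x → Rig0 M y → NoiseOK M g →
      ∑ t ∈ Finset.range (M ^ 3), Dis m M (chainX x g t) (chainX y g t) (g t).1 ≤
        C * (M : ℝ) ^ 34 := by
  obtain ⟨c, C, M₀, hc0, hC⟩ := pair_step m
  refine ⟨(180 + 2 * |C|) / c, max M₀ 1, fun M hM R hR x y g hx hy hx' hy' hg => ?_⟩
  have hM0 : M₀ ≤ M := (le_max_left _ _).trans hM
  have hM1 : 1 ≤ M := (le_max_right _ _).trans hM
  have hM2 : (1 : ℝ) ≤ M := by exact_mod_cast hM1
  have step : ∀ t < M ^ 3, En M (chainX x g (t + 1)) (chainX y g (t + 1))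
      + c * Dis m M (chainX x g t) (chainX y g t) (g t).1 ≤ En M (chainX x g t) (chainX y g t)
        + |C| * ((M : ℝ) ^ 9 + (Sg M (g t).1 + Sg M (g t).2) / (M : ℝ) ^ 4) := by
    intro t ht
    obtain ⟨h1, h2⟩ := chain_ctl hx hy hx' hy' hg.1 ht
    obtain ⟨b1, b2, b3⟩ := hg.2.1 t ht
    refine (hC M hM0 R hR _ _ (g t).1 (g t).2 (fun l => (hg.1 t l).1) (fun l => (hg.1 t l).2) h1 h2
      b1 b2 b3).trans ?_
    have := DC5_Sg_nonneg M (g t).1
    have := DC5_Sg_nonneg M (g t).2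
    gcongr
    exact le_abs_self _
  have tel : ∀ T ≤ M ^ 3, En M (chainX x g T) (chainX y g T)
      + c * ∑ t ∈ Finset.range T, Dis m M (chainX x g t) (chainX y g t) (g t).1 ≤ En M x y
        + |C| * (T * (M : ℝ) ^ 9
          + (∑ t ∈ Finset.range T, (Sg M (g t).1 + Sg M (g t).2)) / (M : ℝ) ^ 4) := by
    intro T hT
    induction T with
    | zero => simp [chainX]
    | succ T ih =>
      have h1 := ih (by omega)
      have h2 := step T (by omega)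
      rw [Finset.sum_range_succ, Finset.sum_range_succ, add_div]
      push_cast
      linarith
  have h1 := tel _ le_rfl
  have h2 := DC5_En_nonneg M (chainX x g (M ^ 3)) (chainX y g (M ^ 3))
  have h3 := DC5_En_le hM1 hx' hy'
  have h4 : (∑ t ∈ Finset.range (M ^ 3), (Sg M (g t).1 + Sg M (g t).2)) / (M : ℝ) ^ 4
      ≤ (M : ℝ) ^ 34 := by
    rw [div_le_iff₀ (by positivity)]
    refine hg.2.2.trans ?_
    rw [← pow_add]
    exact pow_le_pow_right₀ hM2 (by norm_num)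
  have h5 : ((M ^ 3 : ℕ) : ℝ) * (M : ℝ) ^ 9 ≤ (M : ℝ) ^ 34 := by
    push_cast
    rw [← pow_add]
    exact pow_le_pow_right₀ hM2 (by norm_num)
  have h6 := mul_le_mul_of_nonneg_left (add_le_add h5 h4) (abs_nonneg C)
  rw [div_mul_eq_mul_div, le_div_iff₀ hc0]
  linarith

end Crest.Agent.R166
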