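import Crest.Agent.R166.DC0

/-! # Coupling: from rigid positions to rigid labels and short gaps -/

set_option autoImplicit false
set_option linter.unusedVariables false
set_option linter.unusedSectionVars false

open MeasureTheory ProbabilityTheory Filter Topology Matrix
open scoped ENNReal BoundedContinuousFunction

namespace Crest.Agent.R166

theorem DC6_root {t s : ℝ} (ht : 0 ≤ t) (hs : 0 ≤ s) (h : t ≤ s ^ 32) :
    t ^ (1 / 32 : ℝ) ≤ s := by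
  have h1 : t ^ (1 / 32 : ℝ) ≤ (s ^ 32) ^ (1 / 32 : ℝ) := Real.rpow_le_rpow ht h (by norm_num)
  have h2 := Real.pow_rpow_inv_natCast hs (n := 32) (by norm_num)
  have h3 : (1 / 32 : ℝ) = ((32 : ℕ) : ℝ)⁻¹ := by norm_num
  rw [h3] at h1 ⊢
  rwa [h2] at h1

theorem DC6_sqrt {t : ℝ} (ht : 0 ≤ t) : t ^ (1 / 32 : ℝ) ≤ √(1 + t) := by
  have h1 : 1 ≤ √(1 + t) := Real.one_le_sqrt.2 (by linarith)
  refine DC6_root ht (by linarith) ?_
  calc t ≤ √(1 + t) ^ 2 := by rw [Real.sq_sqrt (by linarith)]; linarith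
    _ ≤ √(1 + t) ^ 32 := pow_le_pow_right₀ h1 (by norm_num)

theorem DC6_el (m₀ : ℝ) {δ : ℝ} (hδ : 0 < δ) :
    ∃ el : ℕ, 1 ≤ el ∧ |m₀| + (el : ℝ) ^ (1 / 32 : ℝ) ≤ δ * el := by
  obtain ⟨n, hn⟩ := exists_nat_ge (max 1 ((|m₀| + 1) / δ))
  have h1 : (1 : ℝ) ≤ n := (le_max_left _ _).trans hn
  have h2 : |m₀| + 1 ≤ n * δ := (div_le_iff₀ hδ).1 ((le_max_right _ _).trans hn)
  refine ⟨n ^ 32, Nat.one_le_pow _ _ (by exact_mod_cast (zero_lt_one.trans_le h1)), ?_⟩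
  push_cast
  have h3 : ((n : ℝ) ^ 32) ^ (1 / 32 : ℝ) ≤ n := DC6_root (by positivity) (by linarith) le_rfl
  have h4 : (n : ℝ) ^ 2 ≤ (n : ℝ) ^ 32 := pow_le_pow_right₀ h1 (by norm_num)
  have h5 := abs_nonneg m₀
  have h6 := mul_le_mul_of_nonneg_left h4 hδ.le
  nlinarith

theorem DC6_cnt_ge {n : ℕ} {x : Fin n → ℝ} (hx : StrictMono x) {l : Fin n} {a : ℝ}
    (h : x l ≤ a) : ((l : ℕ) : ℝ) + 1 ≤ cnt x a := by
  unfold cnt
  have : Finset.Iic l ⊆ Finset.univ.filter fun l => x l ≤ a := fun i hi =>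
    Finset.mem_filter.2 ⟨Finset.mem_univ _, (hx.monotone (Finset.mem_Iic.1 hi)).trans h⟩
  have := Finset.card_le_card this
  rw [Fin.card_Iic] at this
  exact_mod_cast this

theorem DC6_cnt_le {n : ℕ} {x : Fin n → ℝ} (hx : StrictMono x) {l : Fin n} {a : ℝ}
    (h : a < x l) : cnt x a ≤ ((l : ℕ) : ℝ) := by
  unfold cnt
  have : (Finset.univ.filter fun l => x l ≤ a) ⊆ Finset.Iio l := fun i hi =>
    Finset.mem_Iio.2 (hx.lt_iff_lt.1 ((Finset.mem_filter.1 hi).2.trans_lt h))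
  have := Finset.card_le_card this
  rw [Fin.card_Iio] at this
  exact_mod_cast this

theorem DC6_cnt_sub {n : ℕ} (x : Fin n → ℝ) {a b : ℝ} (h : a ≤ b) :
    cnt x b - cnt x a = ((Finset.univ.filter fun l => a < x l ∧ x l ≤ b).card : ℝ) := by
  unfold cnt
  have e : (Finset.univ.filter fun l => x l ≤ b) =
      (Finset.univ.filter fun l => x l ≤ a) ∪ Finset.univ.filter fun l => a < x l ∧ x l ≤ b := by
    ext l
    simp only [Finset.mem_filter, Finset.mem_univ, true_and, Finset.mem_union]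
    constructor
    · intro hl
      rcases le_or_gt (x l) a with h1 | h1
      · exact Or.inl h1
      · exact Or.inr ⟨h1, hl⟩
    · rintro (h1 | h1)
      · exact h1.trans h
      · exact h1.2
  rw [e, Finset.card_union_of_disjoint (Finset.disjoint_filter.2 fun l _ h1 h2 =>
    (not_le.2 h2.1) h1)]
  push_cast
  ring

theorem DC6_card_lab (R K : ℕ) :
    ((Finset.univ.filter fun j : Fin (2 * R + 1) => |lab j| ≤ (K : ℝ)).card : ℝ) ≤ 2 * K + 1 := by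
  have h : (Finset.univ.filter fun j : Fin (2 * R + 1) => |lab j| ≤ (K : ℝ)).card ≤
      (Finset.Icc (-(K : ℤ)) K).card := by
    refine Finset.card_le_card_of_injOn (fun j => ((j : ℕ) : ℤ) - R) (fun j hj => ?_)
      (fun i _ j _ hij => ?_)
    · have := abs_le.1 (Finset.mem_filter.1 (Finset.mem_coe.1 hj)).2
      unfold lab at this
      rw [Finset.coe_Icc]
      constructor
      · have h1 : ((-(K : ℤ) : ℤ) : ℝ) ≤ ((((j : ℕ) : ℤ) - R : ℤ) : ℝ) := by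
          push_cast; exact this.1
        exact_mod_cast h1
      · have h1 : ((((j : ℕ) : ℤ) - R : ℤ) : ℝ) ≤ ((K : ℤ) : ℝ) := by
          push_cast; exact this.2
        exact_mod_cast h1
    · simp only at hij
      exact Fin.ext (by omega)
  rw [Int.card_Icc] at h
  have h2 : ((K : ℤ) + 1 - -(K : ℤ)).toNat = 2 * K + 1 := by omega
  rw [h2] at h
  exact_mod_cast h

/-- `Glob` at a label of size at most `2 W` -/
theorem DC6_glob {M R : ℕ} (hM : 2 ≤ M) (hR : 8 * M ^ 32 ≤ R) {x : Fin (2 * R + 1) → ℝ}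
    (hx : Glob M x) {j : Fin (2 * R + 1)} (hj : |lab j| ≤ 2 * (M : ℝ) ^ 32) :
    |x j - lab j| ≤ 3 * (M : ℝ) ^ 3 := by
  have h1 : (2 : ℝ) ≤ M := by exact_mod_cast hM
  have h2 : 8 * (M : ℝ) ^ 32 ≤ R := by exact_mod_cast hR
  have h3 : (M : ℝ) ^ 3 ≤ (M : ℝ) ^ 32 := pow_le_pow_right₀ (by linarith) (by norm_num)
  have h0 : 0 ≤ (M : ℝ) ^ 32 := by positivity
  have h4 := hx.2 j (by linarith)
  have h5 : |lab j| ^ (1 / 32 : ℝ) ≤ 2 * M := DC6_root (abs_nonneg _) (by linarith) (by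
    rw [mul_pow]; linarith)
  have h6 : 4 * (M : ℝ) ≤ (M : ℝ) ^ 3 := by nlinarith [mul_self_nonneg ((M : ℝ) - 2)]
  linarith

/-- points in `[-W, W]` have labels of size at most `W + 4 M³` -/
theorem DC6_lab_le {M R : ℕ} (hM : 2 ≤ M) (hR : 8 * M ^ 32 ≤ R) {x : Fin (2 * R + 1) → ℝ}
    (hx : Glob M x) {j : Fin (2 * R + 1)} (hj : |x j| ≤ (M : ℝ) ^ 32) :
    |lab j| ≤ ((M ^ 32 + 4 * M ^ 3 : ℕ) : ℝ) := by
  have h1 : (2 : ℝ) ≤ M := by exact_mod_cast hM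
  have h3 : 4 * M ^ 3 ≤ M ^ 32 := by
    calc 4 * M ^ 3 = 2 ^ 2 * M ^ 3 := by norm_num
      _ ≤ M ^ 2 * M ^ 3 := Nat.mul_le_mul_right _ (Nat.pow_le_pow_left hM 2)
      _ = M ^ 5 := by ring
      _ ≤ M ^ 32 := Nat.pow_le_pow_right (by omega) (by norm_num)
  have h3' : 4 * (M : ℝ) ^ 3 ≤ (M : ℝ) ^ 32 := by exact_mod_cast h3
  have h0 : 0 < (M : ℝ) ^ 3 := by positivity
  set K := M ^ 32 + 4 * M ^ 3 with hK
  have hKR : K ≤ R := by omega
  have hK' : (K : ℝ) = (M : ℝ) ^ 32 + 4 * (M : ℝ) ^ 3 := by rw [hK]; push_cast; ring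
  have hK0 : (0 : ℝ) ≤ K := Nat.cast_nonneg K
  obtain ⟨hj1, hj2⟩ := abs_le.1 hj
  rw [abs_le]
  constructor
  · by_contra hn
    let l : Fin (2 * R + 1) := ⟨R - K, by omega⟩
    have hl : lab l = -(K : ℝ) := by
      unfold lab
      change ((R - K : ℕ) : ℝ) - R = _
      rw [Nat.cast_sub hKR]; ring
    have h4 := abs_le.1 (DC6_glob hM hR hx (j := l) (by rw [hl, abs_neg, abs_of_nonneg hK0]; linarith))
    have h5 : j ≤ l := by
      have : ((j : ℕ) : ℝ) ≤ ((l : ℕ) : ℝ) := by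
        unfold lab at hn hl; linarith [not_le.1 hn]
      exact_mod_cast this
    have := hx.1.monotone h5
    linarith [h4.2]
  · by_contra hn
    let l : Fin (2 * R + 1) := ⟨R + K, by omega⟩
    have hl : lab l = (K : ℝ) := by
      unfold lab
      change ((R + K : ℕ) : ℝ) - R = _
      push_cast; ring
    have h4 := abs_le.1 (DC6_glob hM hR hx (j := l) (by rw [hl, abs_of_nonneg hK0]; linarith))
    have h5 : l ≤ j := by
      have : ((l : ℕ) : ℝ) ≤ ((j : ℕ) : ℝ) := by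
        unfold lab at hn hl; linarith [not_le.1 hn]
      exact_mod_cast this
    have := hx.1.monotone h5
    linarith [h4.1]

/-- the crude bound from `Glob` alone -/
theorem DC6_far {M R : ℕ} (hM : 2 ≤ M) (hR : 8 * M ^ 32 ≤ R) {x : Fin (2 * R + 1) → ℝ}
    (hx : Glob M x) {j l : Fin (2 * R + 1)} (hj : |lab j| ≤ 2 * (M : ℝ) ^ 32)
    (hl : |lab l| + (M : ℝ) ^ 3 ≤ R) :
    |x l - x j - (lab l - lab j)| ≤ 6 * (M : ℝ) ^ 3 + √(1 + |lab l - lab j|) := by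
  have h1 : (2 : ℝ) ≤ M := by exact_mod_cast hM
  have h0 : 0 ≤ (M : ℝ) ^ 32 := by positivity
  have h2 := DC6_glob hM hR hx hj
  have h3 := hx.2 l hl
  have h4 : |lab l| ≤ |lab l - lab j| + |lab j| := by
    have := abs_add_le (lab l - lab j) (lab j)
    rwa [sub_add_cancel] at this
  have h5 : |lab l| ^ (1 / 32 : ℝ) ≤ |lab l - lab j| ^ (1 / 32 : ℝ) + |lab j| ^ (1 / 32 : ℝ) :=
    (Real.rpow_le_rpow (abs_nonneg _) h4 (by norm_num)).trans
      (Real.rpow_add_le_add_rpow (abs_nonneg _) (abs_nonneg _) (by norm_num) (by norm_num))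
  have h6 : |lab j| ^ (1 / 32 : ℝ) ≤ 2 * M := DC6_root (abs_nonneg _) (by linarith) (by
    rw [mul_pow]; linarith)
  have h7 := DC6_sqrt (abs_nonneg (lab l - lab j))
  have h8 : 4 * (M : ℝ) ≤ (M : ℝ) ^ 3 := by nlinarith [mul_self_nonneg ((M : ℝ) - 2)]
  have h9 : |x l - x j - (lab l - lab j)| ≤ |x l - lab l| + |x j - lab j| := by
    have := abs_sub (x l - lab l) (x j - lab j)
    rwa [show x l - lab l - (x j - lab j) = x l - x j - (lab l - lab j) by ring] at this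
  linarith

theorem DC6_num {D c t s : ℝ} (hD : 0 ≤ D) (hc : 0 ≤ c) (ht : 0 ≤ t) (hs : s ≤ √(1 + t))
    (h : t ≤ D + c + s) : s ≤ (2 * c + 3) * √(1 + D) := by
  have h1 : √(1 + t) ≤ (1 + t + 1) / 2 := by
    rw [Real.sqrt_le_left (by linarith)]
    nlinarith
  have h2 : 1 + t ≤ (2 * c + 3) ^ 2 * (1 + D) := by nlinarith [mul_nonneg hc hD, mul_nonneg hc hc, mul_nonneg (mul_nonneg hc hc) hD]
  refine hs.trans ?_
  calc √(1 + t) ≤ √((2 * c + 3) ^ 2 * (1 + D)) := Real.sqrt_le_sqrt h2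
    _ = (2 * c + 3) * √(1 + D) := by
      rw [Real.sqrt_mul (by positivity), Real.sqrt_sq (by positivity)]

/-- a point in the block after a rigid position is a rigid label -/
theorem DC6_loc {m₀ : ℝ} {el M R : ℕ} (hel : |m₀| + (el : ℝ) ^ (1 / 32 : ℝ) ≤ el)
    (hM : 2 ≤ M) (hMe : el + 1 ≤ M) (hR : 8 * M ^ 32 ≤ R) {x : Fin (2 * R + 1) → ℝ}
    (hx : Glob M x) {j : Fin (2 * R + 1)} (hj : |lab j| ≤ 2 * (M : ℝ) ^ 32) {u : ℤ}
    (hu : PosRig m₀ (M ^ 8) x u) (h1 : (u : ℝ) < x j) (h2 : x j ≤ u + el) :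
    LocRig (12 * el + 20) M x j := by
  intro l hl
  have hM' : (2 : ℝ) ≤ M := by exact_mod_cast hM
  have hMe' : (el : ℝ) + 1 ≤ M := by exact_mod_cast hMe
  have hel0 : (0 : ℝ) ≤ el := Nat.cast_nonneg el
  have hfar := DC6_far hM hR hx hj hl
  have hD0 := abs_nonneg (lab l - lab j)
  have hs1 : 1 ≤ √(1 + |lab l - lab j|) := Real.one_le_sqrt.2 (by linarith)
  have p3 : 8 ≤ (M : ℝ) ^ 3 := by
    calc (8 : ℝ) = 2 ^ 3 := by norm_num
      _ ≤ _ := pow_le_pow_left₀ (by norm_num) hM' 3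
  have p4 : 2 * (M : ℝ) ^ 3 ≤ (M : ℝ) ^ 4 := by nlinarith
  have p1 : 8 * (M : ℝ) ≤ (M : ℝ) ^ 4 := by nlinarith
  have p8 : 16 * (M : ℝ) ^ 4 ≤ (M : ℝ) ^ 8 := by nlinarith
  rcases le_or_gt ((M : ℝ) ^ 8 / 4) |lab l - lab j| with hD | hD
  · have : (M : ℝ) ^ 4 / 2 ≤ √(1 + |lab l - lab j|) :=
      Real.le_sqrt_of_sq_le (by nlinarith)
    nlinarith [mul_nonneg hel0 (zero_le_one.trans hs1)]
  have hs2 : √(1 + |lab l - lab j|) ≤ (M : ℝ) ^ 4 := by
    rw [Real.sqrt_le_left (by positivity)]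
    nlinarith
  set k : ℤ := ⌈x l - u⌉ with hk
  have k1 : x l - u ≤ k := Int.le_ceil _
  have k2 : (k : ℝ) < x l - u + 1 := Int.ceil_lt_add_one _
  obtain ⟨f1, f2⟩ := abs_le.1 hfar
  obtain ⟨d1, d2⟩ := abs_lt.1 hD
  have b1 : |(k : ℝ)| + 1 ≤ (M : ℝ) ^ 8 := by
    have : |(k : ℝ)| ≤ (M : ℝ) ^ 8 - 1 := abs_le.2 ⟨by linarith, by linarith⟩
    linarith
  have b2 : |((k - 1 : ℤ) : ℝ)| ≤ |(k : ℝ)| + 1 := by
    push_cast
    have := abs_sub (k : ℝ) 1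
    rwa [abs_one] at this
  have c1 : |k| ≤ ((M ^ 8 : ℕ) : ℤ) := by
    have : ((|k| : ℤ) : ℝ) ≤ (((M ^ 8 : ℕ) : ℤ) : ℝ) := by push_cast; linarith
    exact_mod_cast this
  have c2 : |k - 1| ≤ ((M ^ 8 : ℕ) : ℤ) := by
    have : ((|k - 1| : ℤ) : ℝ) ≤ (((M ^ 8 : ℕ) : ℤ) : ℝ) := by
      rw [Int.cast_abs]; push_cast at b2 ⊢; linarith
    exact_mod_cast this
  have c3 : |(el : ℤ)| ≤ ((M ^ 8 : ℕ) : ℤ) := by
    have : ((|(el : ℤ)| : ℤ) : ℝ) ≤ (((M ^ 8 : ℕ) : ℤ) : ℝ) := by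
      push_cast; rw [abs_of_nonneg hel0]; linarith
    exact_mod_cast this
  have r1 := (abs_le.1 (hu k c1)).2
  have r2 := (abs_le.1 (hu (k - 1) c2)).1
  have r3 := (abs_le.1 (hu el c3)).2
  rw [Int.cast_natCast, abs_of_nonneg hel0] at r3
  have e1 := DC6_cnt_ge hx.1 (l := l) (a := (u : ℝ) + k) (by linarith)
  have e2 := DC6_cnt_le hx.1 (l := l) (a := (u : ℝ) + ((k - 1 : ℤ) : ℝ)) (by push_cast; linarith)
  have e3 := DC6_cnt_ge hx.1 h2
  have e4 := DC6_cnt_le hx.1 h1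
  have s1 : |(k : ℝ)| ^ (1 / 32 : ℝ) ≤ (|(k : ℝ)| + 1) ^ (1 / 32 : ℝ) :=
    Real.rpow_le_rpow (abs_nonneg _) (by linarith) (by norm_num)
  have s2 : |((k - 1 : ℤ) : ℝ)| ^ (1 / 32 : ℝ) ≤ (|(k : ℝ)| + 1) ^ (1 / 32 : ℝ) :=
    Real.rpow_le_rpow (abs_nonneg _) b2 (by norm_num)
  have s3 := DC6_sqrt (t := |(k : ℝ)| + 1) (by positivity)
  have m1 := le_abs_self m₀
  have m2 : 0 ≤ (el : ℝ) ^ (1 / 32 : ℝ) := by positivity
  have hlab : lab l - lab j = ((l : ℕ) : ℝ) - ((j : ℕ) : ℝ) := by unfold lab; ring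
  have hk1 : ((k - 1 : ℤ) : ℝ) = k - 1 := by push_cast; ring
  generalize (|(k : ℝ)| + 1) ^ (1 / 32 : ℝ) = s at s1 s2 s3
  have g1 := le_abs_self (lab l - lab j)
  have g2 := neg_abs_le (lab l - lab j)
  have t1 : |(k : ℝ)| ≤ |lab l - lab j| + 3 * el + 1 + s :=
    abs_le.2 ⟨by linarith, by linarith⟩
  have t2 := DC6_num (D := |lab l - lab j|) (c := 3 * el + 2) (t := |(k : ℝ)| + 1) hD0
    (by positivity) (by positivity) s3 (by linarith)
  have t3 : |x l - x j - (lab l - lab j)| ≤ 4 * el + 2 + s :=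
    abs_le.2 ⟨by linarith, by linarith⟩
  nlinarith [mul_nonneg hel0 (sub_nonneg.2 hs1)]

theorem badLab_le (m₀ : ℝ) {ε : ℝ} (hε : 0 < ε) : ∃ (m : ℝ) (M₀ : ℕ), ∀ M : ℕ, M₀ ≤ M →
    ∀ R : ℕ, 8 * M ^ 32 ≤ R → ∀ x : Fin (2 * R + 1) → ℝ, Glob M x →
      badLab m M x ≤ badPos m₀ M x + ε * (M : ℝ) ^ 32 := by
  classical
  have hδ : 0 < min (ε / 6) 1 := lt_min (by positivity) one_pos
  obtain ⟨el, hel1, hel⟩ := DC6_el m₀ hδ
  obtain ⟨M₁, hM₁⟩ := exists_nat_ge (18 / ε)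
  refine ⟨12 * el + 20, max (max 2 (el + 1)) M₁, fun M hM R hR x hx => ?_⟩
  have hM2 : 2 ≤ M := (le_max_left _ _).trans ((le_max_left _ _).trans hM)
  have hMe : el + 1 ≤ M := (le_max_right _ _).trans ((le_max_left _ _).trans hM)
  have hM' : (2 : ℝ) ≤ M := by exact_mod_cast hM2
  have hMe' : (el : ℝ) + 1 ≤ M := by exact_mod_cast hMe
  have hMε : 18 ≤ M * ε := (div_le_iff₀ hε).1
    (hM₁.trans (by exact_mod_cast (le_max_right _ _).trans hM))
  have hel0 : (1 : ℝ) ≤ el := by exact_mod_cast hel1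
  generalize hδ' : min (ε / 6) 1 = δ at hδ hel
  have hδ1 : δ ≤ 1 := hδ' ▸ min_le_right _ _
  have hδ2 : δ ≤ ε / 6 := hδ' ▸ min_le_left _ _
  have hel' : |m₀| + (el : ℝ) ^ (1 / 32 : ℝ) ≤ el := hel.trans (by nlinarith)
  have p3 : (M : ℝ) ≤ (M : ℝ) ^ 3 := le_self_pow₀ (by linarith) (by norm_num)
  have p4 : (M : ℝ) ^ 4 ≤ (M : ℝ) ^ 32 := pow_le_pow_right₀ (by linarith) (by norm_num)
  have p5 : 4 * (M : ℝ) ^ 3 ≤ (M : ℝ) ^ 32 := by
    have : (M : ℝ) ^ 5 ≤ (M : ℝ) ^ 32 := pow_le_pow_right₀ (by linarith) (by norm_num)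
    have h4 : 4 ≤ (M : ℝ) ^ 2 := by nlinarith
    nlinarith
  have p8 : (M : ℝ) ≤ (M : ℝ) ^ 8 := le_self_pow₀ (by linarith) (by norm_num)
  set I : Finset ℤ := Finset.Icc (-(M : ℤ) ^ 32) ((M : ℤ) ^ 32 - el) with hI
  set G : Finset ℤ := I.filter fun u => PosRig m₀ (M ^ 8) x u with hG
  set C : Finset (Fin (2 * R + 1)) :=
    Finset.univ.filter fun j => ∃ u ∈ G, (u : ℝ) < x j ∧ x j ≤ u + el with hC
  -- double counting
  have ha : G.card • ((1 - δ) * el : ℝ) ≤ C.card • (el : ℝ) := by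
    refine Finset.card_nsmul_le_card_nsmul
      (fun (u : ℤ) (j : Fin (2 * R + 1)) => (u : ℝ) < x j ∧ x j ≤ u + el) (fun u hu => ?_)
      (fun j _ => ?_)
    · have c3 : |(el : ℤ)| ≤ ((M ^ 8 : ℕ) : ℤ) := by
        have : ((|(el : ℤ)| : ℤ) : ℝ) ≤ (((M ^ 8 : ℕ) : ℤ) : ℝ) := by
          push_cast; rw [abs_of_nonneg (by linarith)]; linarith
        exact_mod_cast this
      have r := (abs_le.1 ((Finset.mem_filter.1 hu).2 el c3)).1
      rw [Int.cast_natCast, abs_of_nonneg (by linarith : (0 : ℝ) ≤ el),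
        DC6_cnt_sub x (by linarith)] at r
      have hsub : (Finset.univ.filter fun l => (u : ℝ) < x l ∧ x l ≤ u + el) ⊆
          C.bipartiteAbove (fun (u : ℤ) (j : Fin (2 * R + 1)) => (u : ℝ) < x j ∧ x j ≤ u + el) u :=
        fun l hl => (Finset.mem_bipartiteAbove _).2 ⟨Finset.mem_filter.2 ⟨Finset.mem_univ _, u, hu,
          (Finset.mem_filter.1 hl).2⟩, (Finset.mem_filter.1 hl).2⟩
      have := (Nat.cast_le (α := ℝ)).2 (Finset.card_le_card hsub)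
      linarith [le_abs_self m₀]
    · have hsub : G.bipartiteBelow
          (fun (u : ℤ) (j : Fin (2 * R + 1)) => (u : ℝ) < x j ∧ x j ≤ u + el) j ⊆
          Finset.Ico (⌈x j⌉ - el) ⌈x j⌉ := fun u hu => by
        obtain ⟨-, h1, h2⟩ := (Finset.mem_bipartiteBelow _).1 hu
        refine Finset.mem_Ico.2 ⟨?_, Int.lt_ceil.2 h1⟩
        rw [← Int.ceil_sub_natCast]
        exact Int.ceil_le.2 (by linarith)
      have := Finset.card_le_card hsub
      rw [Int.card_Ico, sub_sub_cancel, Int.toNat_natCast] at this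
      exact_mod_cast this
  rw [nsmul_eq_mul, nsmul_eq_mul, ← mul_assoc] at ha
  have ha' : G.card * (1 - δ) ≤ C.card := le_of_mul_le_mul_right ha (by linarith)
  -- the number of good positions
  have hb : 2 * (M : ℝ) ^ 32 - el + 1 ≤ G.card + badPos m₀ M x := by
    have h1 : (I.filter fun u => ¬ PosRig m₀ (M ^ 8) x u) ⊆
        (Finset.Icc (-(2 * (M : ℤ) ^ 32)) (2 * (M : ℤ) ^ 32)).filter fun u =>
          ¬ PosRig m₀ (M ^ 8) x u := by
      refine Finset.filter_subset_filter _ (Finset.Icc_subset_Icc ?_ ?_)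
      · have : 0 ≤ (M : ℤ) ^ 32 := by positivity
        linarith
      · have : 0 ≤ (M : ℤ) ^ 32 := by positivity
        have : (0 : ℤ) ≤ el := Int.natCast_nonneg el
        linarith
    have h2 := Finset.card_filter_add_card_filter_not (s := I) (fun u => PosRig m₀ (M ^ 8) x u)
    have h3 : ((M : ℤ) ^ 32 - el + 1 - -(M : ℤ) ^ 32) ≤ I.card := by
      rw [hI, Int.card_Icc]
      exact Int.self_le_toNat _
    have h3' : ((((M : ℤ) ^ 32 - el + 1 - -(M : ℤ) ^ 32 : ℤ)) : ℝ) ≤ ((I.card : ℤ) : ℝ) := by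
      exact_mod_cast h3
    have h4 := (Nat.cast_le (α := ℝ)).2 (Finset.card_le_card h1)
    have h5 : (G.card : ℝ) + ((I.filter fun u => ¬ PosRig m₀ (M ^ 8) x u).card : ℝ) = I.card := by
      exact_mod_cast h2
    unfold badPos
    push_cast at h3'
    have h6 : (((Finset.Icc (-(2 * (M : ℤ) ^ 32)) (2 * (M : ℤ) ^ 32)).filter fun u =>
          ¬ PosRig m₀ (M ^ 8) x u).card : ℝ) = _ := rfl
    convert (show 2 * (M : ℝ) ^ 32 - el + 1 ≤ G.card +
      (((Finset.Icc (-(2 * (M : ℤ) ^ 32)) (2 * (M : ℤ) ^ 32)).filter fun u =>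
          ¬ PosRig m₀ (M ^ 8) x u).card : ℝ) by linarith)
  -- the covered labels
  have hcov : ∀ j ∈ C, |lab j| ≤ ((M ^ 32 + 4 * M ^ 3 : ℕ) : ℝ) ∧ LocRig (12 * el + 20) M x j := by
    intro j hj
    obtain ⟨u, hu, h1, h2⟩ := (Finset.mem_filter.1 hj).2
    obtain ⟨hu1, hu2⟩ := Finset.mem_filter.1 hu
    obtain ⟨hu3, hu4⟩ := Finset.mem_Icc.1 hu1
    have hu3' : -(M : ℝ) ^ 32 ≤ u := by exact_mod_cast hu3
    have hu4' : (u : ℝ) ≤ (M : ℝ) ^ 32 - el := by exact_mod_cast hu4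
    have h3 := DC6_lab_le hM2 hR hx (j := j) (abs_le.2 ⟨by linarith, by linarith⟩)
    refine ⟨h3, DC6_loc hel' hM2 hMe hR hx ?_ hu2 h1 h2⟩
    push_cast at h3
    linarith
  have hc : badLab (12 * el + 20) M x + C.card ≤ 2 * ((M : ℝ) ^ 32 + 4 * (M : ℝ) ^ 3) + 1 := by
    have h1 := DC6_card_lab R (M ^ 32 + 4 * M ^ 3)
    have h2 : Disjoint (Finset.univ.filter fun j : Fin (2 * R + 1) =>
        |lab j| ≤ (M : ℝ) ^ 32 ∧ ¬ LocRig (12 * el + 20) M x j) C :=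
      Finset.disjoint_left.2 fun j hj hj' => (Finset.mem_filter.1 hj).2.2 (hcov j hj').2
    have h3 : (Finset.univ.filter fun j : Fin (2 * R + 1) =>
        |lab j| ≤ (M : ℝ) ^ 32 ∧ ¬ LocRig (12 * el + 20) M x j) ∪ C ⊆
        Finset.univ.filter fun j : Fin (2 * R + 1) =>
          |lab j| ≤ ((M ^ 32 + 4 * M ^ 3 : ℕ) : ℝ) := by
      intro j hj
      refine Finset.mem_filter.2 ⟨Finset.mem_univ _, ?_⟩
      rcases Finset.mem_union.1 hj with hj | hj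
      · refine (Finset.mem_filter.1 hj).2.1.trans ?_
        push_cast
        linarith
      · exact (hcov j hj).1
    have h4 := Finset.card_le_card h3
    rw [Finset.card_union_of_disjoint h2] at h4
    have h5 := (Nat.cast_le (α := ℝ)).2 h4
    unfold badLab
    push_cast at h1 h5
    convert h5.trans h1
  have hbp : 0 ≤ badPos m₀ M x := Nat.cast_nonneg _
  have q1 := mul_le_mul_of_nonneg_right hb (sub_nonneg.2 hδ1)
  have q2 : 18 * (M : ℝ) ^ 3 ≤ ε * (M : ℝ) ^ 32 := by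
    have := mul_le_mul_of_nonneg_left p4 hε.le
    have h2 := mul_le_mul_of_nonneg_right hMε (show 0 ≤ (M : ℝ) ^ 3 by linarith)
    nlinarith
  have q3 : δ * (3 * (M : ℝ) ^ 32) ≤ ε / 6 * (3 * (M : ℝ) ^ 32) :=
    mul_le_mul_of_nonneg_right hδ2 (by positivity)
  have q4 : δ * (2 * (M : ℝ) ^ 32 - el + 1) ≤ δ * (3 * (M : ℝ) ^ 32) :=
    mul_le_mul_of_nonneg_left (by linarith) hδ.le
  have q5 : 0 ≤ δ * badPos m₀ M x := mul_nonneg hδ.le hbp
  nlinarith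

theorem gapX_le (m₀ : ℝ) : ∃ (A : ℝ) (M₀ : ℕ), 0 < A ∧ ∀ M : ℕ, M₀ ≤ M →
    ∀ R : ℕ, 8 * M ^ 32 ≤ R → ∀ x : Fin (2 * R + 1) → ℝ, Glob M x →
      gapX A M x ≤ badPos m₀ M x := by
  classical
  obtain ⟨el, hel1, hel⟩ := DC6_el m₀ (δ := 1 / 2) (by norm_num)
  refine ⟨el + 1, max 2 el, by positivity, fun M hM R hR x hx => ?_⟩
  have hM2 : 2 ≤ M := (le_max_left _ _).trans hM
  have hM' : (2 : ℝ) ≤ M := by exact_mod_cast hM2
  have hMe' : (el : ℝ) ≤ M := by exact_mod_cast (le_max_right _ _).trans hM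
  have hel0 : (1 : ℝ) ≤ el := by exact_mod_cast hel1
  have hR' : 8 * (M : ℝ) ^ 32 ≤ R := by exact_mod_cast hR
  have p3 : (M : ℝ) ≤ (M : ℝ) ^ 3 := le_self_pow₀ (by linarith) (by norm_num)
  have p5 : 4 * (M : ℝ) ^ 3 ≤ (M : ℝ) ^ 32 := by
    have : (M : ℝ) ^ 5 ≤ (M : ℝ) ^ 32 := pow_le_pow_right₀ (by linarith) (by norm_num)
    have h4 : 4 ≤ (M : ℝ) ^ 2 := by nlinarith
    nlinarith
  have p8 : (M : ℝ) ≤ (M : ℝ) ^ 8 := le_self_pow₀ (by linarith) (by norm_num)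
  have c3 : |(el : ℤ)| ≤ ((M ^ 8 : ℕ) : ℤ) := by
    have : ((|(el : ℤ)| : ℤ) : ℝ) ≤ (((M ^ 8 : ℕ) : ℤ) : ℝ) := by
      push_cast; rw [abs_of_nonneg (by linarith)]; linarith
    exact_mod_cast this
  set S : Finset (Fin (2 * R + 1)) := Finset.univ.filter fun j => |lab j| ≤ (M : ℝ) ^ 32 with hS
  have hn : ∀ j ∈ S, ((nxt j : Fin (2 * R + 1)) : ℕ) = j + 1 := fun j hj => by
    have h1 := (abs_le.1 (Finset.mem_filter.1 hj).2).2
    unfold lab at h1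
    have h2 : ((j : ℕ) : ℝ) < ((2 * R : ℕ) : ℝ) := by push_cast; linarith
    have h3 : (j : ℕ) < 2 * R := by exact_mod_cast h2
    change min ((j : ℕ) + 1) (2 * R) = j + 1
    omega
  let T : Fin (2 * R + 1) → Finset ℤ := fun j => Finset.Ico ⌈x j⌉ (⌈x (nxt j)⌉ - el)
  have hT : ∀ j, ∀ u ∈ T j, x j ≤ u ∧ (u : ℝ) + el < x (nxt j) := fun j u hu => by
    obtain ⟨h1, h2⟩ := Finset.mem_Ico.1 hu
    rw [← Int.ceil_sub_natCast, Int.lt_ceil] at h2
    exact ⟨Int.ceil_le.1 h1, by linarith⟩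
  have h1 : gapX (el + 1) M x ≤ ∑ j ∈ S, ((T j).card : ℝ) := by
    unfold gapX
    rw [hS, Finset.sum_filter]
    refine Finset.sum_le_sum fun j _ => ?_
    split_ifs
    · refine max_le (Nat.cast_nonneg _) ?_
      have e1 : ⌈x (nxt j)⌉ - el - ⌈x j⌉ ≤ ((T j).card : ℤ) := by
        change _ ≤ ((Finset.Ico ⌈x j⌉ (⌈x (nxt j)⌉ - el)).card : ℤ)
        rw [Int.card_Ico]
        exact Int.self_le_toNat _
      have e2 : ((⌈x (nxt j)⌉ - el - ⌈x j⌉ : ℤ) : ℝ) ≤ (((T j).card : ℤ) : ℝ) := by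
        exact_mod_cast e1
      push_cast at e2
      linarith [Int.le_ceil (x (nxt j)), Int.ceil_lt_add_one (x j)]
    · exact le_rfl
  have h2 : (S : Set (Fin (2 * R + 1))).PairwiseDisjoint T := by
    have key : ∀ i ∈ S, ∀ j, i < j → Disjoint (T i) (T j) := fun i hi j hij =>
      Finset.disjoint_left.2 fun u hu hu' => by
        have a1 := (hT i u hu).2
        have a2 := (hT j u hu').1
        have a3 : nxt i ≤ j := by
          rw [Fin.le_def, hn i hi]; exact hij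
        have := hx.1.monotone a3
        linarith
    intro i hi j hj hij
    rcases lt_or_gt_of_ne hij with h | h
    · exact key i hi j h
    · exact (key j hj i h).symm
  have h3 : S.biUnion T ⊆ (Finset.Icc (-(2 * (M : ℤ) ^ 32)) (2 * (M : ℤ) ^ 32)).filter fun u =>
      ¬ PosRig m₀ (M ^ 8) x u := by
    intro u hu
    obtain ⟨j, hj, hu⟩ := Finset.mem_biUnion.1 hu
    obtain ⟨a1, a2⟩ := hT j u hu
    have b0 := (Finset.mem_filter.1 hj).2
    obtain ⟨b1, b2⟩ := abs_le.1 b0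
    have hl : lab (nxt j) = lab j + 1 := by
      unfold lab
      rw [hn j hj]; push_cast; ring
    have g1 := abs_le.1 (DC6_glob hM2 hR hx (j := j) (by linarith))
    have g2 := abs_le.1 (DC6_glob hM2 hR hx (j := nxt j)
      (by rw [hl]; exact abs_le.2 ⟨by linarith, by linarith⟩))
    refine Finset.mem_filter.2 ⟨Finset.mem_Icc.2 ⟨?_, ?_⟩, fun hp => ?_⟩
    · have : ((-(2 * (M : ℤ) ^ 32) : ℤ) : ℝ) ≤ u := by push_cast; linarith [g1.1]
      exact_mod_cast this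
    · have : (u : ℝ) ≤ ((2 * (M : ℤ) ^ 32 : ℤ) : ℝ) := by push_cast; linarith [g2.2]
      exact_mod_cast this
    · have r := (abs_le.1 (hp el c3)).1
      rw [Int.cast_natCast, abs_of_nonneg (by linarith : (0 : ℝ) ≤ el)] at r
      have e1 := DC6_cnt_ge hx.1 a1
      have e2 := DC6_cnt_le hx.1 a2
      rw [hn j hj] at e2
      push_cast at e2
      linarith [le_abs_self m₀]
  have h4 := Finset.card_le_card h3
  rw [Finset.card_biUnion h2] at h4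
  have h5 := (Nat.cast_le (α := ℝ)).2 h4
  unfold badPos
  push_cast at h5
  convert h1.trans h5

end Crest.Agent.R166
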