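import Crest.Agent.R166.DC0

/-! # Coupling: comparison of the averaged Laplace weights -/

set_option autoImplicit false
set_option linter.unusedVariables false
set_option linter.unusedSectionVars false

open MeasureTheory ProbabilityTheory Filter Topology Matrix
open scoped ENNReal BoundedContinuousFunction

namespace Crest.Agent.R166

theorem DC7_exp {a b : ℝ} (ha : 0 ≤ a) (hb : 0 ≤ b) :
    |Real.exp (-a) - Real.exp (-b)| ≤ |a - b| := by
  wlog hab : a ≤ b generalizing a b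
  · rw [abs_sub_comm, abs_sub_comm a]
    exact this hb ha (not_le.1 hab).le
  have h1 : Real.exp (-b) = Real.exp (-a) * Real.exp (-(b - a)) := by
    rw [← Real.exp_add]
    ring_nf
  have h2 := Real.add_one_le_exp (-(b - a))
  have h3 : Real.exp (-a) ≤ 1 := Real.exp_le_one_iff.2 (by linarith)
  have h4 := Real.exp_pos (-a)
  rw [abs_of_nonneg (sub_nonneg.2 (Real.exp_le_exp.2 (by linarith))), abs_of_nonpos (by linarith),
    h1]
  nlinarith

theorem DC7_cont {n : ℕ} {h : ℝ → ℝ} (hc : Continuous h) (x : Fin n → ℝ) :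
    Continuous (lapW h x) := by
  unfold lapW
  fun_prop

theorem DC7_norm {n : ℕ} {h : ℝ → ℝ} (hp : ∀ t, 0 ≤ h t) (x : Fin n → ℝ) (τ : ℝ) :
    ‖lapW h x τ‖ ≤ 1 := by
  rw [lapW, Real.norm_of_nonneg (Real.exp_pos _).le]
  exact Real.exp_le_one_iff.2 (neg_nonpos.2 (Finset.sum_nonneg fun _ _ => hp _))

theorem DC7_int {n : ℕ} {h : ℝ → ℝ} (hp : ∀ t, 0 ≤ h t) (x : Fin n → ℝ) (a b : ℝ) :
    |∫ τ in a..b, lapW h x τ| ≤ |b - a| := by
  have := intervalIntegral.norm_integral_le_of_norm_le_const (a := a) (b := b)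
    fun τ _ => DC7_norm hp x τ
  rwa [one_mul] at this

theorem DC7_lab {R : ℕ} (l j : Fin (2 * R + 1)) (k : ℕ) :
    |lab l - lab j| ≤ k ↔ (l : ℕ) ≤ j + k ∧ (j : ℕ) ≤ l + k := by
  rw [lab, lab, abs_le, ← Nat.cast_le (α := ℝ), ← Nat.cast_le (α := ℝ)]
  push_cast
  constructor <;> rintro ⟨h1, h2⟩ <;> constructor <;> linarith

theorem DC7_tele {R : ℕ} (d : Fin (2 * R + 1) → ℝ) (j : Fin (2 * R + 1)) (k : ℕ) {η : ℝ}
    (hη : 0 ≤ η) (h : ∀ l, |lab l - lab j| ≤ k → |d (nxt l) - d l| ≤ η) (l : Fin (2 * R + 1))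
    (hl : |lab l - lab j| ≤ k) : |d l - d j| ≤ k * η := by
  simp only [DC7_lab] at h hl
  have key : ∀ (i : ℕ) (a b : Fin (2 * R + 1)), (b : ℕ) = a + i → (j : ℕ) ≤ a + k →
      (b : ℕ) ≤ j + k → |d b - d a| ≤ i * η := by
    intro i
    induction i with
    | zero =>
      intro a b e _ _
      rw [Fin.ext e]
      simp
    | succ i ih =>
      intro a b e h1 h2
      have hb := b.2
      have e1 : nxt (⟨a + i, by omega⟩ : Fin (2 * R + 1)) = b := Fin.ext (by simp only [nxt]; omega)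
      have h3 := h ⟨a + i, by omega⟩ ⟨by simp only; omega, by simp only; omega⟩
      have h4 := ih a ⟨a + i, by omega⟩ rfl h1 (by simp only; omega)
      rw [e1] at h3
      have h5 := abs_sub_le (d b) (d ⟨a + i, by omega⟩) (d a)
      push_cast
      linarith
  rcases le_total (j : ℕ) l with h1 | h1
  · refine (key (l - j) j l (by omega) (by omega) hl.1).trans ?_
    gcongr
    omega
  · rw [abs_sub_comm]
    refine (key (j - l) l j (by omega) hl.2 (by omega)).trans ?_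
    gcongr
    omega

theorem DC7_card {R : ℕ} (j : Fin (2 * R + 1)) (k : ℕ) :
    ((Finset.univ.filter fun l : Fin (2 * R + 1) => |lab l - lab j| ≤ k).card : ℝ) ≤ 2 * k + 1 := by
  have h1 : (Finset.univ.filter fun l : Fin (2 * R + 1) => |lab l - lab j| ≤ k).card ≤
      (Finset.Icc ((j : ℕ) - k) (j + k)).card := by
    refine Finset.card_le_card_of_injOn Fin.val (fun l hl => ?_) Fin.val_injective.injOn
    have := (DC7_lab l j k).1 (Finset.mem_filter.1 hl).2
    simp only [Finset.coe_Icc, Set.mem_Icc]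
    omega
  rw [Nat.card_Icc] at h1
  exact_mod_cast h1.trans (by omega)

theorem DC7_rig {R M k : ℕ} {m : ℝ} {x : Fin (2 * R + 1) → ℝ} {j : Fin (2 * R + 1)}
    (hj : |lab j| + k + (M : ℝ) ^ 3 ≤ R) (hx : LocRig m M x j) {l : Fin (2 * R + 1)}
    (hl : |lab l - lab j| ≤ k) :
    |x l - x j - (lab l - lab j)| ≤ (m ^ 2 + 1 + |lab l - lab j|) / 2 := by
  have h1 := abs_sub_abs_le_abs_sub (lab l) (lab j)
  refine (hx l (by linarith)).trans ?_
  have h2 := Real.sq_sqrt (show 0 ≤ 1 + |lab l - lab j| by positivity)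
  nlinarith [sq_nonneg (m - √(1 + |lab l - lab j|))]

theorem DC7_range {R M k : ℕ} {j : Fin (2 * R + 1)} (hj : |lab j| + k + (M : ℝ) ^ 3 ≤ R) :
    k ≤ j ∧ j + k ≤ 2 * R := by
  have h1 : (0 : ℝ) ≤ (M : ℝ) ^ 3 := by positivity
  have h2 := le_abs_self (lab j)
  have h3 := neg_abs_le (lab j)
  rw [← Nat.cast_le (α := ℝ), ← Nat.cast_le (α := ℝ)]
  push_cast
  unfold lab at *
  constructor <;> linarith

theorem DC7_gap {R M k : ℕ} {m : ℝ} {x : Fin (2 * R + 1) → ℝ} {j : Fin (2 * R + 1)} (hk : 1 ≤ k)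
    (hj : |lab j| + k + (M : ℝ) ^ 3 ≤ R) (hx : LocRig m M x j) :
    x (nxt j) - x j ≤ 2 + m ^ 2 / 2 := by
  have h1 : |lab (nxt j) - lab j| ≤ (1 : ℕ) := (DC7_lab _ _ 1).2 (by simp only [nxt]; omega)
  have h2 := DC7_rig hj hx (h1.trans (by exact_mod_cast hk))
  have h3 := le_abs_self (lab (nxt j) - lab j)
  rw [Nat.cast_one] at h1
  linarith [(abs_le.1 h2).2]

theorem DC7_far {R M k : ℕ} {m : ℝ} {x : Fin (2 * R + 1) → ℝ} {j : Fin (2 * R + 1)}
    (hm : Monotone x) (hj : |lab j| + k + (M : ℝ) ^ 3 ≤ R) (hx : LocRig m M x j)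
    {l : Fin (2 * R + 1)} (hl : ¬ |lab l - lab j| ≤ k) : (k - m ^ 2 - 1) / 2 ≤ |x l - x j| := by
  obtain ⟨h1, h2⟩ := DC7_range hj
  rw [DC7_lab] at hl
  have hk : (0 : ℝ) ≤ k := Nat.cast_nonneg k
  rcases le_total (j : ℕ) l with h3 | h3
  · have e : lab (⟨j + k, by omega⟩ : Fin (2 * R + 1)) - lab j = k := by
      simp [lab]
    have h4 := DC7_rig hj hx (l := ⟨j + k, by omega⟩) (by rw [e, abs_of_nonneg hk])
    have h5 : x ⟨j + k, by omega⟩ ≤ x l := hm (by simp only [Fin.le_def]; omega)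
    rw [e, abs_of_nonneg hk] at h4
    linarith [(abs_le.1 h4).1, le_abs_self (x l - x j)]
  · have e : lab (⟨j - k, by omega⟩ : Fin (2 * R + 1)) - lab j = -k := by
      simp [lab, Nat.cast_sub h1]
    have h4 := DC7_rig hj hx (l := ⟨j - k, by omega⟩) (by rw [e, abs_neg, abs_of_nonneg hk])
    have h5 : x l ≤ x ⟨j - k, by omega⟩ := hm (by simp only [Fin.le_def]; omega)
    rw [e, abs_neg, abs_of_nonneg hk] at h4
    linarith [(abs_le.1 h4).2, neg_abs_le (x l - x j)]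

theorem DC7_le_nxt {R : ℕ} (j : Fin (2 * R + 1)) : j ≤ nxt j := by
  have := j.2
  simp only [Fin.le_def, nxt]
  omega

theorem DC7_loc {h : ℝ → ℝ} (hc : Continuous h) (hK : HasCompactSupport h) (hp : ∀ t, 0 ≤ h t)
    (m : ℝ) {ε : ℝ} (hε : 0 < ε) : ∃ (k : ℕ) (η : ℝ), 0 < η ∧ ∀ (M R : ℕ)
      (x y : Fin (2 * R + 1) → ℝ) (j : Fin (2 * R + 1)), Monotone x → Monotone y →
      |lab j| + k + (M : ℝ) ^ 3 ≤ R → LocRig m M x j → LocRig m M y j →
      (∀ l, |lab l - lab j| ≤ k → |(y (nxt l) - x (nxt l)) - (y l - x l)| ≤ η) →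
      |(∫ τ in x j..x (nxt j), lapW h x τ) - ∫ τ in y j..y (nxt j), lapW h y τ| ≤ ε := by
  classical
  obtain ⟨S, hS0, hS⟩ := hK.exists_pos_le_norm
  obtain ⟨γ, hγ⟩ : ∃ γ : ℝ, γ = 2 + m ^ 2 / 2 := ⟨_, rfl⟩
  have hγ0 : 0 < γ := by rw [hγ]; positivity
  obtain ⟨k, hk⟩ := exists_nat_ge (2 * (S + γ) + m ^ 2 + 1)
  have hk1 : 1 ≤ k := by
    have : (1 : ℝ) ≤ k := by nlinarith [sq_nonneg m]
    exact_mod_cast this
  obtain ⟨δ, hδ, hu⟩ := Metric.uniformContinuous_iff.1 (hK.uniformContinuous_of_continuous hc)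
    (ε / 2 / γ / (2 * k + 1)) (by positivity)
  refine ⟨k, min (δ / (k + 1)) (ε / 2), by positivity, fun M R x y j hx hy hj rx ry hd => ?_⟩
  have gx := DC7_gap hk1 hj rx
  have gx0 : 0 ≤ x (nxt j) - x j := sub_nonneg.2 (hx (DC7_le_nxt j))
  rw [← hγ] at gx
  have e : ∀ z : Fin (2 * R + 1) → ℝ, ∫ τ in z j..z (nxt j), lapW h z τ =
      ∫ s in (0 : ℝ)..(z (nxt j) - z j), lapW h z (s + z j) := fun z => by
    rw [intervalIntegral.integral_comp_add_right (lapW h z), zero_add, sub_add_cancel]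
  have hi : ∀ (z : Fin (2 * R + 1) → ℝ) a b, IntervalIntegrable (fun s => lapW h z (s + z j))
      volume a b := fun z a b =>
    ((DC7_cont hc z).comp (continuous_id.add continuous_const)).intervalIntegrable a b
  have h1 : ∀ s ∈ Set.uIoc (0 : ℝ) (x (nxt j) - x j),
      ‖lapW h x (s + x j) - lapW h y (s + y j)‖ ≤ ε / 2 / γ := by
    intro s hs
    rw [Set.uIoc_of_le gx0] at hs
    have hz : ∀ z : Fin (2 * R + 1) → ℝ, Monotone z → LocRig m M z j → ∀ l,
        ¬ |lab l - lab j| ≤ k → h (z l - (s + z j)) = 0 := fun z hz rz l hl => by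
      refine hS _ ?_
      have h2 := DC7_far hz hj rz hl
      have h3 := abs_sub_abs_le_abs_sub (z l - z j) s
      rw [abs_of_pos hs.1, show z l - z j - s = z l - (s + z j) by ring] at h3
      rw [Real.norm_eq_abs]
      linarith [hs.2]
    refine (DC7_exp (Finset.sum_nonneg fun _ _ => hp _) (Finset.sum_nonneg fun _ _ => hp _)).trans ?_
    rw [← Finset.sum_sub_distrib]
    refine (Finset.abs_sum_le_sum_abs _ _).trans ?_
    calc _ ≤ ∑ l : Fin (2 * R + 1),
            if |lab l - lab j| ≤ k then ε / 2 / γ / (2 * k + 1) else 0 := by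
          refine Finset.sum_le_sum fun l _ => ?_
          split_ifs with hl
          · refine (hu ?_).le
            have h2 := DC7_tele (fun l => y l - x l) j k (by positivity) hd l hl
            have h3 : (k : ℝ) * min (δ / (k + 1)) (ε / 2) < δ := by
              refine (mul_le_mul_of_nonneg_left (min_le_left _ _) (Nat.cast_nonneg k)).trans_lt ?_
              rw [← mul_div_assoc, div_lt_iff₀ (by positivity)]
              linarith
            rw [Real.dist_eq, abs_sub_comm]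
            refine lt_of_eq_of_lt ?_ (h2.trans_lt h3)
            congr 1
            ring
          · rw [hz x hx rx l hl, hz y hy ry l hl, sub_zero, abs_zero]
      _ ≤ _ := by
          rw [← Finset.sum_filter, Finset.sum_const, nsmul_eq_mul]
          refine (mul_le_mul_of_nonneg_right (DC7_card j k) (by positivity)).trans_eq ?_
          field_simp
  have h2 := intervalIntegral.norm_integral_le_of_norm_le_const h1
  rw [intervalIntegral.integral_sub (hi x _ _) (hi y _ _), sub_zero, abs_of_nonneg gx0,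
    Real.norm_eq_abs] at h2
  have h3 := intervalIntegral.norm_integral_le_of_norm_le_const (a := x (nxt j) - x j)
    (b := y (nxt j) - y j) fun s _ => DC7_norm hp y (s + y j)
  rw [← intervalIntegral.integral_interval_sub_left (hi y 0 _) (hi y 0 _), one_mul, Real.norm_eq_abs,
    abs_sub_comm] at h3
  have h4 := (hd j (by simp)).trans (min_le_right _ _)
  rw [show y (nxt j) - x (nxt j) - (y j - x j) = y (nxt j) - y j - (x (nxt j) - x j) by ring] at h4
  have h5 : ε / 2 / γ * (x (nxt j) - x j) ≤ ε / 2 := by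
    refine (mul_le_mul_of_nonneg_left gx (by positivity)).trans_eq ?_
    field_simp
  rw [e x, e y]
  refine (abs_sub_le _ (∫ s in (0 : ℝ)..(x (nxt j) - x j), lapW h y (s + y j)) _).trans ?_
  linarith

/-- the labels `-W, -W + 1, …` -/
def DC7_phi (R W n : ℕ) : Fin (2 * R + 1) := ⟨min (R - W + n) (2 * R), by omega⟩

theorem DC7_phi_lab {R W n : ℕ} (hW : W ≤ R) (hn : n ≤ 2 * W) :
    lab (DC7_phi R W n) = n - W := by
  rw [lab, DC7_phi]
  simp only
  rw [min_eq_left (by omega), Nat.cast_add, Nat.cast_sub hW]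
  ring

theorem DC7_glob {h : ℝ → ℝ} (hc : Continuous h) (hp : ∀ t, 0 ≤ h t) {M R : ℕ} (hM : 1 ≤ M)
    (hR : 8 * M ^ 32 ≤ R) {x : Fin (2 * R + 1) → ℝ} (hx : Glob M x) :
    |lapI h M x - ∑ n ∈ Finset.range (2 * M ^ 32),
      ∫ τ in x (DC7_phi R (M ^ 32) n)..x (nxt (DC7_phi R (M ^ 32) n)), lapW h x τ| ≤
      8 * (M : ℝ) ^ 3 := by
  have e : ∀ n, nxt (DC7_phi R (M ^ 32) n) = DC7_phi R (M ^ 32) (n + 1) := fun n =>
    Fin.ext (by simp only [nxt, DC7_phi]; omega)
  have hi : ∀ a b, IntervalIntegrable (lapW h x) volume a b := (DC7_cont hc x).intervalIntegrable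
  have hM' : (1 : ℝ) ≤ M := by exact_mod_cast hM
  have hR' : 8 * (M : ℝ) ^ 32 ≤ R := by exact_mod_cast hR
  have h3 : (M : ℝ) ^ 3 ≤ (M : ℝ) ^ 32 := pow_le_pow_right₀ hM' (by norm_num)
  have h4 : (M : ℝ) ≤ (M : ℝ) ^ 3 := le_self_pow₀ hM' (by norm_num)
  have h5 : ∀ l, |lab l| = (M : ℝ) ^ 32 → |x l - lab l| ≤ 4 * (M : ℝ) ^ 3 := fun l hl => by
    have h6 := hx.2 l (by rw [hl]; linarith)
    rw [hl, show (1 / 32 : ℝ) = ((32 : ℕ) : ℝ)⁻¹ by norm_num,
      Real.pow_rpow_inv_natCast (by linarith) (by norm_num)] at h6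
    linarith
  have l0 : lab (DC7_phi R (M ^ 32) 0) = -(M : ℝ) ^ 32 := by
    rw [DC7_phi_lab (by omega) (by omega)]
    simp
  have l1 : lab (DC7_phi R (M ^ 32) (2 * M ^ 32)) = (M : ℝ) ^ 32 := by
    rw [DC7_phi_lab (by omega) le_rfl]
    push_cast
    ring
  have a0 := h5 _ (by rw [l0, abs_neg, abs_of_nonneg (by positivity)])
  have a1 := h5 _ (by rw [l1, abs_of_nonneg (by positivity)])
  rw [l0] at a0
  rw [l1, abs_sub_comm] at a1
  simp only [e]
  rw [intervalIntegral.sum_integral_adjacent_intervals (a := fun n => x (DC7_phi R (M ^ 32) n))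
    fun _ _ => hi _ _, lapI, intervalIntegral.integral_interval_sub_interval_comm' (hi _ _) (hi _ _)
    (hi _ _)]
  refine (abs_sub _ _).trans ?_
  have b0 := DC7_int hp x (x (DC7_phi R (M ^ 32) 0)) (-(M : ℝ) ^ 32)
  have b1 := DC7_int hp x (x (DC7_phi R (M ^ 32) (2 * M ^ 32))) ((M : ℝ) ^ 32)
  rw [abs_sub_comm] at b0
  linarith

theorem lapI_compare {h : ℝ → ℝ} (hc : Continuous h) (hK : HasCompactSupport h) (hp : ∀ t, 0 ≤ h t)
    (m : ℝ) {ε : ℝ} (hε : 0 < ε) : ∃ (k : ℕ) (η : ℝ) (M₀ : ℕ), 0 < η ∧ ∀ M : ℕ, M₀ ≤ M →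
    ∀ R : ℕ, 8 * M ^ 32 ≤ R → ∀ (x y : Fin (2 * R + 1) → ℝ) (A : ℝ) (B : Finset (Fin (2 * R + 1))),
      0 ≤ A → Glob M x → Glob M y →
      (∀ j, |lab j| ≤ (M : ℝ) ^ 32 → j ∉ B → LocRig m M x j ∧ LocRig m M y j ∧
        ∀ l, |lab l - lab j| ≤ k → |(y (nxt l) - x (nxt l)) - (y l - x l)| ≤ η) →
      |lapI h M x - lapI h M y| ≤
        ε * (M : ℝ) ^ 32 + 2 * A * B.card + gapX A M x + gapX A M y := by
  classical
  obtain ⟨k, η, hη, hloc⟩ := DC7_loc hc hK hp m (show 0 < ε / 4 by positivity)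
  obtain ⟨M₁, hM₁⟩ := exists_nat_ge (32 / ε)
  refine ⟨k, η, max (max 1 k) M₁, hη, fun M hM R hR x y A B hA hx hy hB => ?_⟩
  simp only [max_le_iff] at hM
  obtain ⟨⟨hM1, hMk⟩, hM2⟩ := hM
  have hM' : (1 : ℝ) ≤ M := by exact_mod_cast hM1
  have hR' : 8 * (M : ℝ) ^ 32 ≤ R := by exact_mod_cast hR
  have h3 : (M : ℝ) ^ 3 ≤ (M : ℝ) ^ 32 := pow_le_pow_right₀ hM' (by norm_num)
  have h4 : (k : ℝ) ≤ (M : ℝ) ^ 3 :=
    le_trans (by exact_mod_cast hMk) (le_self_pow₀ hM' (by norm_num))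
  have h5 : 16 * (M : ℝ) ^ 3 ≤ ε / 2 * (M : ℝ) ^ 32 := by
    have h6 : 32 ≤ M * ε := (div_le_iff₀ hε).1 (hM₁.trans (by exact_mod_cast hM2))
    have h7 : (M : ℝ) ^ 4 ≤ (M : ℝ) ^ 32 := pow_le_pow_right₀ hM' (by norm_num)
    calc 16 * (M : ℝ) ^ 3 = 32 * ((M : ℝ) ^ 3 / 2) := by ring
      _ ≤ M * ε * ((M : ℝ) ^ 3 / 2) := by gcongr
      _ = ε / 2 * (M : ℝ) ^ 4 := by ring
      _ ≤ _ := by gcongr
  have gx := DC7_glob hc hp hM1 hR hx
  have gy := DC7_glob hc hp hM1 hR hy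
  set b : Fin (2 * R + 1) → ℝ := fun j => (if j ∈ B then 2 * A else 0) +
    (if |lab j| ≤ (M : ℝ) ^ 32 then max 0 (x (nxt j) - x j - A) else 0) +
    (if |lab j| ≤ (M : ℝ) ^ 32 then max 0 (y (nxt j) - y j - A) else 0) with hb
  have hb0 : ∀ j, 0 ≤ b j := fun j => by
    simp only [hb]
    split_ifs <;> positivity
  have hb1 : ∑ j, b j = 2 * A * B.card + gapX A M x + gapX A M y := by
    simp only [hb, Finset.sum_add_distrib, gapX, Finset.sum_ite_mem, Finset.univ_inter,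
      Finset.sum_const, nsmul_eq_mul]
    ring
  have h6 : ∀ j, |lab j| ≤ (M : ℝ) ^ 32 →
      |(∫ τ in x j..x (nxt j), lapW h x τ) - ∫ τ in y j..y (nxt j), lapW h y τ| ≤ ε / 4 + b j := by
    intro j hj
    by_cases hjB : j ∈ B
    · have a1 := DC7_int hp x (x j) (x (nxt j))
      have a2 := DC7_int hp y (y j) (y (nxt j))
      rw [abs_of_nonneg (sub_nonneg.2 (hx.1.monotone (DC7_le_nxt j)))] at a1
      rw [abs_of_nonneg (sub_nonneg.2 (hy.1.monotone (DC7_le_nxt j)))] at a2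
      refine (abs_sub _ _).trans ?_
      simp only [hb, if_pos hjB, if_pos hj]
      linarith [le_max_right 0 (x (nxt j) - x j - A), le_max_right 0 (y (nxt j) - y j - A)]
    · obtain ⟨r1, r2, r3⟩ := hB j hj hjB
      exact (hloc M R x y j hx.1.monotone hy.1.monotone (by linarith) r1 r2 r3).trans
        (le_add_of_nonneg_right (hb0 j))
  have h7 : ∑ n ∈ Finset.range (2 * M ^ 32), b (DC7_phi R (M ^ 32) n) ≤ ∑ j, b j := by
    rw [← Finset.sum_image (g := DC7_phi R (M ^ 32)) (f := b) fun n hn n' hn' e => ?_]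
    · exact Finset.sum_le_sum_of_subset_of_nonneg (Finset.subset_univ _) fun j _ _ => hb0 j
    · have e1 := congrArg Fin.val e
      simp only [Finset.coe_range, Set.mem_Iio, DC7_phi] at hn hn' e1
      omega
  have h8 := (Finset.abs_sum_le_sum_abs _ _).trans
    (Finset.sum_le_sum (s := Finset.range (2 * M ^ 32)) fun n hn => h6 (DC7_phi R (M ^ 32) n) (by
      have h9 := (Finset.mem_range.1 hn).le
      have h10 : (n : ℝ) ≤ 2 * (M : ℝ) ^ 32 := by exact_mod_cast h9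
      have h11 : (0 : ℝ) ≤ n := Nat.cast_nonneg n
      rw [DC7_phi_lab (by omega) h9, abs_le]
      push_cast
      constructor <;> linarith))
  rw [Finset.sum_sub_distrib, Finset.sum_add_distrib, Finset.sum_const, Finset.card_range,
    nsmul_eq_mul] at h8
  push_cast at h8
  rw [abs_le] at gx gy h8 ⊢
  constructor <;> linarith [gx.1, gx.2, gy.1, gy.2, h8.1, h8.2]

end Crest.Agent.R166
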