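import Crest.Agent.R166.DC5
import Crest.Agent.R166.DC6
import Crest.Agent.R166.DC7

/-! # Coupling: the deterministic core -/

set_option autoImplicit false
set_option linter.unusedVariables false
set_option linter.unusedSectionVars false

open MeasureTheory ProbabilityTheory Filter Topology Matrix
open scoped ENNReal BoundedContinuousFunction

namespace Crest.Agent.R166

open Classical in
theorem DC8_near {R : ℕ} (a : ℝ) (k : ℕ) :
    (Finset.univ.filter fun l : Fin (2 * R + 1) => |lab l - a| ≤ k).card ≤ 2 * k + 1 := by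
  have h1 : (Finset.univ.filter fun l : Fin (2 * R + 1) => |lab l - a| ≤ k).card ≤
      (Finset.Icc (⌈a + R⌉ - k) (⌊a + R⌋ + k)).card := by
    refine Finset.card_le_card_of_injOn (fun l => ((l : ℕ) : ℤ)) (fun l hl => ?_) ?_
    · have h2 := abs_le.1 (Finset.mem_filter.1 hl).2
      unfold lab at h2
      simp only [Finset.coe_Icc, Set.mem_Icc]
      constructor
      · rw [sub_le_iff_le_add, Int.ceil_le]
        push_cast
        linarith [h2.1]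
      · rw [← sub_le_iff_le_add, Int.le_floor]
        push_cast
        linarith [h2.2]
    · intro l _ l' _ h
      exact Fin.ext (by simpa using h)
  rw [Int.card_Icc] at h1
  have h3 := Int.floor_le_ceil (a + R)
  omega

theorem DC8_locRig {R M : ℕ} {m m' : ℝ} (hm : m ≤ m') {x : Fin (2 * R + 1) → ℝ}
    {j : Fin (2 * R + 1)} (h : LocRig m M x j) : LocRig m' M x j := fun l hl =>
  (h l hl).trans (mul_le_mul_of_nonneg_right hm (Real.sqrt_nonneg _))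

theorem DC8_ggood {R : ℕ} {m m' : ℝ} (hm : m ≤ m') {g : Fin (2 * R + 1) → ℝ}
    {j : Fin (2 * R + 1)} (h : GGood m g j) : GGood m' g j := by
  have h0 : 0 < m := by
    refine lt_of_lt_of_le (Finset.sum_pos (fun l _ => ?_) Finset.univ_nonempty) h.2.2.2
    unfold w32
    positivity
  have h1 : 1 / m' ≤ 1 / m := one_div_le_one_div_of_le h0 hm
  exact ⟨h1.trans h.1, h1.trans h.2.1, h.2.2.1.trans hm, h.2.2.2.trans hm⟩

open Classical in
theorem DC8_card {R M : ℕ} (m : ℝ) {m' m₃ m₄ η : ℝ} (h1 : m' ≤ m₄) (h2 : m₃ ≤ m₄) (hη : 0 < η)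
    (k : ℕ) (x y g : Fin (2 * R + 1) → ℝ) :
    ((Finset.univ.filter fun j : Fin (2 * R + 1) => |lab j| ≤ (M : ℝ) ^ 32 ∧
      ¬ (LocRig m M x j ∧ LocRig m M y j ∧ ∀ l, |lab l - lab j| ≤ k →
        |(y (nxt l) - x (nxt l)) - (y l - x l)| ≤ η)).card : ℝ) ≤
      badLab m M x + badLab m M y + (2 * k + 1) * (2 * (2 * k + 1) + badLab m' M x +
        badLab m' M y + badG m₃ M g + Dis m₄ M x y g / η ^ 2) := by
  set G4 := Finset.univ.filter fun j : Fin (2 * R + 1) =>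
    (|lab j| ≤ (M : ℝ) ^ 32 ∧ LocRig m₄ M x j ∧ LocRig m₄ M y j ∧ GGood m₄ g j) ∧
      η < |(y (nxt j) - x (nxt j)) - (y j - x j)| with hG4
  have hG : (G4.card : ℝ) ≤ Dis m₄ M x y g / η ^ 2 := by
    rw [le_div_iff₀ (by positivity), ← nsmul_eq_mul, ← Finset.sum_const]
    unfold Dis
    refine le_trans (Finset.sum_le_sum fun j hj => ?_)
      (Finset.sum_le_sum_of_subset_of_nonneg (Finset.subset_univ G4) fun j _ _ => ?_)
    · obtain ⟨a1, a2⟩ := (Finset.mem_filter.1 hj).2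
      rw [if_pos a1, ← sq_abs (_ - _)]
      exact pow_le_pow_left₀ hη.le a2.le 2
    · split_ifs
      · positivity
      · exact le_rfl
  set D := (((((Finset.univ.filter fun l : Fin (2 * R + 1) => |lab l - (M : ℝ) ^ 32| ≤ k) ∪
    (Finset.univ.filter fun l : Fin (2 * R + 1) => |lab l - -(M : ℝ) ^ 32| ≤ k)) ∪
    (Finset.univ.filter fun j => |lab j| ≤ (M : ℝ) ^ 32 ∧ ¬ LocRig m' M x j)) ∪
    (Finset.univ.filter fun j => |lab j| ≤ (M : ℝ) ^ 32 ∧ ¬ LocRig m' M y j)) ∪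
    (Finset.univ.filter fun j => |lab j| ≤ (M : ℝ) ^ 32 ∧ ¬ GGood m₃ g j)) ∪ G4 with hD
  have hDc : (D.card : ℝ) ≤ 2 * (2 * k + 1) + badLab m' M x + badLab m' M y + badG m₃ M g +
      Dis m₄ M x y g / η ^ 2 := by
    have c1 := DC8_near (R := R) ((M : ℝ) ^ 32) k
    have c2 := DC8_near (R := R) (-(M : ℝ) ^ 32) k
    have c3 : D.card ≤ 2 * (2 * k + 1) +
        (Finset.univ.filter fun j => |lab j| ≤ (M : ℝ) ^ 32 ∧ ¬ LocRig m' M x j).card +
        (Finset.univ.filter fun j => |lab j| ≤ (M : ℝ) ^ 32 ∧ ¬ LocRig m' M y j).card +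
        (Finset.univ.filter fun j => |lab j| ≤ (M : ℝ) ^ 32 ∧ ¬ GGood m₃ g j).card + G4.card := by
      refine (Finset.card_union_le _ _).trans (Nat.add_le_add_right ?_ _)
      refine (Finset.card_union_le _ _).trans (Nat.add_le_add_right ?_ _)
      refine (Finset.card_union_le _ _).trans (Nat.add_le_add_right ?_ _)
      refine (Finset.card_union_le _ _).trans (Nat.add_le_add_right ?_ _)
      refine (Finset.card_union_le _ _).trans ?_
      omega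
    have c4 : (D.card : ℝ) ≤ 2 * (2 * k + 1) + badLab m' M x + badLab m' M y + badG m₃ M g +
        G4.card := by
      unfold badLab badG
      exact_mod_cast c3
    linarith
  have hsub : (Finset.univ.filter fun j : Fin (2 * R + 1) => |lab j| ≤ (M : ℝ) ^ 32 ∧
      ¬ (LocRig m M x j ∧ LocRig m M y j ∧ ∀ l, |lab l - lab j| ≤ k →
        |(y (nxt l) - x (nxt l)) - (y l - x l)| ≤ η)) ⊆
      ((Finset.univ.filter fun j => |lab j| ≤ (M : ℝ) ^ 32 ∧ ¬ LocRig m M x j) ∪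
      (Finset.univ.filter fun j => |lab j| ≤ (M : ℝ) ^ 32 ∧ ¬ LocRig m M y j)) ∪
      D.biUnion fun l => Finset.univ.filter fun j : Fin (2 * R + 1) => |lab j - lab l| ≤ k := by
    intro j hj
    obtain ⟨a1, a2⟩ := (Finset.mem_filter.1 hj).2
    simp only [Finset.mem_union, Finset.mem_filter, Finset.mem_univ, true_and, Finset.mem_biUnion]
    by_cases b1 : LocRig m M x j
    swap
    · exact Or.inl (Or.inl ⟨a1, b1⟩)
    by_cases b2 : LocRig m M y j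
    swap
    · exact Or.inl (Or.inr ⟨a1, b2⟩)
    have a3 : ∃ l, |lab l - lab j| ≤ k ∧ η < |(y (nxt l) - x (nxt l)) - (y l - x l)| := by
      by_contra hc
      push Not at hc
      exact a2 ⟨b1, b2, hc⟩
    obtain ⟨l, l1, l2⟩ := a3
    refine Or.inr ⟨l, ?_, by rwa [abs_sub_comm]⟩
    simp only [hD, hG4, Finset.mem_union, Finset.mem_filter, Finset.mem_univ, true_and]
    by_cases c0 : |lab l| ≤ (M : ℝ) ^ 32
    · by_cases c1 : LocRig m' M x l
      swap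
      · exact Or.inl (Or.inl (Or.inl (Or.inr ⟨c0, c1⟩)))
      by_cases c2 : LocRig m' M y l
      swap
      · exact Or.inl (Or.inl (Or.inr ⟨c0, c2⟩))
      by_cases c3 : GGood m₃ g l
      swap
      · exact Or.inl (Or.inr ⟨c0, c3⟩)
      exact Or.inr ⟨⟨c0, DC8_locRig h1 c1, DC8_locRig h1 c2, DC8_ggood h2 c3⟩, l2⟩
    · refine Or.inl (Or.inl (Or.inl (Or.inl ?_)))
      rw [abs_le] at a1 l1
      rw [not_le, lt_abs] at c0
      rcases c0 with c0 | c0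
      · exact Or.inl (abs_le.2 ⟨by linarith [l1.1, l1.2], by linarith [l1.2, a1.2]⟩)
      · exact Or.inr (abs_le.2 ⟨by linarith [l1.1, a1.1], by linarith [l1.1, l1.2]⟩)
  have hb : (D.biUnion fun l => Finset.univ.filter fun j : Fin (2 * R + 1) =>
      |lab j - lab l| ≤ k).card ≤ D.card * (2 * k + 1) :=
    Finset.card_biUnion_le_card_mul _ _ _ fun l _ => DC8_near _ k
  have hc := (Finset.card_le_card hsub).trans ((Finset.card_union_le _ _).trans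
    (add_le_add (Finset.card_union_le _ _) hb))
  have hc' : ((Finset.univ.filter fun j : Fin (2 * R + 1) => |lab j| ≤ (M : ℝ) ^ 32 ∧
      ¬ (LocRig m M x j ∧ LocRig m M y j ∧ ∀ l, |lab l - lab j| ≤ k →
        |(y (nxt l) - x (nxt l)) - (y l - x l)| ≤ η)).card : ℝ) ≤
      badLab m M x + badLab m M y + D.card * (2 * k + 1) := by
    unfold badLab
    exact_mod_cast hc
  have hk : (0 : ℝ) ≤ 2 * k + 1 := by positivity
  nlinarith [mul_le_mul_of_nonneg_left hDc hk]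

theorem det_couple {h : ℝ → ℝ} (hc : Continuous h) (hK : HasCompactSupport h) (hp : ∀ t, 0 ≤ h t)
    {ε : ℝ} (hε : 0 < ε) (m₀ : ℝ) : ∃ ε₁ : ℝ, 0 < ε₁ ∧ ∀ m₁ : ℝ, ∃ ε₂ : ℝ, 0 < ε₂ ∧ ∀ m₂ m₃ : ℝ,
    ∃ M₀ : ℕ, ∀ M : ℕ, M₀ ≤ M → ∀ R : ℕ, 8 * M ^ 32 ≤ R →
    ∀ (x y : Fin (2 * R + 1) → ℝ) (g : Noise (2 * R + 1)), StrictMono x → StrictMono y →
      Rig0 M x → Rig0 M y → NoiseOK M g →
      ∑ t ∈ Finset.range (M ^ 3), badPos m₀ M (chainX x g t) ≤ ε * (M : ℝ) ^ 35 →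
      ∑ t ∈ Finset.range (M ^ 3), badPos m₀ M (chainX y g t) ≤ ε * (M : ℝ) ^ 35 →
      ∑ t ∈ Finset.range (M ^ 3), badPos m₁ M (chainX x g t) ≤ ε₁ * (M : ℝ) ^ 35 →
      ∑ t ∈ Finset.range (M ^ 3), badPos m₁ M (chainX y g t) ≤ ε₁ * (M : ℝ) ^ 35 →
      ∑ t ∈ Finset.range (M ^ 3), badPos m₂ M (chainX x g t) ≤ ε₂ * (M : ℝ) ^ 35 →
      ∑ t ∈ Finset.range (M ^ 3), badPos m₂ M (chainX y g t) ≤ ε₂ * (M : ℝ) ^ 35 →
      ∑ t ∈ Finset.range (M ^ 3), badG m₃ M (g t).1 ≤ ε₂ * (M : ℝ) ^ 35 →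
      |∑ t ∈ Finset.range (M ^ 3), lapI h M (chainX x g t) -
        ∑ t ∈ Finset.range (M ^ 3), lapI h M (chainX y g t)| ≤ 4 * ε * (M : ℝ) ^ 35 := by
  classical
  obtain ⟨A, M₁, hA, hgap⟩ := gapX_le m₀
  set ε₁ : ℝ := ε / (12 * A) with hε₁
  have hε₁0 : 0 < ε₁ := by positivity
  refine ⟨ε₁, hε₁0, fun m₁ => ?_⟩
  obtain ⟨m, M₂, hlab⟩ := badLab_le m₁ hε₁0
  obtain ⟨k, η, M₃, hη, hcmp⟩ := lapI_compare hc hK hp m hε
  set ε₂ : ℝ := ε₁ / (5 * (2 * k + 1)) with hε₂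
  have hε₂0 : 0 < ε₂ := by positivity
  refine ⟨ε₂, hε₂0, fun m₂ m₃ => ?_⟩
  obtain ⟨m', M₄, hlab'⟩ := badLab_le m₂ hε₂0
  obtain ⟨C, M₅, hdis⟩ := total_dis (max m' m₃)
  obtain ⟨M₆, hM₆⟩ := exists_nat_ge ((2 * k + 1) * (2 * (2 * k + 1) + |C| / η ^ 2) / ε₁)
  refine ⟨1 + M₁ + M₂ + M₃ + M₄ + M₅ + M₆, ?_⟩
  intro M hM R hR x y g hx hy hx' hy' hg p1 p2 p3 p4 p5 p6 p7
  have hM1 : (1 : ℝ) ≤ M := by exact_mod_cast (by omega : 1 ≤ M)
  have hM6 : (2 * k + 1) * (2 * (2 * k + 1) + |C| / η ^ 2) ≤ M * ε₁ := by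
    rw [← div_le_iff₀ hε₁0]
    exact hM₆.trans (by exact_mod_cast (by omega : M₆ ≤ M))
  have hd := hdis M (by omega) R hR x y g hx hy hx' hy' hg
  have step : ∀ t ∈ Finset.range (M ^ 3),
      |lapI h M (chainX x g t) - lapI h M (chainX y g t)| ≤
        ε * (M : ℝ) ^ 32 + 2 * A * (badPos m₁ M (chainX x g t) + ε₁ * (M : ℝ) ^ 32 +
          (badPos m₁ M (chainX y g t) + ε₁ * (M : ℝ) ^ 32) + (2 * k + 1) * (2 * (2 * k + 1) +
            (badPos m₂ M (chainX x g t) + ε₂ * (M : ℝ) ^ 32) +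
            (badPos m₂ M (chainX y g t) + ε₂ * (M : ℝ) ^ 32) + badG m₃ M (g t).1 +
            Dis (max m' m₃) M (chainX x g t) (chainX y g t) (g t).1 / η ^ 2)) +
          badPos m₀ M (chainX x g t) + badPos m₀ M (chainX y g t) := by
    intro t ht
    obtain ⟨⟨gx, gy, -⟩, -⟩ := chain_ctl hx hy hx' hy' hg.1 (Finset.mem_range.1 ht)
    have c1 := DC8_card (M := M) m (le_max_left m' m₃) (le_max_right m' m₃) hη k (chainX x g t)
      (chainX y g t) (g t).1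
    have c2 := hcmp M (by omega) R hR (chainX x g t) (chainX y g t) A
      (Finset.univ.filter fun j : Fin (2 * R + 1) => |lab j| ≤ (M : ℝ) ^ 32 ∧
      ¬ (LocRig m M (chainX x g t) j ∧ LocRig m M (chainX y g t) j ∧ ∀ l, |lab l - lab j| ≤ k →
        |(chainX y g t (nxt l) - chainX x g t (nxt l)) - (chainX y g t l - chainX x g t l)| ≤ η))
      hA.le gx gy
      (fun j hj hjB => by
        by_contra hcon
        exact hjB (Finset.mem_filter.2 ⟨Finset.mem_univ j, hj, hcon⟩))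
    have d1 := hgap M (by omega) R hR _ gx
    have d2 := hgap M (by omega) R hR _ gy
    have d3 := hlab M (by omega) R hR _ gx
    have d4 := hlab M (by omega) R hR _ gy
    have d5 := hlab' M (by omega) R hR _ gx
    have d6 := hlab' M (by omega) R hR _ gy
    refine c2.trans (add_le_add (add_le_add (add_le_add le_rfl
      (mul_le_mul_of_nonneg_left (c1.trans ?_) (by positivity))) d1) d2)
    refine add_le_add (add_le_add d3 d4) (mul_le_mul_of_nonneg_left ?_ (by positivity))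
    linarith
  rw [← Finset.sum_sub_distrib]
  refine (Finset.abs_sum_le_sum_abs _ _).trans ((Finset.sum_le_sum step).trans ?_)
  simp only [Finset.sum_add_distrib, ← Finset.mul_sum, ← Finset.sum_div, Finset.sum_const,
    Finset.card_range, nsmul_eq_mul, Nat.cast_pow]
  have e35 : (M : ℝ) ^ 3 * (M : ℝ) ^ 32 = (M : ℝ) ^ 35 := by ring
  have h34 : (M : ℝ) ^ 3 ≤ (M : ℝ) ^ 34 := pow_le_pow_right₀ hM1 (by norm_num)
  have h340 : (0 : ℝ) ≤ (M : ℝ) ^ 34 := by positivity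
  have q1 : (∑ t ∈ Finset.range (M ^ 3), Dis (max m' m₃) M (chainX x g t) (chainX y g t) (g t).1) /
      η ^ 2 ≤ |C| / η ^ 2 * (M : ℝ) ^ 34 := by
    rw [div_mul_eq_mul_div]
    exact div_le_div_of_nonneg_right
      (hd.trans (mul_le_mul_of_nonneg_right (le_abs_self C) h340)) (by positivity)
  have q2 : (2 * k + 1) * (2 * (2 * k + 1) + |C| / η ^ 2) * (M : ℝ) ^ 34 ≤ ε₁ * (M : ℝ) ^ 35 := by
    calc _ ≤ M * ε₁ * (M : ℝ) ^ 34 := mul_le_mul_of_nonneg_right hM6 h340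
      _ = _ := by ring
  have q3 : (2 * k + 1 : ℝ) * (5 * ε₂) = ε₁ := by rw [hε₂]; field_simp
  have q4 : 2 * A * (6 * ε₁) = ε := by rw [hε₁]; field_simp; norm_num
  have hk : (0 : ℝ) ≤ 2 * k + 1 := by positivity
  rw [e35]
  have r0 : 2 * (2 * ((M : ℝ) ^ 3 * k) + (M : ℝ) ^ 3 * 1) ≤ 2 * (2 * k + 1) * (M : ℝ) ^ 34 := by
    nlinarith [mul_le_mul_of_nonneg_left h34 hk]
  have r1 := mul_le_mul_of_nonneg_left (add_le_add (add_le_add (add_le_add (add_le_add r0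
    (add_le_add p5 (le_refl (ε₂ * (M : ℝ) ^ 35)))) (add_le_add p6 (le_refl (ε₂ * (M : ℝ) ^ 35))))
    p7) q1) hk
  have r2 : (2 * k + 1) * (2 * (2 * k + 1) * (M : ℝ) ^ 34 + (ε₂ * (M : ℝ) ^ 35 + ε₂ * (M : ℝ) ^ 35) +
      (ε₂ * (M : ℝ) ^ 35 + ε₂ * (M : ℝ) ^ 35) + ε₂ * (M : ℝ) ^ 35 + |C| / η ^ 2 * (M : ℝ) ^ 34) =
      (2 * k + 1) * (2 * (2 * k + 1) + |C| / η ^ 2) * (M : ℝ) ^ 34 +
        (2 * k + 1) * (5 * ε₂) * (M : ℝ) ^ 35 := by ring
  rw [r2, q3] at r1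
  have r3 := mul_le_mul_of_nonneg_left (add_le_add (add_le_add
    (add_le_add p3 (le_refl (ε₁ * (M : ℝ) ^ 35))) (add_le_add p4 (le_refl (ε₁ * (M : ℝ) ^ 35))))
    (r1.trans (add_le_add q2 le_rfl))) (by positivity : 0 ≤ 2 * A)
  have r4 : 2 * A * (ε₁ * (M : ℝ) ^ 35 + ε₁ * (M : ℝ) ^ 35 + (ε₁ * (M : ℝ) ^ 35 + ε₁ * (M : ℝ) ^ 35) +
      (ε₁ * (M : ℝ) ^ 35 + ε₁ * (M : ℝ) ^ 35)) = 2 * A * (6 * ε₁) * (M : ℝ) ^ 35 := by ring
  rw [r4, q4] at r3
  linarith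

end Crest.Agent.R166
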