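import Crest.Agent.R166.DC8
import Crest.Agent.R166.DC10

/-! # Part D, second half: the coupling theorem -/

set_option autoImplicit false
set_option linter.unusedVariables false
set_option linter.unusedSectionVars false

open MeasureTheory ProbabilityTheory Filter Topology Matrix
open scoped ENNReal BoundedContinuousFunction

namespace Crest.Agent.R166

theorem DCpl_int {Ω : Type} [MeasurableSpace Ω] (μ : Measure Ω) [IsProbabilityMeasure μ]
    {f f' : Ω → ℝ} (hf : Measurable f) (hf' : Measurable f') {B a p : ℝ} (ha : 0 ≤ a) (hp : 0 ≤ p)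
    (h0 : ∀ ω, 0 ≤ f ω ∧ f ω ≤ B) (h0' : ∀ ω, 0 ≤ f' ω ∧ f' ω ≤ B)
    (h : μ {ω | a < |f ω - f' ω|} ≤ ENNReal.ofReal p) :
    |∫ ω, f ω ∂μ - ∫ ω, f' ω ∂μ| ≤ a + B * p := by
  have i1 : Integrable f μ := Integrable.of_bound hf.aestronglyMeasurable B
    (ae_of_all _ fun ω => by rw [Real.norm_eq_abs, abs_of_nonneg (h0 ω).1]; exact (h0 ω).2)
  have i2 : Integrable f' μ := Integrable.of_bound hf'.aestronglyMeasurable B
    (ae_of_all _ fun ω => by rw [Real.norm_eq_abs, abs_of_nonneg (h0' ω).1]; exact (h0' ω).2)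
  set S := {ω | a < |f ω - f' ω|} with hS
  have hSm : MeasurableSet S := measurableSet_lt measurable_const (hf.sub hf').abs
  have hne : Nonempty Ω := nonempty_of_isProbabilityMeasure μ
  have hB : 0 ≤ B := by obtain ⟨ω⟩ := hne; exact (h0 ω).1.trans (h0 ω).2
  rw [← integral_sub i1 i2]
  have h1 : ∀ ω, |f ω - f' ω| ≤ a + S.indicator (fun _ => B) ω := fun ω => by
    by_cases hω : ω ∈ S
    · rw [Set.indicator_of_mem hω, abs_le]
      constructor <;> linarith [(h0 ω).1, (h0 ω).2, (h0' ω).1, (h0' ω).2]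
    · rw [Set.indicator_of_notMem hω, add_zero]; exact not_lt.1 hω
  have i3 : Integrable (S.indicator fun _ => B) μ := (integrable_const B).indicator hSm
  calc |∫ ω, f ω - f' ω ∂μ| ≤ ∫ ω, |f ω - f' ω| ∂μ := abs_integral_le_integral_abs
    _ ≤ ∫ ω, (a + S.indicator (fun _ => B) ω) ∂μ :=
        integral_mono (i1.sub i2).abs ((integrable_const a).add i3) h1
    _ = a + μ.real S * B := by
        rw [integral_add (integrable_const a) i3, integral_indicator_const _ hSm]; simp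
    _ ≤ a + B * p := by
        have : μ.real S ≤ p := ENNReal.toReal_le_of_le_ofReal hp h
        nlinarith

theorem DCpl_union {Ω : Type} [MeasurableSpace Ω] (μ : Measure Ω) {A B : Set Ω} {a b : ℝ}
    (ha : 0 ≤ a) (hb : 0 ≤ b) (h1 : μ A ≤ ENNReal.ofReal a) (h2 : μ B ≤ ENNReal.ofReal b) :
    μ (A ∪ B) ≤ ENNReal.ofReal (a + b) := by
  rw [ENNReal.ofReal_add ha hb]; exact (measure_union_le _ _).trans (add_le_add h1 h2)

theorem coupling {ι : Type} {G : Filter ι} {R : ι → ℕ} (hR : Tendsto R G atTop)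
    {ν ν' : ∀ i, Measure (Fin (2 * R i + 1) → ℝ)} {h : ℝ → ℝ} {ℓ ℓ' : ι → ℝ}
    (H : WinFam G R ν h ℓ) (H' : WinFam G R ν' h ℓ') (hc : Continuous h)
    (hK : HasCompactSupport h) (hp : ∀ t, 0 ≤ h t) : Tendsto (fun i => ℓ i - ℓ' i) G (𝓝 0) := by
  rw [Metric.tendsto_nhds]
  intro ε₀ hε₀
  set ε := ε₀ / 100 with hεdef
  have hε : 0 < ε := by positivity
  have mono : ∀ {m m' : ℝ}, m ≤ m' → ∀ (M r : ℕ) (x : Fin (2 * r + 1) → ℝ),
      badPos m' M x ≤ badPos m M x := fun {m m'} hm M r x => by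
    unfold badPos
    refine Nat.cast_le.2 (Finset.card_le_card fun u hu => ?_)
    simp only [Finset.mem_filter] at hu ⊢
    exact ⟨hu.1, fun h1 => hu.2 fun k hk => (h1 k hk).trans (by linarith)⟩
  have two : ∀ e : ℝ, 0 < e → ∃ m : ℝ, ∀ M : ℕ, 1 ≤ M → ∀ᶠ i in G,
      ((ν i).prod (noise _)) {q | e * (M : ℝ) ^ 35 <
        ∑ t ∈ Finset.range (M ^ 3), badPos m M (chainX q.1 q.2 t)} ≤ ENNReal.ofReal ε ∧
      ((ν' i).prod (noise _)) {q | e * (M : ℝ) ^ 35 <
        ∑ t ∈ Finset.range (M ^ 3), badPos m M (chainX q.1 q.2 t)} ≤ ENNReal.ofReal ε := by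
    intro e he
    obtain ⟨a, ha⟩ := H.badPos_whp (lt_min he hε)
    obtain ⟨b, hb⟩ := H'.badPos_whp (lt_min he hε)
    refine ⟨max a b, fun M hM => ?_⟩
    have hM' : min e ε * (M : ℝ) ^ 35 ≤ e * (M : ℝ) ^ 35 :=
      mul_le_mul_of_nonneg_right (min_le_left _ _) (by positivity)
    filter_upwards [ha M hM, hb M hM] with i h1 h2
    constructor
    · refine le_trans (measure_mono fun q hq => ?_)
        (h1.trans (ENNReal.ofReal_le_ofReal (min_le_right _ _)))
      exact lt_of_le_of_lt hM' (lt_of_lt_of_le hq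
        (Finset.sum_le_sum fun t _ => mono (le_max_left _ _) _ _ _))
    · refine le_trans (measure_mono fun q hq => ?_)
        (h2.trans (ENNReal.ofReal_le_ofReal (min_le_right _ _)))
      exact lt_of_le_of_lt hM' (lt_of_lt_of_le hq
        (Finset.sum_le_sum fun t _ => mono (le_max_right _ _) _ _ _))
  obtain ⟨m₀, hm₀⟩ := two ε hε
  obtain ⟨ε₁, hε₁, hd⟩ := det_couple hc hK hp hε m₀
  obtain ⟨m₁, hm₁⟩ := two ε₁ hε₁
  obtain ⟨ε₂, hε₂, hd⟩ := hd m₁
  obtain ⟨m₂, hm₂⟩ := two ε₂ hε₂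
  obtain ⟨m₃, hm₃⟩ := badG_whp (lt_min hε₂ hε)
  obtain ⟨M₀, hd⟩ := hd m₂ m₃
  obtain ⟨M, hM0, hM1, r1, r2, n1, l1, l2⟩ := ((eventually_ge_atTop M₀).and
    ((eventually_ge_atTop 1).and ((H.rig ε hε).and ((H'.rig ε hε).and ((noiseOK_whp hε).and
    ((H.lapI_mean hR hc hK hp hε).and (H'.lapI_mean hR hc hK hp hε))))))).exists
  filter_upwards [r1, r2, hR.eventually n1, l1, l2, hm₀ M hM1, hm₁ M hM1, hm₂ M hM1,
    hR.eventually (eventually_ge_atTop (8 * M ^ 32))] with i r1 r2 n1 l1 l2 b0 b1 b2 hRi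
  have := H.prob i
  have := H'.prob i
  set μ : Measure (((Fin (2 * R i + 1) → ℝ) × (Fin (2 * R i + 1) → ℝ)) × Noise (2 * R i + 1)) :=
    ((ν i).prod (ν' i)).prod (noise _) with hμ
  have p1 : MeasurePreserving (fun q => (q.1.1, q.2)) μ ((ν i).prod (noise _)) :=
    measurePreserving_fst.prod (MeasurePreserving.id _)
  have p2 : MeasurePreserving (fun q => (q.1.2, q.2)) μ ((ν' i).prod (noise _)) :=
    measurePreserving_snd.prod (MeasurePreserving.id _)
  have p3 : MeasurePreserving (fun q => q.2) μ (noise _) := measurePreserving_snd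
  have p4 : MeasurePreserving (fun q => q.1.1) μ (ν i) := measurePreserving_fst.comp measurePreserving_fst
  have p5 : MeasurePreserving (fun q => q.1.2) μ (ν' i) := measurePreserving_snd.comp measurePreserving_fst
  have pre : ∀ {Y : Type} [MeasurableSpace Y] {f : _ → Y} {m : Measure Y}, MeasurePreserving f μ m →
      ∀ {S : Set Y}, m S ≤ ENNReal.ofReal ε → μ (f ⁻¹' S) ≤ ENNReal.ofReal ε :=
    fun {Y} _ {f} {m} hf {S} hS => by
      have := Measure.le_map_apply (μ := μ) hf.measurable.aemeasurable S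
      rw [hf.map_eq] at this
      exact this.trans hS
  have mf : Measurable fun q : (Fin (2 * R i + 1) → ℝ) × Noise (2 * R i + 1) =>
      ∑ t ∈ Finset.range (M ^ 3), lapI h M (chainX q.1 q.2 t) :=
    Finset.measurable_sum _ fun t _ => measurable_lapI hc M _ t
  have bf : ∀ q : (Fin (2 * R i + 1) → ℝ) × Noise (2 * R i + 1),
      0 ≤ ∑ t ∈ Finset.range (M ^ 3), lapI h M (chainX q.1 q.2 t) ∧
      ∑ t ∈ Finset.range (M ^ 3), lapI h M (chainX q.1 q.2 t) ≤ 2 * (M : ℝ) ^ 35 := fun q => by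
    refine ⟨Finset.sum_nonneg fun t _ => (lapI_mem hc hp M _).1, ?_⟩
    refine (Finset.sum_le_card_nsmul _ _ _ fun t _ => (lapI_mem hc hp M _).2).trans (le_of_eq ?_)
    simp only [Finset.card_range, nsmul_eq_mul]; push_cast; ring
  have g3 : noise (2 * R i + 1) {g | ε₂ * (M : ℝ) ^ 35 <
      ∑ t ∈ Finset.range (M ^ 3), badG m₃ M (g t).1} ≤ ENNReal.ofReal ε := by
    refine le_trans (measure_mono fun g hg => ?_)
      ((hm₃ M hM1 (R i)).trans (ENNReal.ofReal_le_ofReal (min_le_right _ _)))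
    have hM' : min ε₂ ε * (M : ℝ) ^ 35 ≤ ε₂ * (M : ℝ) ^ 35 :=
      mul_le_mul_of_nonneg_right (min_le_left _ _) (by positivity)
    exact lt_of_le_of_lt hM' hg
  have s1 : ν i {x | ¬ StrictMono x} ≤ ENNReal.ofReal ε := by
    rw [ae_iff.1 (H.mono i)]; exact zero_le
  have s2 : ν' i {x | ¬ StrictMono x} ≤ ENNReal.ofReal ε := by
    rw [ae_iff.1 (H'.mono i)]; exact zero_le
  have hbad : μ {q | 4 * ε * (M : ℝ) ^ 35 <
      |∑ t ∈ Finset.range (M ^ 3), lapI h M (chainX q.1.1 q.2 t) -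
        ∑ t ∈ Finset.range (M ^ 3), lapI h M (chainX q.1.2 q.2 t)|} ≤ ENNReal.ofReal (12 * ε) := by
    have u := @DCpl_union _ _ μ
    have e := hε.le
    have tot := u e (by positivity) (pre p4 s1) (u e (by positivity) (pre p5 s2)
      (u e (by positivity) (pre p4 r1) (u e (by positivity) (pre p5 r2)
      (u e (by positivity) (pre p3 n1) (u e (by positivity) (pre p1 b0.1)
      (u e (by positivity) (pre p2 b0.2) (u e (by positivity) (pre p1 b1.1)
      (u e (by positivity) (pre p2 b1.2) (u e (by positivity) (pre p1 b2.1)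
      (u e e (pre p2 b2.2) (pre p3 g3)))))))))))
    refine le_trans (measure_mono fun q hq => ?_) (tot.trans (le_of_eq (by congr 1; ring)))
    by_contra hn
    simp only [Set.mem_union, Set.mem_preimage, Set.mem_ofPred_eq, not_or, not_not, not_lt,
      not_exists] at hn
    obtain ⟨a1, a2, a3, a4, a5, a6, a7, a8, a9, a10, a11, a12⟩ := hn
    exact absurd hq (not_lt.2 (hd M hM0 (R i) hRi _ _ _ a1 a2 a3 a4 a5 a6 a7 a8 a9 a10 a11 a12))
  have key := DCpl_int μ (mf.comp p1.measurable) (mf.comp p2.measurable) (by positivity)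
    (by positivity) (fun q => bf _) (fun q => bf _) hbad
  have e1 := integral_map (μ := μ) p1.measurable.aemeasurable mf.aestronglyMeasurable
  have e2 := integral_map (μ := μ) p2.measurable.aemeasurable mf.aestronglyMeasurable
  rw [p1.map_eq] at e1
  rw [p2.map_eq] at e2
  simp only [Function.comp] at key
  rw [← e1, ← e2] at key
  have hM : (0 : ℝ) < (M : ℝ) ^ 35 := by positivity
  rw [Real.dist_eq, sub_zero]
  rw [abs_le] at key l1 l2
  have h1 : 2 * (M : ℝ) ^ 35 * |ℓ i - ℓ' i| ≤ 30 * ε * (M : ℝ) ^ 35 := by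
    rw [← abs_of_pos (by positivity : (0 : ℝ) < 2 * (M : ℝ) ^ 35), ← abs_mul, abs_le]
    constructor <;> nlinarith
  have h2 : |ℓ i - ℓ' i| ≤ 15 * ε := by nlinarith
  linarith

end Crest.Agent.R166
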