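import Crest.Agent.R166.Gauss1

/-! # Gaussian expectations of polynomials -/

set_option autoImplicit false
set_option linter.unusedVariables false
set_option linter.unusedSectionVars false

open MeasureTheory ProbabilityTheory Filter Topology MvPolynomial

namespace Crest.Agent.R166

variable {I : Type} [Fintype I] [DecidableEq I]

theorem g2_growth (p : MvPolynomial I ℝ) :
    ∃ C : ℝ, 0 ≤ C ∧ ∀ g : I → ℝ, |eval g p| ≤ Real.exp (C * (1 + ‖g‖)) := by
  induction p using MvPolynomial.induction_on with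
  | C a =>
    refine ⟨|a|, abs_nonneg a, fun g => ?_⟩
    rw [eval_C]
    have h1 := Real.add_one_le_exp (|a| * (1 + ‖g‖))
    nlinarith [mul_nonneg (abs_nonneg a) (norm_nonneg g)]
  | add p q hp hq =>
    obtain ⟨C, hC, h⟩ := hp
    obtain ⟨D, hD, h'⟩ := hq
    refine ⟨C + D + 1, by linarith, fun g => ?_⟩
    have t0 := norm_nonneg g
    have a1 : Real.exp (C * (1 + ‖g‖)) ≤ Real.exp ((C + D) * (1 + ‖g‖)) :=
      Real.exp_le_exp.2 (by nlinarith)
    have a2 : Real.exp (D * (1 + ‖g‖)) ≤ Real.exp ((C + D) * (1 + ‖g‖)) :=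
      Real.exp_le_exp.2 (by nlinarith)
    have a3 := Real.add_one_le_exp (1 + ‖g‖)
    have a4 := Real.exp_pos ((C + D) * (1 + ‖g‖))
    rw [map_add, show (C + D + 1) * (1 + ‖g‖) = (C + D) * (1 + ‖g‖) + (1 + ‖g‖) by ring,
      Real.exp_add]
    refine (abs_add_le _ _).trans ?_
    nlinarith [h g, h' g]
  | mul_X p j hp =>
    obtain ⟨C, hC, h⟩ := hp
    refine ⟨C + 1, by linarith, fun g => ?_⟩
    have a3 := Real.add_one_le_exp (1 + ‖g‖)
    have a4 : |g j| ≤ ‖g‖ := norm_le_pi_norm g j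
    rw [map_mul, eval_X, abs_mul, add_mul, one_mul, Real.exp_add]
    exact mul_le_mul (h g) (by linarith) (abs_nonneg _) (Real.exp_pos _).le

theorem g2_meas (p : MvPolynomial I ℝ) : Measurable fun g : I → ℝ => eval g p :=
  (MvPolynomial.continuous_eval p).measurable

theorem g2_int (p : MvPolynomial I ℝ) : Integrable (fun g : I → ℝ => eval g p) (gpi I) := by
  obtain ⟨C, -, h⟩ := g2_growth p
  exact (integrable_exp_norm_gpi I C).mono' (g2_meas p).aestronglyMeasurable
    (Eventually.of_forall h)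

theorem g2_deriv (i : I) (g : I → ℝ) (p : MvPolynomial I ℝ) :
    HasDerivAt (fun t : ℝ => eval (Function.update g i (g i + t)) p) (eval g (pderiv i p)) 0 := by
  induction p using MvPolynomial.induction_on with
  | C a => simpa using hasDerivAt_const (0 : ℝ) a
  | add p q hp hq =>
    simp only [map_add]
    exact hp.add hq
  | mul_X p j hp =>
    have h1 : HasDerivAt (fun t : ℝ => Function.update g i (g i + t) j)
        (eval g (pderiv i (X j : MvPolynomial I ℝ))) 0 := by
      by_cases hij : j = i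
      · subst hij
        simpa using (hasDerivAt_id (0 : ℝ)).const_add (g j)
      · simpa [Function.update_of_ne hij, pderiv_X_of_ne hij] using hasDerivAt_const (0 : ℝ) (g j)
    have h2 := hp.mul h1
    simp only [add_zero, Function.update_eq_self] at h2
    simp only [pderiv_mul, map_add, map_mul, eval_X]
    exact h2

/-- Gaussian expectation of a polynomial -/
noncomputable def g2E : MvPolynomial I ℝ →ₗ[ℝ] ℝ where
  toFun p := ∫ g, eval g p ∂(gpi I)
  map_add' p q := by
    simp only [map_add]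
    exact integral_add (g2_int p) (g2_int q)
  map_smul' a p := by
    simp only [smul_eval, RingHom.id_apply, smul_eq_mul]
    exact integral_const_mul _ _

theorem g2E_apply (p : MvPolynomial I ℝ) : g2E p = ∫ g, eval g p ∂(gpi I) := rfl

theorem g2E_C (a : ℝ) : g2E (C a : MvPolynomial I ℝ) = a := by simp [g2E_apply]

theorem g2E_C_mul (a : ℝ) (p : MvPolynomial I ℝ) : g2E (C a * p) = a * g2E p := by
  rw [← smul_eq_C_mul, map_smul, smul_eq_mul]

theorem g2E_mono {p q : MvPolynomial I ℝ} (h : ∀ g, eval g p ≤ eval g q) : g2E p ≤ g2E q :=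
  integral_mono (g2_int p) (g2_int q) h

theorem g2E_ibp (i : I) (p : MvPolynomial I ℝ) : g2E (X i * p) = g2E (pderiv i p) := by
  obtain ⟨C, hC, h⟩ := g2_growth p
  obtain ⟨D, hD, h'⟩ := g2_growth (pderiv i p)
  simp only [g2E_apply, map_mul, eval_X]
  refine gpi_ibp i (g2_meas p) (g2_meas _) (fun g => g2_deriv i g p) (C := C + D) fun g => ?_
  have t0 := norm_nonneg g
  exact ⟨(h g).trans (Real.exp_le_exp.2 (by nlinarith)),
    (h' g).trans (Real.exp_le_exp.2 (by nlinarith))⟩

theorem g2_pderiv_X (u v : I) :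
    pderiv u (X v : MvPolynomial I ℝ) = C (if u = v then 1 else 0) := by
  by_cases h : u = v
  · subst h
    simp
  · rw [pderiv_X_of_ne (Ne.symm h), if_neg h, C_0]

theorem g2E_XX (u v : I) : g2E (X u * X v : MvPolynomial I ℝ) = if u = v then 1 else 0 := by
  rw [g2E_ibp, g2_pderiv_X, g2E_C]

theorem g2E_X4 (u : I) : g2E (X u ^ 4 : MvPolynomial I ℝ) = 3 := by
  rw [show (X u ^ 4 : MvPolynomial I ℝ) = X u * (X u * (X u * X u)) by ring, g2E_ibp]
  simp only [pderiv_mul, pderiv_X_self]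
  rw [show (1 * (X u * X u) + X u * (1 * X u + X u * 1) : MvPolynomial I ℝ) =
    X u * X u + X u * X u + X u * X u by ring, map_add, map_add, g2E_XX, if_pos rfl]
  norm_num

/-- centred product of two coordinates -/
noncomputable def g2xi (u v : I) : MvPolynomial I ℝ := X u * X v - C (if u = v then 1 else 0)

theorem g2E_xi_mul (u v : I) (p : MvPolynomial I ℝ) :
    g2E (g2xi u v * p) = g2E (X v * pderiv u p) := by
  rw [g2xi, sub_mul, map_sub, mul_assoc, g2E_ibp, pderiv_mul, g2_pderiv_X, map_add]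
  ring

theorem g2_pderiv_xi (w u v : I) : pderiv w (g2xi u v) =
    C (if w = u then 1 else 0) * X v + C (if w = v then 1 else 0) * X u := by
  rw [g2xi, map_sub, pderiv_C, pderiv_mul, g2_pderiv_X, g2_pderiv_X]
  ring

theorem g2E_xi_xi (u v u' v' : I) : g2E (g2xi u v * g2xi u' v') =
    (if u = u' then 1 else 0) * (if v = v' then 1 else 0) +
      (if u = v' then 1 else 0) * (if v = u' then 1 else 0) := by
  rw [g2E_xi_mul, g2_pderiv_xi, mul_add, map_add, mul_left_comm, g2E_C_mul, mul_left_comm,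
    g2E_C_mul, g2E_XX, g2E_XX]

section Bil
variable {r n : ℕ}

/-- the real bilinear sum -/
noncomputable def g2S (b c : Fin r) (a : Fin n → ℝ) : MvPolynomial (Fin r × Fin n) ℝ :=
  ∑ i, C (a i) * g2xi (b, i) (c, i)

theorem g2_eval_xi (b c : Fin r) (i : Fin n) (g : Fin r × Fin n → ℝ) :
    eval g (g2xi (b, i) (c, i)) = g (b, i) * g (c, i) - if b = c then 1 else 0 := by
  simp [g2xi]

theorem g2_eval_S (b c : Fin r) (a : Fin n → ℝ) (g : Fin r × Fin n → ℝ) :
    eval g (g2S b c a) = ∑ i, (g (b, i) * g (c, i) - if b = c then 1 else 0) * a i := by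
  simp only [g2S, map_sum, map_mul, eval_C, g2_eval_xi]
  exact Finset.sum_congr rfl fun i _ => mul_comm _ _

theorem g2_pderiv_S (b c : Fin r) (a : Fin n → ℝ) (i : Fin n) :
    pderiv (b, i) (g2S b c a) = C ((if b = c then 2 else 1) * a i) * X (c, i) := by
  rw [g2S, map_sum, Finset.sum_eq_single i]
  · rw [pderiv_C_mul, g2_pderiv_xi]
    by_cases h : b = c
    · subst h
      simp only [if_true, map_mul, map_one, map_ofNat]
      ring
    · simp [h]
  · intro j _ hj
    rw [pderiv_C_mul, g2_pderiv_xi]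
    simp [Ne.symm hj]
  · simp

theorem g2E_S_mul (b c : Fin r) (a : Fin n → ℝ) (p : MvPolynomial (Fin r × Fin n) ℝ) :
    g2E (g2S b c a * p) = ∑ i, a i * g2E (X (c, i) * pderiv (b, i) p) := by
  rw [g2S, Finset.sum_mul, map_sum]
  exact Finset.sum_congr rfl fun i _ => by rw [mul_assoc, g2E_C_mul, g2E_xi_mul]

theorem g2E_S_sq (b c : Fin r) (a : Fin n → ℝ) : g2E (g2S b c a ^ 2) ≤ 2 * ∑ i, a i ^ 2 := by
  rw [sq, g2E_S_mul, Finset.mul_sum]
  refine Finset.sum_le_sum fun i _ => ?_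
  rw [g2_pderiv_S, mul_left_comm, g2E_C_mul, g2E_XX, if_pos rfl]
  split_ifs <;> nlinarith [sq_nonneg (a i)]

theorem g2E_S_four (b c : Fin r) (a : Fin n → ℝ) :
    g2E (g2S b c a ^ 4) ≤ 108 * (∑ i, a i ^ 2) ^ 2 := by
  have h1 : g2E (g2S b c a ^ 4) = g2E (∑ i, C (3 * (if b = c then 2 else 1) * a i ^ 2) *
      (X (c, i) ^ 2 * g2S b c a ^ 2)) := by
    rw [pow_succ' _ 3, g2E_S_mul, map_sum]
    refine Finset.sum_congr rfl fun i _ => ?_
    rw [← g2E_C_mul]
    congr 1
    rw [pderiv_pow, g2_pderiv_S]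
    simp only [map_mul, map_pow, map_ofNat]
    push_cast
    ring
  have h2 : g2E (∑ i, C (3 * (if b = c then 2 else 1) * a i ^ 2) *
      (X (c, i) ^ 2 * g2S b c a ^ 2)) ≤ g2E (C (1 / 2) * g2S b c a ^ 4 +
        C (18 * ∑ i, a i ^ 2) * ∑ i, C (a i ^ 2) * X (c, i) ^ 4) := by
    refine g2E_mono fun g => ?_
    simp only [map_sum, map_mul, map_add, map_pow, eval_C, eval_X]
    generalize eval g (g2S b c a) = s
    have a1 : ∑ i, 3 * (if b = c then 2 else 1) * a i ^ 2 * (g (c, i) ^ 2 * s ^ 2) ≤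
        6 * s ^ 2 * ∑ i, a i * (a i * g (c, i) ^ 2) := by
      rw [Finset.mul_sum]
      refine Finset.sum_le_sum fun i _ => ?_
      have : 0 ≤ a i ^ 2 * (g (c, i) ^ 2 * s ^ 2) := by positivity
      split_ifs <;> nlinarith
    have a2 := Finset.sum_mul_sq_le_sq_mul_sq Finset.univ a fun i => a i * g (c, i) ^ 2
    have a3 : ∑ i, (a i * g (c, i) ^ 2) ^ 2 = ∑ i, a i ^ 2 * g (c, i) ^ 4 :=
      Finset.sum_congr rfl fun i _ => by ring
    rw [a3] at a2
    nlinarith [sq_nonneg (s ^ 2 - 6 * ∑ i, a i * (a i * g (c, i) ^ 2))]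
  rw [← h1, map_add, g2E_C_mul, g2E_C_mul, map_sum] at h2
  simp only [g2E_C_mul, g2E_X4] at h2
  rw [← Finset.sum_mul] at h2
  nlinarith

theorem g2_re (b c : Fin r) (a : Fin n → ℂ) (g : Fin r × Fin n → ℝ) :
    (∑ i, ((g (b, i) * g (c, i) - if b = c then 1 else 0 : ℝ) : ℂ) * a i).re =
      eval g (g2S b c fun i => (a i).re) := by
  rw [g2_eval_S, Complex.re_sum]
  exact Finset.sum_congr rfl fun i _ => Complex.re_ofReal_mul _ _

theorem g2_im (b c : Fin r) (a : Fin n → ℂ) (g : Fin r × Fin n → ℝ) :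
    (∑ i, ((g (b, i) * g (c, i) - if b = c then 1 else 0 : ℝ) : ℂ) * a i).im =
      eval g (g2S b c fun i => (a i).im) := by
  rw [g2_eval_S, Complex.im_sum]
  exact Finset.sum_congr rfl fun i _ => Complex.im_ofReal_mul _ _

theorem g2_normsq (b c : Fin r) (a : Fin n → ℂ) (g : Fin r × Fin n → ℝ) :
    ‖∑ i, ((g (b, i) * g (c, i) - if b = c then 1 else 0 : ℝ) : ℂ) * a i‖ ^ 2 =
      eval g (g2S b c (fun i => (a i).re) ^ 2 + g2S b c (fun i => (a i).im) ^ 2) := by
  rw [Complex.sq_norm, Complex.normSq_apply, g2_re, g2_im, map_add, map_pow, map_pow]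
  ring

theorem g2_sum_normsq (a : Fin n → ℂ) :
    ∑ i, ‖a i‖ ^ 2 = ∑ i, (a i).re ^ 2 + ∑ i, (a i).im ^ 2 := by
  rw [← Finset.sum_add_distrib]
  exact Finset.sum_congr rfl fun i _ => by rw [Complex.sq_norm, Complex.normSq_apply]; ring

end Bil

theorem g2_int_c (p : MvPolynomial I ℝ) (z : ℂ) :
    Integrable (fun g : I → ℝ => ((eval g p : ℝ) : ℂ) * z) (gpi I) :=
  (g2_int p).ofReal.mul_const z

theorem g2_integral_c (p : MvPolynomial I ℝ) (z : ℂ) :
    ∫ g, ((eval g p : ℝ) : ℂ) * z ∂(gpi I) = (g2E p : ℂ) * z := by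
  rw [integral_mul_const, integral_complex_ofReal, g2E_apply]

end Crest.Agent.R166
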