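import Crest.Agent.R166.Gauss1
import Crest.Agent.R166.Gauss2Aux

/-! # Gaussian toolbox: bilinear sums -/

set_option autoImplicit false
set_option linter.unusedVariables false
set_option linter.unusedSectionVars false

open MeasureTheory ProbabilityTheory Filter Topology Matrix
open scoped ENNReal BoundedContinuousFunction

namespace Crest.Agent.R166

/-- second moments of bilinear sums: for channels `b, c` and complex weights -/
theorem gpi_bilin_mean {r n : ℕ} (b c : Fin r) (a : Fin n → ℂ) :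
    ∫ g, ∑ i, ((g (b, i) * g (c, i) : ℝ) : ℂ) * a i ∂(gpi (Fin r × Fin n)) =
      if b = c then ∑ i, a i else 0 := by
  have h1 : ∀ (i : Fin n) (g : Fin r × Fin n → ℝ), g (b, i) * g (c, i) =
      MvPolynomial.eval g (MvPolynomial.X (b, i) * MvPolynomial.X (c, i)) := fun i g => by simp
  simp only [h1]
  rw [integral_finsetSum _ fun i _ => g2_int_c _ _]
  simp only [g2_integral_c, g2E_XX, Prod.mk.injEq, and_true]
  split_ifs <;> simp


theorem gpi_bilin_cov {r n : ℕ} (b c b' c' : Fin r) (a a' : Fin n → ℂ) :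
    ∫ g, (∑ i, ((g (b, i) * g (c, i) - if b = c then 1 else 0 : ℝ) : ℂ) * a i) *
        (∑ i, ((g (b', i) * g (c', i) - if b' = c' then 1 else 0 : ℝ) : ℂ) * a' i)
        ∂(gpi (Fin r × Fin n)) =
      ((if b = b' ∧ c = c' then 1 else 0) + (if b = c' ∧ c = b' then 1 else 0)) * ∑ i, a i * a' i := by
  have h1 : ∀ g : Fin r × Fin n → ℝ,
      (∑ i, ((g (b, i) * g (c, i) - if b = c then 1 else 0 : ℝ) : ℂ) * a i) *
        (∑ i, ((g (b', i) * g (c', i) - if b' = c' then 1 else 0 : ℝ) : ℂ) * a' i) =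
      ∑ i, ∑ j, ((MvPolynomial.eval g (g2xi (b, i) (c, i) * g2xi (b', j) (c', j)) : ℝ) : ℂ) *
        (a i * a' j) := fun g => by
    rw [Finset.sum_mul_sum]
    refine Finset.sum_congr rfl fun i _ => Finset.sum_congr rfl fun j _ => ?_
    rw [map_mul, g2_eval_xi, g2_eval_xi, Complex.ofReal_mul]
    ring
  simp only [h1]
  rw [integral_finsetSum _ fun i _ => integrable_finsetSum _ fun j _ => g2_int_c _ _,
    Finset.mul_sum]
  refine Finset.sum_congr rfl fun i _ => ?_
  rw [integral_finsetSum _ fun j _ => g2_int_c _ _, Finset.sum_eq_single i]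
  · rw [g2_integral_c, g2E_xi_xi]
    congr 1
    simp only [Prod.mk.injEq, and_true]
    simp only [ite_zero_mul_ite_zero, mul_one]
    push_cast
    split_ifs <;> simp
  · intro j _ hj
    rw [g2_integral_c, g2E_xi_xi]
    simp [Ne.symm hj]
  · simp


theorem gpi_bilin_sq_le {r n : ℕ} (b c : Fin r) (a : Fin n → ℂ) :
    ∫ g, ‖∑ i, ((g (b, i) * g (c, i) - if b = c then 1 else 0 : ℝ) : ℂ) * a i‖ ^ 2
      ∂(gpi (Fin r × Fin n)) ≤ 2 * ∑ i, ‖a i‖ ^ 2 := by
  simp only [g2_normsq]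
  rw [← g2E_apply, map_add, g2_sum_normsq]
  linarith [g2E_S_sq b c fun i => (a i).re, g2E_S_sq b c fun i => (a i).im]


/-- fourth moment, with a universal constant -/
theorem gpi_bilin_four_le : ∃ C : ℝ, ∀ {r n : ℕ} (b c : Fin r) (a : Fin n → ℂ),
    ∫ g, ‖∑ i, ((g (b, i) * g (c, i) - if b = c then 1 else 0 : ℝ) : ℂ) * a i‖ ^ 4
      ∂(gpi (Fin r × Fin n)) ≤ C * (∑ i, ‖a i‖ ^ 2) ^ 2 := by
  refine ⟨216, fun {r n} b c a => ?_⟩
  have h1 : ∀ g : Fin r × Fin n → ℝ,
      ‖∑ i, ((g (b, i) * g (c, i) - if b = c then 1 else 0 : ℝ) : ℂ) * a i‖ ^ 4 =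
      MvPolynomial.eval g
        ((g2S b c (fun i => (a i).re) ^ 2 + g2S b c (fun i => (a i).im) ^ 2) ^ 2) := fun g => by
    rw [map_pow, ← g2_normsq]
    ring
  simp only [h1]
  rw [← g2E_apply, g2_sum_normsq]
  have h2 : g2E ((g2S b c (fun i => (a i).re) ^ 2 + g2S b c (fun i => (a i).im) ^ 2) ^ 2) ≤
      g2E (MvPolynomial.C 2 * g2S b c (fun i => (a i).re) ^ 4 +
        MvPolynomial.C 2 * g2S b c (fun i => (a i).im) ^ 4) := by
    refine g2E_mono fun g => ?_
    simp only [map_add, map_mul, map_pow, MvPolynomial.eval_C]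
    generalize MvPolynomial.eval g (g2S b c fun i => (a i).re) = x
    generalize MvPolynomial.eval g (g2S b c fun i => (a i).im) = y
    nlinarith [sq_nonneg (x ^ 2 - y ^ 2)]
  rw [map_add, g2E_C_mul, g2E_C_mul] at h2
  have h3 := g2E_S_four b c fun i => (a i).re
  have h4 := g2E_S_four b c fun i => (a i).im
  have h5 : 0 ≤ (∑ i, (a i).re ^ 2) * ∑ i, (a i).im ^ 2 := by positivity
  nlinarith


theorem gpi_bilin_integrable {r n : ℕ} (b c : Fin r) (a : Fin n → ℂ) (q : ℕ) :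
    Integrable (fun g : Fin r × Fin n → ℝ =>
      ‖∑ i, ((g (b, i) * g (c, i) - if b = c then 1 else 0 : ℝ) : ℂ) * a i‖ ^ q)
      (gpi (Fin r × Fin n)) := by
  refine (g2_int ((1 + (g2S b c (fun i => (a i).re) ^ 2 + g2S b c (fun i => (a i).im) ^ 2)) ^
    q)).mono' (Continuous.aestronglyMeasurable (by fun_prop)) (Eventually.of_forall fun g => ?_)
  rw [map_pow, map_add, map_one, ← g2_normsq, norm_pow, norm_norm]
  refine pow_le_pow_left₀ (norm_nonneg _) ?_ _
  generalize ‖∑ i, ((g (b, i) * g (c, i) - if b = c then 1 else 0 : ℝ) : ℂ) * a i‖ = x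
  nlinarith [sq_nonneg (x - 1)]


end Crest.Agent.R166
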