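import Crest.Agent.R166.Defs

/-! # Finite averages and the model measure -/

set_option autoImplicit false
set_option linter.unusedVariables false
set_option linter.unusedSectionVars false

open MeasureTheory ProbabilityTheory Filter Topology Matrix
open scoped ENNReal BoundedContinuousFunction

namespace Crest.Agent.R166

/-! elementary properties of `avg` and `frac` -/

section AvgBasic
variable {A : Type} [Fintype A]

theorem avg_mono {f g : A → ℝ} (h : ∀ a, f a ≤ g a) : avg f ≤ avg g := by
  unfold avg
  exact div_le_div_of_nonneg_right (Finset.sum_le_sum fun a _ => h a) (Nat.cast_nonneg _)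

theorem avg_congr {f g : A → ℝ} (h : ∀ a, f a = g a) : avg f = avg g := by
  rw [show f = g from funext h]

theorem avg_add (f g : A → ℝ) : avg (fun a => f a + g a) = avg f + avg g := by
  unfold avg; rw [Finset.sum_add_distrib, add_div]

theorem avg_sub (f g : A → ℝ) : avg (fun a => f a - g a) = avg f - avg g := by
  unfold avg; rw [Finset.sum_sub_distrib, sub_div]

theorem avg_neg (f : A → ℝ) : avg (fun a => - f a) = - avg f := by
  unfold avg; rw [Finset.sum_neg_distrib, neg_div]

theorem avg_const_mul (c : ℝ) (f : A → ℝ) : avg (fun a => c * f a) = c * avg f := by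
  unfold avg; rw [← Finset.mul_sum, mul_div_assoc]

theorem avg_mul_const (f : A → ℝ) (c : ℝ) : avg (fun a => f a * c) = avg f * c := by
  unfold avg; rw [← Finset.sum_mul, div_mul_eq_mul_div]

theorem avg_div_const (f : A → ℝ) (c : ℝ) : avg (fun a => f a / c) = avg f / c := by
  unfold avg; rw [← Finset.sum_div, div_right_comm]

theorem avg_zero : avg (fun _ : A => (0 : ℝ)) = 0 := by simp [avg]

theorem avg_const [Nonempty A] (c : ℝ) : avg (fun _ : A => c) = c := by
  unfold avg
  have : (Fintype.card A : ℝ) ≠ 0 := by exact_mod_cast Fintype.card_ne_zero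
  rw [Finset.sum_const, Finset.card_univ, nsmul_eq_mul]; field_simp

theorem avg_of_isEmpty [IsEmpty A] (f : A → ℝ) : avg f = 0 := by simp [avg]

theorem avg_nonneg {f : A → ℝ} (h : ∀ a, 0 ≤ f a) : 0 ≤ avg f := by
  unfold avg
  exact div_nonneg (Finset.sum_nonneg fun a _ => h a) (Nat.cast_nonneg _)

theorem abs_avg_le (f : A → ℝ) : |avg f| ≤ avg fun a => |f a| := by
  unfold avg
  rw [abs_div, Nat.abs_cast]
  exact div_le_div_of_nonneg_right (Finset.abs_sum_le_sum_abs _ _) (Nat.cast_nonneg _)

/-- an average is bounded by a nonnegative bound (no `Nonempty` needed) -/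
theorem avg_le_of_le {f : A → ℝ} {c : ℝ} (hc : 0 ≤ c) (h : ∀ a, f a ≤ c) : avg f ≤ c := by
  rcases isEmpty_or_nonempty A with hA | hA
  · rw [avg_of_isEmpty]; exact hc
  · exact (avg_mono h).trans (avg_const c).le

theorem le_avg_of_le [Nonempty A] {f : A → ℝ} {c : ℝ} (h : ∀ a, c ≤ f a) : c ≤ avg f :=
  (avg_const (A := A) c).ge.trans (avg_mono h)

theorem abs_avg_le_of_le {f : A → ℝ} {c : ℝ} (hc : 0 ≤ c) (h : ∀ a, |f a| ≤ c) : |avg f| ≤ c :=
  (abs_avg_le f).trans (avg_le_of_le hc h)

theorem avg_finset_sum {K : Type} (s : Finset K) (f : K → A → ℝ) :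
    avg (fun a => ∑ k ∈ s, f k a) = ∑ k ∈ s, avg (f k) := by
  unfold avg; rw [Finset.sum_comm, Finset.sum_div]

theorem avg_comm {B : Type} [Fintype B] (f : A → B → ℝ) :
    avg (fun a => avg fun b => f a b) = avg fun b => avg fun a => f a b := by
  unfold avg
  simp only [← Finset.sum_div]
  rw [Finset.sum_comm, div_right_comm]

theorem frac_nonneg (P : A → Prop) : 0 ≤ frac P := by
  unfold frac
  exact avg_nonneg fun a => by split_ifs <;> norm_num

theorem frac_le_one (P : A → Prop) : frac P ≤ 1 := by
  unfold frac
  exact avg_le_of_le zero_le_one fun a => by split_ifs <;> norm_num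

theorem frac_mono {P Q : A → Prop} (h : ∀ a, P a → Q a) : frac P ≤ frac Q := by
  unfold frac
  refine avg_mono fun a => ?_
  by_cases hP : P a
  · simp [hP, h a hP]
  · simp only [hP, if_false]; split_ifs <;> norm_num

theorem frac_congr {P Q : A → Prop} (h : ∀ a, P a ↔ Q a) : frac P = frac Q :=
  le_antisymm (frac_mono fun a => (h a).1) (frac_mono fun a => (h a).2)

theorem frac_or_le (P Q : A → Prop) : frac (fun a => P a ∨ Q a) ≤ frac P + frac Q := by
  unfold frac
  rw [← avg_add]
  refine avg_mono fun a => ?_
  by_cases hP : P a <;> by_cases hQ : Q a <;> simp [hP, hQ]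

theorem frac_false : frac (fun _ : A => False) = 0 := by simp [frac, avg]

theorem frac_true [Nonempty A] : frac (fun _ : A => True) = 1 := by
  unfold frac; simp only [if_true]; exact avg_const 1

theorem frac_not [Nonempty A] (P : A → Prop) : frac (fun a => ¬ P a) = 1 - frac P := by
  rw [← avg_const (A := A) 1]
  unfold frac
  rw [← avg_sub]
  refine avg_congr fun a => ?_
  by_cases hP : P a <;> simp [hP]

theorem frac_exists_le {K : Type} (s : Finset K) (P : K → A → Prop) :
    frac (fun a => ∃ k ∈ s, P k a) ≤ ∑ k ∈ s, frac (P k) := by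
  classical
  unfold frac
  rw [← avg_finset_sum]
  refine avg_mono fun a => ?_
  split_ifs with h
  · obtain ⟨k, hk, hP⟩ := h
    refine le_trans ?_ (Finset.single_le_sum (f := fun k => if P k a then (1 : ℝ) else 0)
      (fun k _ => by split_ifs <;> norm_num) hk)
    simp [hP]
  · exact Finset.sum_nonneg fun k _ => by split_ifs <;> norm_num

open Classical in
theorem frac_eq_card (P : A → Prop) :
    frac P = ((Finset.univ.filter P).card : ℝ) / Fintype.card A := by
  unfold frac avg
  rw [Finset.sum_boole]

/-- Markov's inequality -/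
theorem frac_le_avg_div {f : A → ℝ} (hf : ∀ a, 0 ≤ f a) {ε : ℝ} (hε : 0 < ε) :
    frac (fun a => ε ≤ f a) ≤ avg f / ε := by
  rw [← avg_div_const]
  unfold frac
  refine avg_mono fun a => ?_
  split_ifs with h
  · rw [le_div_iff₀ hε]; linarith
  · exact div_nonneg (hf a) hε.le

theorem measurable_avg {X : Type*} [MeasurableSpace X] {f : X → A → ℝ}
    (hf : ∀ a, Measurable fun w => f w a) : Measurable fun w => avg (f w) := by
  unfold avg
  exact (Finset.measurable_sum _ fun a _ => hf a).div_const _

theorem measurable_frac {X : Type*} [MeasurableSpace X] {P : X → A → Prop}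
    (hP : ∀ a, MeasurableSet {w | P w a}) : Measurable fun w => frac (P w) := by
  unfold frac
  exact measurable_avg fun a => Measurable.ite (hP a) measurable_const measurable_const

theorem integrable_avg {X : Type*} [MeasurableSpace X] {μ : Measure X} {f : X → A → ℝ}
    (hf : ∀ a, Integrable (fun w => f w a) μ) : Integrable (fun w => avg (f w)) μ := by
  unfold avg
  exact (integrable_finsetSum _ fun a _ => hf a).div_const _

theorem integral_avg {X : Type*} [MeasurableSpace X] {μ : Measure X} {f : X → A → ℝ}
    (hf : ∀ a, Integrable (fun w => f w a) μ) :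
    ∫ w, avg (f w) ∂μ = avg fun a => ∫ w, f w a ∂μ := by
  unfold avg
  rw [integral_div, integral_finsetSum _ fun a _ => hf a]

end AvgBasic

/-! finite averages as integrals -/

theorem uniformOn_univ_singleton {A : Type} [Fintype A] [MeasurableSpace A]
    [MeasurableSingletonClass A] (a : A) :
    uniformOn (Set.univ : Set A) {a} = (Fintype.card A : ℝ≥0∞)⁻¹ := by
  rw [uniformOn_univ, Measure.count_singleton, one_div]

instance instIsFiniteMeasure_uniformOn_univ {A : Type} [Fintype A] [MeasurableSpace A] :
    IsFiniteMeasure (uniformOn (Set.univ : Set A)) := by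
  rcases isEmpty_or_nonempty A with hA | hA
  · rw [Measure.eq_zero_of_isEmpty (uniformOn (Set.univ : Set A))]; infer_instance
  · infer_instance

theorem integral_uniformOn_univ {A : Type} [Fintype A] [MeasurableSpace A]
    [MeasurableSingletonClass A] (f : A → ℝ) :
    ∫ a, f a ∂(uniformOn (Set.univ : Set A)) = avg f := by
  rw [integral_fintype Integrable.of_finite]
  unfold avg
  rw [Finset.sum_div]
  refine Finset.sum_congr rfl fun a _ => ?_
  rw [Measure.real, uniformOn_univ_singleton, smul_eq_mul, ENNReal.toReal_inv,
    ENNReal.toReal_natCast, div_eq_inv_mul]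

theorem uniformOn_univ_real {A : Type} [Fintype A] [MeasurableSpace A]
    [MeasurableSingletonClass A] (P : A → Prop) :
    (uniformOn (Set.univ : Set A)).real {a | P a} = frac P := by
  classical
  unfold frac
  rw [← integral_uniformOn_univ, ← integral_indicator_one (Set.toFinite _).measurableSet]
  refine integral_congr_ae (Eventually.of_forall fun a => ?_)
  by_cases h : P a <;> simp [Set.indicator, h]

theorem pi_uniformOn_univ {A K : Type} [Fintype A] [Nonempty A] [Fintype K] [DecidableEq K]
    [MeasurableSpace A] [MeasurableSingletonClass A] :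
    (Measure.pi fun _ : K => uniformOn (Set.univ : Set A)) = uniformOn (Set.univ : Set (K → A)) := by
  refine Measure.ext_iff_singleton.2 fun a => ?_
  rw [Measure.pi_singleton, uniformOn_univ_singleton]
  simp only [uniformOn_univ_singleton, Finset.prod_const, Finset.card_univ, Fintype.card_fun,
    Nat.cast_pow, ENNReal.inv_pow]

theorem avg_prod {A B : Type} [Fintype A] [Fintype B] (f : A × B → ℝ) :
    avg f = avg fun a => avg fun b => f (a, b) := by
  unfold avg
  rw [Fintype.sum_prod_type, Fintype.card_prod, ← Finset.sum_div, div_div, Nat.cast_mul, mul_comm]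

theorem avg_equiv {A B : Type} [Fintype A] [Fintype B] (e : A ≃ B) (f : B → ℝ) :
    avg (fun a => f (e a)) = avg f := by
  unfold avg
  rw [Equiv.sum_comp e f, Fintype.card_congr e]

theorem frac_equiv {A B : Type} [Fintype A] [Fintype B] (e : A ≃ B) (P : B → Prop) :
    frac (fun a => P (e a)) = frac P := by
  unfold frac
  exact avg_equiv e (fun b => by classical exact if P b then 1 else 0)

/-- one coordinate of a uniform tuple is uniform -/
theorem avg_pi_eval {A K : Type} [Fintype A] [Fintype K] [DecidableEq K] (i : K) (f : A → ℝ) :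
    avg (fun α : K → A => f (α i)) = avg f := by
  rcases isEmpty_or_nonempty A with hA | hA
  · have : IsEmpty (K → A) := ⟨fun α => hA.elim (α i)⟩
    rw [avg_of_isEmpty, avg_of_isEmpty]
  · rw [← avg_equiv (Equiv.piSplitAt i (fun _ : K => A)).symm, avg_prod]
    refine avg_congr fun a => ?_
    simp only [Equiv.piSplitAt_symm_apply, dif_pos]
    exact avg_const _

/-- splitting off the coordinate `i` -/
theorem avg_pi_update {A K : Type} [Fintype A] [Fintype K] [DecidableEq K] (i : K)
    (F : (K → A) → ℝ) :
    avg F = avg fun α : K → A => avg fun a => F (Function.update α i a) := by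
  rcases isEmpty_or_nonempty A with hA | hA
  · have : IsEmpty (K → A) := ⟨fun α => hA.elim (α i)⟩
    rw [avg_of_isEmpty, avg_of_isEmpty]
  · let e : (K → A) × A ≃ (K → A) × A :=
      { toFun := fun p => (Function.update p.1 i p.2, p.1 i)
        invFun := fun p => (Function.update p.1 i p.2, p.1 i)
        left_inv := fun p => by simp
        right_inv := fun p => by simp }
    have h1 := avg_equiv e (fun p => F p.1)
    rw [avg_prod, avg_prod] at h1
    simp only [avg_const] at h1
    exact h1.symm

/-- two distinct coordinates of a uniform tuple are independent and uniform -/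
theorem avg_pi_eval₂ {A K : Type} [Fintype A] [Fintype K] [DecidableEq K] {i j : K} (hij : i ≠ j)
    (f : A → A → ℝ) :
    avg (fun α : K → A => f (α i) (α j)) = avg fun a => avg fun b => f a b := by
  rw [avg_pi_update j]
  simp only [Function.update_self, Function.update_of_ne hij]
  exact avg_pi_eval i (fun a => avg fun b => f a b)

instance : IsProbabilityMeasure unifJ := by
  constructor
  unfold unifJ
  rw [Measure.smul_apply, (MeasurableEmbedding.subtype_coe measurableSet_Icc).comap_apply,
    Set.image_univ, Subtype.range_coe, Real.volume_Icc]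
  have : ENNReal.ofReal (1 - -1) = ((2 : NNReal) : ℝ≥0∞) := by
    rw [show (1 - -1 : ℝ) = ((2 : NNReal) : ℝ) by norm_num, ENNReal.ofReal_coe_nnreal]
  rw [this, ENNReal.smul_def, smul_eq_mul, ← ENNReal.coe_mul]
  norm_num

theorem Adm.prob {s : ℝ} {β : Measure J} (h : Adm s β) : IsProbabilityMeasure β := by
  rcases h with rfl | ⟨_, rfl⟩ <;> infer_instance

instance (D : ℕ) (β : Measure J) [IsProbabilityMeasure β] : IsProbabilityMeasure (envLaw D β) := by
  unfold envLaw; infer_instance

instance (D : ℕ) (β : Measure J) [IsProbabilityMeasure β] : IsProbabilityMeasure (starLaw D β) := by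
  unfold starLaw; infer_instance

instance (n D : ℕ) (β : Measure J) [IsProbabilityMeasure β] [Nonempty (Pairing n D)] :
    IsProbabilityMeasure (POm n D β) := by
  unfold POm; infer_instance

/-- integral over `Om` = average over pairings of the integral over potentials -/
theorem integral_POm {n D : ℕ} (β : Measure J) [IsProbabilityMeasure β] (f : Om n D → ℝ)
    (hf : ∀ π, Integrable (fun ω => f (π, ω)) (Measure.pi fun _ => β))
    (hm : ∀ π, Measurable fun ω => f (π, ω)) :
    ∫ o, f o ∂(POm n D β) = avg fun π => ∫ ω, f (π, ω) ∂(Measure.pi fun _ => β) := by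
  unfold POm
  have hmeas : Measurable f := by
    have : f = fun p : Pairing n D × (Fin n → J) => (fun ω π => f (π, ω)) p.2 p.1 := rfl
    rw [this]
    exact measurable_from_prod_countable_right (fun π => hm π)
  have hint : Integrable f ((uniformOn (Set.univ : Set (Pairing n D))).prod
      (Measure.pi fun _ => β)) := by
    rw [integrable_prod_iff hmeas.aestronglyMeasurable]
    exact ⟨Eventually.of_forall hf, Integrable.of_finite⟩
  rw [integral_prod _ hint, integral_uniformOn_univ]

/-- outer-measure bound through the fibres over the potentials -/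
theorem POm_le_of_frac {n D : ℕ} (β : Measure J) [IsProbabilityMeasure β] (S : Set (Om n D))
    (hS : MeasurableSet S) {ε : ℝ} (h : ∀ ω, frac (fun π => (π, ω) ∈ S) ≤ ε) :
    POm n D β S ≤ ENNReal.ofReal ε := by
  unfold POm
  rw [Measure.prod_apply_symm hS]
  calc ∫⁻ ω, uniformOn (Set.univ : Set (Pairing n D)) ((fun π => (π, ω)) ⁻¹' S)
        ∂(Measure.pi fun _ : Fin n => β)
      ≤ ∫⁻ _ω, ENNReal.ofReal ε ∂(Measure.pi fun _ : Fin n => β) := by
        refine lintegral_mono fun ω => ?_
        have h1 := uniformOn_univ_real (A := Pairing n D) (fun π => (π, ω) ∈ S)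
        have h2 := h ω
        rw [← h1] at h2
        rw [← ofReal_measureReal (measure_ne_top _ _)]
        exact ENNReal.ofReal_le_ofReal h2
    _ = ENNReal.ofReal ε := by simp

end Crest.Agent.R166
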