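import Crest.Agent.R166.Mob
import Crest.Agent.R166.Gauss
import Crest.Agent.R166.Spec

/-! # Part D: the truncated chain and window families -/

set_option autoImplicit false
set_option linter.unusedVariables false
set_option linter.unusedSectionVars false

open MeasureTheory ProbabilityTheory Filter Topology Matrix
open scoped ENNReal BoundedContinuousFunction

namespace Crest.Agent.R166

noncomputable section

/-- one rank-one step `diag x + κ g gᵀ` on a finite configuration -/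
def stepX {n : ℕ} (κ : ℝ) (x g : Fin n → ℝ) : Fin n → ℝ :=
  evs (Matrix.diagonal x + κ • Matrix.vecMulVec g g)

abbrev Noise (n : ℕ) : Type := ℕ → (Fin n → ℝ) × (Fin n → ℝ)

/-- independent standard Gaussian vectors, two per time step -/
def noise (n : ℕ) : Measure (Noise n) :=
  Measure.infinitePi fun _ : ℕ => (gpi (Fin n)).prod (gpi (Fin n))

instance (n : ℕ) : IsProbabilityMeasure (noise n) := by unfold noise; infer_instance

/-- the chain: each time step is a `+` step followed by a `-` step -/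
def chainX {n : ℕ} (x : Fin n → ℝ) (g : Noise n) : ℕ → Fin n → ℝ
  | 0 => x
  | t + 1 => stepX (-1) (stepX 1 (chainX x g t) (g t).1) (g t).2

/-- labels `-R, …, R` -/
def lab {R : ℕ} (l : Fin (2 * R + 1)) : ℝ := ((l : ℕ) : ℝ) - R

/-- number of points in `(-∞, a]` -/
def cnt {n : ℕ} (x : Fin n → ℝ) (a : ℝ) : ℝ :=
  ((Finset.univ.filter fun l => x l ≤ a).card : ℝ)

/-- rigidity of the counting function seen from the integer position `u`, up to distance `Λ` -/
def PosRig {n : ℕ} (m : ℝ) (Λ : ℕ) (x : Fin n → ℝ) (u : ℤ) : Prop :=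
  ∀ k : ℤ, |k| ≤ Λ → |cnt x ((u : ℝ) + k) - cnt x u - k| ≤ m + |(k : ℝ)| ^ (1 / 32 : ℝ)

/-- translated Laplace weight -/
def lapW {n : ℕ} (h : ℝ → ℝ) (x : Fin n → ℝ) (τ : ℝ) : ℝ := Real.exp (-∑ l, h (x l - τ))

/-- laws of windows of `2R + 1` points with everything the coupling needs -/
structure WinFam {ι : Type} (G : Filter ι) (R : ι → ℕ)
    (ν : ∀ i, Measure (Fin (2 * R i + 1) → ℝ)) (h : ℝ → ℝ) (ℓ : ι → ℝ) : Prop where
  prob : ∀ i, IsProbabilityMeasure (ν i)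
  mono : ∀ i, ∀ᵐ x ∂(ν i), StrictMono x
  rig : ∀ ε : ℝ, 0 < ε → ∀ᶠ M : ℕ in atTop, ∀ᶠ i in G,
    ν i {x | ∃ l, M + |lab l| ^ (1 / 32 : ℝ) < |x l - lab l|} ≤ ENNReal.ofReal ε
  loc : ∀ ε : ℝ, 0 < ε → ∃ m : ℝ, ∀ (t : ℕ) (u : ℤ) (Λ : ℕ), ∀ᶠ i in G,
    ((ν i).prod (noise _)) {q | ¬ PosRig m Λ (chainX q.1 q.2 t) u} ≤ ENNReal.ofReal ε
  lapl : ∀ (t : ℕ) (τ ε : ℝ), 0 < ε → ∀ᶠ i in G,
    |∫ q, lapW h (chainX q.1 q.2 t) τ ∂((ν i).prod (noise _)) - ℓ i| ≤ ε

end

end Crest.Agent.R166
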