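import Crest.Agent.R166.DC1
import Crest.Agent.R166.C.Det
import Crest.Agent.R166.C.Inv0
import Crest.Agent.R166.C.Tight

/-! # Window families: definitions -/

set_option autoImplicit false
set_option linter.unusedVariables false
set_option linter.unusedSectionVars false

open MeasureTheory ProbabilityTheory Filter Topology Matrix
open scoped ENNReal BoundedContinuousFunction

namespace Crest.Agent.R166

noncomputable section

/-- a slightly stronger form of `PosRig` -/
def PosRig2 {n : ℕ} (m : ℝ) (Λ : ℕ) (x : Fin n → ℝ) (u : ℤ) : Prop :=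
  ∀ k : ℤ, |k| ≤ Λ → |cnt x ((u : ℝ) + k) - cnt x u - k| ≤ m + |(k : ℝ)| ^ (1 / 32 : ℝ) / 2

theorem PosRig2.posRig {n : ℕ} {m : ℝ} {Λ : ℕ} {x : Fin n → ℝ} {u : ℤ} (h : PosRig2 m Λ x u) :
    PosRig m Λ x u := fun k hk => (h k hk).trans (by
  have : 0 ≤ |(k : ℝ)| ^ (1 / 32 : ℝ) := by positivity
  linarith)

/-- number of points in `(-∞, 0]` -/
def j0 {n : ℕ} (x : Fin n → ℝ) : ℕ := (Finset.univ.filter fun i => x i ≤ 0).card

/-- the `2R + 1` points around the origin, perturbed to be strictly increasing -/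
def trunc {n : ℕ} (R : ℕ) (x : Fin n → ℝ) : Fin (2 * R + 1) → ℝ :=
  if h : R ≤ j0 x ∧ j0 x + R < n then
    fun l => x ⟨j0 x - R + l, by omega⟩ + lab l / ((R : ℝ) + 1) ^ 2
  else fun l => lab l

end

end Crest.Agent.R166
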