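import Crest.Agent.R166.DW0

/-! # Window families: deterministic rigidity of the counting function -/

set_option autoImplicit false
set_option linter.unusedVariables false
set_option linter.unusedSectionVars false

open MeasureTheory ProbabilityTheory Filter Topology Matrix
open scoped ENNReal BoundedContinuousFunction

namespace Crest.Agent.R166

theorem DW1_arctan_le {t : ℝ} (ht : 0 ≤ t) : Real.arctan t ≤ t := by
  have := Real.le_tan (Real.arctan_nonneg.2 ht) (Real.arctan_lt_pi_div_two t)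
  rwa [Real.tan_arctan] at this

theorem DW1_psi {t : ℝ} (ht : 0 ≤ t) :
    0 ≤ Real.pi / 2 - Real.arctan t ∧ Real.pi / 2 - Real.arctan t ≤ 4 / (1 + t) := by
  refine ⟨by linarith [Real.arctan_lt_pi_div_two t], ?_⟩
  rw [le_div_iff₀ (by positivity)]
  have h0 := Real.arctan_nonneg.2 ht
  have h1 := Real.arctan_lt_pi_div_two t
  have hπ := Real.pi_le_four
  rcases le_total t 1 with h | h
  · nlinarith
  · have hp : 0 < t := by linarith
    have h2 := DW1_arctan_le (inv_pos.2 hp).le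
    rw [Real.arctan_inv_of_pos hp] at h2
    have h3 : (Real.pi / 2 - Real.arctan t) * t ≤ 1 := by
      calc _ ≤ t⁻¹ * t := by gcongr
        _ = 1 := inv_mul_cancel₀ hp.ne'
    nlinarith

theorem DW1_psi' (t : ℝ) :
    |Real.pi * (if 0 ≤ t then 1 else 0) - Real.pi / 2 - Real.arctan t| ≤ 4 / (1 + |t|) := by
  split_ifs with h
  · have := DW1_psi h
    rw [abs_of_nonneg h, abs_le]
    constructor <;> linarith [this.1, this.2]
  · have h' : 0 ≤ -t := by linarith
    have := DW1_psi h'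
    rw [Real.arctan_neg] at this
    rw [abs_of_nonpos (by linarith : t ≤ 0), abs_le]
    constructor <;> linarith [this.1, this.2]

theorem DW1_diff0 {a b : ℝ} (ha : 0 ≤ a) (hab : a ≤ b) :
    |Real.arctan b - Real.arctan a| ≤ (b - a) * (1 / (1 + a ^ 2)) := by
  have h1 : b * -a < 1 := by nlinarith
  have h2 := Real.arctan_add h1
  rw [Real.arctan_neg, ← sub_eq_add_neg] at h2
  have h3 : 0 < 1 - b * -a := by linarith
  have h4 : 0 ≤ (b + -a) / (1 - b * -a) := div_nonneg (by linarith) h3.le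
  rw [h2, abs_of_nonneg (Real.arctan_nonneg.2 h4)]
  refine (DW1_arctan_le h4).trans ?_
  rw [mul_one_div, ← sub_eq_add_neg]
  exact div_le_div_of_nonneg_left (by linarith) (by positivity) (by nlinarith)

theorem DW1_diff1 {a b : ℝ} (ha : 0 ≤ a) (hb : 0 ≤ b) :
    |Real.arctan b - Real.arctan a| ≤ |b - a| * (1 / (1 + a ^ 2) + 1 / (1 + b ^ 2)) := by
  have h1 : 0 ≤ 1 / (1 + a ^ 2) := by positivity
  have h2 : 0 ≤ 1 / (1 + b ^ 2) := by positivity
  rcases le_total a b with h | h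
  · refine (DW1_diff0 ha h).trans ?_
    rw [abs_of_nonneg (sub_nonneg.2 h)]
    nlinarith [sub_nonneg.2 h]
  · rw [abs_sub_comm, abs_sub_comm b]
    refine (DW1_diff0 hb h).trans ?_
    rw [abs_of_nonneg (sub_nonneg.2 h)]
    nlinarith [sub_nonneg.2 h]

theorem DW1_S_near {t : ℝ} {Y : ℕ} (hY : 1 ≤ Y) (ht : |t| ≤ 3 * Y) :
    1 / (1 + |t|) ≤ 8 * ∑ y ∈ Finset.Icc 1 Y, 1 / (t ^ 2 + (y : ℝ) ^ 2) := by
  have ha := abs_nonneg t
  set m : ℕ := min Y (⌊|t|⌋₊ + 1) with hm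
  have hm1 : (m : ℝ) ≤ |t| + 1 := by
    have : (m : ℝ) ≤ (⌊|t|⌋₊ + 1 : ℕ) := by exact_mod_cast min_le_right _ _
    push_cast at this
    linarith [Nat.floor_le ha]
  have hm2 : (1 + |t|) / 4 ≤ m := by
    rcases min_choice Y (⌊|t|⌋₊ + 1) with h | h
    · have : (1 : ℝ) ≤ Y := by exact_mod_cast hY
      rw [hm, h]; linarith
    · have h1 := Nat.lt_floor_add_one |t|
      have h2 : (0 : ℝ) ≤ ⌊|t|⌋₊ := Nat.cast_nonneg _
      rw [hm, h]; push_cast; linarith
  have h1 : ∑ y ∈ Finset.Icc 1 m, 1 / (2 * (1 + |t|) ^ 2) ≤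
      ∑ y ∈ Finset.Icc 1 Y, 1 / (t ^ 2 + (y : ℝ) ^ 2) := by
    refine (Finset.sum_le_sum fun y hy => ?_).trans (Finset.sum_le_sum_of_subset_of_nonneg
      (Finset.Icc_subset_Icc_right (min_le_left _ _)) fun _ _ _ => by positivity)
    have hy1 : (1 : ℝ) ≤ y := by exact_mod_cast (Finset.mem_Icc.1 hy).1
    have hy2 : (y : ℝ) ≤ m := by exact_mod_cast (Finset.mem_Icc.1 hy).2
    refine one_div_le_one_div_of_le (by positivity) ?_
    rw [← sq_abs t]
    nlinarith
  rw [Finset.sum_const, Nat.card_Icc, Nat.add_sub_cancel, nsmul_eq_mul] at h1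
  refine le_trans ?_ (mul_le_mul_of_nonneg_left h1 (by norm_num))
  calc 1 / (1 + |t|) = 8 * ((1 + |t|) / 4 * (1 / (2 * (1 + |t|) ^ 2))) := by
        field_simp; norm_num
    _ ≤ _ := by gcongr

theorem DW1_S_far {t : ℝ} {Y : ℕ} (ht : (Y : ℝ) ≤ |t|) :
    Y * (1 / (1 + t ^ 2)) ≤ 2 * ∑ y ∈ Finset.Icc 1 Y, 1 / (t ^ 2 + (y : ℝ) ^ 2) := by
  have h1 : ∑ y ∈ Finset.Icc 1 Y, 1 / (2 * (1 + t ^ 2)) ≤
      ∑ y ∈ Finset.Icc 1 Y, 1 / (t ^ 2 + (y : ℝ) ^ 2) := by
    refine Finset.sum_le_sum fun y hy => ?_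
    have hy1 : (1 : ℝ) ≤ y := by exact_mod_cast (Finset.mem_Icc.1 hy).1
    have hy2 : (y : ℝ) ≤ Y := by exact_mod_cast (Finset.mem_Icc.1 hy).2
    refine one_div_le_one_div_of_le (by positivity) ?_
    rw [← sq_abs t]
    nlinarith
  rw [Finset.sum_const, Nat.card_Icc, Nat.add_sub_cancel, nsmul_eq_mul] at h1
  refine le_trans (le_of_eq ?_) (mul_le_mul_of_nonneg_left h1 (by norm_num))
  field_simp

theorem DW1_bottom (a b : ℝ) {Y : ℕ} (hY : 1 ≤ Y) (h : |b - a| ≤ Y) :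
    |Real.pi * ((if 0 ≤ b then 1 else 0) - if 0 ≤ a then 1 else 0) -
        (Real.arctan b - Real.arctan a)| ≤
      32 * (∑ y ∈ Finset.Icc 1 Y, 1 / (a ^ 2 + (y : ℝ) ^ 2) +
        ∑ y ∈ Finset.Icc 1 Y, 1 / (b ^ 2 + (y : ℝ) ^ 2)) := by
  have hY' : (1 : ℝ) ≤ Y := by exact_mod_cast hY
  have sa : 0 ≤ ∑ y ∈ Finset.Icc 1 Y, 1 / (a ^ 2 + (y : ℝ) ^ 2) :=
    Finset.sum_nonneg fun _ _ => by positivity
  have sb : 0 ≤ ∑ y ∈ Finset.Icc 1 Y, 1 / (b ^ 2 + (y : ℝ) ^ 2) :=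
    Finset.sum_nonneg fun _ _ => by positivity
  by_cases hn : |a| ≤ 3 * Y ∧ |b| ≤ 3 * Y
  · have h1 := DW1_psi' a
    have h2 := DW1_psi' b
    have h3 := DW1_S_near hY hn.1
    have h4 := DW1_S_near hY hn.2
    have e1 : 4 / (1 + |a|) = 4 * (1 / (1 + |a|)) := by ring
    have e2 : 4 / (1 + |b|) = 4 * (1 / (1 + |b|)) := by ring
    rw [abs_le] at h1 h2 ⊢
    constructor <;> linarith [h1.1, h1.2, h2.1, h2.2]
  · have hab := abs_le.1 h
    have hc : ((Y : ℝ) ≤ a ∧ (Y : ℝ) ≤ b) ∨ ((Y : ℝ) ≤ -a ∧ (Y : ℝ) ≤ -b) := by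
      rw [not_and_or, not_le, not_le, lt_abs, lt_abs] at hn
      rcases hn with (h' | h') | (h' | h')
      · left; constructor <;> linarith [hab.1, hab.2]
      · right; constructor <;> linarith [hab.1, hab.2]
      · left; constructor <;> linarith [hab.1, hab.2]
      · right; constructor <;> linarith [hab.1, hab.2]
    have key : |Real.arctan b - Real.arctan a| ≤ Y * (1 / (1 + a ^ 2) + 1 / (1 + b ^ 2)) ∧
        ((if 0 ≤ b then (1 : ℝ) else 0) - if 0 ≤ a then 1 else 0) = 0 ∧ (Y : ℝ) ≤ |a| ∧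
        (Y : ℝ) ≤ |b| := by
      rcases hc with ⟨h1, h2⟩ | ⟨h1, h2⟩
      · refine ⟨(DW1_diff1 (by linarith) (by linarith)).trans (by gcongr), ?_,
          h1.trans (le_abs_self _), h2.trans (le_abs_self _)⟩
        rw [if_pos (by linarith), if_pos (by linarith), sub_self]
      · refine ⟨?_, ?_, h1.trans (neg_le_abs _), h2.trans (neg_le_abs _)⟩
        · have := DW1_diff1 (a := -a) (b := -b) (by linarith) (by linarith)
          rw [Real.arctan_neg, Real.arctan_neg, neg_sq, neg_sq, ← neg_sub', ← neg_sub', abs_neg,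
            abs_neg] at this
          exact this.trans (by gcongr)
        · rw [if_neg (by linarith), if_neg (by linarith), sub_self]
    rw [key.2.1, mul_zero, zero_sub, abs_neg]
    have h3 := DW1_S_far key.2.2.1
    have h4 := DW1_S_far key.2.2.2
    linarith [key.1]

theorem DW1_nsq (x v y : ℝ) :
    ‖(x : ℂ) - ((v : ℂ) + (y : ℂ) * Complex.I)‖ ^ 2 = (x - v) ^ 2 + y ^ 2 := by
  rw [Complex.sq_norm, Complex.normSq_apply]
  simp
  ring

theorem DW1_im {n : ℕ} (p : Conf n) (v y : ℝ) :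
    (sF p ((v : ℂ) + (y : ℂ) * Complex.I)).im = ∑ i, y / ((p.1 i - v) ^ 2 + y ^ 2) := by
  rw [im_sF, sN, Finset.mul_sum]
  refine Finset.sum_congr rfl fun i _ => ?_
  rw [DW1_nsq]
  simp [div_eq_mul_inv]

theorem DW1_re {n : ℕ} (p : Conf n) (v y : ℝ) :
    (sF p ((v : ℂ) + (y : ℂ) * Complex.I)).re =
      ∑ i, (p.1 i - v) / ((p.1 i - v) ^ 2 + y ^ 2) - p.2 := by
  rw [sF, Complex.sub_re, Complex.re_sum, Complex.ofReal_re]
  congr 1
  refine Finset.sum_congr rfl fun i _ => ?_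
  rw [one_div, Complex.inv_re, ← Complex.sq_norm, DW1_nsq]
  simp

/-- from a grid point to a neighbouring point above it -/
theorem DW1_near {n : ℕ} (p : Conf n) {v y v' y' lam : ℝ} (hy : 1 ≤ y) (hy' : y ≤ y')
    (hd : |v - v'| + |y - y'| ≤ 1) (hl : 0 ≤ lam)
    (h : ‖sF p ((v : ℂ) + (y : ℂ) * Complex.I) - Real.pi * Complex.I‖ ≤ lam / y) :
    ‖sF p ((v' : ℂ) + (y' : ℂ) * Complex.I) - Real.pi * Complex.I‖ ≤ 8 * (1 + lam) / y := by
  have hy0 : 0 < y := by linarith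
  have i1 : ((v : ℂ) + (y : ℂ) * Complex.I).im = y := by simp
  have i2 : ((v' : ℂ) + (y' : ℂ) * Complex.I).im = y' := by simp
  have h1 := norm_sF_sub p (w := (v : ℂ) + (y : ℂ) * Complex.I)
    (w' := (v' : ℂ) + (y' : ℂ) * Complex.I) (by rwa [i1]) (by rw [i2]; linarith)
  have h2 : ‖((v : ℂ) + (y : ℂ) * Complex.I) - ((v' : ℂ) + (y' : ℂ) * Complex.I)‖ ≤ 1 := by
    refine (Complex.norm_le_abs_re_add_abs_im _).trans ?_
    simpa using hd
  have h3 := im_sF p ((v : ℂ) + (y : ℂ) * Complex.I)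
  rw [i1] at h3
  have h4 := (Complex.abs_im_le_norm _).trans h
  simp only [Complex.sub_im, Complex.mul_im, Complex.ofReal_re, Complex.I_im, mul_one,
    Complex.ofReal_im, Complex.I_re, mul_zero, add_zero] at h4
  have h5 : lam / y ≤ lam := div_le_self hl hy
  have h6 : sN p ((v : ℂ) + (y : ℂ) * Complex.I) ≤ (4 + lam) / y := by
    rw [le_div_iff₀ hy0]
    linarith [(abs_le.1 h4).2, Real.pi_le_four]
  have h7 : ‖((v : ℂ) + (y : ℂ) * Complex.I) - ((v' : ℂ) + (y' : ℂ) * Complex.I)‖ / y' ≤ 1 :=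
    (div_le_one (by linarith)).2 (by linarith)
  rw [i2] at h1
  have h8 := h1.trans (mul_le_mul (mul_le_mul h2 (add_le_add le_rfl h7) (by
    have : 0 < y' := by linarith
    positivity) zero_le_one) h6 (sN_nonneg _ _) (by norm_num))
  have h9 := norm_sub_le_norm_sub_add_norm_sub (sF p ((v' : ℂ) + (y' : ℂ) * Complex.I))
    (sF p ((v : ℂ) + (y : ℂ) * Complex.I)) (Real.pi * Complex.I)
  have e : 8 * (1 + lam) / y = 1 * (1 + 1) * ((4 + lam) / y) + lam / y + 5 * (lam / y) := by ring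
  have : 0 ≤ lam / y := by positivity
  linarith

theorem DW1_dy (t : ℝ) {y : ℝ} (hy : 0 < y) :
    HasDerivAt (fun s : ℝ => Real.arctan (t / s)) (-t / (t ^ 2 + y ^ 2)) y := by
  have h := ((hasDerivAt_const y t).fun_div (hasDerivAt_id' y) hy.ne').arctan
  convert h using 1
  field_simp
  ring

theorem DW1_dv (x v : ℝ) {y : ℝ} (hy : 0 < y) :
    HasDerivAt (fun s : ℝ => Real.arctan ((s - x) / y)) (y / ((x - v) ^ 2 + y ^ 2)) v := by
  have h := (((hasDerivAt_id' v).sub_const x).div_const y).arctan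
  convert h using 1
  field_simp
  ring

/-- the bottom comparison, for one point -/
theorem arctan_bottom : ∃ C : ℝ, 0 ≤ C ∧ ∀ (x u₁ u₂ : ℝ) (Y : ℕ), 1 ≤ Y → |u₂ - u₁| ≤ Y →
    |Real.pi * ((if x ≤ u₂ then 1 else 0) - if x ≤ u₁ then 1 else 0) -
        (Real.arctan (u₂ - x) - Real.arctan (u₁ - x))| ≤
      C * ∑ y ∈ Finset.Icc 1 Y, (1 / ((x - u₁) ^ 2 + (y : ℝ) ^ 2) + 1 / ((x - u₂) ^ 2 + (y : ℝ) ^ 2)) := by
  refine ⟨32, by norm_num, fun x u₁ u₂ Y hY h => ?_⟩
  have := DW1_bottom (u₁ - x) (u₂ - x) hY (by rwa [sub_sub_sub_cancel_right])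
  simp only [sub_nonneg] at this
  rw [Finset.sum_add_distrib, sub_sq_comm x u₁, sub_sq_comm x u₂]
  exact this

theorem count_det : ∃ C : ℝ, 0 ≤ C ∧ ∀ (n : ℕ) (p : Conf n) (u k : ℤ) (lam : ℝ), 0 ≤ lam →
    (∀ (a : ℤ) (y : ℕ), |a| ≤ |k| → 1 ≤ y → (y : ℤ) ≤ |k| + 1 →
      ‖sF p (((u + a : ℤ) : ℝ) + (y : ℝ) * Complex.I) - Real.pi * Complex.I‖ ≤ lam / y) →
    |cnt p.1 ((u : ℝ) + k) - cnt p.1 u - k| ≤ C * (1 + lam) * (1 + Real.log (1 + |(k : ℝ)|)) := by
  obtain ⟨C, hC, hb⟩ := arctan_bottom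
  refine ⟨8 * C + 40, by positivity, fun n p u k lam hl H => ?_⟩
  set Y : ℕ := k.natAbs + 1 with hY
  have hYz : (Y : ℤ) = |k| + 1 := by rw [hY]; push_cast; rfl
  have hYr : (Y : ℝ) = 1 + |(k : ℝ)| := by
    have : ((Y : ℤ) : ℝ) = ((|k| + 1 : ℤ) : ℝ) := by rw [hYz]
    push_cast at this
    linarith
  have hk0 := abs_nonneg (k : ℝ)
  have hY1 : 1 ≤ Y := by omega
  have hY1' : (1 : ℝ) ≤ Y := by linarith
  rw [← hYr]
  have hlog : 0 ≤ Real.log Y := Real.log_nonneg hY1'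
  set u₂ : ℝ := (u : ℝ) + k with hu₂
  have H1 : ∀ y : ℕ, 1 ≤ y → y ≤ Y →
      ‖sF p (((u : ℝ) : ℂ) + ((y : ℝ) : ℂ) * Complex.I) - Real.pi * Complex.I‖ ≤ lam / y ∧
      ‖sF p ((u₂ : ℂ) + ((y : ℝ) : ℂ) * Complex.I) - Real.pi * Complex.I‖ ≤ lam / y := by
    intro y h1 h2
    have a := H 0 y (by simp) h1 (by omega)
    have b := H k y le_rfl h1 (by omega)
    rw [add_zero] at a
    rw [Int.cast_add] at b
    exact ⟨a, b⟩
  -- the middle part
  set A : ℝ → ℝ := fun y => ∑ i, (Real.arctan ((u₂ - p.1 i) / y) - Real.arctan ((u - p.1 i) / y))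
    with hA
  have dA : ∀ y : ℝ, 0 < y → HasDerivAt (fun s => A s - A 1)
      ((sF p ((u₂ : ℂ) + (y : ℂ) * Complex.I)).re -
        (sF p (((u : ℝ) : ℂ) + (y : ℂ) * Complex.I)).re) y := by
    intro y hy
    have := (HasDerivAt.fun_sum (u := Finset.univ) fun i _ =>
      (DW1_dy (u₂ - p.1 i) hy).fun_sub (DW1_dy (u - p.1 i) hy)).sub_const (A 1)
    refine this.congr_deriv (Eq.symm ?_)
    rw [DW1_re, DW1_re, sub_sub_sub_cancel_right, ← Finset.sum_sub_distrib]
    refine Finset.sum_congr rfl fun i _ => ?_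
    rw [neg_sub, neg_sub, sub_sq_comm u₂, sub_sq_comm (u : ℝ)]
  have mid : ‖A Y - A 1‖ ≤ 32 * (1 + lam) * Real.log Y := by
    refine image_norm_le_of_norm_deriv_right_le_deriv_boundary' (f := fun s => A s - A 1)
      (a := 1) (b := Y) (B := fun s => 32 * (1 + lam) * Real.log s)
      (B' := fun s => 32 * (1 + lam) * s⁻¹)
      (fun y hy => (dA y (by linarith [hy.1])).continuousAt.continuousWithinAt)
      (fun y hy => (dA y (by linarith [hy.1])).hasDerivWithinAt) (by simp)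
      (fun y hy => ((Real.hasDerivAt_log (by linarith [hy.1])).const_mul
        _).continuousAt.continuousWithinAt)
      (fun y hy => ((Real.hasDerivAt_log (by linarith [hy.1])).const_mul _).hasDerivWithinAt)
      (fun y hy => ?_) ⟨hY1', le_rfl⟩
    have hy0 : 0 < y := by linarith [hy.1]
    have f1 : 1 ≤ ⌊y⌋₊ := Nat.le_floor (by simpa using hy.1)
    have f2 : ⌊y⌋₊ ≤ Y := Nat.floor_le_of_le hy.2.le
    have f3 := Nat.floor_le hy0.le
    have f4 := Nat.lt_floor_add_one y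
    have f5 : (1 : ℝ) ≤ ⌊y⌋₊ := by exact_mod_cast f1
    have hd : ∀ v : ℝ, |v - v| + |(⌊y⌋₊ : ℝ) - y| ≤ 1 := fun v => by
      rw [sub_self, abs_zero, zero_add, abs_le]
      constructor <;> linarith
    have a := (Complex.abs_re_le_norm _).trans (DW1_near p f5 f3 (hd _) hl (H1 _ f1 f2).1)
    have b := (Complex.abs_re_le_norm _).trans (DW1_near p f5 f3 (hd _) hl (H1 _ f1 f2).2)
    have c : 8 * (1 + lam) / (⌊y⌋₊ : ℝ) ≤ 16 * (1 + lam) * y⁻¹ := by
      rw [← div_eq_mul_inv, div_le_div_iff₀ (by linarith) hy0]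
      nlinarith
    simp only [Complex.sub_re, Complex.mul_re, Complex.ofReal_re, Complex.I_re, mul_zero,
      Complex.ofReal_im, Complex.I_im, mul_one, sub_self, sub_zero] at a b
    rw [Real.norm_eq_abs, abs_le] at *
    constructor <;> linarith [a.1, a.2, b.1, b.2]
  -- the top part
  have top : ‖A Y - Real.pi * k‖ ≤ 8 * (1 + lam) := by
    have hY0 : (0 : ℝ) < Y := by linarith
    have dB : ∀ v : ℝ, HasDerivAt (fun s => ∑ i, Real.arctan ((s - p.1 i) / Y) - Real.pi * s)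
        ((sF p ((v : ℂ) + ((Y : ℝ) : ℂ) * Complex.I)).im - Real.pi) v := fun v => by
      have := (HasDerivAt.fun_sum (u := Finset.univ) fun i _ => DW1_dv (p.1 i) v hY0).fun_sub
        ((hasDerivAt_id' v).const_mul Real.pi)
      rwa [mul_one, ← DW1_im] at this
    have := (convex_Icc ((u : ℝ) - |(k : ℝ)|) (u + |(k : ℝ)|)).norm_image_sub_le_of_norm_hasDerivWithin_le
      (C := 8 * (1 + lam) / Y) (x := (u : ℝ)) (y := u₂) (fun v _ => (dB v).hasDerivWithinAt)
      (fun v hv => by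
        have f3 := Int.floor_le (v - u)
        have f4 := Int.lt_floor_add_one (v - u)
        have f1 : |⌊v - u⌋| ≤ |k| := by
          rw [abs_le]
          constructor
          · rw [Int.le_floor]; push_cast; linarith [hv.1]
          · have : (⌊v - u⌋ : ℝ) ≤ ((|k| : ℤ) : ℝ) := by push_cast; linarith [hv.2]
            exact_mod_cast this
        have a := (Complex.abs_im_le_norm _).trans (DW1_near p (v' := v) hY1' le_rfl (by
          rw [sub_self, abs_zero, add_zero, abs_le]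
          push_cast
          constructor <;> linarith) hl (H _ Y f1 hY1 hYz.le))
        simpa using a)
      ⟨by linarith, by linarith⟩ ⟨by linarith [neg_abs_le (k : ℝ)], by linarith [le_abs_self (k : ℝ)]⟩
    have e : (∑ i, Real.arctan ((u₂ - p.1 i) / Y) - Real.pi * u₂) -
        (∑ i, Real.arctan ((u - p.1 i) / Y) - Real.pi * u) = A Y - Real.pi * k := by
      simp only [hA, Finset.sum_sub_distrib, hu₂]
      ring
    rw [e] at this
    refine this.trans ?_
    rw [hu₂, add_sub_cancel_left, Real.norm_eq_abs, div_mul_eq_mul_div, div_le_iff₀ hY0]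
    gcongr
    linarith
  -- the bottom part
  have hS : ∀ v : ℝ, (∀ y : ℕ, 1 ≤ y → y ≤ Y →
      ‖sF p ((v : ℂ) + ((y : ℝ) : ℂ) * Complex.I) - Real.pi * Complex.I‖ ≤ lam / y) →
      ∑ i, ∑ y ∈ Finset.Icc 1 Y, 1 / ((p.1 i - v) ^ 2 + (y : ℝ) ^ 2) ≤
        (4 + lam) * (1 + Real.log Y) := by
    intro v hv
    have hh := harmonic_le_one_add_log Y
    simp only [harmonic_eq_sum_Icc, Rat.cast_sum, Rat.cast_inv, Rat.cast_natCast] at hh
    rw [Finset.sum_comm]
    refine le_trans (Finset.sum_le_sum fun y hy => ?_)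
      ((Finset.mul_sum _ _ _).symm.le.trans (mul_le_mul_of_nonneg_left hh (by positivity)))
    have h1 : (1 : ℝ) ≤ y := by exact_mod_cast (Finset.mem_Icc.1 hy).1
    have a := (Complex.abs_im_le_norm _).trans (hv y (Finset.mem_Icc.1 hy).1 (Finset.mem_Icc.1 hy).2)
    simp only [Complex.sub_im, Complex.mul_im, Complex.ofReal_re, Complex.I_im, mul_one,
      Complex.ofReal_im, Complex.I_re, mul_zero, add_zero] at a
    rw [DW1_im] at a
    have h5 : lam / y ≤ lam := div_le_self hl h1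
    rw [← div_eq_mul_inv, le_div_iff₀ (by linarith), Finset.sum_mul]
    simp only [one_div_mul_eq_div]
    linarith [(abs_le.1 a).2, Real.pi_le_four]
  have bot : |Real.pi * (cnt p.1 u₂ - cnt p.1 u) - A 1| ≤
      C * (2 * ((4 + lam) * (1 + Real.log Y))) := by
    have e : Real.pi * (cnt p.1 u₂ - cnt p.1 u) - A 1 = ∑ i, (Real.pi *
        ((if p.1 i ≤ u₂ then 1 else 0) - if p.1 i ≤ u then 1 else 0) -
        (Real.arctan (u₂ - p.1 i) - Real.arctan (u - p.1 i))) := by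
      simp only [hA, cnt, Finset.natCast_card_filter, div_one, Finset.sum_sub_distrib,
        ← Finset.mul_sum]
    rw [e]
    refine (Finset.abs_sum_le_sum_abs _ _).trans ((Finset.sum_le_sum fun i _ =>
      hb (p.1 i) u u₂ Y hY1 (by rw [hu₂, add_sub_cancel_left]; linarith)).trans ?_)
    rw [← Finset.mul_sum]
    gcongr
    simp only [Finset.sum_add_distrib]
    linarith [hS u fun y h1 h2 => (H1 y h1 h2).1, hS u₂ fun y h1 h2 => (H1 y h1 h2).2]
  have hπ := Real.pi_gt_three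
  have e : Real.pi * (cnt p.1 u₂ - cnt p.1 u - k) =
      (Real.pi * (cnt p.1 u₂ - cnt p.1 u) - A 1) - (A Y - A 1) + (A Y - Real.pi * k) := by ring
  have h1 : Real.pi * |cnt p.1 u₂ - cnt p.1 u - k| ≤ C * (2 * ((4 + lam) * (1 + Real.log Y))) +
      32 * (1 + lam) * Real.log Y + 8 * (1 + lam) := by
    rw [← abs_of_pos Real.pi_pos, ← abs_mul, e]
    refine (abs_add_le _ _).trans (add_le_add ((abs_sub _ _).trans (add_le_add bot mid)) top)
  have h2 := abs_nonneg (cnt p.1 u₂ - cnt p.1 u - k)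
  have h3 : C * (2 * ((4 + lam) * (1 + Real.log Y))) ≤ 8 * C * (1 + lam) * (1 + Real.log Y) := by
    have : 0 ≤ C * lam * (1 + Real.log Y) := by positivity
    nlinarith
  have h4 : 0 ≤ (1 + lam) * Real.log Y := by positivity
  nlinarith

end Crest.Agent.R166
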