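import Crest.Agent.R166.DW1

/-! # Window families: rigidity from polynomial tails -/

set_option autoImplicit false
set_option linter.unusedVariables false
set_option linter.unusedSectionVars false

open MeasureTheory ProbabilityTheory Filter Topology Matrix
open scoped ENNReal BoundedContinuousFunction

namespace Crest.Agent.R166

theorem DW2_sum (N : ℕ) : ∑ j ∈ Finset.range N, 1 / ((j : ℝ) + 1) ^ 2 ≤ 2 := by
  have : ∑ j ∈ Finset.range N, 1 / ((j : ℝ) + 1) ^ 2 ≤ 2 - 2 / ((N : ℝ) + 1) := by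
    induction N with
    | zero => simp
    | succ N ih =>
      rw [Finset.sum_range_succ]
      have h0 : (0 : ℝ) ≤ N := Nat.cast_nonneg N
      have : 1 / ((N : ℝ) + 1) ^ 2 ≤ 2 / ((N : ℝ) + 1) - 2 / ((N : ℝ) + 1 + 1) := by
        rw [div_sub_div _ _ (by positivity) (by positivity), div_le_div_iff₀ (by positivity) (by positivity)]
        nlinarith [mul_nonneg h0 h0, mul_nonneg h0 (mul_nonneg h0 h0)]
      push_cast
      linarith
  have h1 : 0 ≤ 2 / ((N : ℝ) + 1) := by positivity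
  linarith

theorem DW2_det {C L : ℝ} (hC : 0 ≤ C) (hL : 0 ≤ L) : ∃ m : ℝ, ∀ x : ℝ, 0 ≤ x →
    C * (1 + L * ((1 + x) ^ (1 / 128 : ℝ)) ^ 2) * (1 + Real.log (1 + x)) ≤ m + x ^ (1 / 32 : ℝ) / 2 := by
  set A := C * (1 + L) * 129 with hA
  have hA0 : 0 ≤ A := by positivity
  refine ⟨8 * A ^ 4 + 1 / 2, fun x hx => ?_⟩
  set v := (1 + x) ^ (1 / 128 : ℝ) with hv
  have hv1 : 1 ≤ v := Real.one_le_rpow (by linarith) (by norm_num)
  have h1 : Real.log (1 + x) ≤ 128 * v := by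
    have := Real.log_le_rpow_div (x := 1 + x) (ε := 1 / 128) (by linarith) (by norm_num)
    rw [← hv] at this
    linarith
  have h2 : v ^ 4 ≤ 1 + x ^ (1 / 32 : ℝ) := by
    have e : v ^ 4 = (1 + x) ^ (1 / 32 : ℝ) := by
      rw [hv, ← Real.rpow_natCast, ← Real.rpow_mul (by linarith)]; norm_num
    have := Real.rpow_add_le_add_rpow (p := 1 / 32) zero_le_one hx (by norm_num) (by norm_num)
    rwa [Real.one_rpow, ← e] at this
  have h3 : C * (1 + L * v ^ 2) * (1 + Real.log (1 + x)) ≤ A * v ^ 3 := by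
    have a1 : 1 + L * v ^ 2 ≤ (1 + L) * v ^ 2 := by nlinarith
    have a2 : 1 + Real.log (1 + x) ≤ 129 * v := by linarith
    have a3 : 0 ≤ 1 + Real.log (1 + x) := by
      have := Real.log_nonneg (x := 1 + x) (by linarith); linarith
    calc C * (1 + L * v ^ 2) * (1 + Real.log (1 + x)) ≤ C * ((1 + L) * v ^ 2) * (129 * v) := by gcongr
      _ = A * v ^ 3 := by rw [hA]; ring
  have h4 : A * v ^ 3 ≤ 8 * A ^ 4 + v ^ 4 / 2 := by
    have hv0 : 0 ≤ v := by linarith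
    rcases le_total v (2 * A) with h | h
    · have : v ^ 3 ≤ (2 * A) ^ 3 := by gcongr
      have h5 : A * v ^ 3 ≤ A * (2 * A) ^ 3 := by gcongr
      nlinarith [pow_nonneg hv0 4]
    · have h5 : 0 ≤ (v - 2 * A) * v ^ 3 := mul_nonneg (by linarith) (by positivity)
      nlinarith [pow_nonneg hA0 4]
  linarith

theorem count_of_tail (Cp : ℕ → ℝ) {ε : ℝ} (hε : 0 < ε) : ∃ m : ℝ,
    ∀ {ι : Type} (F : Filter ι) (Ω : ι → Type) [∀ i, MeasurableSpace (Ω i)]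
      (P : ∀ i, Measure (Ω i)) (n : ι → ℕ) (X : ∀ i, Ω i → Conf (n i)),
      (∀ (p : ℕ) (w : ℂ), 0 < w.im → ∀ lam : ℝ, 0 < lam → ∀ ε' : ℝ, 0 < ε' → ∀ᶠ i in F,
        P i {q | lam < ‖sF (X i q) w - Real.pi * Complex.I‖} ≤
          ENNReal.ofReal (Cp p / (lam * w.im) ^ p + ε')) →
      ∀ (u : ℤ) (Λ : ℕ), ∀ᶠ i in F, P i {q | ¬ PosRig2 m Λ (X i q).1 u} ≤ ENNReal.ofReal ε := by
  obtain ⟨C, hC, hdet⟩ := count_det
  set m0 : ℝ := 16 * |Cp 256| / ε + 1 with hm0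
  have hm0pos : 0 < m0 := by positivity
  set L : ℝ := m0 ^ ((256 : ℕ) : ℝ)⁻¹ with hL
  have hL0 : 0 < L := Real.rpow_pos_of_pos hm0pos _
  have hLp : L ^ 256 = m0 := Real.rpow_inv_natCast_pow hm0pos.le (by norm_num)
  obtain ⟨m, hm⟩ := DW2_det hC hL0.le
  refine ⟨m, fun {ι} F Ω _ P n X H u Λ => ?_⟩
  set lam : ℕ → ℕ → ℝ := fun a y => (m0 * ((a : ℝ) + 1) ^ 2 * ((y : ℝ) + 1) ^ 2) ^ ((256 : ℕ) : ℝ)⁻¹
    with hlam
  have hlam0 : ∀ a y, 0 < lam a y := fun a y => Real.rpow_pos_of_pos (by positivity) _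
  have hlamp : ∀ a y, lam a y ^ 256 = m0 * ((a : ℝ) + 1) ^ 2 * ((y : ℝ) + 1) ^ 2 := fun a y =>
    Real.rpow_inv_natCast_pow (by positivity) (by norm_num)
  set G : Finset (Bool × ℕ × ℕ) := Finset.univ ×ˢ Finset.range (Λ + 1) ×ˢ Finset.range (Λ + 1) with hG
  set pt : Bool × ℕ × ℕ → ℂ := fun g =>
    (((u + (if g.1 then (g.2.1 : ℤ) else -(g.2.1 : ℤ)) : ℤ) : ℝ) : ℂ) +
      (((g.2.2 + 1 : ℕ) : ℝ) : ℂ) * Complex.I with hpt
  have him : ∀ g, (pt g).im = (g.2.2 : ℝ) + 1 := fun g => by simp [hpt]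
  set ε' : ℝ := ε / 2 / ((G.card : ℝ) + 1) with hε'
  have hε'0 : 0 < ε' := by positivity
  have hev : ∀ᶠ i in F, ∀ g ∈ G,
      P i {q | lam g.2.1 g.2.2 / ((g.2.2 : ℝ) + 1) < ‖sF (X i q) (pt g) - Real.pi * Complex.I‖} ≤
        ENNReal.ofReal (|Cp 256| / m0 * (1 / ((g.2.1 : ℝ) + 1) ^ 2 * (1 / ((g.2.2 : ℝ) + 1) ^ 2)) + ε') := by
    rw [Filter.eventually_all_finset]
    intro g _
    filter_upwards [H 256 (pt g) (by rw [him]; positivity) (lam g.2.1 g.2.2 / ((g.2.2 : ℝ) + 1))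
      (div_pos (hlam0 _ _) (by positivity)) ε' hε'0] with i hi
    refine hi.trans (ENNReal.ofReal_le_ofReal ?_)
    rw [him, div_mul_cancel₀ _ (by positivity), hlamp]
    have : |Cp 256| / m0 * (1 / ((g.2.1 : ℝ) + 1) ^ 2 * (1 / ((g.2.2 : ℝ) + 1) ^ 2)) =
        |Cp 256| / (m0 * ((g.2.1 : ℝ) + 1) ^ 2 * ((g.2.2 : ℝ) + 1) ^ 2) := by field_simp
    rw [this]
    gcongr
    exact le_abs_self _
  filter_upwards [hev] with i hi
  have hsub : {q | ¬ PosRig2 m Λ (X i q).1 u} ⊆ ⋃ g ∈ G,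
      {q | lam g.2.1 g.2.2 / ((g.2.2 : ℝ) + 1) < ‖sF (X i q) (pt g) - Real.pi * Complex.I‖} := by
    intro q hq
    by_contra hn
    simp only [Set.mem_iUnion, Set.mem_setOf_eq, not_exists, not_lt] at hn
    refine hq fun k hk => ?_
    refine (hdet _ (X i q) u k (L * ((1 + |(k : ℝ)|) ^ (1 / 128 : ℝ)) ^ 2) (by positivity)
      fun a y ha hy1 hy2 => ?_).trans (hm _ (abs_nonneg _))
    obtain ⟨y, rfl⟩ : ∃ y', y = y' + 1 := ⟨y - 1, by omega⟩
    have hg : (decide (0 ≤ a), a.natAbs, y) ∈ G := by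
      simp only [hG, Finset.mem_product, Finset.mem_univ, Finset.mem_range, true_and]
      constructor
      · have : (a.natAbs : ℤ) ≤ Λ := by rw [Int.natCast_natAbs]; exact ha.trans hk
        omega
      · have : ((y + 1 : ℕ) : ℤ) ≤ Λ + 1 := hy2.trans (by linarith)
        omega
    have h1 := hn _ hg
    have h2 : pt (decide (0 ≤ a), a.natAbs, y) =
        (((u + a : ℤ) : ℝ) : ℂ) + (((y + 1 : ℕ) : ℝ) : ℂ) * Complex.I := by
      have : (if decide (0 ≤ a) then (a.natAbs : ℤ) else -(a.natAbs : ℤ)) = a := by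
        by_cases h : 0 ≤ a
        · rw [if_pos (by simpa using h)]; omega
        · rw [if_neg (by simpa using h)]; omega
      simp only [hpt, this]
    rw [h2] at h1
    refine h1.trans ?_
    push_cast
    gcongr
    refine le_of_pow_le_pow_left₀ (n := 256) (by norm_num) (by positivity) ?_
    have e : (((1 + |(k : ℝ)|) ^ (1 / 128 : ℝ)) ^ 2) ^ 256 = (1 + |(k : ℝ)|) ^ 2 * (1 + |(k : ℝ)|) ^ 2 := by
      rw [← pow_mul, ← Real.rpow_natCast, ← Real.rpow_mul (by positivity), ← pow_add, ← Real.rpow_natCast]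
      norm_num
    rw [hlamp, mul_pow, hLp, e, mul_assoc]
    have b1 : (a.natAbs : ℝ) ≤ |(k : ℝ)| := by
      rw [Nat.cast_natAbs]; exact_mod_cast ha
    have b2 : (y : ℝ) ≤ |(k : ℝ)| := by
      have : (y : ℤ) ≤ |k| := by push_cast at hy2; linarith
      exact_mod_cast this
    have b3 : (a.natAbs : ℝ) + 1 ≤ 1 + |(k : ℝ)| := by linarith
    have b4 : (y : ℝ) + 1 ≤ 1 + |(k : ℝ)| := by linarith
    gcongr ?_ * (?_ ^ 2 * ?_ ^ 2)
  refine (measure_mono hsub).trans ((measure_biUnion_finset_le _ _).trans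
    ((Finset.sum_le_sum hi).trans ?_))
  rw [← ENNReal.ofReal_sum_of_nonneg fun g _ => by positivity]
  refine ENNReal.ofReal_le_ofReal ?_
  rw [Finset.sum_add_distrib, ← Finset.mul_sum, Finset.sum_const, nsmul_eq_mul]
  have s1 : ∑ g ∈ G, 1 / ((g.2.1 : ℝ) + 1) ^ 2 * (1 / ((g.2.2 : ℝ) + 1) ^ 2) ≤ 8 := by
    rw [hG, Finset.sum_product]
    simp only [Finset.sum_const, Finset.card_univ, Fintype.card_bool, nsmul_eq_mul]
    rw [Finset.sum_product]
    simp only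
    rw [← Finset.sum_mul_sum]
    have a1 := DW2_sum (Λ + 1)
    have a2 : 0 ≤ ∑ j ∈ Finset.range (Λ + 1), 1 / ((j : ℝ) + 1) ^ 2 := by positivity
    push_cast
    nlinarith
  have s2 : (G.card : ℝ) * ε' ≤ ε / 2 := by
    rw [hε', mul_div_assoc', div_le_iff₀ (by positivity)]
    nlinarith
  have s3 : |Cp 256| / m0 * 8 ≤ ε / 2 := by
    rw [div_mul_eq_mul_div, div_le_iff₀ hm0pos, hm0]
    have : ε / 2 * (16 * |Cp 256| / ε + 1) = 8 * |Cp 256| + ε / 2 := by field_simp; ring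
    rw [this]; linarith
  have s4 : |Cp 256| / m0 * ∑ g ∈ G, 1 / ((g.2.1 : ℝ) + 1) ^ 2 * (1 / ((g.2.2 : ℝ) + 1) ^ 2) ≤
      |Cp 256| / m0 * 8 := by gcongr
  linarith

end Crest.Agent.R166
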