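import Crest.Agent.R166.DW0

/-! # Window families: the truncation -/

set_option autoImplicit false
set_option linter.unusedVariables false
set_option linter.unusedSectionVars false

open MeasureTheory ProbabilityTheory Filter Topology Matrix
open scoped ENNReal BoundedContinuousFunction

namespace Crest.Agent.R166

theorem DW3_meas_j0 (n : ℕ) : Measurable (j0 (n := n)) := by
  have : (j0 (n := n)) = fun x => ∑ i, if x i ≤ 0 then 1 else 0 := by
    funext x
    rw [j0, Finset.card_filter]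
  rw [this]
  exact Finset.measurable_sum _ fun i _ => Measurable.ite
    (measurableSet_le (measurable_pi_apply i) measurable_const) measurable_const measurable_const

theorem DW3_p_le {t : ℝ} (ht : 0 ≤ t) : t ^ (1 / 32 : ℝ) ≤ 1 + t := by
  rcases le_total t 1 with h | h
  · linarith [Real.rpow_le_one ht h (by norm_num : (0 : ℝ) ≤ 1 / 32)]
  · have := Real.rpow_le_rpow_of_exponent_le h (by norm_num : (1 / 32 : ℝ) ≤ 1)
    rw [Real.rpow_one] at this
    linarith

theorem DW3_key {m : ℝ} {M R n : ℕ} (hM : 2 * m + 1 < M) (hR : M + 2 ≤ R) {x : Fin n → ℝ}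
    (h : PosRig2 m (4 * R) x 0) (l : ℤ) (hl : |l| ≤ R) : ∃ d : ℝ,
      d ≤ M + 1 + |(l : ℝ)| ^ (1 / 32 : ℝ) ∧ (j0 x : ℝ) + l < cnt x (l + d) ∧
        cnt x (l - d) ≤ j0 x + l := by
  set p : ℝ := |(l : ℝ)| ^ (1 / 32 : ℝ) with hp
  have hp0 : 0 ≤ p := by positivity
  have hl' : |(l : ℝ)| ≤ R := by exact_mod_cast hl
  have hR' : (M : ℝ) + 2 ≤ R := by exact_mod_cast hR
  have hpR : p ≤ 1 + R := (DW3_p_le (abs_nonneg _)).trans (by linarith)
  set d : ℕ := M + ⌈p⌉₊ with hd
  have hd1 : (d : ℝ) ≤ M + 1 + p := by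
    have := Nat.ceil_lt_add_one hp0
    rw [hd]; push_cast; linarith
  have hd2 : M + p ≤ (d : ℝ) := by
    have := Nat.le_ceil p
    rw [hd]; push_cast; linarith
  have hd0 : (0 : ℝ) ≤ d := Nat.cast_nonneg _
  have key : ∀ k : ℤ, |(k : ℝ)| ≤ |(l : ℝ)| + d → |cnt x k - j0 x - k| < d := by
    intro k hk
    have h1 : |k| ≤ ((4 * R : ℕ) : ℤ) := by
      have : |(k : ℝ)| ≤ 4 * R := by linarith
      exact_mod_cast this
    have h2 := h k h1
    simp only [Int.cast_zero, zero_add] at h2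
    have h3 : |(k : ℝ)| ^ (1 / 32 : ℝ) ≤ p + (1 + d) :=
      (Real.rpow_le_rpow (abs_nonneg _) hk (by norm_num)).trans
        ((Real.rpow_add_le_add_rpow (abs_nonneg _) hd0 (by norm_num) (by norm_num)).trans
          (add_le_add le_rfl (DW3_p_le hd0)))
    have h4 : cnt x 0 = j0 x := rfl
    rw [h4] at h2
    linarith
  have k1 := key (l + d) (by push_cast; exact (abs_add_le _ _).trans (by rw [abs_of_nonneg hd0]))
  have k2 := key (l - d) (by push_cast; exact (abs_sub _ _).trans (by rw [abs_of_nonneg hd0]))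
  push_cast at k1 k2
  exact ⟨d, hd1, by linarith [(abs_lt.1 k1).1], by linarith [(abs_lt.1 k2).2]⟩

theorem measurable_trunc (n R : ℕ) : Measurable (trunc (n := n) R) := by
  let G : ℕ → (Fin n → ℝ) → Fin (2 * R + 1) → ℝ := fun j x =>
    if h : R ≤ j ∧ j + R < n then
      fun l => x ⟨j - R + l, by omega⟩ + lab l / ((R : ℝ) + 1) ^ 2
    else fun l => lab l
  have hG : Measurable fun q : ℕ × (Fin n → ℝ) => G q.1 q.2 := by
    refine measurable_from_prod_countable_right fun j => ?_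
    show Measurable fun x => G j x
    by_cases h : R ≤ j ∧ j + R < n
    · simp only [G, dif_pos h]
      exact measurable_pi_lambda _ fun l => (measurable_pi_apply _).add_const _
    · simp only [G, dif_neg h]
      exact measurable_const
  exact hG.comp ((DW3_meas_j0 n).prodMk measurable_id)

theorem trunc_strictMono {n : ℕ} (R : ℕ) {x : Fin n → ℝ} (hx : Monotone x) :
    StrictMono (trunc R x) := by
  intro l l' hl
  have h1 : lab l < lab l' := by
    have : ((l : ℕ) : ℝ) < (l' : ℕ) := by exact_mod_cast hl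
    simp only [lab]
    linarith
  unfold trunc
  split_ifs with h
  · exact add_lt_add_of_le_of_lt (hx (Fin.mk_le_mk.2 (Nat.add_le_add_left hl.le _)))
      (div_lt_div_of_pos_right h1 (by positivity))
  · exact h1

theorem trunc_rig (m : ℝ) : ∃ M₀ R₀ : ℕ, ∀ R : ℕ, R₀ ≤ R → ∀ (n : ℕ) (x : Fin n → ℝ), Monotone x →
    PosRig2 m (4 * R) x 0 → (R ≤ j0 x ∧ j0 x + R < n) ∧ Rig0 M₀ (trunc R x) := by
  obtain ⟨M, hM⟩ := exists_nat_gt (2 * m + 1)
  refine ⟨M + 2, M + 2, fun R hR n x hx h => ?_⟩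
  have hj : R ≤ j0 x ∧ j0 x + R < n := by
    constructor
    · obtain ⟨d, -, -, h3⟩ := DW3_key hM hR h (-R) (by simp)
      have : (0 : ℝ) ≤ j0 x + ((-R : ℤ) : ℝ) := le_trans (Nat.cast_nonneg _) h3
      push_cast at this
      have : (R : ℝ) ≤ j0 x := by linarith
      exact_mod_cast this
    · obtain ⟨d, -, h2, -⟩ := DW3_key hM hR h R (by simp)
      have h3 : cnt x ((R : ℤ) + d) ≤ n := by
        unfold cnt
        exact_mod_cast (Finset.card_filter_le _ _).trans (by simp)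
      have := h2.trans_le h3
      exact_mod_cast this
  refine ⟨hj, fun l => ?_⟩
  have hl := l.2
  obtain ⟨d, h1, h2, h3⟩ := DW3_key hM hR h ((l : ℕ) - R) (by rw [abs_le]; omega)
  have e : ((((l : ℕ) : ℤ) - R : ℤ) : ℝ) = lab l := by simp [lab]
  rw [e] at h1 h2 h3
  have e2 : (j0 x : ℝ) + lab l = ((j0 x - R + l : ℕ) : ℝ) := by
    rw [Nat.cast_add, Nat.cast_sub hj.1, lab]; ring
  rw [e2] at h2 h3
  unfold cnt at h2 h3
  have hi : j0 x - R + l < n := by omega
  have a1 : x ⟨j0 x - R + l, hi⟩ ≤ lab l + d :=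
    (Tuple.lt_card_le_iff_apply_le_of_monotone (j := ⟨_, hi⟩) hx).1 (by exact_mod_cast h2)
  have a2 : lab l - d < x ⟨j0 x - R + l, hi⟩ := not_le.1 fun hc =>
    absurd ((Tuple.lt_card_le_iff_apply_le_of_monotone (j := ⟨_, hi⟩) hx).2 hc)
      (not_lt.2 (by exact_mod_cast h3))
  have a3 : |lab l / ((R : ℝ) + 1) ^ 2| ≤ 1 := by
    have hR0 : (0 : ℝ) ≤ R := Nat.cast_nonneg _
    have b1 : ((l : ℕ) : ℝ) ≤ 2 * R := by exact_mod_cast Nat.lt_succ_iff.1 hl
    have b2 : (0 : ℝ) ≤ (l : ℕ) := Nat.cast_nonneg _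
    rw [abs_div, abs_of_pos (by positivity : (0 : ℝ) < ((R : ℝ) + 1) ^ 2), div_le_one (by positivity),
      abs_le, lab]
    constructor <;> nlinarith
  simp only [trunc, dif_pos hj]
  have a4 := abs_le.1 a3
  rw [abs_le]
  push_cast
  constructor <;> linarith [a4.1, a4.2]

end Crest.Agent.R166
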