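import Crest.Agent.R166.DW0

/-! # Window families: the chain has the law given by chainJ -/

set_option autoImplicit false
set_option linter.unusedVariables false
set_option linter.unusedSectionVars false

open MeasureTheory ProbabilityTheory Filter Topology Matrix
open scoped ENNReal BoundedContinuousFunction

namespace Crest.Agent.R166

theorem DW4_symm {n : ℕ} (κ : ℝ) (x v : Fin n → ℝ) :
    (Matrix.diagonal x + κ • Matrix.vecMulVec v v).IsSymm := by
  refine (Matrix.isSymm_diagonal x).add ?_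
  ext a b
  simp [Matrix.vecMulVec_apply, mul_comm]

theorem DW4_den {n : ℕ} (κ : ℝ) (x v : Fin n → ℝ) {w : ℂ} (hw : 0 < w.im) :
    1 + κ * ∑ i, ((v i * v i : ℝ) : ℂ) / ((x i : ℂ) - w) ≠ 0 := by
  intro h
  have him : ∀ i, (((v i * v i : ℝ) : ℂ) / ((x i : ℂ) - w)).im =
      v i * v i * (w.im * ‖((x i : ℂ) - w)⁻¹‖ ^ 2) := fun i => by
    rw [div_eq_mul_inv, Complex.im_ofReal_mul, im_inv_sub]
  have h1 := congrArg Complex.im h
  rw [Complex.add_im, Complex.one_im, zero_add, Complex.im_ofReal_mul, Complex.im_sum,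
    Complex.zero_im] at h1
  rcases mul_eq_zero.1 h1 with h2 | h2
  · rw [h2] at h; simp at h
  · simp only [him] at h2
    rw [Finset.sum_eq_zero_iff_of_nonneg fun i _ => mul_nonneg (mul_self_nonneg _) (by positivity)] at h2
    have h3 : ∀ i, v i * v i = 0 := fun i => by
      have a := h2 i (Finset.mem_univ i)
      have b : 0 < ‖((x i : ℂ) - w)⁻¹‖ := norm_pos_iff.2 (inv_ne_zero (real_sub_ne hw.ne' _))
      exact (mul_eq_zero.1 a).resolve_right (by positivity)
    simp [h3] at h

/-- Sherman–Morrison -/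
theorem DW4_res {n : ℕ} (κ : ℝ) (x v : Fin n → ℝ) {w : ℂ} (hw : 0 < w.im) (l l' : Fin n) :
    res (Matrix.diagonal x + κ • Matrix.vecMulVec v v) w l l' =
      (if l = l' then 1 / ((x l : ℂ) - w) else 0) -
        κ * (v l / ((x l : ℂ) - w)) * (v l' / ((x l' : ℂ) - w)) /
          (1 + κ * ∑ i, ((v i * v i : ℝ) : ℂ) / ((x i : ℂ) - w)) := by
  have hd := DW4_den κ x v hw
  set d := 1 + κ * ∑ i, ((v i * v i : ℝ) : ℂ) / ((x i : ℂ) - w) with hdd
  have hne : ∀ i, (x i : ℂ) - w ≠ 0 := fun i => real_sub_ne hw.ne' _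
  set G : Matrix (Fin n) (Fin n) ℂ := Matrix.of fun l l' =>
    (if l = l' then 1 / ((x l : ℂ) - w) else 0) -
      κ * (v l / ((x l : ℂ) - w)) * (v l' / ((x l' : ℂ) - w)) / d with hG
  have key : (cx (Matrix.diagonal x + κ • Matrix.vecMulVec v v) - w • 1) * G = 1 := by
    ext a b
    have e : ∀ c, (cx (Matrix.diagonal x + κ • Matrix.vecMulVec v v) -
        w • (1 : Matrix (Fin n) (Fin n) ℂ)) a c =
        (if a = c then (x a : ℂ) - w else 0) + κ * v a * v c := fun c => by
      simp only [Matrix.sub_apply, cx_apply, Matrix.add_apply, Matrix.diagonal_apply,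
        Matrix.smul_apply, Matrix.vecMulVec_apply, smul_eq_mul, Matrix.one_apply]
      split_ifs <;> push_cast <;> ring
    rw [Matrix.mul_apply]
    simp only [e, add_mul, Finset.sum_add_distrib, ite_mul, zero_mul, Finset.sum_ite_eq,
      Finset.mem_univ, if_true]
    have e2 : ∑ c, (κ : ℂ) * v a * v c * G c b = κ * v a * (v b / ((x b : ℂ) - w)) -
        κ * v a * (v b / ((x b : ℂ) - w)) *
          (κ * ∑ i, ((v i * v i : ℝ) : ℂ) / ((x i : ℂ) - w)) / d := by
      simp only [hG, Matrix.of_apply, mul_sub, Finset.sum_sub_distrib, mul_ite, mul_zero,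
        Finset.sum_ite_eq', Finset.mem_univ, if_true, Finset.mul_sum, Finset.sum_div]
      congr 1
      · ring
      · exact Finset.sum_congr rfl fun c _ => by push_cast; ring
    have e3 : (κ : ℂ) * ∑ i, ((v i * v i : ℝ) : ℂ) / ((x i : ℂ) - w) = d - 1 := by rw [hdd]; ring
    rw [e2, e3, Matrix.one_apply]
    simp only [hG, Matrix.of_apply]
    have := hne a
    have := hne b
    split_ifs with hab
    · subst hab; field_simp; ring
    · field_simp; ring
  have : res (Matrix.diagonal x + κ • Matrix.vecMulVec v v) w = G := Matrix.inv_eq_right_inv key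
  rw [this]; rfl

theorem DW4_form {n : ℕ} (U : Matrix (Fin n) (Fin n) ℝ) (t : Fin n → ℂ) (a b : Fin n → ℝ) :
    ∑ i, (((∑ l, U i l * a l) * ∑ l, U i l * b l : ℝ) : ℂ) / t i =
      ∑ l, ∑ l', (a l : ℂ) * (∑ i, ((U i l * U i l' : ℝ) : ℂ) / t i) * b l' := by
  have e : ∀ i, (((∑ l, U i l * a l) * ∑ l, U i l * b l : ℝ) : ℂ) / t i =
      ∑ l, ∑ l', (a l : ℂ) * (((U i l * U i l' : ℝ) : ℂ) / t i) * b l' := fun i => by
    rw [Finset.sum_mul_sum]
    push_cast
    simp only [Finset.sum_div]
    exact Finset.sum_congr rfl fun l _ => Finset.sum_congr rfl fun l' _ => by ring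
  simp only [e]
  simp only [Finset.mul_sum, Finset.sum_mul]
  rw [Finset.sum_comm]
  exact Finset.sum_congr rfl fun l _ => Finset.sum_comm

theorem stepJ_jetG {n r : ℕ} (κ : ℝ) (x : Fin n → ℝ) (g : Fin (r + 1) × Fin n → ℝ)
    {U : Matrix (Fin n) (Fin n) ℝ} (hU : U * Uᵀ = 1) (hU' : Uᵀ * U = 1)
    (h : ∀ i, (Matrix.diagonal x + κ • Matrix.vecMulVec (fun l => g (0, l)) fun l => g (0, l)) *ᵥ U i =
      stepX κ x (fun l => g (0, l)) i • U i) {w : ℂ} (hw : 0 < w.im) :
    stepJ κ (jetG (x, 0) g w) =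
      jetG (stepX κ x fun l => g (0, l), 0) (fun q => ∑ l, U q.2 l * g (q.1.succ, l)) w := by
  have hres := DW4_res κ x (fun l => g (0, l)) hw
  have hs := DW4_symm κ x fun l => g (0, l)
  set H := Matrix.diagonal x + κ • Matrix.vecMulVec (fun l => g (0, l)) fun l => g (0, l) with hH
  set d := 1 + κ * ∑ i, ((g (0, i) * g (0, i) : ℝ) : ℂ) / ((x i : ℂ) - w) with hd
  have row : ∀ (b : Fin (r + 1)) (m : Fin n), ∑ l, (g (b, l) : ℂ) * res H w l m =
      g (b, m) / ((x m : ℂ) - w) - κ * (∑ i, ((g (b, i) * g (0, i) : ℝ) : ℂ) / ((x i : ℂ) - w)) *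
        (g (0, m) / ((x m : ℂ) - w)) / d := fun b m => by
    simp only [hres, mul_sub, Finset.sum_sub_distrib, mul_ite, mul_zero, Finset.sum_ite_eq',
      Finset.mem_univ, if_true, Finset.mul_sum, Finset.sum_mul, Finset.sum_div]
    congr 1
    · ring
    · exact Finset.sum_congr rfl fun c _ => by push_cast; ring
  refine Prod.ext ?_ (Prod.ext ?_ ?_)
  · funext b c
    simp only [stepJ, jetG, jetV, ite_self, Complex.ofReal_zero, sub_zero]
    rw [DW4_form U (fun i => (stepX κ x (fun l => g (0, l)) i : ℂ) - w)]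
    simp only [← res_eq_sum hU' hU h hw.ne']
    rw [Finset.sum_comm]
    simp only [← Finset.sum_mul, row, ← hd]
    simp only [sub_mul, Finset.sum_sub_distrib]
    congr 1
    · exact Finset.sum_congr rfl fun c _ => by push_cast; ring
    · rw [Finset.mul_sum, Finset.sum_div]
      exact Finset.sum_congr rfl fun c _ => by push_cast; ring
  · funext b c
    simp only [stepJ, jetG, jetV, ite_self, Complex.ofReal_zero, sub_zero]
    rw [DW4_form U (fun i => ((stepX κ x (fun l => g (0, l)) i : ℂ) - w) ^ 2)]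
    simp only [← res_sq_eq_sum hU' hU h hw.ne', ← hd]
    have e : ∑ l, ∑ l', (g (b.succ, l) : ℂ) * (res H w * res H w) l l' * g (c.succ, l') =
        ∑ m, (∑ l, (g (b.succ, l) : ℂ) * res H w l m) * ∑ l', (g (c.succ, l') : ℂ) * res H w l' m := by
      simp only [Finset.sum_mul_sum]
      simp only [Matrix.mul_apply, Finset.mul_sum, Finset.sum_mul]
      symm
      rw [Finset.sum_comm]
      refine Finset.sum_congr rfl fun l _ => ?_
      rw [Finset.sum_comm]
      refine Finset.sum_congr rfl fun l' _ => Finset.sum_congr rfl fun m _ => ?_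
      rw [res_symm' hs w l' m]; ring
    rw [e]
    simp only [row]
    have e0 : ∑ i, ((g (0, i) * g (c.succ, i) : ℝ) : ℂ) / ((x i : ℂ) - w) =
        ∑ i, ((g (c.succ, i) * g (0, i) : ℝ) : ℂ) / ((x i : ℂ) - w) := by
      simp only [mul_comm]
    rw [e0]
    generalize ∑ i, ((g (c.succ, i) * g (0, i) : ℝ) : ℂ) / ((x i : ℂ) - w) = A
    generalize ∑ i, ((g (b.succ, i) * g (0, i) : ℝ) : ℂ) / ((x i : ℂ) - w) = B
    simp only [Finset.mul_sum, Finset.sum_mul, Finset.sum_div, ← Finset.sum_add_distrib,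
      ← Finset.sum_sub_distrib]
    refine Finset.sum_congr rfl fun i _ => ?_
    push_cast
    generalize (x i : ℂ) - w = t
    ring
  · simp only [stepJ, jetG, jetV, ite_self, Complex.ofReal_zero, sub_zero, sF, ← hd]
    have := trace_res_evs hs hw.ne'
    change _ = ∑ i, 1 / ((evs H i : ℂ) - w)
    rw [← this, Matrix.trace]
    simp only [Matrix.diag_apply, hres, if_true, Finset.mul_sum, Finset.sum_div,
      ← Finset.sum_sub_distrib]
    refine Finset.sum_congr rfl fun i _ => ?_
    push_cast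
    generalize (x i : ℂ) - w = t
    ring

theorem DW4_split (n r : ℕ) : MeasurePreserving
    (fun g : Fin (r + 1) × Fin n → ℝ => (fun l => g (0, l), fun q : Fin r × Fin n => g (q.1.succ, q.2)))
    (gpi (Fin (r + 1) × Fin n)) ((gpi (Fin n)).prod (gpi (Fin r × Fin n))) := by
  let e : Fin n ⊕ Fin r × Fin n → Fin (r + 1) × Fin n :=
    Sum.elim (fun l => (0, l)) fun q => (q.1.succ, q.2)
  have he : Function.Injective e := by
    rintro (a | ⟨a, a'⟩) (b | ⟨b, b'⟩) hab <;> simp only [e, Sum.elim_inl, Sum.elim_inr,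
      Prod.mk.injEq] at hab
    · rw [hab.2]
    · exact absurd hab.1.symm (Fin.succ_ne_zero _)
    · exact absurd hab.1 (Fin.succ_ne_zero _)
    · rw [Fin.succ_inj.1 hab.1, hab.2]
  have h1 : MeasurePreserving (fun (g : Fin (r + 1) × Fin n → ℝ) a => g (e a)) (gpi _) (gpi _) :=
    ⟨by fun_prop, gpi_map_inj e he⟩
  have h2 : MeasurePreserving (fun g : Fin n ⊕ Fin r × Fin n → ℝ =>
      (fun a => g (Sum.inl a), fun b => g (Sum.inr b))) (gpi _) ((gpi _).prod (gpi _)) :=
    ⟨by fun_prop, gpi_map_sum⟩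
  exact h2.comp h1

theorem integral_stepJ {n r k : ℕ} (κ : ℝ) (x : Fin n → ℝ) {w : Fin k → ℂ} (hw : ∀ j, 0 < (w j).im)
    {φ : (Fin k → Jet r) → ℝ} (hφ : Measurable φ) {C : ℝ} (hC : ∀ Z, |φ Z| ≤ C) :
    ∫ g, φ (fun j => stepJ κ (jetG (x, 0) g (w j))) ∂(gpi (Fin (r + 1) × Fin n)) =
      ∫ g₀, ∫ g, φ (fun j => jetG (stepX κ x g₀, 0) g (w j)) ∂(gpi (Fin r × Fin n))
        ∂(gpi (Fin n)) := by
  let glue : (Fin n → ℝ) × (Fin r × Fin n → ℝ) → Fin (r + 1) × Fin n → ℝ := fun p q =>
    Fin.cases (motive := fun _ => ℝ) (p.1 q.2) (fun b => p.2 (b, q.2)) q.1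
  have hglue : Measurable glue := by
    refine measurable_pi_lambda _ fun q => ?_
    obtain ⟨b, l⟩ := q
    induction b using Fin.cases with
    | zero => exact (measurable_pi_apply l).comp measurable_fst
    | succ b => exact (measurable_pi_apply (b, l)).comp measurable_snd
  let f : (Fin n → ℝ) × (Fin r × Fin n → ℝ) → ℝ := fun p =>
    φ fun j => stepJ κ (jetG (x, 0) (glue p) (w j))
  have hjet : ∀ {r' : ℕ} (y : Fin n → ℝ) (j : Fin k),
      Measurable fun g : Fin r' × Fin n → ℝ => jetG (y, 0) g (w j) := fun {r'} y j => by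
    have := (continuous_jetG (r := r') (hw j)).comp
      ((continuous_const (y := ((y, 0) : Conf n))).prodMk continuous_id)
    exact this.measurable
  have hf : Measurable f := hφ.comp (measurable_pi_lambda _ fun j => (measurable_stepJ κ).comp
    ((hjet x j).comp hglue))
  have h1 := integral_map (μ := gpi (Fin (r + 1) × Fin n)) (DW4_split n r).measurable.aemeasurable
    hf.aestronglyMeasurable
  rw [(DW4_split n r).map_eq] at h1
  have h2 : ∀ g : Fin (r + 1) × Fin n → ℝ,
      glue (fun l => g (0, l), fun q : Fin r × Fin n => g (q.1.succ, q.2)) = g := fun g => by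
    funext ⟨b, l⟩
    induction b using Fin.cases <;> rfl
  simp only [f, h2] at h1
  rw [← h1, integral_prod _ (Integrable.of_bound hf.aestronglyMeasurable C
    (ae_of_all _ fun p => hC _))]
  congr 1
  funext g₀
  obtain ⟨U, hU, hU', hE⟩ := exists_eigenbasis (DW4_symm κ x g₀)
  set O := Matrix.kroneckerMap (· * ·) (1 : Matrix (Fin r) (Fin r) ℝ) U with hO
  have hOO : O * Oᵀ = 1 := by
    rw [hO, ← Matrix.kroneckerMap_transpose, ← Matrix.mul_kronecker_mul, hU, Matrix.transpose_one,
      Matrix.mul_one, Matrix.one_kronecker_one]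
  have e : ∀ (g : Fin r × Fin n → ℝ) (q : Fin r × Fin n), (O *ᵥ g) q = ∑ l, U q.2 l * g (q.1, l) := by
    intro g q
    simp only [hO, mulVec, dotProduct, kroneckerMap_apply, Fintype.sum_prod_type, Matrix.one_apply,
      ite_mul, one_mul, zero_mul]
    rw [Finset.sum_comm]
    simp
  have hψ : Measurable fun g : Fin r × Fin n → ℝ => φ fun j => jetG (stepX κ x g₀, 0) g (w j) :=
    hφ.comp (measurable_pi_lambda _ fun j => hjet _ j)
  have h3 := integral_map (μ := gpi (Fin r × Fin n)) (φ := fun g => O *ᵥ g)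
    (Continuous.measurable (by fun_prop)).aemeasurable hψ.aestronglyMeasurable
  rw [gpi_map_orth O hOO] at h3
  rw [h3]
  congr 1
  funext g
  refine congrArg φ (funext fun j => ?_)
  rw [stepJ_jetG κ x (glue (g₀, g)) hU hU' hE (hw j)]
  congr 1
  funext q
  rw [e]; rfl

theorem DW4_cons {X : Type} [MeasurableSpace X] (μ : Measure X) [IsProbabilityMeasure μ] :
    MeasurePreserving (fun g : ℕ → X => (g 0, fun t => g (t + 1)))
      (Measure.infinitePi fun _ : ℕ => μ) (μ.prod (Measure.infinitePi fun _ : ℕ => μ)) := by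
  classical
  let c : X × (ℕ → X) → ℕ → X := fun p t => Nat.casesOn (motive := fun _ => X) t p.1 p.2
  have hc : Measurable c := measurable_pi_lambda _ fun t => by
    cases t with
    | zero => exact measurable_fst
    | succ t => exact (measurable_pi_apply t).comp measurable_snd
  have h1 : (μ.prod (Measure.infinitePi fun _ : ℕ => μ)).map c = Measure.infinitePi fun _ : ℕ => μ := by
    refine Measure.eq_infinitePi _ fun s t ht => ?_
    rw [Measure.map_apply hc (MeasurableSet.pi s.countable_toSet fun i _ => ht i)]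
    have h : c ⁻¹' Set.pi s t = (if 0 ∈ s then t 0 else Set.univ) ×ˢ
        Set.pi (s.preimage Nat.succ Nat.succ_injective.injOn) fun l => t (l + 1) := by
      ext ⟨v, f⟩
      simp only [Set.mem_preimage, Set.mem_pi, Finset.mem_coe, Set.mem_prod, Finset.mem_preimage]
      constructor
      · intro h
        refine ⟨?_, fun l hl => h _ hl⟩
        split_ifs with h0
        · exact h _ h0
        · trivial
      · rintro ⟨h1, h2⟩ l hl
        cases l with
        | zero => rwa [if_pos hl] at h1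
        | succ l => exact h2 l hl
    rw [h, Measure.prod_prod, Measure.infinitePi_pi _ fun l _ => ht _]
    have e : ∏ l ∈ s.preimage Nat.succ Nat.succ_injective.injOn, μ (t (l + 1)) =
        ∏ l ∈ s.erase 0, μ (t l) := by
      refine Finset.prod_bij (fun l _ => l + 1) (fun l hl => ?_) (fun a _ b _ h => by omega)
        (fun l hl => ?_) fun _ _ => rfl
      · have := Finset.mem_preimage.1 hl
        exact Finset.mem_erase.2 ⟨Nat.succ_ne_zero _, this⟩
      · obtain ⟨h0, hl⟩ := Finset.mem_erase.1 hl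
        obtain ⟨l, rfl⟩ := Nat.exists_eq_succ_of_ne_zero h0
        exact ⟨l, Finset.mem_preimage.2 hl, rfl⟩
    rw [e]
    split_ifs with h0
    · exact Finset.mul_prod_erase s (fun l => μ (t l)) h0
    · rw [measure_univ, one_mul, Finset.erase_eq_of_notMem h0]
  have hm : Measurable fun g : ℕ → X => (g 0, fun t => g (t + 1)) :=
    (measurable_pi_apply _).prodMk (measurable_pi_lambda _ fun t => measurable_pi_apply _)
  refine ⟨hm, ?_⟩
  conv_lhs => rw [← h1]
  rw [Measure.map_map hm hc]
  exact Measure.map_id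

theorem noise_split (n : ℕ) : MeasurePreserving (fun g : Noise n => (g 0, fun t => g (t + 1)))
    (noise n) (((gpi (Fin n)).prod (gpi (Fin n))).prod (noise n)) :=
  DW4_cons _

theorem chainX_succ' {n : ℕ} (x : Fin n → ℝ) (g : Noise n) (t : ℕ) :
    chainX x g (t + 1) = chainX (stepX (-1) (stepX 1 x (g 0).1) (g 0).2) (fun s => g (s + 1)) t := by
  induction t with
  | zero => rfl
  | succ t ih =>
    change stepX (-1) (stepX 1 (chainX x g (t + 1)) (g (t + 1)).1) (g (t + 1)).2 = _
    rw [ih]; rfl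

theorem chain_eq {n k : ℕ} {w : Fin k → ℂ} (hw : ∀ j, 0 < (w j).im) {f : (Fin k → ℂ) → ℝ}
    (hf : Measurable f) {C : ℝ} (hC : ∀ z, |f z| ≤ C) (t : ℕ) (x : Fin n → ℝ) :
    ∫ g, f (fun j => sF (chainX x g t, 0) (w j)) ∂(noise n) =
      ∫ g, f (fun j => chainJ 1 t (jetG (x, 0) g (w j))) ∂(gpi (Fin (ch t) × Fin n)) := by
  induction t generalizing x with
  | zero =>
    change ∫ _, f (fun j => sF (x, 0) (w j)) ∂(noise n) =
      ∫ _, f (fun j => sF (x, 0) (w j)) ∂(gpi (Fin (ch 0) × Fin n))
    simp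
  | succ t ih =>
    let ψ : (Fin k → Jet (ch t)) → ℝ := fun Z => f fun j => chainJ 1 t (Z j)
    have hψ : Measurable ψ := hf.comp (measurable_pi_lambda _ fun j =>
      (measurable_chainJ 1 t).comp (measurable_pi_apply j))
    have hψ1 : Measurable fun Z : Fin k → Jet (ch t + 1) => ψ fun j => stepJ (-1) (Z j) :=
      hψ.comp (measurable_pi_lambda _ fun j => (measurable_stepJ (-1)).comp (measurable_pi_apply j))
    have r1 := integral_stepJ (r := ch t + 1) 1 x hw hψ1 (C := C) fun Z => hC _
    have r2 := fun y : Fin n → ℝ => integral_stepJ (r := ch t) (-1) y hw hψ (C := C) fun Z => hC _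
    simp only [r2] at r1
    refine Eq.trans ?_ r1.symm
    let P : (Fin n → ℝ) × (Fin n → ℝ) → Fin n → ℝ := fun a => stepX (-1) (stepX 1 x a.1) a.2
    have hP : Continuous P := by
      have a1 := (continuous_stepX (n := n) 1).comp ((continuous_const (y := x)).prodMk
        (continuous_fst (X := Fin n → ℝ) (Y := Fin n → ℝ)))
      have a2 := (continuous_stepX (n := n) (-1)).comp (a1.prodMk continuous_snd)
      exact a2
    let F : ((Fin n → ℝ) × (Fin n → ℝ)) × Noise n → ℝ := fun q =>
      f fun j => sF (chainX (P q.1) q.2 t, 0) (w j)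
    have hF : Measurable F := by
      have a1 := (measurable_chainX (n := n) t).comp
        ((hP.measurable.comp (measurable_fst (β := Noise n))).prodMk measurable_snd)
      have a2 := fun j => (continuous_sF (n := n) (hw j).ne').measurable.comp
        (a1.prodMk (measurable_const (a := (0 : ℝ))))
      exact hf.comp (measurable_pi_lambda _ a2)
    have h1 := integral_map (μ := noise n) (noise_split n).measurable.aemeasurable
      hF.aestronglyMeasurable
    rw [(noise_split n).map_eq] at h1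
    simp only [chainX_succ']
    refine h1.symm.trans ?_
    have hI : Integrable F (((gpi (Fin n)).prod (gpi (Fin n))).prod (noise n)) :=
      Integrable.of_bound hF.aestronglyMeasurable C (ae_of_all _ fun p => hC _)
    rw [integral_prod _ hI, integral_prod _ hI.integral_prod_left]
    simp only [F, ih]
    rfl

end Crest.Agent.R166
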