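import Crest.Agent.R166.DW5Aux

/-! # Window families: truncated and full jets are close -/

set_option autoImplicit false
set_option linter.unusedVariables false
set_option linter.unusedSectionVars false

open MeasureTheory ProbabilityTheory Filter Topology Matrix
open scoped ENNReal BoundedContinuousFunction

namespace Crest.Agent.R166

/-- the real part of the truncated Stieltjes transform is small -/
theorem re_sF_trunc (M : ℕ) {δ : ℝ} (hδ : 0 < δ) : ∃ K₀ : ℝ, 0 < K₀ ∧ ∀ K : ℝ, K₀ ≤ K →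
    ∀ (R : ℕ) (x : Fin (2 * R + 1) → ℝ), Rig0 M x → |(sF (x, 0) (K * Complex.I)).re| ≤ δ := by
  obtain ⟨C, hC0, hC⟩ := dc9_w32_sum
  set u₀ : ℝ := max (2 * (M + 1)) (8 * (M + 1) * C / δ) with hu₀
  have hu : 2 * ((M : ℝ) + 1) ≤ u₀ := le_max_left _ _
  have hu0 : 0 < u₀ := lt_of_lt_of_le (by positivity) hu
  refine ⟨u₀ ^ 4, by positivity, fun K hK R x hx => ?_⟩
  have h0 : (∑ l : Fin (2 * R + 1), 1 / ((lab l : ℂ) - K * Complex.I)).re = 0 := by
    have e : ∀ t : ℝ, (1 / ((t : ℂ) - K * Complex.I)).re = t / (t ^ 2 + K ^ 2) := fun t => by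
      rw [Complex.div_re, ← Complex.sq_norm, X4_normsq]; simp
    rw [Complex.re_sum]
    simp only [e]
    have hr : ∀ l : Fin (2 * R + 1), lab l.rev = -lab l := fun l => by
      have := l.2
      simp only [lab, Fin.val_rev]
      rw [Nat.cast_sub (by omega)]; push_cast; ring
    have := Equiv.sum_comp Fin.revPerm fun l : Fin (2 * R + 1) => lab l / (lab l ^ 2 + K ^ 2)
    simp only [Fin.revPerm_apply, hr, neg_sq, neg_div, Finset.sum_neg_distrib] at this
    linarith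
  have h1 : (sF (x, 0) (K * Complex.I)).re = (∑ l : Fin (2 * R + 1),
      (1 / ((x l : ℂ) - K * Complex.I) - 1 / ((lab l : ℂ) - K * Complex.I))).re := by
    rw [Finset.sum_sub_distrib, Complex.sub_re, h0]; simp [sF]
  rw [h1]
  refine (Complex.abs_re_le_norm _).trans ((norm_sum_le _ _).trans ?_)
  refine (Finset.sum_le_sum fun l _ => DW5_term (Nat.cast_nonneg M) hu hK (hx l)).trans ?_
  rw [← Finset.mul_sum]
  have h2 := hC R ⟨R, by omega⟩
  have h3 : lab (⟨R, by omega⟩ : Fin (2 * R + 1)) = 0 := by simp [lab]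
  simp only [h3, sub_zero] at h2
  have h4 : 8 * ((M : ℝ) + 1) * C / δ ≤ u₀ := le_max_right _ _
  rw [div_le_iff₀ hδ] at h4
  calc 8 * ((M : ℝ) + 1) / u₀ * ∑ l : Fin (2 * R + 1), 1 / w32 (lab l)
      ≤ 8 * ((M : ℝ) + 1) / u₀ * C := by gcongr
    _ ≤ δ := by rw [div_mul_eq_mul_div, div_le_iff₀ hu0]; linarith

/-- abstract form: a sub-configuration `y ≈ x ∘ en` -/
theorem DW5_core {r k n N : ℕ} (w : Fin k → ℂ) (p : Conf n) (y : Fin N → ℝ) {en : Fin N → Fin n}
    (hen : Function.Injective en) (u : ℂ) {δ S : ℝ} (hδ : 0 < δ) (B : Fin n → ℝ)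
    (hQ : ∀ j i, DW5_Q (1 / ((p.1 i : ℂ) - w j) - Function.extend en (fun l => 1 / ((y l : ℂ) - w j)) 0 i)
      (1 / ((p.1 i : ℂ) - u) - Function.extend en (fun l => 1 / ((y l : ℂ) - u)) 0 i)
      (1 / ((p.1 i : ℂ) - w j) ^ 2 - Function.extend en (fun l => 1 / ((y l : ℂ) - w j) ^ 2) 0 i)
      (B i))
    (hB : ∑ i, B i ≤ S) (hS : S ≤ δ / 16) (hS' : 16 * k * r ^ 2 * S ≤ δ ^ 3) (hS0 : 0 ≤ S)
    (hre : |(sF p u).re - (sF (y, 0) u).re| ≤ 3 * δ / 8) :
    gpi (Fin r × Fin n) {g | δ < dist (fun j => jetG p g (w j))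
      fun j => jetG (y, 0) (fun q => g (q.1, en q.2)) (w j)} ≤ ENNReal.ofReal δ := by
  classical
  set a₁ : Fin k → Fin n → ℂ := fun j i =>
    1 / ((p.1 i : ℂ) - w j) - Function.extend en (fun l => 1 / ((y l : ℂ) - w j)) 0 i with ha₁
  set a₂ : Fin k → Fin n → ℂ := fun j i =>
    1 / ((p.1 i : ℂ) - w j) ^ 2 - Function.extend en (fun l => 1 / ((y l : ℂ) - w j) ^ 2) 0 i with ha₂
  set aK : Fin n → ℂ := fun i =>
    1 / ((p.1 i : ℂ) - u) - Function.extend en (fun l => 1 / ((y l : ℂ) - u)) 0 i with haK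
  have sum1 : ∀ f : Fin N → ℂ, ∑ i, Function.extend en f 0 i = ∑ l, f l := fun f => by
    simpa using DW5_sum_extend hen f fun _ => 1
  have eK : sF p u - sF (y, 0) u = ∑ i, aK i - p.2 := by
    simp only [haK, Finset.sum_sub_distrib, sum1, sF]; push_cast; ring
  have e1 : ∀ j, sF p (w j) - sF (y, 0) (w j) = ∑ i, a₁ j i - p.2 := fun j => by
    simp only [ha₁, Finset.sum_sub_distrib, sum1, sF]; push_cast; ring
  have D1 : ∀ j, ‖∑ i, a₁ j i - p.2‖ ≤ δ / 2 := fun j => by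
    have b1 : ‖∑ i, (a₁ j i - aK i)‖ ≤ S :=
      (norm_sum_le _ _).trans ((Finset.sum_le_sum fun i _ => (hQ j i).2.2.2.1).trans hB)
    have b2 : |(∑ i, aK i - p.2).im| ≤ S := by
      rw [Complex.sub_im, Complex.ofReal_im, sub_zero, Complex.im_sum]
      exact (Finset.abs_sum_le_sum_abs _ _).trans
        ((Finset.sum_le_sum fun i _ => (hQ j i).2.2.2.2).trans hB)
    have b3 : |(∑ i, aK i - p.2).re| ≤ 3 * δ / 8 := by rw [← eK, Complex.sub_re]; exact hre
    have b4 := Complex.norm_le_abs_re_add_abs_im (∑ i, aK i - p.2)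
    have b5 : ∑ i, a₁ j i - p.2 = ∑ i, (a₁ j i - aK i) + (∑ i, aK i - p.2) := by
      rw [Finset.sum_sub_distrib (a₁ j) aK]; abel
    rw [b5]
    linarith [norm_add_le (∑ i, (a₁ j i - aK i)) (∑ i, aK i - p.2)]
  have D2 : ∀ j, ‖∑ i, a₂ j i‖ ≤ δ / 2 := fun j =>
    (norm_sum_le _ _).trans ((Finset.sum_le_sum fun i _ => (hQ j i).2.1).trans (by linarith))
  let ξ : (Fin n → ℂ) → Fin r → Fin r → (Fin r × Fin n → ℝ) → ℂ := fun a b c g =>
    ∑ i, ((g (b, i) * g (c, i) - if b = c then 1 else 0 : ℝ) : ℂ) * a i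
  have eξ : ∀ a b c g, ∑ i, ((g (b, i) * g (c, i) : ℝ) : ℂ) * a i =
      ξ a b c g + if b = c then ∑ i, a i else 0 := fun a b c g => by
    simp only [ξ]
    split_ifs
    · rw [← Finset.sum_add_distrib]
      exact Finset.sum_congr rfl fun i _ => by push_cast; ring
    · simp
  have sub : {g : Fin r × Fin n → ℝ | δ < dist (fun j => jetG p g (w j))
      fun j => jetG (y, 0) (fun q => g (q.1, en q.2)) (w j)} ⊆
      ⋃ x : Fin k × Fin r × Fin r, ({g | δ / 2 ≤ ‖ξ (a₁ x.1) x.2.1 x.2.2 g‖} ∪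
        {g | δ / 2 ≤ ‖ξ (a₂ x.1) x.2.1 x.2.2 g‖}) := by
    intro g hg
    by_contra hn
    simp only [Set.mem_iUnion, Set.mem_union, Set.mem_ofPred_eq, not_exists, not_or, not_le] at hn
    refine absurd (show δ < _ from hg) (not_lt.2 ?_)
    refine (dist_pi_le_iff hδ.le).2 fun j => ?_
    rw [Prod.dist_eq, Prod.dist_eq]
    refine max_le ?_ (max_le ?_ ?_)
    · refine (dist_pi_le_iff hδ.le).2 fun b => (dist_pi_le_iff hδ.le).2 fun c => ?_
      have h1 := (hn (j, b, c)).1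
      have e : (jetG p g (w j)).1 b c - (jetG (y, 0) (fun q => g (q.1, en q.2)) (w j)).1 b c =
          ξ (a₁ j) b c g + if b = c then ∑ i, a₁ j i - p.2 else 0 := by
        have := eξ (a₁ j) b c g
        simp only [ha₁, mul_sub, Finset.sum_sub_distrib, DW5_sum_extend hen, mul_one_div] at this
        simp only [jetG, jetV, ha₁, Finset.sum_sub_distrib]
        split_ifs at this ⊢ <;> push_cast at this ⊢ <;> linear_combination this
      rw [dist_eq_norm, e]
      refine (norm_add_le _ _).trans ?_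
      split_ifs
      · linarith [D1 j]
      · rw [norm_zero]; linarith
    · refine (dist_pi_le_iff hδ.le).2 fun b => (dist_pi_le_iff hδ.le).2 fun c => ?_
      have h1 := (hn (j, b, c)).2
      have e : (jetG p g (w j)).2.1 b c - (jetG (y, 0) (fun q => g (q.1, en q.2)) (w j)).2.1 b c =
          ξ (a₂ j) b c g + if b = c then ∑ i, a₂ j i else 0 := by
        have := eξ (a₂ j) b c g
        simp only [ha₂, mul_sub, Finset.sum_sub_distrib, DW5_sum_extend hen, mul_one_div] at this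
        simp only [jetG, jetV, ha₂, Finset.sum_sub_distrib]
        exact this
      rw [dist_eq_norm, e]
      refine (norm_add_le _ _).trans ?_
      split_ifs
      · linarith [D2 j]
      · rw [norm_zero]; linarith
    · rw [dist_eq_norm]
      change ‖sF p (w j) - sF (y, 0) (w j)‖ ≤ δ
      rw [e1]; linarith [D1 j]
  have one : ∀ (a : Fin n → ℂ) (b c : Fin r), ∑ i, ‖a i‖ ^ 2 ≤ S →
      gpi (Fin r × Fin n) {g | δ / 2 ≤ ‖ξ a b c g‖} ≤ ENNReal.ofReal (8 * S / δ ^ 2) :=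
    fun a b c h => (tight_cheb b c a (half_pos hδ)).trans (ENNReal.ofReal_le_ofReal (by
      rw [div_le_div_iff₀ (by positivity) (by positivity)]
      nlinarith [mul_le_mul_of_nonneg_right h (sq_nonneg δ)]))
  refine (measure_mono sub).trans ((measure_iUnion_fintype_le _ _).trans ?_)
  have two : ∀ x : Fin k × Fin r × Fin r, gpi (Fin r × Fin n)
      ({g | δ / 2 ≤ ‖ξ (a₁ x.1) x.2.1 x.2.2 g‖} ∪ {g | δ / 2 ≤ ‖ξ (a₂ x.1) x.2.1 x.2.2 g‖}) ≤
      ENNReal.ofReal (16 * S / δ ^ 2) := fun x => by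
    refine (measure_union_le _ _).trans ?_
    refine (add_le_add
      (one _ _ _ ((Finset.sum_le_sum fun i _ => (hQ x.1 i).1).trans hB))
      (one _ _ _ ((Finset.sum_le_sum fun i _ => (hQ x.1 i).2.2.1).trans hB))).trans (le_of_eq ?_)
    rw [← ENNReal.ofReal_add (by positivity) (by positivity)]; congr 1; ring
  refine (Finset.sum_le_sum fun x _ => two x).trans ?_
  rw [← ENNReal.ofReal_sum_of_nonneg fun _ _ => by positivity]
  refine ENNReal.ofReal_le_ofReal ?_
  simp only [Finset.sum_const, Finset.card_univ, Fintype.card_prod, Fintype.card_fin, nsmul_eq_mul]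
  push_cast
  rw [mul_div_assoc', div_le_iff₀ (by positivity)]
  nlinarith

theorem trunc_close (r : ℕ) {k : ℕ} (w : Fin k → ℂ) (hw : ∀ j, 0 < (w j).im) (m : ℝ) {δ : ℝ}
    (hδ : 0 < δ) : ∃ K₀ : ℝ, 0 < K₀ ∧ ∀ K : ℝ, K₀ ≤ K → ∃ R₀ : ℕ, ∀ R : ℕ, R₀ ≤ R →
      ∀ (n : ℕ) (p : Conf n), Monotone p.1 → PosRig2 m (4 * R) p.1 0 →
      ‖sF p (K * Complex.I) - Real.pi * Complex.I‖ ≤ min (δ / 4) 1 →
      ‖sF p ((R : ℝ) * Complex.I) - Real.pi * Complex.I‖ ≤ 1 →
      ∃ en : Fin (2 * R + 1) → Fin n, Function.Injective en ∧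
        gpi (Fin r × Fin n) {g | δ < dist (fun j => jetG p g (w j))
          fun j => jetG (trunc R p.1, 0) (fun q => g (q.1, en q.2)) (w j)} ≤ ENNReal.ofReal δ := by
  obtain ⟨M₀, R₁, hrig⟩ := trunc_rig m
  obtain ⟨K₁, hK₁, hre⟩ := re_sF_trunc M₀ (δ := δ / 8) (by positivity)
  refine ⟨max K₁ 1, by positivity, fun K hK => ?_⟩
  have hK1 : 1 ≤ K := (le_max_right _ _).trans hK
  have hK0 : 0 < K := by linarith
  choose Cf hCf0 hCf using fun j => DW5_far (hw j) hK0
  choose Cn hCn0 hCn using fun j => DW5_near (hw j) hK0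
  set C : ℝ := ∑ j, (Cf j + Cn j) with hCdef
  have hC0 : 0 ≤ C := Finset.sum_nonneg fun j _ => add_nonneg (hCf0 j) (hCn0 j)
  have hCj : ∀ j, Cf j + Cn j ≤ C := fun j =>
    Finset.single_le_sum (f := fun j => Cf j + Cn j) (fun j _ => add_nonneg (hCf0 j) (hCn0 j))
      (Finset.mem_univ j)
  set W : ℝ := ∑ j, ‖w j‖ with hWdef
  have hWj : ∀ j, ‖w j‖ ≤ W := fun j =>
    Finset.single_le_sum (f := fun j => ‖w j‖) (fun j _ => norm_nonneg _) (Finset.mem_univ j)
  obtain ⟨R₂, hR₂⟩ := exists_nat_ge (16 + 4 * (M₀ + 1) + 4 * W + 4 * K + 160 * C / δ +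
    160 * k * r ^ 2 * C / δ ^ 3)
  refine ⟨max R₁ R₂, fun R hR n p hp hP h1 h2 => ?_⟩
  have hRR : (R₂ : ℝ) ≤ R := Nat.cast_le.2 ((le_max_right _ _).trans hR)
  have hW0 : 0 ≤ W := Finset.sum_nonneg fun j _ => norm_nonneg _
  have q1 : 0 ≤ 160 * C / δ := by positivity
  have q2 : 0 ≤ 160 * k * r ^ 2 * C / δ ^ 3 := by positivity
  have q3 : (0 : ℝ) ≤ M₀ := Nat.cast_nonneg _
  have hR16 : (16 : ℝ) ≤ R := by linarith
  have hR0 : (0 : ℝ) < R := by linarith
  obtain ⟨hex, hR0'⟩ := hrig R ((le_max_left _ _).trans hR) n p.1 hp hP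
  let en : Fin (2 * R + 1) → Fin n := fun l => ⟨j0 p.1 - R + l, by omega⟩
  have hen : Function.Injective en := fun a b hab => by
    have := congrArg Fin.val hab
    simp only [en] at this
    exact Fin.ext (by omega)
  have htr : ∀ l, trunc R p.1 l = p.1 (en l) + lab l / ((R : ℝ) + 1) ^ 2 := fun l => by
    simp only [trunc, dif_pos hex, en]
  have hclose : ∀ l, |p.1 (en l) - trunc R p.1 l| ≤ 1 / R := fun l => by
    rw [htr, sub_add_cancel_left, abs_neg, abs_div, abs_of_pos (by positivity : 0 < ((R : ℝ) + 1) ^ 2),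
      div_le_div_iff₀ (by positivity) hR0]
    nlinarith [DC3_abs_lab l]
  have hR1 : 1 / (R : ℝ) ≤ 1 := by rw [div_le_one hR0]; linarith
  have hedge : ∀ l : Fin (2 * R + 1), |lab l| = R → |p.1 (en l) - lab l| ≤ R / 2 := fun l hl => by
    have a1 := hR0' l
    rw [hl] at a1
    have a2 : (R : ℝ) ^ (1 / 32 : ℝ) ≤ R / 4 := by
      have b1 : (R : ℝ) ^ (1 / 32 : ℝ) ≤ (R : ℝ) ^ (1 / 2 : ℝ) :=
        Real.rpow_le_rpow_of_exponent_le (by linarith) (by norm_num)
      rw [← Real.sqrt_eq_rpow] at b1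
      refine b1.trans ?_
      rw [Real.sqrt_le_left (by positivity)]; nlinarith
    have a3 := abs_sub_le (p.1 (en l)) (trunc R p.1 l) (lab l)
    linarith [hclose l]
  have hfar : ∀ i, (¬ ∃ l, en l = i) → (R : ℝ) / 2 ≤ |p.1 i| := fun i hi => by
    by_cases hlt : (i : ℕ) < j0 p.1 - R
    · have a1 : i ≤ en 0 := by change (i : ℕ) ≤ j0 p.1 - R + 0; omega
      have a2 : lab (0 : Fin (2 * R + 1)) = -R := by simp [lab]
      have a3 := hedge 0 (by rw [a2, abs_neg, abs_of_pos hR0])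
      rw [a2, abs_le] at a3
      have := hp a1
      rw [le_abs]; right; linarith
    · have a0 : j0 p.1 - R + 2 * R < i := by
        by_contra hc
        exact hi ⟨⟨i - (j0 p.1 - R), by omega⟩, Fin.ext (by simp only [en]; omega)⟩
      have a1 : en (Fin.last _) ≤ i := by change j0 p.1 - R + 2 * R ≤ (i : ℕ); omega
      have a2 : lab (Fin.last (2 * R)) = R := by simp [lab]; ring
      have a3 := hedge (Fin.last _) (by rw [a2, abs_of_pos hR0])
      rw [a2, abs_le] at a3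
      have := hp a1
      rw [le_abs]; left; linarith
  refine ⟨en, hen, DW5_core w p (trunc R p.1) hen (K * Complex.I) hδ
    (fun i => C * (1 / (p.1 i ^ 2 + R ^ 2) + 1 / R / (p.1 i ^ 2 + K ^ 2))) (S := 10 * C / R)
    (fun j i => ?_) ?_ ?_ ?_ (by positivity) ?_⟩
  · have z1 : 0 ≤ 1 / (p.1 i ^ 2 + (R : ℝ) ^ 2) := by positivity
    have z2 : 0 ≤ 1 / R / (p.1 i ^ 2 + K ^ 2) := by positivity
    by_cases hi : ∃ l, en l = i
    · obtain ⟨l, rfl⟩ := hi
      simp only [hen.extend_apply]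
      refine (hCn j _ _ _ hR1 (hclose l)).mono ?_
      have := hCj j
      have := hCf0 j
      exact mul_le_mul (by linarith) (by linarith) z2 hC0
    · simp only [Function.extend_apply' _ _ _ hi, Pi.zero_apply, sub_zero]
      refine (hCf j _ R hR0 (by linarith [hWj j]) (by linarith) (hfar i hi)).mono ?_
      have := hCj j
      have := hCn0 j
      rw [div_eq_mul_one_div]
      exact mul_le_mul (by linarith) (by linarith) z1 hC0
  · have pi4 : (Real.pi * Complex.I : ℂ).im ≤ 4 := by simpa using Real.pi_le_four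
    have a1 := X4_im_le h2
    have a2 := X4_im_le (h1.trans (min_le_right _ _))
    rw [X4_sF_im] at a1 a2
    have b1 : ∑ i, (1 : ℝ) / (p.1 i ^ 2 + (R : ℝ) ^ 2) ≤ 5 / (R : ℝ) := by
      rw [le_div_iff₀ hR0, Finset.sum_mul]
      refine le_trans (le_of_eq (Finset.sum_congr rfl fun i _ => by ring)) (a1.trans (by linarith))
    have b2 : ∑ i, (1 : ℝ) / (R : ℝ) / (p.1 i ^ 2 + K ^ 2) ≤ 5 / (R : ℝ) := by
      rw [le_div_iff₀ hR0, Finset.sum_mul]
      refine le_trans (Finset.sum_le_sum fun i _ => ?_) (a2.trans (by linarith))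
      rw [div_mul_eq_mul_div, one_div_mul_cancel hR0.ne']
      gcongr
    rw [← Finset.mul_sum, Finset.sum_add_distrib]
    calc C * _ ≤ C * (5 / R + 5 / R) := by gcongr
      _ = 10 * C / R := by ring
  · have : 160 * C / δ ≤ R := by linarith
    rw [div_le_iff₀ hδ] at this
    rw [div_le_div_iff₀ hR0 (by norm_num)]; linarith
  · have : 160 * k * r ^ 2 * C / δ ^ 3 ≤ R := by linarith
    rw [div_le_iff₀ (by positivity)] at this
    rw [mul_div_assoc', div_le_iff₀ hR0]; linarith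
  · have a1 := hre K ((le_max_left _ _).trans hK) R _ hR0'
    have a2 := (Complex.abs_re_le_norm _).trans (h1.trans (min_le_left _ _))
    have a3 : (sF p (K * Complex.I) - Real.pi * Complex.I).re = (sF p (K * Complex.I)).re := by simp
    rw [a3] at a2
    linarith [abs_sub (sF p (K * Complex.I)).re (sF (trunc R p.1, 0) (K * Complex.I)).re]

end Crest.Agent.R166
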