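import Crest.Agent.R166.XDefs

/-! # Part X: deterministic transfer from true to Gaussian jets -/

set_option autoImplicit false
set_option linter.unusedVariables false
set_option linter.unusedSectionVars false

open MeasureTheory ProbabilityTheory Filter Topology Matrix
open scoped ENNReal BoundedContinuousFunction

namespace Crest.Agent.R166

theorem X4_ne (x : ℝ) {w : ℂ} (hw : 0 < w.im) : (x : ℂ) - w ≠ 0 := by
  intro h
  have := congrArg Complex.im h
  simp at this
  linarith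

theorem X4_imK {K : ℝ} (hK : 0 < K) : 0 < ((K : ℂ) * Complex.I).im := by simpa using hK

theorem X4_normsq (x R : ℝ) : ‖(x : ℂ) - R * Complex.I‖ ^ 2 = x ^ 2 + R ^ 2 := by
  rw [Complex.sq_norm, Complex.normSq_apply]
  simp
  ring

theorem X4_im (a x R : ℝ) : ((a : ℂ) / ((x : ℂ) - R * Complex.I)).im = a * R / (x ^ 2 + R ^ 2) := by
  rw [Complex.div_im, ← Complex.sq_norm, X4_normsq]
  simp
  ring

theorem X4_sF_im {n : ℕ} (p : Conf n) (R : ℝ) :
    (sF p (R * Complex.I)).im = ∑ i, R / (p.1 i ^ 2 + R ^ 2) := by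
  simp only [sF, Complex.sub_im, Complex.ofReal_im, sub_zero, Complex.im_sum]
  refine Finset.sum_congr rfl fun i _ => ?_
  have := X4_im 1 (p.1 i) R
  rw [one_mul] at this
  exact_mod_cast this

theorem X4_jet_im {n N : ℕ} (p : Conf n) (v : Fin N → Fin n → ℝ) (S : Fin N → Fin N → ℝ) (R : ℝ)
    (b : Fin N) :
    ((jetV p v S (R * Complex.I)).1 b b).im = ∑ i, v b i * v b i * R / (p.1 i ^ 2 + R ^ 2) := by
  simp only [jetV, Complex.sub_im, Complex.ofReal_im, sub_zero, Complex.im_sum, X4_im]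

theorem X4_far {n N P : ℕ} (p : Conf n) (en : Fin P ↪ Fin n) (v : Fin N → Fin n → ℝ)
    (S : Fin N → Fin N → ℝ) {R C : ℝ} (hR : 0 < R) (hC : 0 ≤ C)
    (h6 : ∀ b, ((jetV p v S (R * Complex.I)).1 b b).im ≤ 6) (a : Fin n → ℂ)
    (ha : ∀ i, i ∉ Set.range en → ‖a i‖ ≤ C / (p.1 i ^ 2 + R ^ 2)) (b c : Fin N) :
    ‖∑ i, ((v b i * v c i : ℝ) : ℂ) * a i -
      ∑ l, ((v b (en l) * v c (en l) : ℝ) : ℂ) * a (en l)‖ ≤ 6 * C / R := by
  classical
  have e1 : ∑ l, ((v b (en l) * v c (en l) : ℝ) : ℂ) * a (en l) =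
      ∑ i ∈ Finset.univ.map en, ((v b i * v c i : ℝ) : ℂ) * a i := by rw [Finset.sum_map]
  rw [e1, ← Finset.sum_add_sum_compl (Finset.univ.map en), add_sub_cancel_left]
  have hb := h6 b
  have hc := h6 c
  rw [X4_jet_im] at hb hc
  have hpos : ∀ i, 0 < p.1 i ^ 2 + R ^ 2 := fun i => by positivity
  calc ‖∑ i ∈ (Finset.univ.map en)ᶜ, ((v b i * v c i : ℝ) : ℂ) * a i‖
      ≤ ∑ i ∈ (Finset.univ.map en)ᶜ, C / (2 * R) * (v b i * v b i * R / (p.1 i ^ 2 + R ^ 2) +
          v c i * v c i * R / (p.1 i ^ 2 + R ^ 2)) := by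
        refine norm_sum_le_of_le _ fun i hi => ?_
        have hi' : i ∉ Set.range en := by
          rintro ⟨l, rfl⟩
          simp at hi
        have h1 : |v b i * v c i| ≤ (v b i * v b i + v c i * v c i) / 2 := by
          rw [abs_le]; constructor <;> nlinarith [sq_nonneg (v b i + v c i), sq_nonneg (v b i - v c i)]
        rw [norm_mul, Complex.norm_real, Real.norm_eq_abs]
        calc |v b i * v c i| * ‖a i‖
            ≤ (v b i * v b i + v c i * v c i) / 2 * (C / (p.1 i ^ 2 + R ^ 2)) :=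
              mul_le_mul h1 (ha i hi') (norm_nonneg _) ((abs_nonneg _).trans h1)
          _ = _ := by have := hpos i; field_simp
    _ ≤ ∑ i, C / (2 * R) * (v b i * v b i * R / (p.1 i ^ 2 + R ^ 2) +
          v c i * v c i * R / (p.1 i ^ 2 + R ^ 2)) := by
        refine Finset.sum_le_sum_of_subset_of_nonneg (Finset.subset_univ _) fun i _ _ => ?_
        have := hpos i
        have := mul_self_nonneg (v b i)
        have := mul_self_nonneg (v c i)
        positivity
    _ = C / (2 * R) * (∑ i, v b i * v b i * R / (p.1 i ^ 2 + R ^ 2) +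
          ∑ i, v c i * v c i * R / (p.1 i ^ 2 + R ^ 2)) := by
        rw [← Finset.mul_sum, Finset.sum_add_distrib]
    _ ≤ C / (2 * R) * 12 := mul_le_mul_of_nonneg_left (by linarith) (by positivity)
    _ = 6 * C / R := by field_simp; ring

theorem X4_far_norm {x R : ℝ} {w : ℂ} (hR : 0 < R) (hw : 2 * ‖w‖ ≤ R) (hx : R < |x|) :
    x ^ 2 + R ^ 2 ≤ 8 * ‖(x : ℂ) - w‖ ^ 2 := by
  have h1 : |x| - ‖w‖ ≤ ‖(x : ℂ) - w‖ := by
    have := norm_sub_norm_le (x : ℂ) w
    rwa [Complex.norm_real, Real.norm_eq_abs] at this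
  have h2 : |x| / 2 ≤ ‖(x : ℂ) - w‖ := by linarith
  have h3 : (|x| / 2) ^ 2 ≤ ‖(x : ℂ) - w‖ ^ 2 := pow_le_pow_left₀ (by positivity) h2 2
  have h4 : R ^ 2 ≤ |x| ^ 2 := pow_le_pow_left₀ hR.le hx.le 2
  rw [sq_abs] at h4
  rw [div_pow, sq_abs] at h3
  linarith

theorem X4_sub_inv {a w w' : ℂ} (h : a - w ≠ 0) (h' : a - w' ≠ 0) :
    ‖1 / (a - w) - 1 / (a - w')‖ = ‖w - w'‖ / (‖a - w‖ * ‖a - w'‖) := by
  rw [← norm_mul, ← norm_div]
  congr 1
  field_simp
  ring

/-- the far part of a jet is negligible -/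
theorem jetV_win_close {k : ℕ} (w : Fin k → ℂ) (hw : ∀ j, 0 < (w j).im) {K δ : ℝ} (hK : 0 < K)
    (hδ : 0 < δ) : ∃ R₀ : ℝ, 0 < R₀ ∧ ∀ R : ℝ, R₀ ≤ R → ∀ (N n P : ℕ) (p : Conf n)
      (en : Fin P ↪ Fin n), (∀ i, i ∈ Set.range en ↔ |p.1 i| ≤ R) →
      ∀ (v : Fin N → Fin n → ℝ) (S : Fin N → Fin N → ℝ),
      (∀ b c, ‖(jetV p v S (K * Complex.I)).1 b c - ipi b c‖ ≤ δ) →
      (∀ b, ((jetV p v S (R * Complex.I)).1 b b).im ≤ 6) →
      dist (fun j => jetV p v S (w j))
        (winJ K w (fun i => p.1 (en i)) (fun j => sF p (w j)) fun x => v x.1 (en x.2)) ≤ 2 * δ := by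
  set B : ℝ := ∑ j, ‖w j‖ + K with hB
  have hBj : ∀ j, ‖w j‖ + K ≤ B := fun j => by
    have := Finset.single_le_sum (f := fun j => ‖w j‖) (fun j _ => norm_nonneg _) (Finset.mem_univ j)
    linarith
  have hKB : K ≤ B := by
    have : 0 ≤ ∑ j, ‖w j‖ := Finset.sum_nonneg fun j _ => norm_nonneg _
    linarith
  have hB0 : 0 < B := lt_of_lt_of_le hK hKB
  refine ⟨2 * B + 48 * (B + 1) / δ, by positivity, ?_⟩
  intro R hR N n P p en hen v S h1 h6
  have hq : 0 < 48 * (B + 1) / δ := by positivity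
  have hR0 : 0 < R := by linarith
  have hR1 : 48 * (B + 1) / R ≤ δ := by
    rw [div_le_iff₀ hR0]
    have : 48 * (B + 1) / δ ≤ R := by linarith
    rw [div_le_iff₀ hδ] at this
    linarith
  have hx : ∀ i, i ∉ Set.range en → R < |p.1 i| := fun i hi => not_le.1 fun h => hi ((hen i).2 h)
  have hKn : ‖(K : ℂ) * Complex.I‖ = K := by simp [abs_of_pos hK]
  refine (dist_pi_le_iff (by positivity)).2 fun j => ?_
  have hwj := hBj j
  have hn := norm_nonneg (w j)
  rw [Prod.dist_eq, Prod.dist_eq]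
  refine max_le ?_ (max_le ?_ ?_)
  · refine (dist_pi_le_iff (by positivity)).2 fun b => (dist_pi_le_iff (by positivity)).2 fun c => ?_
    have key := X4_far p en v S hR0 (C := 8 * B) (by positivity) h6
      (fun i => 1 / ((p.1 i : ℂ) - w j) - 1 / ((p.1 i : ℂ) - K * Complex.I)) (fun i hi => by
        have a1 := X4_far_norm (w := w j) hR0 (by linarith) (hx i hi)
        have a2 := X4_far_norm (w := K * Complex.I) hR0 (by rw [hKn]; linarith) (hx i hi)
        have n1 := norm_pos_iff.2 (X4_ne (p.1 i) (hw j))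
        have n2 := norm_pos_iff.2 (X4_ne (p.1 i) (X4_imK hK))
        rw [X4_sub_inv (X4_ne _ (hw j)) (X4_ne _ (X4_imK hK)), div_le_div_iff₀ (by positivity)
          (by positivity)]
        have a3 : ‖w j - K * Complex.I‖ ≤ B := (norm_sub_le _ _).trans (by rw [hKn]; exact hwj)
        have a4 : p.1 i ^ 2 + R ^ 2 ≤ 8 * (‖(p.1 i : ℂ) - w j‖ * ‖(p.1 i : ℂ) - K * Complex.I‖) := by
          refine le_of_pow_le_pow_left₀ two_ne_zero (by positivity) ?_
          calc (p.1 i ^ 2 + R ^ 2) ^ 2 = (p.1 i ^ 2 + R ^ 2) * (p.1 i ^ 2 + R ^ 2) := sq _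
            _ ≤ (8 * ‖(p.1 i : ℂ) - w j‖ ^ 2) * (8 * ‖(p.1 i : ℂ) - K * Complex.I‖ ^ 2) :=
              mul_le_mul a1 a2 (by positivity) (by positivity)
            _ = _ := by ring
        calc ‖w j - K * Complex.I‖ * (p.1 i ^ 2 + R ^ 2)
            ≤ B * (8 * (‖(p.1 i : ℂ) - w j‖ * ‖(p.1 i : ℂ) - K * Complex.I‖)) :=
              mul_le_mul a3 a4 (by positivity) hB0.le
          _ = _ := by ring) b c
    have e : (jetV p v S (w j)).1 b c - (winJ K w (fun i => p.1 (en i)) (fun j => sF p (w j))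
        (fun x => v x.1 (en x.2)) j).1 b c =
        ((jetV p v S (K * Complex.I)).1 b c - ipi b c) +
        (∑ i, ((v b i * v c i : ℝ) : ℂ) *
            (1 / ((p.1 i : ℂ) - w j) - 1 / ((p.1 i : ℂ) - K * Complex.I)) -
          ∑ l, ((v b (en l) * v c (en l) : ℝ) : ℂ) *
            (1 / ((p.1 (en l) : ℂ) - w j) - 1 / ((p.1 (en l) : ℂ) - K * Complex.I))) := by
      have e0 : ∑ i, ((v b i * v c i : ℝ) : ℂ) *
            (1 / ((p.1 i : ℂ) - w j) - 1 / ((p.1 i : ℂ) - K * Complex.I)) =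
          ∑ i, ((v b i * v c i : ℝ) : ℂ) / ((p.1 i : ℂ) - w j) -
          ∑ i, ((v b i * v c i : ℝ) : ℂ) / ((p.1 i : ℂ) - K * Complex.I) := by
        rw [← Finset.sum_sub_distrib]
        exact Finset.sum_congr rfl fun i _ => by ring
      rw [e0]
      simp only [jetV, winJ]
      ring
    rw [dist_eq_norm, e]
    refine (norm_add_le _ _).trans ?_
    have : 6 * (8 * B) / R ≤ 48 * (B + 1) / R := div_le_div_of_nonneg_right (by linarith) hR0.le
    linarith [h1 b c]
  · refine (dist_pi_le_iff (by positivity)).2 fun b => (dist_pi_le_iff (by positivity)).2 fun c => ?_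
    have key := X4_far p en v S hR0 (C := 8) (by positivity) h6
      (fun i => 1 / ((p.1 i : ℂ) - w j) ^ 2) (fun i hi => by
        have a1 := X4_far_norm (w := w j) hR0 (by linarith) (hx i hi)
        have n1 := norm_pos_iff.2 (X4_ne (p.1 i) (hw j))
        rw [norm_div, norm_one, norm_pow, div_le_div_iff₀ (by positivity) (by positivity)]
        linarith) b c
    simp only [mul_one_div] at key
    rw [dist_eq_norm]
    refine le_trans (le_of_eq ?_) (key.trans ?_)
    · simp only [jetV, winJ]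
    · have : 6 * 8 / R ≤ 48 * (B + 1) / R := div_le_div_of_nonneg_right (by linarith) hR0.le
      linarith
  · simp only [jetV, winJ, dist_self]
    positivity

theorem X4_cheb {N n : ℕ} {δ K : ℝ} (hδ : 0 < δ) (hK : 0 < K) (p : Conf n)
    (h5 : (sF p (K * Complex.I)).im ≤ 5) (b c : Fin N) :
    (gpi (Fin N × Fin n)).real {g |
      δ < ‖(jetG p g (K * Complex.I)).1 b c - if b = c then sF p (K * Complex.I) else 0‖} ≤
      10 / (K * δ ^ 2) := by
  set a : Fin n → ℂ := fun i => 1 / ((p.1 i : ℂ) - K * Complex.I) with ha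
  have e : ∀ g : Fin N × Fin n → ℝ,
      ((jetG p g (K * Complex.I)).1 b c - if b = c then sF p (K * Complex.I) else 0) =
      ∑ i, ((g (b, i) * g (c, i) - if b = c then 1 else 0 : ℝ) : ℂ) * a i := by
    intro g
    by_cases h : b = c
    · simp only [jetG, jetV, sF, if_pos h, ha]
      rw [sub_sub_sub_cancel_right, ← Finset.sum_sub_distrib]
      exact Finset.sum_congr rfl fun i _ => by push_cast; ring
    · simp only [jetG, jetV, if_neg h, ha, sub_zero, Complex.ofReal_zero, mul_one_div]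
  simp only [e]
  have h1 := mul_meas_ge_le_integral_of_nonneg
    (Eventually.of_forall fun g => by positivity) (gpi_bilin_integrable b c a 2) (δ ^ 2)
  have h2 := gpi_bilin_sq_le b c a
  have h3 : K * ∑ i, ‖a i‖ ^ 2 ≤ 5 := by
    rw [X4_sF_im] at h5
    rw [Finset.mul_sum]
    refine le_trans (le_of_eq (Finset.sum_congr rfl fun i _ => ?_)) h5
    rw [ha]
    simp only [norm_div, norm_one, div_pow, one_pow, X4_normsq, mul_one_div]
  have h4 : (gpi (Fin N × Fin n)).real {g |
      δ < ‖∑ i, ((g (b, i) * g (c, i) - if b = c then 1 else 0 : ℝ) : ℂ) * a i‖} ≤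
      (gpi (Fin N × Fin n)).real {g |
      δ ^ 2 ≤ ‖∑ i, ((g (b, i) * g (c, i) - if b = c then 1 else 0 : ℝ) : ℂ) * a i‖ ^ 2} :=
    measureReal_mono fun g hg => pow_le_pow_left₀ hδ.le (le_of_lt hg) 2
  refine h4.trans ?_
  rw [le_div_iff₀ (by positivity)]
  nlinarith [mul_le_mul_of_nonneg_left (h1.trans h2) hK.le]

/-- Gaussian jets concentrate at large heights -/
theorem jetG_conc (N : ℕ) {δ : ℝ} (hδ : 0 < δ) : ∃ K₀ : ℝ, 0 < K₀ ∧ ∀ K : ℝ, K₀ ≤ K →
    ∀ (n : ℕ) (p : Conf n), (sF p (K * Complex.I)).im ≤ 5 →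
      (gpi (Fin N × Fin n)).real {g | ∃ b c,
        δ < ‖(jetG p g (K * Complex.I)).1 b c - if b = c then sF p (K * Complex.I) else 0‖} ≤ δ := by
  refine ⟨10 * N ^ 2 / δ ^ 3 + 1, by positivity, fun K hK n p h5 => ?_⟩
  have h0 : 0 ≤ 10 * (N : ℝ) ^ 2 / δ ^ 3 := by positivity
  have hK0 : 0 < K := by linarith
  have e : {g | ∃ b c,
      δ < ‖(jetG p g (K * Complex.I)).1 b c - if b = c then sF p (K * Complex.I) else 0‖} =
      ⋃ q : Fin N × Fin N, {g : Fin N × Fin n → ℝ | δ < ‖(jetG p g (K * Complex.I)).1 q.1 q.2 -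
        if q.1 = q.2 then sF p (K * Complex.I) else 0‖} := by
    ext g
    simp only [Set.mem_ofPred_eq, Set.mem_iUnion, Prod.exists]
  rw [e]
  refine (measureReal_iUnion_fintype_le _).trans ?_
  refine (Finset.sum_le_sum fun q _ => X4_cheb hδ hK0 p h5 q.1 q.2).trans ?_
  simp only [Finset.sum_const, Finset.card_univ, Fintype.card_prod, Fintype.card_fin, nsmul_eq_mul]
  have h1 : 10 * (N : ℝ) ^ 2 / δ ^ 3 ≤ K := by linarith
  rw [div_le_iff₀ (by positivity)] at h1
  rw [← mul_div_assoc, div_le_iff₀ (by positivity)]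
  push_cast
  nlinarith

theorem win_bounds {k : ℕ} (w : Fin k → ℂ) (hw : ∀ j, 0 < (w j).im) {K R : ℝ} (hK : 0 < K)
    (hR : 0 < R) : ∃ (P₀ : ℕ) (T : ℝ), ∀ (n : ℕ) (p : Conf n),
      ‖sF p (K * Complex.I) - Real.pi * Complex.I‖ ≤ 1 → (sF p (R * Complex.I)).im ≤ 5 →
      (Finset.univ.filter fun i => |p.1 i| ≤ R).card ≤ P₀ ∧ ∀ j, ‖sF p (w j)‖ ≤ T := by
  let C : Fin k → ℝ := fun j =>
    ‖w j - K * Complex.I‖ * (1 + ‖w j - K * Complex.I‖ / (w j).im)
  have hC : ∀ j, 0 ≤ C j := fun j => by have := hw j; positivity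
  refine ⟨⌈10 * R⌉₊, ∑ j, (5 + C j / K * 5), fun n p h1 h5 => ⟨?_, fun j => ?_⟩⟩
  · rw [X4_sF_im] at h5
    have h2 : ∑ i ∈ Finset.univ.filter fun i => |p.1 i| ≤ R, 1 / (2 * R) ≤
        ∑ i, R / (p.1 i ^ 2 + R ^ 2) := by
      refine le_trans (Finset.sum_le_sum fun i hi => ?_)
        (Finset.sum_le_sum_of_subset_of_nonneg (Finset.filter_subset _ _) fun i _ _ => by positivity)
      have h3 : |p.1 i| ^ 2 ≤ R ^ 2 := pow_le_pow_left₀ (abs_nonneg _) (Finset.mem_filter.1 hi).2 2
      rw [sq_abs] at h3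
      rw [div_le_div_iff₀ (by positivity) (by positivity)]
      nlinarith
    rw [Finset.sum_const, nsmul_eq_mul, mul_one_div] at h2
    have h4 := h2.trans h5
    rw [div_le_iff₀ (by positivity)] at h4
    have h6 : ((Finset.univ.filter fun i => |p.1 i| ≤ R).card : ℝ) ≤ ⌈10 * R⌉₊ :=
      le_trans (by linarith) (Nat.le_ceil _)
    exact_mod_cast h6
  · have hn : ‖sF p (K * Complex.I)‖ ≤ 5 := by
      have a1 := norm_le_insert' (sF p (K * Complex.I)) (Real.pi * Complex.I)
      have a2 : ‖(Real.pi : ℂ) * Complex.I‖ = Real.pi := by simp [abs_of_pos Real.pi_pos]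
      linarith [Real.pi_le_four]
    have him : ∑ i, K / (p.1 i ^ 2 + K ^ 2) ≤ 5 := by
      rw [← X4_sF_im]
      exact ((le_abs_self _).trans (Complex.abs_im_le_norm _)).trans hn
    have hd : ‖sF p (w j) - sF p (K * Complex.I)‖ ≤ C j / K * 5 := by
      simp only [sF]
      rw [sub_sub_sub_cancel_right, ← Finset.sum_sub_distrib]
      refine le_trans (norm_sum_le_of_le (n := fun i => C j / K * (K / (p.1 i ^ 2 + K ^ 2))) _
        fun i _ => ?_) ?_
      · have n1 := norm_pos_iff.2 (X4_ne (p.1 i) (hw j))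
        have n2 := norm_pos_iff.2 (X4_ne (p.1 i) (X4_imK hK))
        have b1 : (w j).im ≤ ‖(p.1 i : ℂ) - w j‖ := by
          have := Complex.abs_im_le_norm ((p.1 i : ℂ) - w j)
          simpa [abs_of_pos (hw j)] using this
        have b2 : ‖(p.1 i : ℂ) - K * Complex.I‖ ≤
            ‖(p.1 i : ℂ) - w j‖ * (1 + ‖w j - K * Complex.I‖ / (w j).im) := by
          have c1 := norm_sub_le_norm_sub_add_norm_sub (p.1 i : ℂ) (w j) (K * Complex.I)
          have c2 : ‖w j - K * Complex.I‖ ≤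
              ‖(p.1 i : ℂ) - w j‖ * (‖w j - K * Complex.I‖ / (w j).im) := by
            rw [← mul_div_assoc, le_div_iff₀ (hw j)]
            nlinarith [norm_nonneg (w j - K * Complex.I)]
          linarith
        have e2 : C j / K * (K / (p.1 i ^ 2 + K ^ 2)) = C j / ‖(p.1 i : ℂ) - K * Complex.I‖ ^ 2 := by
          rw [X4_normsq]; field_simp
        rw [X4_sub_inv (X4_ne _ (hw j)) (X4_ne _ (X4_imK hK)), e2,
          div_le_div_iff₀ (by positivity) (by positivity)]
        have := mul_le_mul_of_nonneg_left b2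
          (mul_nonneg (norm_nonneg (w j - K * Complex.I)) n2.le)
        simp only [C]
        nlinarith
      · rw [← Finset.mul_sum]
        exact mul_le_mul_of_nonneg_left him (div_nonneg (hC j) hK.le)
    have hs := Finset.single_le_sum (f := fun j => 5 + C j / K * 5)
      (fun j _ => by have := hC j; positivity) (Finset.mem_univ j)
    have a1 := norm_le_insert' (sF p (w j)) (sF p (K * Complex.I))
    linarith

theorem continuous_winJ {N k P : ℕ} {K : ℝ} (hK : 0 < K) (w : Fin k → ℂ) (hw : ∀ j, 0 < (w j).im) :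
    Continuous fun x : ((Fin P → ℝ) × (Fin k → ℂ)) × (Fin N × Fin P → ℝ) =>
      winJ K w x.1.1 x.1.2 x.2 := by
  unfold winJ
  refine continuous_pi fun j => Continuous.prodMk ?_ (Continuous.prodMk ?_ (by fun_prop))
  · refine continuous_pi fun b => continuous_pi fun c => continuous_const.add ?_
    refine continuous_finsetSum _ fun i _ => Continuous.mul (by fun_prop) (Continuous.sub ?_ ?_)
    · exact continuous_const.div (by fun_prop) fun x => X4_ne _ (hw j)
    · exact continuous_const.div (by fun_prop) fun x => X4_ne _ (X4_imK hK)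
  · refine continuous_pi fun b => continuous_pi fun c => continuous_finsetSum _ fun i _ => ?_
    exact Continuous.div (by fun_prop) (by fun_prop) fun x => pow_ne_zero 2 (X4_ne _ (hw j))

theorem X4_int_close {Ω : Type} [MeasurableSpace Ω] [TopologicalSpace Ω] [OpensMeasurableSpace Ω]
    (μ : Measure Ω) [IsProbabilityMeasure μ] {f g : Ω → ℝ} (hf : Continuous f) (hg : Continuous g)
    (hf1 : ∀ x, |f x| ≤ 1) (hg1 : ∀ x, |g x| ≤ 1) {B : Set Ω} {η : ℝ} (hη : 0 ≤ η)
    (h : ∀ x, x ∉ B → |f x - g x| ≤ η) : |∫ x, f x ∂μ - ∫ x, g x ∂μ| ≤ η + 2 * μ.real B := by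
  have hfi : Integrable f μ :=
    Integrable.of_bound hf.aestronglyMeasurable 1 (Eventually.of_forall hf1)
  have hgi : Integrable g μ :=
    Integrable.of_bound hg.aestronglyMeasurable 1 (Eventually.of_forall hg1)
  have hB : MeasurableSet {x | η < |f x - g x|} :=
    (isOpen_lt continuous_const (hf.sub hg).abs).measurableSet
  have hi : Integrable ({x | η < |f x - g x|}.indicator fun _ => (2 : ℝ)) μ :=
    (integrable_const _).indicator hB
  rw [← integral_sub hfi hgi]
  calc |∫ x, f x - g x ∂μ| ≤ ∫ x, (η + {x | η < |f x - g x|}.indicator (fun _ => (2 : ℝ)) x) ∂μ := by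
        rw [← Real.norm_eq_abs]
        refine norm_integral_le_of_norm_le ((integrable_const _).add hi)
          (Eventually.of_forall fun x => ?_)
        rw [Real.norm_eq_abs]
        by_cases hx : η < |f x - g x|
        · rw [Set.indicator_of_mem (show x ∈ {x | η < |f x - g x|} from hx)]
          linarith [abs_sub (f x) (g x), hf1 x, hg1 x]
        · rw [Set.indicator_of_notMem (show x ∉ {x | η < |f x - g x|} from hx)]
          linarith [not_lt.1 hx]
    _ = η + 2 * μ.real {x | η < |f x - g x|} := by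
        rw [integral_add (integrable_const _) hi, integral_indicator_const _ hB]
        simp [mul_comm]
    _ ≤ η + 2 * μ.real B := by
        have : μ.real {x | η < |f x - g x|} ≤ μ.real B :=
          measureReal_mono fun x hx => by_contra fun hxB => absurd (h x hxB) (not_le.2 hx)
        linarith

theorem X4_avg_close {A : Type} [Fintype A] {f g : A → ℝ} (hf1 : ∀ x, |f x| ≤ 1)
    (hg1 : ∀ x, |g x| ≤ 1) {B : A → Prop} {η : ℝ} (hη : 0 ≤ η)
    (h : ∀ x, ¬ B x → |f x - g x| ≤ η) : |avg f - avg g| ≤ η + 2 * frac B := by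
  classical
  rw [← avg_sub]
  refine (abs_avg_le _).trans ?_
  have h1 : (avg fun _ : A => η) ≤ η := avg_le_of_le hη fun _ => le_rfl
  refine le_trans ?_ (add_le_add h1 le_rfl)
  unfold frac
  rw [← avg_const_mul, ← avg_add]
  refine avg_mono fun x => ?_
  by_cases hx : B x
  · rw [if_pos hx]
    linarith [abs_sub (f x) (g x), hf1 x, hg1 x]
  · rw [if_neg hx]
    linarith [h x hx]

theorem X4_im_le {a b : ℂ} {δ : ℝ} (h : ‖a - b‖ ≤ δ) : a.im ≤ b.im + δ := by
  have := (le_abs_self _).trans ((Complex.abs_im_le_norm (a - b)).trans h)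
  rw [Complex.sub_im] at this
  linarith

theorem det_transfer (N : ℕ) {k : ℕ} (w : Fin k → ℂ) (hw : ∀ j, 0 < (w j).im)
    {φ : (Fin k → Jet N) → ℝ} (hφ : UniformContinuous φ) (hb : ∀ Z, |φ Z| ≤ 1) {ε : ℝ}
    (hε : 0 < ε) : ∃ δ : ℝ, 0 < δ ∧ δ ≤ 1 ∧ ∃ K₀ : ℝ, 0 < K₀ ∧ ∀ K : ℝ, K₀ ≤ K →
      ∃ R₀ : ℝ, 0 < R₀ ∧ ∀ R : ℝ, R₀ ≤ R → ∀ (n P : ℕ) (p : Conf n) (en : Fin P ↪ Fin n),
      (∀ i, i ∈ Set.range en ↔ |p.1 i| ≤ R) →
      ∀ (A : Type) [Fintype A] (F : A → ℝ) (v : A → Fin N → Fin n → ℝ)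
        (S : A → Fin N → Fin N → ℝ) (c : ℝ), (∀ a, |F a| ≤ 1) → |c| ≤ 1 →
      ‖sF p (K * Complex.I) - Real.pi * Complex.I‖ ≤ δ → (sF p (R * Complex.I)).im ≤ 5 →
      frac (fun a => ∃ b b', δ < ‖(jetV p (v a) (S a) (K * Complex.I)).1 b b' - ipi b b'‖) ≤ δ →
      frac (fun a => ∃ b b', δ < ‖(jetV p (v a) (S a) (R * Complex.I)).1 b b' - ipi b b'‖) ≤ δ →
      |(avg fun a => F a * φ (winJ K w (fun i => p.1 (en i)) (fun j => sF p (w j))
          fun x => v a x.1 (en x.2))) -
        c * ∫ u, φ (winJ K w (fun i => p.1 (en i)) (fun j => sF p (w j)) u)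
          ∂(gpi (Fin N × Fin P))| ≤ δ →
      |(avg fun a => F a * φ fun j => jetV p (v a) (S a) (w j)) -
        c * ∫ g, φ (fun j => jetG p g (w j)) ∂(gpi (Fin N × Fin n))| ≤ ε := by
  obtain ⟨d, hd, hφd⟩ := Metric.uniformContinuous_iff.1 hφ (ε / 8) (by positivity)
  set δ : ℝ := min 1 (min (d / 8) (ε / 12)) with hδdef
  have hδ : 0 < δ := by positivity
  have hδ1 : δ ≤ 1 := min_le_left _ _
  have hδ2 : δ ≤ d / 8 := (min_le_right _ _).trans (min_le_left _ _)
  have hδ3 : δ ≤ ε / 12 := (min_le_right _ _).trans (min_le_right _ _)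
  obtain ⟨K₀, hK₀, hconc⟩ := jetG_conc N hδ
  refine ⟨δ, hδ, hδ1, K₀, hK₀, fun K hK => ?_⟩
  have hK0 : 0 < K := by linarith
  obtain ⟨R₁, hR₁, hwin⟩ := jetV_win_close w hw hK0 (δ := 2 * δ) (by positivity)
  refine ⟨max K₀ R₁, lt_max_of_lt_left hK₀, ?_⟩
  intro R hR n P p en hen A _ F v S c hF hc hsK hsR hbK hbR hmain
  have hpi : ((Real.pi : ℂ) * Complex.I).im = Real.pi := by simp
  have hclose : ∀ (v : Fin N → Fin n → ℝ) (S : Fin N → Fin N → ℝ),
      (∀ b c, ‖(jetV p v S (K * Complex.I)).1 b c - ipi b c‖ ≤ 2 * δ) →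
      (∀ b, ((jetV p v S (R * Complex.I)).1 b b).im ≤ 6) →
      |φ (fun j => jetV p v S (w j)) - φ (winJ K w (fun i => p.1 (en i)) (fun j => sF p (w j))
        fun x => v x.1 (en x.2))| ≤ ε / 8 := by
    intro v S h1 h2
    have := hwin R ((le_max_right _ _).trans hR) N n P p en hen v S h1 h2
    exact (hφd (lt_of_le_of_lt this (by linarith))).le
  have hFφ : ∀ a Z, |F a * φ Z| ≤ 1 := fun a Z => by
    rw [abs_mul]; exact mul_le_one₀ (hF a) (abs_nonneg _) (hb Z)
  have htrue := X4_avg_close (f := fun a => F a * φ fun j => jetV p (v a) (S a) (w j))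
    (g := fun a => F a * φ (winJ K w (fun i => p.1 (en i)) (fun j => sF p (w j))
          fun x => v a x.1 (en x.2))) (fun a => hFφ a _) (fun a => hFφ a _)
    (B := fun a => (∃ b b', δ < ‖(jetV p (v a) (S a) (K * Complex.I)).1 b b' - ipi b b'‖) ∨
      ∃ b b', δ < ‖(jetV p (v a) (S a) (R * Complex.I)).1 b b' - ipi b b'‖) (η := ε / 8)
    (by positivity) (fun a ha => by
      push Not at ha
      have := hclose (v a) (S a) (fun b c => (ha.1 b c).trans (by linarith)) (fun b => by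
        have := X4_im_le (ha.2 b b)
        simp only [ipi, if_true, hpi] at this
        linarith [Real.pi_le_four])
      rw [← mul_sub, abs_mul]
      exact (mul_le_mul (hF a) this (abs_nonneg _) zero_le_one).trans (one_mul _).le)
  have hfr := frac_or_le
    (fun a => ∃ b b', δ < ‖(jetV p (v a) (S a) (K * Complex.I)).1 b b' - ipi b b'‖)
    (fun a => ∃ b b', δ < ‖(jetV p (v a) (S a) (R * Complex.I)).1 b b' - ipi b b'‖)
  have hsK5 : (sF p (K * Complex.I)).im ≤ 5 := by
    have := X4_im_le hsK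
    rw [hpi] at this
    linarith [Real.pi_le_four]
  have hc1 := hconc K hK n p hsK5
  have hc2 := hconc R ((le_max_left _ _).trans hR) n p hsR
  have hcw : Continuous fun u : Fin N × Fin P → ℝ =>
      φ (winJ K w (fun i => p.1 (en i)) (fun j => sF p (w j)) u) :=
    hφ.continuous.comp ((continuous_winJ hK0 w hw).comp
      (Continuous.prodMk_right (fun i => p.1 (en i), fun j => sF p (w j))))
  have hinj : Function.Injective fun x : Fin N × Fin P => (x.1, en x.2) := by
    rintro ⟨a, b⟩ ⟨a', b'⟩ h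
    simp only [Prod.mk.injEq, EmbeddingLike.apply_eq_iff_eq] at h
    exact Prod.ext h.1 h.2
  have hcm : Continuous fun (g : Fin N × Fin n → ℝ) (x : Fin N × Fin P) => g (x.1, en x.2) := by
    fun_prop
  have hmap : ∫ u, φ (winJ K w (fun i => p.1 (en i)) (fun j => sF p (w j)) u)
      ∂(gpi (Fin N × Fin P)) = ∫ g, φ (winJ K w (fun i => p.1 (en i)) (fun j => sF p (w j))
        fun x => g (x.1, en x.2)) ∂(gpi (Fin N × Fin n)) := by
    rw [← gpi_map_inj _ hinj, integral_map hcm.aemeasurable hcw.aestronglyMeasurable]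
  have hcj : Continuous fun g : Fin N × Fin n → ℝ => φ fun j => jetG p g (w j) :=
    hφ.continuous.comp (continuous_pi fun j =>
      (continuous_jetG (hw j)).comp (Continuous.prodMk_right p))
  have hgauss := X4_int_close (gpi (Fin N × Fin n)) hcj (hcw.comp hcm) (fun _ => hb _)
    (fun _ => hb _) (B := {g | ∃ b c,
        δ < ‖(jetG p g (K * Complex.I)).1 b c - if b = c then sF p (K * Complex.I) else 0‖} ∪
      {g | ∃ b c,
        δ < ‖(jetG p g (R * Complex.I)).1 b c - if b = c then sF p (R * Complex.I) else 0‖})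
    (η := ε / 8) (by positivity) (fun g hg => by
      simp only [Set.mem_union, Set.mem_ofPred_eq] at hg
      push Not at hg
      refine hclose (fun b i => g (b, i)) _ (fun b c => ?_) (fun b => ?_)
      · have a1 := hg.1 b c
        refine (norm_sub_le_norm_sub_add_norm_sub _
          (if b = c then sF p (K * Complex.I) else 0) _).trans ?_
        have a2 : ‖(if b = c then sF p (K * Complex.I) else 0) - ipi b c‖ ≤ δ := by
          unfold ipi
          split_ifs
          · exact hsK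
          · simpa using hδ.le
        exact (add_le_add a1 a2).trans (by linarith)
      · have a1 := hg.2 b b
        rw [if_pos rfl] at a1
        have a2 := X4_im_le a1
        exact a2.trans (by linarith))
  have hun := measureReal_union_le (μ := gpi (Fin N × Fin n)) {g | ∃ b c,
        δ < ‖(jetG p g (K * Complex.I)).1 b c - if b = c then sF p (K * Complex.I) else 0‖}
      {g | ∃ b c,
        δ < ‖(jetG p g (R * Complex.I)).1 b c - if b = c then sF p (R * Complex.I) else 0‖}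
  rw [hmap] at hmain
  simp only [Function.comp_def] at hgauss
  have hlast := mul_le_mul hc hgauss (abs_nonneg _) zero_le_one
  rw [← abs_mul, mul_sub, one_mul] at hlast
  rw [abs_le] at htrue hmain hlast ⊢
  constructor <;> linarith [htrue.1, htrue.2, hmain.1, hmain.2, hlast.1, hlast.2]

theorem det_H0 {ε : ℝ} (hε : 0 < ε) : ∃ δ : ℝ, 0 < δ ∧ ∃ K₀ : ℝ, ∀ K : ℝ, K₀ ≤ K → 0 < K →
    ∀ (n N : ℕ) (p : Conf n) (b : Fin N), (sF p (K * Complex.I)).im ≤ 5 →
      ∫ g, min 1 ‖(jetG p g (K * Complex.I)).1 b b - Real.pi * Complex.I‖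
        ∂(gpi (Fin N × Fin n)) ≤ δ →
      ‖sF p (K * Complex.I) - Real.pi * Complex.I‖ ≤ ε := by
  set e : ℝ := min ε 1 with he
  have he0 : 0 < e := by positivity
  have he1 : e ≤ 1 := min_le_right _ _
  have he2 : e ≤ ε := min_le_left _ _
  refine ⟨e / 4, by positivity, 80 / (e * (e / 4) ^ 2), fun K hK hK0 n N p b h5 hint => ?_⟩
  have h1 := X4_cheb (δ := e / 4) (by positivity) hK0 p h5 b b
  have h2 : 10 / (K * (e / 4) ^ 2) ≤ e / 8 := by
    rw [div_le_iff₀ (by positivity)] at hK ⊢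
    linarith
  have hcj : Continuous fun g : Fin N × Fin n → ℝ =>
      min 1 ‖(jetG p g (K * Complex.I)).1 b b - Real.pi * Complex.I‖ := by
    have := (continuous_jetG (r := N) (X4_imK hK0)).comp (Continuous.prodMk_right p)
    refine continuous_const.min (Continuous.norm (Continuous.sub ?_ continuous_const))
    exact (continuous_apply b).comp ((continuous_apply b).comp this.fst)
  have habs : ∀ z : ℂ, |min 1 ‖z‖| ≤ 1 := fun z => by
    rw [abs_of_nonneg (le_min zero_le_one (norm_nonneg _))]; exact min_le_left _ _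
  have h3 := X4_int_close (gpi (Fin N × Fin n))
    (f := fun _ => min 1 ‖sF p (K * Complex.I) - Real.pi * Complex.I‖) continuous_const hcj
    (fun _ => habs _) (fun _ => habs _) (B := {g | e / 4 <
      ‖(jetG p g (K * Complex.I)).1 b b - if b = b then sF p (K * Complex.I) else 0‖})
    (η := e / 4) (by positivity) (fun g hg => by
      simp only [Set.mem_ofPred_eq, not_lt, if_true] at hg
      refine (abs_min_sub_min_le_max _ _ _ _).trans (max_le (by simp; positivity) ?_)
      refine (abs_norm_sub_norm_le _ _).trans ?_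
      rw [sub_sub_sub_cancel_right, norm_sub_rev]
      exact hg)
  simp only [integral_const, probReal_univ, one_smul] at h3
  have h4 := (abs_le.1 h3).2
  have h6 : min 1 ‖sF p (K * Complex.I) - Real.pi * Complex.I‖ ≤ 3 * e / 4 := by linarith
  rcases min_le_iff.1 h6 with h | h <;> linarith

end Crest.Agent.R166
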