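import Crest.Agent.R166.DW3
import Crest.Agent.R166.DC9
import Crest.Agent.R166.DC3
import Crest.Agent.R166.X4
import Crest.Agent.R166.C.Tight0

/-! # Window families: pointwise estimates for the truncation -/

set_option autoImplicit false
set_option linter.unusedVariables false
set_option linter.unusedSectionVars false

open MeasureTheory ProbabilityTheory Filter Topology Matrix
open scoped ENNReal BoundedContinuousFunction

namespace Crest.Agent.R166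

theorem DW5_term {M u₀ K x l : ℝ} (hM : 0 ≤ M) (hu : 2 * (M + 1) ≤ u₀) (hK : u₀ ^ 4 ≤ K)
    (h : |x - l| ≤ M + |l| ^ (1 / 32 : ℝ)) :
    ‖1 / ((x : ℂ) - K * Complex.I) - 1 / ((l : ℂ) - K * Complex.I)‖ ≤ 8 * (M + 1) / u₀ * (1 / w32 l) := by
  have hu1 : 1 ≤ u₀ := by linarith
  have hK1 : 1 ≤ K := (one_le_pow₀ hu1).trans hK
  have hK0 : 0 < K := by linarith
  set ρ := ‖(l : ℂ) - K * Complex.I‖ with hρ
  have hρ2 : ρ ^ 2 = l ^ 2 + K ^ 2 := X4_normsq l K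
  have hρ0 : 0 ≤ ρ := norm_nonneg _
  have hρK : K ≤ ρ := by nlinarith [abs_le_of_sq_le_sq' (show K ^ 2 ≤ ρ ^ 2 by nlinarith) hρ0]
  have hρl : |l| ≤ ρ := abs_le_of_sq_le_sq (by nlinarith [sq_abs l]) hρ0
  have hρ1 : 1 ≤ ρ := hK1.trans hρK
  obtain ⟨u, hu0, hu4⟩ : ∃ u : ℝ, 0 ≤ u ∧ u ^ 4 = ρ :=
    ⟨ρ ^ (1 / 4 : ℝ), by positivity, by
      rw [← Real.rpow_natCast, ← Real.rpow_mul hρ0]; norm_num⟩
  have huu : u₀ ≤ u := by
    by_contra hc
    push Not at hc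
    have := pow_lt_pow_left₀ hc hu0 (n := 4) (by norm_num)
    linarith
  have hu1' : 1 ≤ u := hu1.trans huu
  have h1 : |l| ^ (1 / 32 : ℝ) ≤ u := by
    have e : u = ρ ^ (1 / 4 : ℝ) := by
      rw [← hu4, ← Real.rpow_natCast, ← Real.rpow_mul hu0]; norm_num
    rw [e]
    exact (Real.rpow_le_rpow (abs_nonneg _) hρl (by norm_num)).trans
      (Real.rpow_le_rpow_of_exponent_le hρ1 (by norm_num))
  have h2 : |x - l| ≤ (M + 1) * u := by nlinarith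
  have h3 : (M + 1) * u ≤ ρ / 2 := by
    have : u ≤ u ^ 3 := le_self_pow₀ hu1' (by norm_num)
    have : 2 * (M + 1) * u ≤ u ^ 3 * u := by nlinarith
    nlinarith
  have h4 : ρ / 2 ≤ ‖(x : ℂ) - K * Complex.I‖ := by
    have := norm_sub_norm_le ((l : ℂ) - K * Complex.I) ((x : ℂ) - K * Complex.I)
    have e : ‖((l : ℂ) - K * Complex.I) - ((x : ℂ) - K * Complex.I)‖ = |x - l| := by
      rw [sub_sub_sub_cancel_right, ← Complex.ofReal_sub, Complex.norm_real, Real.norm_eq_abs,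
        abs_sub_comm]
    linarith
  have hne1 := X4_ne x (X4_imK hK0)
  have hne2 := X4_ne l (X4_imK hK0)
  have e : 1 / ((x : ℂ) - K * Complex.I) - 1 / ((l : ℂ) - K * Complex.I) =
      ((l - x : ℝ) : ℂ) / (((x : ℂ) - K * Complex.I) * ((l : ℂ) - K * Complex.I)) := by
    rw [div_sub_div _ _ hne1 hne2]; push_cast; congr 1; ring
  rw [e, norm_div, norm_mul, Complex.norm_real, Real.norm_eq_abs, abs_sub_comm, ← hρ]
  have hw : w32 l ≤ 4 * u ^ 6 := by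
    have a1 : 1 + |l| ≤ 2 * u ^ 4 := by linarith
    have a2 : √(1 + |l|) ≤ 2 * u ^ 2 := by
      rw [Real.sqrt_le_left (by positivity)]; nlinarith
    calc w32 l ≤ (2 * u ^ 4) * (2 * u ^ 2) := mul_le_mul a1 a2 (Real.sqrt_nonneg _) (by positivity)
      _ = 4 * u ^ 6 := by ring
  have hw0 := dc9_w32_pos l
  have hup : 0 < u := by linarith
  calc |x - l| / (‖(x : ℂ) - K * Complex.I‖ * ρ) ≤ (M + 1) * u / (ρ / 2 * ρ) := by gcongr
    _ = 8 * (M + 1) / u * (1 / (4 * u ^ 6)) := by rw [← hu4]; field_simp; ring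
    _ ≤ 8 * (M + 1) / u₀ * (1 / w32 l) := by gcongr

/-- the five quantities controlled for each point -/
def DW5_Q (a aK a₂ : ℂ) (B : ℝ) : Prop :=
  ‖a‖ ^ 2 ≤ B ∧ ‖a₂‖ ≤ B ∧ ‖a₂‖ ^ 2 ≤ B ∧ ‖a - aK‖ ≤ B ∧ |aK.im| ≤ B

theorem DW5_Q.mono {a aK a₂ : ℂ} {B B' : ℝ} (h : DW5_Q a aK a₂ B) (hB : B ≤ B') :
    DW5_Q a aK a₂ B' :=
  ⟨h.1.trans hB, h.2.1.trans hB, h.2.2.1.trans hB, h.2.2.2.1.trans hB, h.2.2.2.2.trans hB⟩

theorem DW5_inv_le (x : ℝ) {w : ℂ} (hw : 0 < w.im) : ‖1 / ((x : ℂ) - w)‖ ≤ 1 / w.im := by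
  rw [norm_div, norm_one]
  exact one_div_le_one_div_of_le hw (im_le_norm_sub x w)

theorem DW5_far {w : ℂ} (hw : 0 < w.im) {K : ℝ} (hK : 0 < K) : ∃ C : ℝ, 0 ≤ C ∧ ∀ x R : ℝ, 0 < R →
    4 * ‖w‖ ≤ R → 4 * K ≤ R → R / 2 ≤ |x| →
    DW5_Q (1 / ((x : ℂ) - w)) (1 / ((x : ℂ) - K * Complex.I)) (1 / ((x : ℂ) - w) ^ 2)
      (C / (x ^ 2 + R ^ 2)) := by
  refine ⟨20 * (1 + 1 / w.im ^ 2 + ‖w - K * Complex.I‖ + K), by positivity,
    fun x R hR h1 h2 hx => ?_⟩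
  have hD : 0 < x ^ 2 + R ^ 2 := by positivity
  have key : ∀ u : ℂ, 0 < u.im → 4 * ‖u‖ ≤ R → ‖1 / ((x : ℂ) - u)‖ ^ 2 ≤ 20 / (x ^ 2 + R ^ 2) := by
    intro u hu h
    have a1 : |x| - ‖u‖ ≤ ‖(x : ℂ) - u‖ := by
      have := norm_sub_norm_le (x : ℂ) u
      rwa [Complex.norm_real, Real.norm_eq_abs] at this
    have a2 : |x| / 2 ≤ ‖(x : ℂ) - u‖ := by linarith
    have a3 : (|x| / 2) ^ 2 ≤ ‖(x : ℂ) - u‖ ^ 2 := pow_le_pow_left₀ (by positivity) a2 2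
    have a4 : (R / 2) ^ 2 ≤ |x| ^ 2 := pow_le_pow_left₀ (by positivity) hx 2
    have a5 : 0 < ‖(x : ℂ) - u‖ := norm_pos_iff.2 (X4_ne x hu)
    rw [norm_div, norm_one, div_pow, one_pow, div_le_div_iff₀ (by positivity) hD]
    nlinarith [sq_abs x]
  have k1 := key w hw h1
  have k2 := key (K * Complex.I) (X4_imK hK) (by simpa [abs_of_pos hK] using h2)
  have b1 := DW5_inv_le x hw
  have eab : 1 / ((x : ℂ) - w) - 1 / ((x : ℂ) - K * Complex.I) =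
      (w - K * Complex.I) * (1 / ((x : ℂ) - w) * (1 / ((x : ℂ) - K * Complex.I))) := by
    rw [div_sub_div _ _ (X4_ne x hw) (X4_ne x (X4_imK hK)), div_mul_div_comm, ← mul_div_assoc]
    congr 1; ring
  have eim : (1 / ((x : ℂ) - K * Complex.I)).im = K * ‖1 / ((x : ℂ) - K * Complex.I)‖ ^ 2 := by
    have := X4_im 1 x K
    rw [norm_div, norm_one, div_pow, X4_normsq]
    simp only [Complex.ofReal_one] at this
    rw [this]; ring
  have e2 : 1 / ((x : ℂ) - w) ^ 2 = (1 / ((x : ℂ) - w)) ^ 2 := by rw [div_pow, one_pow]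
  rw [e2]
  generalize 1 / ((x : ℂ) - w) = a at *
  generalize 1 / ((x : ℂ) - K * Complex.I) = b at *
  have fin : ∀ t : ℝ, t ≤ 1 + 1 / w.im ^ 2 + ‖w - K * Complex.I‖ + K → t * (20 / (x ^ 2 + R ^ 2)) ≤
      20 * (1 + 1 / w.im ^ 2 + ‖w - K * Complex.I‖ + K) / (x ^ 2 + R ^ 2) := fun t ht => by
    rw [mul_div_assoc', mul_comm t]; gcongr
  have p1 : 0 ≤ 1 / w.im ^ 2 := by positivity
  have p2 := norm_nonneg (w - K * Complex.I)
  refine ⟨k1.trans ?_, ?_, ?_, ?_, ?_⟩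
  · have := fin 1 (by linarith); rwa [one_mul] at this
  · rw [norm_pow]; have := fin 1 (by linarith); rw [one_mul] at this; exact k1.trans this
  · rw [norm_pow, sq (‖a‖ ^ 2)]
    refine le_trans ?_ (fin (1 / w.im ^ 2) (by linarith))
    have : ‖a‖ ^ 2 ≤ 1 / w.im ^ 2 := by
      have := pow_le_pow_left₀ (norm_nonneg _) b1 2
      rwa [div_pow, one_pow] at this
    exact mul_le_mul this k1 (by positivity) p1
  · rw [eab, norm_mul, norm_mul]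
    refine le_trans ?_ (fin ‖w - K * Complex.I‖ (by linarith))
    gcongr
    nlinarith [sq_nonneg (‖a‖ - ‖b‖)]
  · rw [eim, abs_of_nonneg (by positivity)]
    refine le_trans ?_ (fin K (by linarith))
    gcongr

theorem DW5_near1 {w : ℂ} (hw : 0 < w.im) {K : ℝ} (hK : 0 < K) : ∃ A : ℝ, 0 ≤ A ∧ ∀ x y η : ℝ,
    η ≤ 1 → |x - y| ≤ η → ‖1 / ((x : ℂ) - w) - 1 / ((y : ℂ) - w)‖ ≤ A * (η / (x ^ 2 + K ^ 2)) := by
  refine ⟨(1 + 1 / w.im) * (1 + ‖K * Complex.I - w‖ / w.im) ^ 2, by positivity,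
    fun x y η h1 h2 => ?_⟩
  have hη : 0 ≤ η := (abs_nonneg _).trans h2
  have n1 := X4_ne x hw
  have n2 := X4_ne y hw
  have e : 1 / ((x : ℂ) - w) - 1 / ((y : ℂ) - w) =
      ((y - x : ℝ) : ℂ) / (((x : ℂ) - w) * ((y : ℂ) - w)) := by
    rw [div_sub_div _ _ n1 n2]; push_cast; congr 1; ring
  rw [e, norm_div, norm_mul, Complex.norm_real, Real.norm_eq_abs, abs_sub_comm]
  have p1 : 0 < ‖(x : ℂ) - w‖ := norm_pos_iff.2 n1
  have p2 : 0 < ‖(y : ℂ) - w‖ := norm_pos_iff.2 n2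
  have a1 : ‖(x : ℂ) - w‖ ≤ (1 + 1 / w.im) * ‖(y : ℂ) - w‖ := by
    have b1 := norm_sub_le_norm_sub_add_norm_sub ((x : ℂ) - w) ((y : ℂ) - w) 0
    rw [sub_zero, sub_zero, sub_sub_sub_cancel_right, ← Complex.ofReal_sub, Complex.norm_real,
      Real.norm_eq_abs] at b1
    have b2 : 1 ≤ 1 / w.im * ‖(y : ℂ) - w‖ := by
      rw [one_div, inv_mul_eq_div, le_div_iff₀ hw, one_mul]; exact im_le_norm_sub y w
    nlinarith
  have a2 := norm_sub_cmp x (K * Complex.I) hw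
  have a3 : x ^ 2 + K ^ 2 ≤ (1 + ‖K * Complex.I - w‖ / w.im) ^ 2 * ‖(x : ℂ) - w‖ ^ 2 := by
    rw [← X4_normsq, ← mul_pow]; exact pow_le_pow_left₀ (norm_nonneg _) a2 2
  rw [mul_div_assoc', div_le_div_iff₀ (by positivity) (by positivity)]
  calc |x - y| * (x ^ 2 + K ^ 2)
      ≤ η * ((1 + ‖K * Complex.I - w‖ / w.im) ^ 2 * (‖(x : ℂ) - w‖ * ‖(x : ℂ) - w‖)) := by
        rw [← sq]; gcongr
    _ ≤ η * ((1 + ‖K * Complex.I - w‖ / w.im) ^ 2 *
        (‖(x : ℂ) - w‖ * ((1 + 1 / w.im) * ‖(y : ℂ) - w‖))) := by gcongr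
    _ = _ := by ring

theorem DW5_near {w : ℂ} (hw : 0 < w.im) {K : ℝ} (hK : 0 < K) : ∃ C : ℝ, 0 ≤ C ∧ ∀ x y η : ℝ,
    η ≤ 1 → |x - y| ≤ η →
    DW5_Q (1 / ((x : ℂ) - w) - 1 / ((y : ℂ) - w))
      (1 / ((x : ℂ) - K * Complex.I) - 1 / ((y : ℂ) - K * Complex.I))
      (1 / ((x : ℂ) - w) ^ 2 - 1 / ((y : ℂ) - w) ^ 2) (C * (η / (x ^ 2 + K ^ 2))) := by
  obtain ⟨A, hA0, hA⟩ := DW5_near1 hw hK
  obtain ⟨A', hA0', hA'⟩ := DW5_near1 (X4_imK hK) hK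
  obtain ⟨c, hc⟩ : ∃ c, c = 2 / w.im := ⟨_, rfl⟩
  have hc0 : 0 < c := by rw [hc]; positivity
  refine ⟨A * (1 + c + c ^ 3) + A', by positivity, fun x y η h1 h2 => ?_⟩
  have hη : 0 ≤ η := (abs_nonneg _).trans h2
  have k1 := hA x y η h1 h2
  have k2 := hA' x y η h1 h2
  have hβ0 : 0 ≤ η / (x ^ 2 + K ^ 2) := by positivity
  have b1 := DW5_inv_le x hw
  have b2 := DW5_inv_le y hw
  have e2 : 1 / ((x : ℂ) - w) ^ 2 - 1 / ((y : ℂ) - w) ^ 2 =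
      (1 / ((x : ℂ) - w) - 1 / ((y : ℂ) - w)) * (1 / ((x : ℂ) - w) + 1 / ((y : ℂ) - w)) := by
    generalize (x : ℂ) - w = a
    generalize (y : ℂ) - w = b
    ring
  rw [e2]
  generalize η / (x ^ 2 + K ^ 2) = β at *
  generalize 1 / ((x : ℂ) - w) = a at *
  generalize 1 / ((y : ℂ) - w) = b at *
  generalize 1 / ((x : ℂ) - K * Complex.I) - 1 / ((y : ℂ) - K * Complex.I) = d at *
  have e3 : c = 1 / w.im + 1 / w.im := by rw [hc]; ring
  have s1 : ‖a - b‖ ≤ c := (norm_sub_le _ _).trans (by linarith)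
  have s2 : ‖a + b‖ ≤ c := (norm_add_le _ _).trans (by linarith)
  have n1 := norm_nonneg (a - b)
  have n2 := norm_nonneg (a + b)
  have hAβ : 0 ≤ A * β := by positivity
  have hAβ' : 0 ≤ A' * β := by positivity
  have c3 : 0 ≤ c ^ 3 := by positivity
  have t1 : ‖a - b‖ * ‖a + b‖ ≤ A * β * c := mul_le_mul k1 s2 n2 hAβ
  have u1 := mul_nonneg hAβ c3
  have u2 := mul_nonneg hAβ hc0.le
  have ee : (A * (1 + c + c ^ 3) + A') * β = A * β + A * β * c + A * β * c ^ 3 + A' * β := by ring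
  rw [ee]
  refine ⟨?_, ?_, ?_, ?_, ?_⟩
  · have : ‖a - b‖ * ‖a - b‖ ≤ A * β * c := mul_le_mul k1 s1 n1 hAβ
    rw [sq]; linarith
  · rw [norm_mul]; linarith
  · rw [norm_mul, sq]
    have t2 : ‖a - b‖ * ‖a + b‖ ≤ c * c := mul_le_mul s1 s2 n2 hc0.le
    have := mul_le_mul t1 t2 (by positivity) (by positivity)
    have e4 : A * β * c * (c * c) = A * β * c ^ 3 := by ring
    linarith
  · refine (norm_sub_le _ _).trans ?_
    linarith
  · refine (Complex.abs_im_le_norm _).trans ?_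
    linarith

theorem DW5_sum_extend {N n : ℕ} {en : Fin N → Fin n} (hen : Function.Injective en) (f : Fin N → ℂ)
    (c : Fin n → ℂ) : ∑ i, c i * Function.extend en f 0 i = ∑ l, c (en l) * f l := by
  classical
  rw [← Finset.sum_subset (Finset.subset_univ (Finset.univ.map ⟨en, hen⟩))]
  · rw [Finset.sum_map]
    exact Finset.sum_congr rfl fun l _ => by
      simp only [Function.Embedding.coeFn_mk, hen.extend_apply]
  · intro i _ hi
    rw [Function.extend_apply' _ _ _ (by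
      rintro ⟨l, rfl⟩; exact hi (Finset.mem_map.2 ⟨l, Finset.mem_univ _, rfl⟩))]
    simp

end Crest.Agent.R166
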