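import Crest.Agent.R166.DW2
import Crest.Agent.R166.DW4
import Crest.Agent.R166.DW5

/-! # Window families: the law of the chain started from the truncation -/

set_option autoImplicit false
set_option linter.unusedVariables false
set_option linter.unusedSectionVars false

open MeasureTheory ProbabilityTheory Filter Topology Matrix
open scoped ENNReal BoundedContinuousFunction

namespace Crest.Agent.R166

theorem DW6_close {Ω : Type} [MeasurableSpace Ω] (μ : Measure Ω) [IsProbabilityMeasure μ]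
    {f g a : Ω → ℝ} (hf : AEStronglyMeasurable f μ) (hg : AEStronglyMeasurable g μ) {C : ℝ}
    (hC : 0 ≤ C) (hfC : ∀ x, |f x| ≤ C) (hgC : ∀ x, |g x| ≤ C) (ha : Integrable a μ)
    (ha0 : ∀ x, 0 ≤ a x) {B : Set Ω} (h : ∀ᵐ x ∂μ, x ∉ B → |f x - g x| ≤ a x) :
    |∫ x, f x ∂μ - ∫ x, g x ∂μ| ≤ ∫ x, a x ∂μ + 2 * C * μ.real B := by
  have hfi : Integrable f μ := Integrable.of_bound hf C (Eventually.of_forall hfC)
  have hgi : Integrable g μ := Integrable.of_bound hg C (Eventually.of_forall hgC)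
  have hB : MeasurableSet (toMeasurable μ B) := measurableSet_toMeasurable μ B
  have hi : Integrable ((toMeasurable μ B).indicator fun _ => 2 * C) μ :=
    (integrable_const _).indicator hB
  rw [← integral_sub hfi hgi, ← Real.norm_eq_abs]
  refine (norm_integral_le_of_norm_le (ha.add hi) ?_).trans ?_
  · filter_upwards [h] with x hx
    rw [Real.norm_eq_abs, Pi.add_apply]
    by_cases hxB : x ∈ toMeasurable μ B
    · rw [Set.indicator_of_mem hxB]
      linarith [abs_sub (f x) (g x), hfC x, hgC x, ha0 x]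
    · rw [Set.indicator_of_notMem hxB, add_zero]
      exact hx fun hb => hxB (subset_toMeasurable μ B hb)
  · simp only [Pi.add_apply]
    rw [integral_add ha hi, integral_indicator_const _ hB, smul_eq_mul, measureReal_def,
      measure_toMeasurable, ← measureReal_def, mul_comm]

theorem DW6_bdd {Ω : Type} [MeasurableSpace Ω] (μ : Measure Ω) [IsProbabilityMeasure μ]
    {f : Ω → ℝ} {C : ℝ} (hfC : ∀ x, |f x| ≤ C) : |∫ x, f x ∂μ| ≤ C := by
  have := norm_integral_le_of_norm_le_const (μ := μ) (f := f) (C := C) (Eventually.of_forall hfC)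
  simpa using this

theorem DW6_jet_mem {n r : ℕ} (p : Conf n) (g : Fin r × Fin n → ℝ) {w : ℂ} (hw : 0 < w.im) :
    jetG p g w ∈ cSieg r :=
  jetV_mem_cSieg p _ _ (fun b c => by simp only [eq_comm]) hw

theorem DW6_meas {Ω : Type} [MeasurableSpace Ω] {n r k : ℕ} {w : Fin k → ℂ}
    (hw : ∀ j, 0 < (w j).im) {φ : (Fin k → Jet r) → ℝ} (hm : Measurable φ) (P : Ω → Conf n)
    (G : Ω → Fin r × Fin n → ℝ) (hP : Measurable P) (hG : Measurable G) :
    Measurable fun x => φ (fun j => jetG (P x) (G x) (w j)) := by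
  have h := hm.comp ((CInv0_meas hw).comp (hP.prodMk hG))
  simpa only [Function.comp_def] using h

/-- the inner comparison for a fixed good configuration -/
theorem DW6_inner {n N r k : ℕ} {w : Fin k → ℂ} (hw : ∀ j, 0 < (w j).im)
    {φ : (Fin k → Jet r) → ℝ} (hm : Measurable φ) {C : ℝ} (hC : ∀ Z, |φ Z| ≤ C)
    {K : Set (Fin k → Jet r)} {δ η : ℝ} (hδ : 0 ≤ δ) (hη : 0 ≤ η)
    (hu : ∀ Z ∈ K, ∀ Z' : Fin k → Jet r, (∀ j, Z' j ∈ cSieg r) → dist Z Z' ≤ δ → |φ Z - φ Z'| ≤ η)
    (p : Conf n) (y : Fin N → ℝ) {en : Fin N → Fin n} (hen : Function.Injective en)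
    (hP : gpi (Fin r × Fin n) {g | δ < dist (fun j => jetG p g (w j))
      fun j => jetG (y, 0) (fun q => g (q.1, en q.2)) (w j)} ≤ ENNReal.ofReal δ) :
    |∫ g, φ (fun j => jetG (y, 0) g (w j)) ∂(gpi (Fin r × Fin N)) -
      ∫ g, φ (fun j => jetG p g (w j)) ∂(gpi (Fin r × Fin n))| ≤
      η + 2 * C * (δ + (gpi (Fin r × Fin n)).real {g | (fun j => jetG p g (w j)) ∉ K}) := by
  have hC0 : 0 ≤ C := (abs_nonneg _).trans (hC 0)
  have hinj : Function.Injective fun q : Fin r × Fin N => (q.1, en q.2) := by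
    rintro ⟨a, b⟩ ⟨a', b'⟩ h
    simp only [Prod.mk.injEq] at h
    rw [h.1, hen h.2]
  have hcm : Measurable fun (g : Fin r × Fin n → ℝ) (q : Fin r × Fin N) => g (q.1, en q.2) := by
    fun_prop
  have h1 : Measurable fun g : Fin r × Fin N → ℝ => φ (fun j => jetG (y, 0) g (w j)) :=
    DW6_meas hw hm (fun _ => (y, 0)) (fun g => g) measurable_const measurable_id
  have h2 : Measurable fun g : Fin r × Fin n → ℝ => φ (fun j => jetG p g (w j)) :=
    DW6_meas hw hm (fun _ => p) (fun g => g) measurable_const measurable_id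
  have h3 := DW6_meas hw hm (fun _ => ((y, 0) : Conf N)) _ measurable_const hcm
  rw [← gpi_map_inj _ hinj, integral_map hcm.aemeasurable h1.aestronglyMeasurable]
  have h4 := DW6_close (gpi (Fin r × Fin n)) h3.aestronglyMeasurable
    h2.aestronglyMeasurable hC0 (fun _ => hC _) (fun _ => hC _) (integrable_const η) (fun _ => hη)
    (B := {g | δ < dist (fun j => jetG p g (w j))
      fun j => jetG (y, 0) (fun q => g (q.1, en q.2)) (w j)} ∪
        {g | (fun j => jetG p g (w j)) ∉ K}) (Eventually.of_forall fun g hg => by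
      simp only [Set.mem_union, Set.mem_ofPred_eq, not_or, not_lt, not_not] at hg
      rw [abs_sub_comm]
      exact hu _ hg.2 _ (fun j => DW6_jet_mem _ _ (hw j)) hg.1)
  simp only [integral_const, probReal_univ, smul_eq_mul, one_mul] at h4
  refine h4.trans (add_le_add le_rfl (mul_le_mul_of_nonneg_left ?_ (by positivity)))
  exact (measureReal_union_le _ _).trans
    (add_le_add (ENNReal.toReal_le_of_le_ofReal hδ hP) le_rfl)

theorem Bcl.unif {r k : ℕ} {φ : (Fin k → Jet r) → ℝ} (hφ : Bcl φ) {K : Set (Fin k → Jet r)}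
    (hK : IsCompact K) (hKS : ∀ Z ∈ K, ∀ j, Z j ∈ Sieg r) {ε : ℝ} (hε : 0 < ε) :
    ∃ δ : ℝ, 0 < δ ∧ ∀ Z ∈ K, ∀ Z' : Fin k → Jet r, (∀ j, Z' j ∈ cSieg r) → dist Z Z' ≤ δ →
      |φ Z - φ Z'| ≤ ε := by
  have hc : IsClosed {Z : Fin k → Jet r | ∀ j, Z j ∈ cSieg r} := by
    rw [Set.ofPred_forall]
    exact isClosed_iInter fun j => (isClosed_cSieg r).preimage (continuous_apply j)
  have hd : IsClosed {Z : Fin k → Jet r | ∃ j, (imM (Z j).1).det = 0} := by
    rw [Set.ofPred_exists]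
    refine isClosed_iUnion_of_finite fun j => isClosed_eq (Continuous.matrix_det ?_) continuous_const
    refine continuous_matrix fun a b => ?_
    simp only [imM, of_apply]
    fun_prop
  obtain ⟨d, hd0, hdU⟩ := hK.exists_cthickening_subset_open hd.isOpen_compl (by
    rintro Z hZ ⟨j, hj⟩
    exact (hKS Z hZ j).2.2.det_pos.ne' hj)
  have hK' : IsCompact (Metric.cthickening d K ∩ {Z : Fin k → Jet r | ∀ j, Z j ∈ cSieg r}) :=
    hK.cthickening.inter_right hc
  have hsub : Metric.cthickening d K ∩ {Z : Fin k → Jet r | ∀ j, Z j ∈ cSieg r} ⊆ SiegK r k := by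
    intro Z hZ j
    exact ⟨(hZ.2 j).1, (hZ.2 j).2.1, (hZ.2 j).2.2.posDef_iff_det_ne_zero.2 fun h =>
      hdU hZ.1 ⟨j, h⟩⟩
  obtain ⟨δ, hδ, hu⟩ := Metric.uniformContinuousOn_iff_le.1
    (hK'.uniformContinuousOn_of_continuous (hφ.cont.mono hsub)) ε hε
  refine ⟨min δ d, lt_min hδ hd0, fun Z hZ Z' hZ' hZZ => ?_⟩
  rw [← Real.dist_eq]
  refine hu Z ⟨Metric.self_subset_cthickening _ hZ, fun j => ⟨(hKS Z hZ j).1, (hKS Z hZ j).2.1,
    (hKS Z hZ j).2.2.posSemidef⟩⟩ Z' ⟨?_, hZ'⟩ (hZZ.trans (min_le_left _ _))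
  exact Metric.mem_cthickening_of_dist_le Z' Z d K hZ
    ((dist_comm Z' Z).trans_le (hZZ.trans (min_le_right _ _)))

section
variable {ι : Type} {F : Filter ι} {n : ι → ℕ} {μ : ∀ i, Measure (Conf (n i))}

theorem TailS.posRig (ha : TailS F n μ) {ε : ℝ} (hε : 0 < ε) : ∃ m : ℝ, ∀ (u : ℤ) (Λ : ℕ),
    ∀ᶠ i in F, μ i {q | ¬ PosRig2 m Λ q.1 u} ≤ ENNReal.ofReal ε := by
  choose Cp hC using ha
  obtain ⟨m, hm⟩ := count_of_tail Cp hε
  exact ⟨m, hm F (fun i => Conf (n i)) μ n (fun i q => q) hC⟩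

theorem trunc_EG (hf : IsFam n μ) (ht : TightS F n μ) (ha : TailS F n μ) {r k : ℕ} {w : Fin k → ℂ}
    (hw : ∀ j, 0 < (w j).im) {φ : (Fin k → Jet r) → ℝ} (hφ : Bcl φ) {ε : ℝ} (hε : 0 < ε) :
    ∀ᶠ R : ℕ in atTop, ∀ᶠ i in F,
      |∫ p, ∫ g, φ (fun j => jetG (trunc R p.1, 0) g (w j)) ∂(gpi (Fin r × Fin (2 * R + 1))) ∂(μ i) -
        EG (μ i) r w φ| ≤ ε := by
  obtain ⟨C, hC⟩ := hφ.bdd
  have hC0 : 0 ≤ C := (abs_nonneg _).trans (hC 0)
  obtain ⟨η, hη, hηε⟩ : ∃ η : ℝ, 0 < η ∧ η + 14 * C * η ≤ ε :=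
    ⟨ε / (1 + 14 * C), by positivity, le_of_eq (by field_simp)⟩
  obtain ⟨K, hK, hKS, hKP⟩ := ht r k w hw η hη
  obtain ⟨δ₀, hδ₀, hu⟩ := hφ.unif hK hKS hη
  have hδ : 0 < min δ₀ η := lt_min hδ₀ hη
  obtain ⟨m, hm⟩ := ha.posRig hη
  obtain ⟨K₀, hK₀, hcl⟩ := trunc_close r w hw m hδ
  obtain ⟨C₁, hC₁⟩ := ha 1
  have hlam : 0 < min (min δ₀ η / 4) 1 := lt_min (by positivity) one_pos
  set lam := min (min δ₀ η / 4) 1 with hlamdef
  obtain ⟨Y, hY, hY'⟩ : ∃ Y : ℝ, K₀ ≤ Y ∧ C₁ / (lam * Y) ≤ η := by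
    refine ⟨max K₀ (C₁ / (lam * η)), le_max_left _ _, ?_⟩
    have h0 : 0 < max K₀ (C₁ / (lam * η)) := lt_max_of_lt_left hK₀
    rw [div_le_iff₀ (by positivity)]
    have := le_max_right K₀ (C₁ / (lam * η))
    rw [div_le_iff₀ (by positivity)] at this
    linarith
  have hY0 : 0 < Y := hK₀.trans_le hY
  obtain ⟨R₀, hR₀⟩ := hcl Y hY
  filter_upwards [eventually_ge_atTop R₀, eventually_gt_atTop 0,
    (tendsto_natCast_atTop_atTop (R := ℝ)).eventually_ge_atTop (C₁ / η)] with R hR hR0 hR1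
  have hR0' : (0 : ℝ) < R := Nat.cast_pos.2 hR0
  have hR2 : C₁ / (1 * R) ≤ η := by
    rw [div_le_iff₀ hη] at hR1
    rw [div_le_iff₀ (by positivity)]
    linarith
  filter_upwards [hKP, hm 0 (4 * R), hC₁ (Y * Complex.I) (by simpa using hY0) lam hlam η hη,
    hC₁ ((R : ℝ) * Complex.I) (by simpa using hR0) 1 one_pos η hη] with i h1 h2 h3 h4
  have := (hf i).1
  simp only [Complex.mul_im, Complex.ofReal_re, Complex.I_im, mul_one, Complex.ofReal_im,
    Complex.I_re, mul_zero, add_zero, pow_one] at h3 h4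
  have hSm : MeasurableSet {q : Conf (n i) × (Fin r × Fin (n i) → ℝ) |
      (fun j => jetG q.1 q.2 (w j)) ∉ K} := CInv0_meas hw hK.measurableSet.compl
  have hai := Measure.integrable_measure_prodMk_left (μ := μ i) (ν := gpi (Fin r × Fin (n i))) hSm
    (measure_ne_top _ _)
  have hav : ∫ p, (gpi (Fin r × Fin (n i))).real (Prod.mk p ⁻¹'
      {q : Conf (n i) × (Fin r × Fin (n i) → ℝ) | (fun j => jetG q.1 q.2 (w j)) ∉ K}) ∂(μ i) ≤ η := by
    simp only [measureReal_def]
    rw [integral_toReal (measurable_measure_prodMk_left hSm).aemeasurable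
      (Eventually.of_forall fun p => measure_lt_top _ _), ← Measure.prod_apply hSm]
    exact ENNReal.toReal_le_of_le_ofReal hη.le h1
  have hm1 := DW6_meas hw hφ.meas (fun q : Conf (n i) × (Fin r × Fin (2 * R + 1) → ℝ) =>
    ((trunc R q.1.1, 0) : Conf (2 * R + 1))) (fun q => q.2) (((measurable_trunc _ R).comp
      (measurable_fst.comp measurable_fst)).prodMk measurable_const) measurable_snd
  have hm2 := DW6_meas hw hφ.meas (fun q : Conf (n i) × (Fin r × Fin (n i) → ℝ) => q.1)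
    (fun q => q.2) measurable_fst measurable_snd
  refine (DW6_close (μ i)
    (hm1.stronglyMeasurable.integral_prod_right' (ν := gpi (Fin r × Fin (2 * R + 1)))).aestronglyMeasurable
    (hm2.stronglyMeasurable.integral_prod_right' (ν := gpi (Fin r × Fin (n i)))).aestronglyMeasurable
    hC0 (fun _ => DW6_bdd _ fun _ => hC _) (fun _ => DW6_bdd _ fun _ => hC _)
    (((integrable_const η).add (((integrable_const η).add hai).const_mul (2 * C))))
    (fun p => by
      simp only [Pi.add_apply]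
      positivity)
    (B := {q | ¬ PosRig2 m (4 * R) q.1 0} ∪ ({q | lam < ‖sF q (Y * Complex.I) - Real.pi * Complex.I‖} ∪
      {q | 1 < ‖sF q ((R : ℝ) * Complex.I) - Real.pi * Complex.I‖})) ?_).trans ?_
  · filter_upwards [(hf i).2] with p hp hB
    simp only [Set.mem_union, Set.mem_ofPred_eq, not_or, not_lt, not_not] at hB
    obtain ⟨en, hen, hP⟩ := hR₀ R hR _ p hp hB.1 hB.2.1 hB.2.2
    refine (DW6_inner hw hφ.meas hC hδ.le hη.le
      (fun Z hZ Z' hZ' hd => hu Z hZ Z' hZ' (hd.trans (min_le_left _ _))) p _ hen hP).trans ?_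
    simp only [Pi.add_apply]
    exact add_le_add le_rfl (mul_le_mul_of_nonneg_left (add_le_add (min_le_right _ _) le_rfl)
      (by positivity))
  · simp only [Pi.add_apply]
    rw [integral_add (integrable_const η) (by exact ((integrable_const η).add hai).const_mul (2 * C)),
      integral_const_mul, integral_add (integrable_const η) hai]
    simp only [integral_const, probReal_univ, smul_eq_mul, one_mul]
    have hB : (μ i).real ({q | ¬ PosRig2 m (4 * R) q.1 0} ∪
        ({q | lam < ‖sF q (Y * Complex.I) - Real.pi * Complex.I‖} ∪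
        {q | 1 < ‖sF q ((R : ℝ) * Complex.I) - Real.pi * Complex.I‖})) ≤ η + (2 * η + 2 * η) := by
      refine (measureReal_union_le _ _).trans (add_le_add
        (ENNReal.toReal_le_of_le_ofReal hη.le h2) ((measureReal_union_le _ _).trans (add_le_add
          (ENNReal.toReal_le_of_le_ofReal (by positivity) (h3.trans ?_))
          (ENNReal.toReal_le_of_le_ofReal (by positivity) (h4.trans ?_)))))
      · exact ENNReal.ofReal_le_ofReal (by linarith)
      · exact ENNReal.ofReal_le_ofReal (by linarith)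
    nlinarith [mul_le_mul_of_nonneg_left hB hC0, mul_le_mul_of_nonneg_left hav hC0]

theorem chain_law (hf : IsFam n μ) (ht : TightS F n μ) (ha : TailS F n μ) (hs : StatS F n μ 1)
    {k : ℕ} {w : Fin k → ℂ} (hw : ∀ j, 0 < (w j).im) (f : (Fin k → ℂ) →ᵇ ℝ) (t : ℕ) {ε : ℝ}
    (hε : 0 < ε) : ∀ᶠ R : ℕ in atTop, ∀ᶠ i in F,
      |∫ q, f (fun j => sF (chainX q.1 q.2 t, 0) (w j))
          ∂(((μ i).map fun p => trunc R p.1).prod (noise (2 * R + 1))) -
        ∫ p, f (fun j => sF p (w j)) ∂(μ i)| ≤ ε := by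
  have hφ : Bcl fun Z : Fin k → Jet (ch t) => f fun j => chainJ 1 t (Z j) := by
    refine ⟨f.continuous.measurable.comp (measurable_pi_lambda _ fun j =>
      (measurable_chainJ 1 t).comp (measurable_pi_apply j)), ⟨‖f‖, fun Z => f.norm_coe_le_norm _⟩, ?_⟩
    refine f.continuous.comp_continuousOn (continuousOn_pi.2 fun j => ?_)
    exact (continuousOn_chainJ 1 t).comp (continuous_apply j).continuousOn fun Z hZ => hZ j
  have h2 := Metric.tendsto_nhds.1 (hs t k w hw f) (ε / 2) (by positivity)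
  filter_upwards [trunc_EG hf ht ha hw hφ (half_pos hε)] with R hR
  filter_upwards [hR, h2] with i h1 h2
  have := (hf i).1
  have hT : Measurable fun p : Conf (n i) => trunc R p.1 :=
    (measurable_trunc _ R).comp measurable_fst
  have : IsProbabilityMeasure ((μ i).map fun p => trunc R p.1) :=
    Measure.isProbabilityMeasure_map hT.aemeasurable
  have hm : Measurable fun q : (Fin (2 * R + 1) → ℝ) × Noise (2 * R + 1) =>
      f (fun j => sF (chainX q.1 q.2 t, 0) (w j)) :=
    f.continuous.measurable.comp (measurable_pi_lambda _ fun j =>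
      (continuous_sF (hw j).ne').measurable.comp ((measurable_chainX t).prodMk measurable_const))
  rw [integral_prod _ (Integrable.of_bound hm.aestronglyMeasurable ‖f‖
      (Eventually.of_forall fun q => f.norm_coe_le_norm _)),
    integral_map hT.aemeasurable
      (hm.stronglyMeasurable.integral_prod_right' (ν := noise (2 * R + 1))).aestronglyMeasurable]
  simp only
  simp only [chain_eq hw f.continuous.measurable (C := ‖f‖) (fun z => f.norm_coe_le_norm z) t]
  rw [Real.dist_eq, sub_zero] at h2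
  have := abs_sub_le (∫ p, ∫ g, f (fun j => chainJ 1 t (jetG (trunc R p.1, 0) g (w j)))
    ∂(gpi (Fin (ch t) × Fin (2 * R + 1))) ∂(μ i))
    (EG (μ i) (ch t) w fun Z => f fun j => chainJ 1 t (Z j)) (∫ p, f (fun j => sF p (w j)) ∂(μ i))
  linarith

theorem chain_tail (hf : IsFam n μ) (ht : TightS F n μ) (ha : TailS F n μ) (hs : StatS F n μ 1) :
    ∃ Cp : ℕ → ℝ, ∀ (t p : ℕ) (w : ℂ), 0 < w.im → ∀ lam : ℝ, 0 < lam → ∀ ε : ℝ, 0 < ε →
      ∀ᶠ R : ℕ in atTop, ∀ᶠ i in F,
        (((μ i).map fun p => trunc R p.1).prod (noise (2 * R + 1)))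
          {q | lam < ‖sF (chainX q.1 q.2 t, 0) w - Real.pi * Complex.I‖} ≤
          ENNReal.ofReal (Cp p / (lam * w.im) ^ p + ε) := by
  have ha' := ha
  choose C hC using ha'
  refine ⟨fun p => 2 * 2 ^ p * |C p|, fun t p w hw lam hlam ε hε => ?_⟩
  have hb : ∀ z : Fin 1 → ℂ, 0 ≤ min 1 (max 0 (2 * ‖z 0 - Real.pi * Complex.I‖ / lam - 1)) :=
    fun z => le_min zero_le_one (le_max_left _ _)
  have hb' : ∀ z : Fin 1 → ℂ, |min 1 (max 0 (2 * ‖z 0 - Real.pi * Complex.I‖ / lam - 1))| ≤ 1 :=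
    fun z => by
      rw [abs_of_nonneg (hb z)]
      exact min_le_left _ _
  obtain ⟨f, hfa⟩ : ∃ f : (Fin 1 → ℂ) →ᵇ ℝ,
      ∀ z, f z = min 1 (max 0 (2 * ‖z 0 - Real.pi * Complex.I‖ / lam - 1)) :=
    ⟨BoundedContinuousFunction.ofNormedAddCommGroup
      (fun z => min 1 (max 0 (2 * ‖z 0 - Real.pi * Complex.I‖ / lam - 1))) (by fun_prop) 1 hb',
      fun z => rfl⟩
  replace hb : ∀ z, 0 ≤ f z := fun z => hfa z ▸ hb z
  replace hb' : ∀ z, |f z| ≤ 1 := fun z => hfa z ▸ hb' z
  filter_upwards [chain_law hf ht ha hs (w := fun _ : Fin 1 => w) (fun _ => hw) f t (half_pos hε)]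
    with R hR
  filter_upwards [hR, hC p w hw (lam / 2) (half_pos hlam) (ε / 4) (by positivity)] with i h1 h2
  have := (hf i).1
  have hT : Measurable fun p : Conf (n i) => trunc R p.1 :=
    (measurable_trunc _ R).comp measurable_fst
  have : IsProbabilityMeasure ((μ i).map fun p => trunc R p.1) :=
    Measure.isProbabilityMeasure_map hT.aemeasurable
  have hm : Measurable fun q : (Fin (2 * R + 1) → ℝ) × Noise (2 * R + 1) =>
      f (fun j => sF (chainX q.1 q.2 t, 0) w) :=
    f.continuous.measurable.comp (measurable_pi_lambda _ fun j =>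
      (continuous_sF hw.ne').measurable.comp ((measurable_chainX t).prodMk measurable_const))
  have h3 := mul_meas_ge_le_integral_of_nonneg
    (μ := ((μ i).map fun p => trunc R p.1).prod (noise (2 * R + 1)))
    (f := fun q => f (fun j => sF (chainX q.1 q.2 t, 0) w)) (Eventually.of_forall fun q => hb _)
    (Integrable.of_bound hm.aestronglyMeasurable 1 (Eventually.of_forall fun q => hb' _)) 1
  have h4 := DW6_close (μ i) (f := fun p => f (fun j => sF p w)) (g := fun _ => 0) (a := fun _ => 0)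
    (f.continuous.comp (continuous_pi fun _ => continuous_sF hw.ne')).aestronglyMeasurable
    aestronglyMeasurable_const zero_le_one (fun _ => hb' _) (fun _ => by simp) (integrable_const _)
    (fun _ => le_rfl) (B := {q | lam / 2 < ‖sF q w - Real.pi * Complex.I‖})
    (Eventually.of_forall fun q hq => by
      simp only [Set.mem_ofPred_eq, not_lt] at hq
      have : 2 * ‖sF q w - Real.pi * Complex.I‖ / lam - 1 ≤ 0 := by
        rw [sub_nonpos, div_le_one hlam]
        linarith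
      rw [hfa, max_eq_left this]
      simp)
  have h5 : (μ i).real {q | lam / 2 < ‖sF q w - Real.pi * Complex.I‖} ≤
      2 ^ p * |C p| / (lam * w.im) ^ p + ε / 4 := by
    refine ENNReal.toReal_le_of_le_ofReal (by positivity) (h2.trans (ENNReal.ofReal_le_ofReal ?_))
    have : C p / (lam / 2 * w.im) ^ p = 2 ^ p * C p / (lam * w.im) ^ p := by
      rw [show lam / 2 * w.im = lam * w.im / 2 by ring, div_pow]
      field_simp
    rw [this]
    gcongr
    exact le_abs_self _
  have h6 : (((μ i).map fun p => trunc R p.1).prod (noise (2 * R + 1))).real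
      {q | lam < ‖sF (chainX q.1 q.2 t, 0) w - Real.pi * Complex.I‖} ≤
      (((μ i).map fun p => trunc R p.1).prod (noise (2 * R + 1))).real
      {q | 1 ≤ f (fun j => sF (chainX q.1 q.2 t, 0) w)} := by
    refine measureReal_mono fun q hq => ?_
    simp only [Set.mem_ofPred_eq] at hq ⊢
    rw [hfa]
    refine le_min le_rfl (le_max_of_le_right ?_)
    rw [le_sub_iff_add_le, le_div_iff₀ hlam]
    linarith
  rw [← ofReal_measureReal]
  refine ENNReal.ofReal_le_ofReal ?_
  simp only [integral_zero, sub_zero, zero_add] at h4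
  have e : 2 * 2 ^ p * |C p| / (lam * w.im) ^ p = 2 * (2 ^ p * |C p| / (lam * w.im) ^ p) := by ring
  rw [e]
  linarith [(abs_le.1 h1).2, (abs_le.1 h4).2]

end

end Crest.Agent.R166
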