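import Crest.Agent.R166.DW6

/-! # Window families: Laplace weights through Poisson sums -/

set_option autoImplicit false
set_option linter.unusedVariables false
set_option linter.unusedSectionVars false

open MeasureTheory ProbabilityTheory Filter Topology Matrix
open scoped ENNReal BoundedContinuousFunction

namespace Crest.Agent.R166

/-- Poisson kernel (times `π`) -/
noncomputable def DW7_Q (η t : ℝ) : ℝ := η / (t ^ 2 + η ^ 2)

theorem DW7_im (x : ℝ) (w : ℂ) : (1 / ((x : ℂ) - w)).im = DW7_Q w.im (w.re - x) := by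
  rw [one_div, Complex.inv_im, Complex.normSq_apply, DW7_Q]
  simp only [Complex.sub_im, Complex.ofReal_im, Complex.sub_re, Complex.ofReal_re]
  congr 1 <;> ring

theorem DW7_Q_pos {η : ℝ} (hη : 0 < η) (t : ℝ) : 0 < DW7_Q η t := by
  unfold DW7_Q; positivity

theorem DW7_Q_cont {η : ℝ} (hη : 0 < η) : Continuous (DW7_Q η) :=
  continuous_const.div (by fun_prop) fun t => by positivity

theorem DW7_Q_int {η : ℝ} (hη : 0 < η) (x : ℝ) :
    Integrable (fun u => DW7_Q η (u - x)) ∧ ∫ u, DW7_Q η (u - x) = Real.pi := by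
  lift η to NNReal using hη.le
  have e : (fun u => DW7_Q η (u - x)) = fun u => Real.pi * cauchyPDFReal x η u := by
    funext u
    rw [cauchyPDFReal_def, DW7_Q]
    have := Real.pi_pos
    field_simp
  rw [e, integral_const_mul, integral_cauchyPDFReal_eq_one x (by exact_mod_cast hη.ne'), mul_one]
  exact ⟨(integrable_cauchyPDFReal x).const_mul _, rfl⟩

theorem DW7_wt {L x u a : ℝ} (hu : |u| ≤ L) (ha : 0 < a) {b : ℝ} (hb : a ≤ b)
    (hb' : (u - x) ^ 2 ≤ b) : (1 + x ^ 2) / b ≤ (1 + 2 * L ^ 2) / a + 2 := by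
  have hb0 : 0 < b := ha.trans_le hb
  have h1 : u ^ 2 ≤ L ^ 2 := sq_le_sq' (abs_le.1 hu).1 (abs_le.1 hu).2
  have h2 : (1 + 2 * L ^ 2) / b ≤ (1 + 2 * L ^ 2) / a :=
    div_le_div_of_nonneg_left (by positivity) ha hb
  refine le_trans ?_ (add_le_add h2 le_rfl)
  rw [div_add' _ _ _ hb0.ne']
  refine div_le_div_of_nonneg_right ?_ hb0.le
  nlinarith [sq_nonneg (u + (u - x))]

theorem DW7_lip {η : ℝ} (hη : 0 < η) (a b : ℝ) :
    |DW7_Q η a - DW7_Q η b| ≤ |a - b| / 2 * (1 / (a ^ 2 + η ^ 2) + 1 / (b ^ 2 + η ^ 2)) := by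
  have ha : 0 < a ^ 2 + η ^ 2 := by positivity
  have hb : 0 < b ^ 2 + η ^ 2 := by positivity
  have e1 : DW7_Q η a - DW7_Q η b =
      -((a - b) * (η * (a + b) / ((a ^ 2 + η ^ 2) * (b ^ 2 + η ^ 2)))) := by
    unfold DW7_Q; field_simp; ring
  have e2 : |a - b| / 2 * (1 / (a ^ 2 + η ^ 2) + 1 / (b ^ 2 + η ^ 2)) = |a - b| *
      ((a ^ 2 + b ^ 2 + 2 * η ^ 2) / 2 / ((a ^ 2 + η ^ 2) * (b ^ 2 + η ^ 2))) := by
    field_simp; ring
  rw [e1, e2, abs_neg, abs_mul, abs_div, abs_of_pos (mul_pos ha hb)]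
  refine mul_le_mul_of_nonneg_left (div_le_div_of_nonneg_right (abs_le.2 ⟨?_, ?_⟩) (by positivity))
    (abs_nonneg _)
  · nlinarith [sq_nonneg (a + η), sq_nonneg (b + η)]
  · nlinarith [sq_nonneg (a - η), sq_nonneg (b - η)]

theorem DW7_conv {h : ℝ → ℝ} (hc : Continuous h) (hK : HasCompactSupport h) (hp : ∀ t, 0 ≤ h t)
    {L M : ℝ} (hL0 : 0 < L) (hL : ∀ t, L ≤ |t| → h t = 0) (hM : ∀ t, h t ≤ M) {ε : ℝ} (hε : 0 < ε) :
    ∃ η : ℝ, 0 < η ∧ ∀ x, (1 + x ^ 2) * |Real.pi * h x - ∫ u, h u * DW7_Q η (u - x)| ≤ ε := by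
  have hπ := Real.pi_pos
  have hM0 : 0 ≤ M := (hp 0).trans (hM 0)
  have hM' : ∀ t, (1 + t ^ 2) * h t ≤ (1 + L ^ 2) * M := by
    intro t
    rcases le_or_gt L |t| with ht | ht
    · rw [hL t ht, mul_zero]; positivity
    · exact mul_le_mul (by linarith [sq_le_sq' (abs_lt.1 ht).1.le (abs_lt.1 ht).2.le]) (hM t) (hp t)
        (by positivity)
  obtain ⟨δ₀, hδ₀, hu⟩ := Metric.uniformContinuous_iff.1 (hK.uniformContinuous_of_continuous hc)
    (ε / (2 * Real.pi) / (1 + (L + 1) ^ 2)) (by positivity)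
  obtain ⟨δ, hδ, hδ1, hδ2⟩ : ∃ δ : ℝ, 0 < δ ∧ δ ≤ δ₀ ∧ δ ≤ 1 :=
    ⟨min δ₀ 1, lt_min hδ₀ one_pos, min_le_left _ _, min_le_right _ _⟩
  obtain ⟨C, hC⟩ : ∃ C : ℝ, C = (1 + L ^ 2) * M * ((1 + 2 * L ^ 2) / δ ^ 2 + 2) := ⟨_, rfl⟩
  have hC0 : 0 ≤ C := by rw [hC]; positivity
  obtain ⟨η, hη⟩ : ∃ η : ℝ, η = ε / (4 * Real.pi * C + 1) := ⟨_, rfl⟩
  have hη0 : 0 < η := by rw [hη]; positivity
  refine ⟨η, hη0, fun x => ?_⟩
  obtain ⟨i1, e1⟩ := DW7_Q_int hη0 x
  obtain ⟨i2, e2⟩ := DW7_Q_int one_pos x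
  obtain ⟨i3, e3⟩ := DW7_Q_int one_pos 0
  have i4 : Integrable fun u => h u * DW7_Q η (u - x) :=
    (hc.mul ((DW7_Q_cont hη0).comp (continuous_id.sub continuous_const))).integrable_of_hasCompactSupport
      hK.mul_right
  have hx : 0 < 1 + x ^ 2 := by positivity
  have key : ∀ u, ‖(1 + x ^ 2) * (h x * DW7_Q η (u - x) - h u * DW7_Q η (u - x))‖ ≤
      ε / (2 * Real.pi) * DW7_Q η (u - x) + η * C * (DW7_Q 1 (u - x) + DW7_Q 1 (u - 0)) := by
    intro u
    have q1 := DW7_Q_pos hη0 (u - x)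
    have q2 := DW7_Q_pos one_pos (u - x)
    have q3 := DW7_Q_pos one_pos (u - 0)
    rw [← sub_mul, Real.norm_eq_abs, abs_mul, abs_mul, abs_of_pos hx, abs_of_pos q1, ← mul_assoc]
    rcases lt_or_ge |u - x| δ with h1 | h1
    · refine le_trans (mul_le_mul_of_nonneg_right ?_ q1.le) (le_add_of_nonneg_right (by positivity))
      rcases le_or_gt (L + 1) |x| with h2 | h2
      · have h3 : L ≤ |u| := by
          have := abs_sub_abs_le_abs_sub x u
          rw [abs_sub_comm] at this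
          linarith
        rw [hL x (by linarith), hL u h3, sub_zero, abs_zero, mul_zero]
        positivity
      · have h3 := hu (a := x) (b := u) (by rw [Real.dist_eq, abs_sub_comm]; linarith)
        rw [Real.dist_eq, lt_div_iff₀ (by positivity), mul_comm] at h3
        exact le_trans (mul_le_mul_of_nonneg_right
          (by linarith [sq_le_sq' (abs_lt.1 h2).1.le (abs_lt.1 h2).2.le]) (abs_nonneg _)) h3.le
    · refine le_trans ?_ (le_add_of_nonneg_left (by positivity))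
      have h2 : δ ^ 2 ≤ (u - x) ^ 2 := by
        rw [← sq_abs (u - x)]; exact pow_le_pow_left₀ hδ.le h1 2
      have h3 : 0 < (u - x) ^ 2 := lt_of_lt_of_le (by positivity) h2
      have h4 : DW7_Q η (u - x) ≤ η / (u - x) ^ 2 :=
        div_le_div_of_nonneg_left hη0.le h3 (by linarith [sq_nonneg η])
      have h5 : |h x - h u| ≤ h x + h u := abs_le.2 ⟨by linarith [hp x], by linarith [hp u]⟩
      have h6 : (1 + x ^ 2) * h x / (u - x) ^ 2 ≤ C * DW7_Q 1 (u - x) := by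
        have h7 := DW7_wt (L := L) (x := u - x) (u := 0) (a := δ ^ 2) (b := (u - x) ^ 2)
          (by rw [abs_zero]; exact hL0.le) (by positivity) h2 (by rw [zero_sub, neg_sq])
        calc _ = (1 + x ^ 2) * h x * ((1 + (u - x) ^ 2) / (u - x) ^ 2) * DW7_Q 1 (u - x) := by
              unfold DW7_Q; field_simp; ring
          _ ≤ _ := by
              rw [hC]
              exact mul_le_mul_of_nonneg_right (mul_le_mul (hM' x) h7 (by positivity)
                (by positivity)) q2.le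
      have h7 : (1 + x ^ 2) * h u / (u - x) ^ 2 ≤ C * DW7_Q 1 (u - 0) := by
        rcases le_or_gt L |u| with h8 | h8
        · rw [hL u h8, mul_zero, zero_div]; positivity
        · have h9 := DW7_wt (x := x) (a := δ ^ 2) h8.le (by positivity) h2 le_rfl
          calc _ = (1 + u ^ 2) * h u * ((1 + x ^ 2) / (u - x) ^ 2) * DW7_Q 1 (u - 0) := by
                unfold DW7_Q; field_simp; ring
            _ ≤ _ := by
                rw [hC]
                exact mul_le_mul_of_nonneg_right (mul_le_mul (hM' u) h9 (by positivity)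
                  (by positivity)) q3.le
      calc _ ≤ (1 + x ^ 2) * (h x + h u) * (η / (u - x) ^ 2) :=
            mul_le_mul (mul_le_mul_of_nonneg_left h5 hx.le) h4 q1.le
              (mul_nonneg hx.le (add_nonneg (hp x) (hp u)))
        _ = η * ((1 + x ^ 2) * h x / (u - x) ^ 2 + (1 + x ^ 2) * h u / (u - x) ^ 2) := by ring
        _ ≤ η * (C * DW7_Q 1 (u - x) + C * DW7_Q 1 (u - 0)) :=
            mul_le_mul_of_nonneg_left (add_le_add h6 h7) hη0.le
        _ = _ := by ring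
  have i5 : Integrable fun u => η * C * (DW7_Q 1 (u - x) + DW7_Q 1 (u - 0)) :=
    (i2.add i3).const_mul _
  have h1 := norm_integral_le_of_norm_le ((i1.const_mul _).add i5) (Eventually.of_forall key)
  simp only [Pi.add_apply] at h1
  rw [integral_add (i1.const_mul _) i5, integral_const_mul, integral_const_mul,
    integral_const_mul, integral_add i2 i3, e1, e2, e3, integral_sub (i1.const_mul _) i4,
    integral_const_mul, e1, Real.norm_eq_abs, abs_mul, abs_of_pos hx, mul_comm (h x)] at h1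
  refine h1.trans ?_
  have h2 : η * (4 * Real.pi * C + 1) = ε := by rw [hη]; field_simp
  have h3 : ε / (2 * Real.pi) * Real.pi = ε / 2 := by field_simp
  nlinarith

theorem DW7_riem {h : ℝ → ℝ} (hc : Continuous h) (hp : ∀ t, 0 ≤ h t) {L M : ℝ} (hL0 : 0 < L)
    (hL : ∀ t, L ≤ |t| → h t = 0) (hM : ∀ t, h t ≤ M) {η : ℝ} (hη : 0 < η) {ε : ℝ} (hε : 0 < ε) :
    ∃ (N : ℕ) (c a : ℕ → ℝ), (∀ j, 0 ≤ c j) ∧ ∀ x, (1 + x ^ 2) *
      |(∫ u, h u * DW7_Q η (u - x)) - ∑ j ∈ Finset.range N, c j * DW7_Q η (a j - x)| ≤ ε := by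
  have hM0 : 0 ≤ M := (hp 0).trans (hM 0)
  obtain ⟨D, hD⟩ : ∃ D : ℝ, D = (1 + 2 * L ^ 2) / η ^ 2 + 2 := ⟨_, rfl⟩
  have hD0 : 0 < D := by rw [hD]; positivity
  obtain ⟨N, hN⟩ := exists_nat_gt (4 * L ^ 2 * M * D / ε)
  have hN0 : (0 : ℝ) < N := lt_of_le_of_lt (by positivity) hN
  obtain ⟨δ, hδ⟩ : ∃ δ : ℝ, δ = 2 * L / N := ⟨_, rfl⟩
  have hδ0 : 0 < δ := by rw [hδ]; positivity
  have hNδ : N * δ = 2 * L := by rw [hδ]; field_simp
  refine ⟨N, fun j => ∫ u in (-L + j * δ)..(-L + (j + 1 : ℕ) * δ), h u, fun j => -L + j * δ,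
    fun j => intervalIntegral.integral_nonneg (by push_cast; linarith) fun u _ => hp u, fun x => ?_⟩
  have hx : 0 < 1 + x ^ 2 := by positivity
  have c1 : Continuous fun u => h u * DW7_Q η (u - x) :=
    hc.mul ((DW7_Q_cont hη).comp (continuous_id.sub continuous_const))
  have e1 := intervalIntegral.sum_integral_adjacent_intervals (μ := volume)
    (a := fun j : ℕ => -L + j * δ) (n := N) fun k _ => c1.intervalIntegrable _ _
  rw [intervalIntegral.integral_eq_integral_of_support_subset (a := -L + (0 : ℕ) * δ) fun u hu => by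
    have h1 : |u| < L := lt_of_not_ge fun h2 => hu (by simp [hL u h2])
    exact ⟨by simpa using (abs_lt.1 h1).1, by linarith [(abs_lt.1 h1).2]⟩] at e1
  rw [← e1, ← Finset.sum_sub_distrib, ← abs_of_pos hx, ← abs_mul, Finset.mul_sum]
  refine (Finset.abs_sum_le_sum_abs _ _).trans ((Finset.sum_le_card_nsmul _ _
    (M * (δ * D) * δ) fun j hj => ?_).trans ?_)
  · have hj' : ((j + 1 : ℕ) : ℝ) ≤ N := by exact_mod_cast Finset.mem_range.1 hj
    have hj0 : (0 : ℝ) ≤ j * δ := by positivity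
    have hj1 : ((j + 1 : ℕ) : ℝ) * δ ≤ 2 * L := hNδ ▸ mul_le_mul_of_nonneg_right hj' hδ0.le
    have hj2 : ((j + 1 : ℕ) : ℝ) * δ = j * δ + δ := by push_cast; ring
    have c2 : Continuous fun u => h u * DW7_Q η (-L + j * δ - x) := hc.mul continuous_const
    rw [← intervalIntegral.integral_mul_const, ← intervalIntegral.integral_sub
      (c1.intervalIntegrable _ _) (c2.intervalIntegrable _ _),
      ← intervalIntegral.integral_const_mul, ← Real.norm_eq_abs]
    refine (intervalIntegral.norm_integral_le_of_norm_le_const (C := M * (δ * D))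
      fun u hu => ?_).trans (le_of_eq ?_)
    · rw [Set.uIoc_of_le (by linarith)] at hu
      have w1 := DW7_wt (L := L) (x := x) (u := u) (a := η ^ 2) (b := (u - x) ^ 2 + η ^ 2)
        (abs_le.2 ⟨by linarith [hu.1], by linarith [hu.2]⟩) (by positivity)
        (by linarith [sq_nonneg (u - x)]) (by linarith [sq_nonneg η])
      have w2 := DW7_wt (L := L) (x := x) (u := -L + j * δ) (a := η ^ 2)
        (b := (-L + j * δ - x) ^ 2 + η ^ 2) (abs_le.2 ⟨by linarith, by linarith⟩) (by positivity)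
        (by linarith [sq_nonneg (-L + j * δ - x)]) (by linarith [sq_nonneg η])
      have w3 : |u - x - (-L + j * δ - x)| ≤ δ :=
        abs_le.2 ⟨by linarith [hu.1], by linarith [hu.2]⟩
      rw [← mul_sub, Real.norm_eq_abs, mul_left_comm, abs_mul, abs_mul, abs_of_pos hx,
        abs_of_nonneg (hp u)]
      refine mul_le_mul (hM u) ((mul_le_mul_of_nonneg_left (DW7_lip hη _ _) hx.le).trans ?_)
        (by positivity) hM0
      calc _ = |u - x - (-L + j * δ - x)| * (((1 + x ^ 2) / ((u - x) ^ 2 + η ^ 2) +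
            (1 + x ^ 2) / ((-L + j * δ - x) ^ 2 + η ^ 2)) / 2) := by ring
        _ ≤ δ * D := mul_le_mul w3 (by linarith) (by positivity) hδ0.le
    · rw [hj2, show -L + (j * δ + δ) - (-L + j * δ) = δ by ring, abs_of_pos hδ0]
  · rw [Finset.card_range, nsmul_eq_mul]
    rw [div_lt_iff₀ hε] at hN
    have e2 : N * (N * (M * (δ * D) * δ)) = 4 * L ^ 2 * M * D := by
      linear_combination (M * D * (N * δ + 2 * L)) * hNδ
    exact le_of_mul_le_mul_left (by linarith) hN0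

theorem poisson_approx {h : ℝ → ℝ} (hc : Continuous h) (hK : HasCompactSupport h)
    (hp : ∀ t, 0 ≤ h t) {ε : ℝ} (hε : 0 < ε) : ∃ (k : ℕ) (c : Fin k → ℝ) (w : Fin k → ℂ),
      (∀ j, 0 ≤ c j) ∧ (∀ j, 0 < (w j).im) ∧
      ∀ x : ℝ, |h x - ∑ j, c j * (1 / ((x : ℂ) - w j)).im| ≤ ε / (1 + x ^ 2) := by
  obtain ⟨L, hL0, hL⟩ : ∃ L : ℝ, 0 < L ∧ ∀ t : ℝ, L ≤ ‖t‖ → h t = 0 := hK.exists_pos_le_norm
  obtain ⟨M, hM⟩ := hc.bounded_above_of_compact_support hK
  have hM' : ∀ t, h t ≤ M := fun t => (le_abs_self _).trans (hM t)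
  obtain ⟨η, hη, h1⟩ := DW7_conv hc hK hp hL0 hL hM' hε
  obtain ⟨N, c, a, hc0, h2⟩ := DW7_riem hc hp hL0 hL hM' hη hε
  have hπ := Real.two_le_pi
  refine ⟨N, fun j => c j / Real.pi, fun j => ⟨a j, η⟩, fun j => div_nonneg (hc0 j) (by linarith),
    fun j => hη, fun x => ?_⟩
  have hx : 0 < 1 + x ^ 2 := by positivity
  have e : h x - ∑ j : Fin N, c j / Real.pi * (1 / ((x : ℂ) - ⟨a j, η⟩)).im =
      (Real.pi * h x - ∑ j ∈ Finset.range N, c j * DW7_Q η (a j - x)) / Real.pi := by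
    simp only [DW7_im]
    rw [Fin.sum_univ_eq_sum_range (fun j => c j / Real.pi * DW7_Q η (a j - x)), sub_div,
      Finset.sum_div, mul_div_cancel_left₀ _ Real.pi_ne_zero]
    congr 1
    exact Finset.sum_congr rfl fun j _ => by ring
  rw [e, abs_div, abs_of_pos Real.pi_pos, div_le_div_iff₀ Real.pi_pos hx]
  have h3 := mul_le_mul_of_nonneg_left (abs_sub_le (Real.pi * h x) (∫ u, h u * DW7_Q η (u - x))
    (∑ j ∈ Finset.range N, c j * DW7_Q η (a j - x))) hx.le
  nlinarith [h1 x, h2 x]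

theorem DW7_exp {a b : ℝ} (ha : 0 ≤ a) (hb : 0 ≤ b) : |Real.exp (-a) - Real.exp (-b)| ≤ |a - b| := by
  have key : ∀ {a b : ℝ}, 0 ≤ a → a ≤ b → |Real.exp (-a) - Real.exp (-b)| ≤ |a - b| := by
    intro a b ha hab
    have h1 : Real.exp (-a) ≤ 1 := Real.exp_le_one_iff.2 (by linarith)
    have h2 : Real.exp (-b) = Real.exp (-a) * Real.exp (a - b) := by
      rw [← Real.exp_add]; congr 1; ring
    have h3 := Real.add_one_le_exp (a - b)
    have h4 := Real.exp_pos (-a)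
    rw [abs_of_nonneg (sub_nonneg.2 (Real.exp_le_exp.2 (by linarith))),
      abs_of_nonpos (by linarith), h2]
    nlinarith
  rcases le_total a b with h | h
  · exact key ha h
  · rw [abs_sub_comm, abs_sub_comm a]; exact key hb h

theorem DW7_sF {n : ℕ} (p : Conf n) (w : ℂ) (τ : ℝ) :
    (sF p (w + τ)).im = ∑ l, (1 / (((p.1 l - τ : ℝ) : ℂ) - w)).im := by
  simp only [sF, Complex.sub_im, Complex.ofReal_im, sub_zero, Complex.im_sum]
  refine Finset.sum_congr rfl fun l _ => ?_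
  congr 2
  push_cast
  ring

theorem lapW_approx {h : ℝ → ℝ} (hc : Continuous h) (hK : HasCompactSupport h)
    (hp : ∀ t, 0 ≤ h t) {ε : ℝ} (hε : 0 < ε) : ∃ (k : ℕ) (w : Fin k → ℂ) (f : (Fin k → ℂ) →ᵇ ℝ),
      (∀ j, 0 < (w j).im) ∧ (∀ z, 0 ≤ f z ∧ f z ≤ 1) ∧ ∀ (n : ℕ) (p : Conf n) (τ : ℝ),
      |lapW h p.1 τ - f (fun j => sF p (w j + τ))| ≤ ε * (sF p (Complex.I + τ)).im := by
  obtain ⟨k, c, w, hc0, hw, H⟩ := poisson_approx hc hK hp hε
  have hle : ∀ z : Fin k → ℂ, Real.exp (-∑ j, c j * max (z j).im 0) ≤ 1 := fun z =>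
    Real.exp_le_one_iff.2 (neg_nonpos.2 (Finset.sum_nonneg fun j _ =>
      mul_nonneg (hc0 j) (le_max_right _ _)))
  refine ⟨k, w, BoundedContinuousFunction.ofNormedAddCommGroup
    (fun z => Real.exp (-∑ j, c j * max (z j).im 0)) (by fun_prop) 1 fun z => by
      rw [Real.norm_of_nonneg (Real.exp_pos _).le]; exact hle z, hw,
    fun z => ⟨(Real.exp_pos _).le, hle z⟩, fun n p τ => ?_⟩
  have h0 : ∀ j, 0 ≤ (sF p (w j + τ)).im := fun j => by
    rw [DW7_sF]
    exact Finset.sum_nonneg fun l _ => by rw [DW7_im]; exact (DW7_Q_pos (hw j) _).le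
  show |Real.exp _ - Real.exp (-∑ j, c j * max (sF p (w j + τ)).im 0)| ≤ _
  refine (DW7_exp (Finset.sum_nonneg fun l _ => hp _) (Finset.sum_nonneg fun j _ =>
    mul_nonneg (hc0 j) (le_max_right _ _))).trans ?_
  simp only [fun j => max_eq_left (h0 j)]
  simp only [DW7_sF, Finset.mul_sum]
  rw [Finset.sum_comm, ← Finset.sum_sub_distrib]
  refine (Finset.abs_sum_le_sum_abs _ _).trans (Finset.sum_le_sum fun l _ =>
    (H (p.1 l - τ)).trans (le_of_eq ?_))
  rw [DW7_im, DW7_Q, Complex.I_im, Complex.I_re]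
  ring

theorem DW7_mean {Ω : Type} [MeasurableSpace Ω] (P : Measure Ω) [IsProbabilityMeasure P]
    {a b : Ω → ℝ} (ha : Measurable a) (hb : Measurable b) (ha1 : ∀ ω, 0 ≤ a ω ∧ a ω ≤ 1)
    (hb1 : ∀ ω, 0 ≤ b ω ∧ b ω ≤ 1) {S : Set Ω} (hS : MeasurableSet S) {δ β : ℝ} (hδ : 0 ≤ δ)
    (hβ : 0 ≤ β) (h : ∀ ω, ω ∉ S → |a ω - b ω| ≤ δ) (hP : P S ≤ ENNReal.ofReal β) :
    |∫ ω, a ω ∂P - ∫ ω, b ω ∂P| ≤ δ + β := by
  have ia : Integrable a P := Integrable.of_bound ha.aestronglyMeasurable 1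
    (Eventually.of_forall fun ω => by rw [Real.norm_of_nonneg (ha1 ω).1]; exact (ha1 ω).2)
  have ib : Integrable b P := Integrable.of_bound hb.aestronglyMeasurable 1
    (Eventually.of_forall fun ω => by rw [Real.norm_of_nonneg (hb1 ω).1]; exact (hb1 ω).2)
  have iS : Integrable (S.indicator fun _ => (1 : ℝ)) P := (integrable_const 1).indicator hS
  rw [← integral_sub ia ib, ← Real.norm_eq_abs]
  refine (norm_integral_le_of_norm_le (g := fun ω => δ + S.indicator (fun _ => (1 : ℝ)) ω)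
    ((integrable_const δ).add iS) (Eventually.of_forall fun ω => ?_)).trans ?_
  · rw [Real.norm_eq_abs]
    by_cases hω : ω ∈ S
    · rw [Set.indicator_of_mem hω]
      exact abs_le.2 ⟨by linarith [(ha1 ω).1, (hb1 ω).2], by linarith [(ha1 ω).2, (hb1 ω).1]⟩
    · rw [Set.indicator_of_notMem hω, add_zero]
      exact h ω hω
  · rw [integral_add (integrable_const δ) iS, integral_indicator_const _ hS]
    simp only [integral_const, probReal_univ, smul_eq_mul, one_mul, mul_one]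
    exact add_le_add le_rfl (ENNReal.toReal_le_of_le_ofReal hβ hP)

theorem DW7_cmp {Ω : Type} [MeasurableSpace Ω] (P : Measure Ω) [IsProbabilityMeasure P] {n : ℕ}
    {X : Ω → Conf n} (hX : Measurable X) {h : ℝ → ℝ} (hc : Continuous h) (hp : ∀ t, 0 ≤ h t)
    {k : ℕ} {w : Fin k → ℂ} {f : (Fin k → ℂ) →ᵇ ℝ} (hw : ∀ j, 0 < (w j).im)
    (hf : ∀ z, 0 ≤ f z ∧ f z ≤ 1) (τ : ℝ) {ε A β : ℝ} (hε : 0 < ε) (hA : 0 < A) (hβ : 0 ≤ β)
    (H : ∀ p : Conf n,
      |lapW h p.1 τ - f (fun j => sF p (w j + τ))| ≤ ε * (sF p (Complex.I + τ)).im)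
    (hP : P {q | A < ‖sF (X q) (Complex.I + τ) - Real.pi * Complex.I‖} ≤ ENNReal.ofReal β) :
    |∫ q, lapW h (X q).1 τ ∂P - ∫ q, f (fun j => sF (X q) (w j + τ)) ∂P| ≤
      ε * (A + Real.pi) + β := by
  have c1 : Continuous fun p : Conf n => lapW h p.1 τ := by
    unfold lapW
    fun_prop
  have c2 : Continuous fun p : Conf n => f fun j => sF p (w j + τ) :=
    f.continuous.comp (continuous_pi fun j => continuous_sF (by simpa using (hw j).ne'))
  have c3 : Continuous fun p : Conf n => ‖sF p (Complex.I + τ) - Real.pi * Complex.I‖ :=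
    ((continuous_sF (by simp)).sub continuous_const).norm
  refine DW7_mean P (c1.measurable.comp hX) (c2.measurable.comp hX)
    (fun q => ⟨(Real.exp_pos _).le, Real.exp_le_one_iff.2 (neg_nonpos.2
      (Finset.sum_nonneg fun l _ => hp _))⟩) (fun q => hf _)
    (measurableSet_lt measurable_const (c3.measurable.comp hX))
    (by have := Real.pi_pos; positivity) hβ (fun q hq => (H _).trans ?_) hP
  refine mul_le_mul_of_nonneg_left ?_ hε.le
  have h1 := (le_abs_self _).trans ((Complex.abs_im_le_norm _).trans (not_lt.1 hq))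
  simp only [Complex.sub_im, Complex.mul_im, Complex.ofReal_re, Complex.I_im, Complex.ofReal_im,
    Complex.I_re, mul_one, mul_zero, add_zero] at h1
  linarith

theorem chain_lapl {ι : Type} {F : Filter ι} {n : ι → ℕ} {μ : ∀ i, Measure (Conf (n i))}
    (hf : IsFam n μ) (ht : TightS F n μ) (ha : TailS F n μ) (hr : TransS F n μ) (hs : StatS F n μ 1)
    {h : ℝ → ℝ} (hc : Continuous h) (hK : HasCompactSupport h) (hp : ∀ t, 0 ≤ h t) (t : ℕ) (τ : ℝ)
    {ε : ℝ} (hε : 0 < ε) : ∀ᶠ R : ℕ in atTop, ∀ᶠ i in F,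
      |∫ q, lapW h (chainX q.1 q.2 t) τ ∂(((μ i).map fun p => trunc R p.1).prod (noise (2 * R + 1))) -
        lap (μ i) h| ≤ ε := by
  obtain ⟨Cp, hCp⟩ := chain_tail hf ht ha hs
  obtain ⟨C, hC⟩ := ha 1
  obtain ⟨A, hA⟩ : ∃ A : ℝ, A = 10 * (|Cp 1| + |C|) / ε + 1 := ⟨_, rfl⟩
  have hA0 : 0 < A := by rw [hA]; positivity
  have hAε : A * ε = 10 * (|Cp 1| + |C|) + ε := by rw [hA]; field_simp
  have hπ := Real.pi_pos
  have he : 0 < ε / 10 := by linarith
  have hb : ∀ (D σ : ℝ), D ≤ |Cp 1| + |C| → ENNReal.ofReal (D / (A * (Complex.I + σ).im) ^ 1 + ε / 10)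
      ≤ ENNReal.ofReal (ε / 5) := by
    intro D σ hD
    refine ENNReal.ofReal_le_ofReal ?_
    have : D / A ≤ ε / 10 := by rw [div_le_iff₀ hA0]; linarith
    simp only [Complex.add_im, Complex.I_im, Complex.ofReal_im, add_zero, mul_one, pow_one]
    linarith
  have hε' : 0 < ε / 10 / (A + Real.pi) := by positivity
  have hε'' : ε / 10 / (A + Real.pi) * (A + Real.pi) = ε / 10 := by field_simp
  obtain ⟨k, w, f, hw, hf1, H⟩ := lapW_approx hc hK hp hε'
  filter_upwards [hCp t 1 (Complex.I + τ) (by simp) A hA0 _ he,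
    chain_law hf ht ha hs (w := fun j => w j + τ) (fun j => by simpa using hw j) f t he]
    with R h1 h2
  filter_upwards [h1, h2, hC (Complex.I + (0 : ℝ)) (by simp) A hA0 _ he,
    (hr k w hw τ f).abs.eventually_lt_const (show |(0 : ℝ)| < ε / 10 by simpa using he)]
    with i h3 h4 h5 h6
  have := (hf i).1
  have : IsProbabilityMeasure ((μ i).map fun p => trunc R p.1) :=
    Measure.isProbabilityMeasure_map ((measurable_trunc _ R).comp measurable_fst).aemeasurable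
  have t1 := DW7_cmp (((μ i).map fun p => trunc R p.1).prod (noise (2 * R + 1)))
    (X := fun q => (chainX q.1 q.2 t, 0)) ((measurable_chainX t).prodMk measurable_const) hc hp hw
    hf1 τ hε' hA0 (by linarith) (H _ · τ)
    (h3.trans (hb _ τ (by linarith [le_abs_self (Cp 1), abs_nonneg C])))
  have t2 := DW7_cmp (μ i) (X := fun q => q) measurable_id hc hp hw hf1 0 hε' hA0 (by linarith)
    (H _ · 0) (h5.trans (hb _ 0 (by linarith [le_abs_self C, abs_nonneg (Cp 1)])))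
  simp only [lapW, sub_zero, Complex.ofReal_zero, add_zero] at t2
  rw [hε''] at t1 t2
  unfold lap
  rw [abs_le] at t1 t2 h4 ⊢
  rw [abs_lt] at h6
  constructor <;> linarith [t1.1, t1.2, t2.1, t2.2, h4.1, h4.2, h6.1, h6.2]

end Crest.Agent.R166
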