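import Crest.Agent.R166.DW7

/-! # Part D, first half (interface): window families exist -/

set_option autoImplicit false
set_option linter.unusedVariables false
set_option linter.unusedSectionVars false

open MeasureTheory ProbabilityTheory Filter Topology Matrix
open scoped ENNReal BoundedContinuousFunction

namespace Crest.Agent.R166

theorem winFam_exists {ι : Type} {F : Filter ι} {n : ι → ℕ} {μ : ∀ i, Measure (Conf (n i))}
    (hf : IsFam n μ) (ht : TightS F n μ) (ha : TailS F n μ) (hr : TransS F n μ)
    (hs : StatS F n μ 1) {h : ℝ → ℝ} (hc : Continuous h) (hK : HasCompactSupport h)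
    (hp : ∀ t, 0 ≤ h t) :
    ∃ ν : ∀ i : ℕ × ι, Measure (Fin (2 * i.1 + 1) → ℝ),
      WinFam ((atTop : Filter ℕ).curry F) (fun i => i.1) ν h fun i => lap (μ i.2) h := by
  have hm : ∀ (R : ℕ) (i : ι), Measurable fun p : Conf (n i) => trunc R p.1 := fun R i =>
    (measurable_trunc _ R).comp measurable_fst
  refine ⟨fun i => (μ i.2).map fun p => trunc i.1 p.1, ?_, ?_, ?_, ?_, ?_⟩
  · intro i
    have := (hf i.2).1
    exact Measure.isProbabilityMeasure_map (hm _ _).aemeasurable
  · intro i
    have hS : MeasurableSet {x : Fin (2 * i.1 + 1) → ℝ | StrictMono x} := by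
      have : {x : Fin (2 * i.1 + 1) → ℝ | StrictMono x} =
          ⋂ a, ⋂ b, {x | a < b → x a < x b} := by
        ext x; simp only [StrictMono, Set.mem_ofPred_eq, Set.mem_iInter]
      rw [this]
      refine MeasurableSet.iInter fun a => MeasurableSet.iInter fun b => ?_
      by_cases hab : a < b
      · simp only [hab, forall_true_left]
        exact measurableSet_lt (measurable_pi_apply a) (measurable_pi_apply b)
      · simp [hab]
    rw [ae_map_iff (hm _ _).aemeasurable hS]
    filter_upwards [(hf i.2).2] with p hp' using trunc_strictMono _ hp'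
  · intro ε hε
    obtain ⟨m, hm'⟩ := ha.posRig hε
    obtain ⟨M₀, R₀, hR⟩ := trunc_rig m
    filter_upwards [eventually_ge_atTop M₀] with M hM
    rw [Filter.eventually_curry_iff]
    filter_upwards [eventually_ge_atTop R₀] with R hR'
    filter_upwards [hm' 0 (4 * R)] with i hi
    have hS : MeasurableSet {x : Fin (2 * R + 1) → ℝ |
        ∃ l, M + |lab l| ^ (1 / 32 : ℝ) < |x l - lab l|} := by
      rw [Set.ofPred_exists]
      exact MeasurableSet.iUnion fun l =>
        measurableSet_lt measurable_const ((measurable_pi_apply l).sub_const _).abs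
    rw [Measure.map_apply (hm _ _) hS]
    refine le_trans (measure_mono_ae ?_) hi
    filter_upwards [(hf i).2] with p hp' hq h2
    obtain ⟨l, hl⟩ := hq
    have h3 := (hR R hR' _ _ hp' h2).2 l
    have h4 : (M₀ : ℝ) ≤ M := Nat.cast_le.2 hM
    linarith
  · intro ε hε
    obtain ⟨Cp, hC⟩ := chain_tail hf ht ha hs
    obtain ⟨m, hm'⟩ := count_of_tail Cp hε
    refine ⟨m, fun t u Λ => ?_⟩
    have := hm' ((atTop : Filter ℕ).curry F)
      (fun i => (Fin (2 * i.1 + 1) → ℝ) × Noise (2 * i.1 + 1))
      (fun i => ((μ i.2).map fun p => trunc i.1 p.1).prod (noise (2 * i.1 + 1)))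
      (fun i => 2 * i.1 + 1) (fun i q => (chainX q.1 q.2 t, 0))
      (fun p w hw lam hl ε' hε' => Filter.eventually_curry_iff.2 (hC t p w hw lam hl ε' hε')) u Λ
    filter_upwards [this] with i hi
    refine le_trans (measure_mono fun q hq => ?_) hi
    exact fun h2 => hq (PosRig2.posRig h2)
  · intro t τ ε hε
    exact Filter.eventually_curry_iff.2 (chain_lapl hf ht ha hr hs hc hK hp t τ hε)

end Crest.Agent.R166
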