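import Mathlib
import Crest.Agent.R166.E.Res
import Crest.Prelude.Def_RandomRegular
import Crest.Prelude.Def_AndersonTree

/-! # Row 166: shared definitions (see `R166/MATH.lean` for the whole proof in words)

Degree `d = D + 1`, `2 ≤ D`.  Resolvent convention `G = (H - z)⁻¹`, `Im z > 0`. -/

set_option autoImplicit false
set_option linter.unusedVariables false
set_option linter.unusedSectionVars false

open MeasureTheory ProbabilityTheory Filter Topology Matrix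
open scoped ENNReal BoundedContinuousFunction

namespace Crest.Agent.R166

noncomputable section

/-! ## Gaussian vectors, jets, Möbius action -/

/-- standard Gaussian measure on `I → ℝ` -/
def gpi (I : Type) [Fintype I] : Measure (I → ℝ) := Measure.pi fun _ => gaussianReal 0 1

instance (I : Type) [Fintype I] : IsProbabilityMeasure (gpi I) := by unfold gpi; infer_instance

/-- `(M, M', s)`: an `r × r` matrix, its `w`-derivative and the trace of the resolvent -/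
abbrev Jet (r : ℕ) : Type := (Fin r → Fin r → ℂ) × (Fin r → Fin r → ℂ) × ℂ

/-- a finite point configuration with a real shift -/
abbrev Conf (n : ℕ) : Type := (Fin n → ℝ) × ℝ

/-- `s(w) = Σ 1/(x_i - w) - a` -/
def sF {n : ℕ} (p : Conf n) (w : ℂ) : ℂ := ∑ i, 1 / ((p.1 i : ℂ) - w) - (p.2 : ℂ)

/-- jet of the channel vectors `v` with real symmetric shift `R` -/
def jetV {n r : ℕ} (p : Conf n) (v : Fin r → Fin n → ℝ) (R : Fin r → Fin r → ℝ) (w : ℂ) : Jet r :=
  (fun b c => ∑ i, ((v b i * v c i : ℝ) : ℂ) / ((p.1 i : ℂ) - w) - (R b c : ℂ),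
   fun b c => ∑ i, ((v b i * v c i : ℝ) : ℂ) / ((p.1 i : ℂ) - w) ^ 2,
   sF p w)

/-- jet of the Gaussian model `Σ g gᵀ/(x - w) - a` -/
def jetG {n r : ℕ} (p : Conf n) (g : Fin r × Fin n → ℝ) (w : ℂ) : Jet r :=
  jetV p (fun b i => g (b, i)) (fun b c => if b = c then p.2 else 0) w

/-- expectation of a function of `k` jets in the Gaussian model over the law `μ` -/
def EG {n : ℕ} (μ : Measure (Conf n)) (r : ℕ) {k : ℕ} (w : Fin k → ℂ)
    (φ : (Fin k → Jet r) → ℝ) : ℝ :=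
  ∫ p, ∫ g, φ (fun j => jetG p g (w j)) ∂(gpi (Fin r × Fin n)) ∂μ

/-- a real `2r × 2r` block matrix `[[A, B], [C, D]]` -/
@[ext] structure Quad (r : ℕ) where
  A : Matrix (Fin r) (Fin r) ℝ
  B : Matrix (Fin r) (Fin r) ℝ
  C : Matrix (Fin r) (Fin r) ℝ
  D : Matrix (Fin r) (Fin r) ℝ

def Quad.mul {r : ℕ} (q q' : Quad r) : Quad r :=
  ⟨q.A * q'.A + q.B * q'.C, q.A * q'.B + q.B * q'.D,
   q.C * q'.A + q.D * q'.C, q.C * q'.B + q.D * q'.D⟩

def Quad.IsSymp {r : ℕ} (q : Quad r) : Prop :=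
  (q.Aᵀ * q.C).IsSymm ∧ (q.Bᵀ * q.D).IsSymm ∧ q.Aᵀ * q.D - q.Cᵀ * q.B = 1

/-- automorphy factor `C M + D` -/
def jfac {r : ℕ} (q : Quad r) (Z : Jet r) : Matrix (Fin r) (Fin r) ℂ :=
  cx q.C * Matrix.of Z.1 + cx q.D

/-- Möbius action on jets: `((A M + B) j⁻¹, j⁻ᵀ M' j⁻¹, s - tr (j⁻¹ C M'))`, `j = C M + D` -/
def mob {r : ℕ} (q : Quad r) (Z : Jet r) : Jet r :=
  (Matrix.of.symm ((cx q.A * Matrix.of Z.1 + cx q.B) * (jfac q Z)⁻¹),
   Matrix.of.symm (((jfac q Z)⁻¹)ᵀ * Matrix.of Z.2.1 * (jfac q Z)⁻¹),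
   Z.2.2 - Matrix.trace ((jfac q Z)⁻¹ * cx q.C * Matrix.of Z.2.1))

/-- imaginary part of a complex array, as a real matrix -/
def imM {ι : Type} (M : ι → ι → ℂ) : Matrix ι ι ℝ := Matrix.of fun b c => (M b c).im

/-- Siegel domain: `M`, `M'` symmetric, `Im M` positive definite -/
def Sieg (r : ℕ) : Set (Jet r) :=
  {Z | (Matrix.of Z.1).IsSymm ∧ (Matrix.of Z.2.1).IsSymm ∧ (imM Z.1).PosDef}

/-- closed Siegel domain -/
def cSieg (r : ℕ) : Set (Jet r) :=
  {Z | (Matrix.of Z.1).IsSymm ∧ (Matrix.of Z.2.1).IsSymm ∧ (imM Z.1).PosSemidef}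

/-- test functions: continuous, compactly supported, and on the closed domain supported in a
compact subset of the open domain -/
def TestFn {r k : ℕ} (φ : (Fin k → Jet r) → ℝ) : Prop :=
  Continuous φ ∧ HasCompactSupport φ ∧ ∃ K : Set (Fin k → Jet r), IsCompact K ∧
    (∀ Z ∈ K, ∀ j, Z j ∈ Sieg r) ∧ ∀ Z, (∀ j, Z j ∈ cSieg r) → Z ∉ K → φ Z = 0

/-- rotation by the angle `θ b` in channel `b` (fixes `M = iπ`) -/
def rotQ {r : ℕ} (θ : Fin r → ℝ) : Quad r :=
  ⟨diagonal fun b => Real.cos (θ b), diagonal fun b => Real.pi * Real.sin (θ b),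
   diagonal fun b => -(Real.sin (θ b) / Real.pi), diagonal fun b => Real.cos (θ b)⟩

/-- `diag (e^{iθ}, e^{-iθ}, 1, …, 1)` -/
def rotD (r : ℕ) (θ : ℝ) : Quad (r + 2) :=
  rotQ fun b => if b = 0 then θ else if b = 1 then -θ else 0

/-- orthogonal change of channels `M ↦ O M Oᵀ` -/
def orthQ {r : ℕ} (O : Matrix (Fin r) (Fin r) ℝ) : Quad r := ⟨O, 0, 0, O⟩

/-- rank-one perturbation `+ κ g gᵀ` along channel `0`, which is then dropped -/
def stepJ {r : ℕ} (κ : ℝ) (Z : Jet (r + 1)) : Jet r :=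
  (fun b c => Z.1 b.succ c.succ - κ * Z.1 b.succ 0 * Z.1 0 c.succ / (1 + κ * Z.1 0 0),
   fun b c => Z.2.1 b.succ c.succ -
     κ * (Z.2.1 b.succ 0 * Z.1 0 c.succ + Z.1 b.succ 0 * Z.2.1 0 c.succ) / (1 + κ * Z.1 0 0) +
     κ ^ 2 * Z.1 b.succ 0 * Z.1 0 c.succ * Z.2.1 0 0 / (1 + κ * Z.1 0 0) ^ 2,
   Z.2.2 - κ * Z.2.1 0 0 / (1 + κ * Z.1 0 0))

/-- `2 T`, in a form that unfolds definitionally -/
def ch : ℕ → ℕ
  | 0 => 0
  | T + 1 => ch T + 1 + 1

/-- the `s`-coordinate after `T` pairs of steps `+κ, -κ` -/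
def chainJ (κ : ℝ) : (T : ℕ) → Jet (ch T) → ℂ
  | 0, Z => Z.2.2
  | T + 1, Z => chainJ κ T (stepJ (-κ) (stepJ κ Z))

/-- Laplace functional -/
def lap {n : ℕ} (μ : Measure (Conf n)) (h : ℝ → ℝ) : ℝ :=
  ∫ p, Real.exp (-∑ i, h (p.1 i)) ∂μ

section Fam
variable {ι : Type} (F : Filter ι) (n : ι → ℕ) (μ : ∀ i, Measure (Conf (n i)))

/-- probability laws of sorted configurations -/
def IsFam : Prop := ∀ i, IsProbabilityMeasure (μ i) ∧ ∀ᵐ p ∂(μ i), Monotone p.1

/-- (H0) `s(iK) → iπ` in probability -/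
def H0 : Prop :=
  ∀ ε : ℝ, 0 < ε → ∃ K₀ : ℝ, ∀ K : ℝ, K₀ ≤ K → 0 < K → ∀ᶠ i in F,
    μ i {p | ε < ‖sF p (K * Complex.I) - Real.pi * Complex.I‖} ≤ ENNReal.ofReal ε

/-- (H1) asymptotic invariance of the Gaussian model under `rotD r θ`, for infinitely many `r` -/
def H1 (θ : ℝ) : Prop :=
  ∀ r₀ : ℕ, ∃ r : ℕ, r₀ ≤ r ∧ ∀ (k : ℕ) (w : Fin k → ℂ), (∀ j, 0 < (w j).im) →
    ∀ φ : (Fin k → Jet (r + 2)) → ℝ, TestFn φ →
      Tendsto (fun i => EG (μ i) (r + 2) w (fun Z => φ fun j => mob (rotD r θ) (Z j)) -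
        EG (μ i) (r + 2) w φ) F (𝓝 0)

/-- tightness of the Gaussian jets inside the Siegel domain -/
def TightS : Prop :=
  ∀ (r k : ℕ) (w : Fin k → ℂ), (∀ j, 0 < (w j).im) → ∀ ε : ℝ, 0 < ε →
    ∃ K : Set (Fin k → Jet r), IsCompact K ∧ (∀ Z ∈ K, ∀ j, Z j ∈ Sieg r) ∧ ∀ᶠ i in F,
      ((μ i).prod (gpi (Fin r × Fin (n i)))) {q | (fun j => jetG q.1 q.2 (w j)) ∉ K} ≤
        ENNReal.ofReal ε

/-- polynomial tails of `s(w) - iπ` at scale `1 / Im w`, uniformly in `w` -/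
def TailS : Prop :=
  ∀ p : ℕ, ∃ C : ℝ, ∀ w : ℂ, 0 < w.im → ∀ lam : ℝ, 0 < lam → ∀ ε : ℝ, 0 < ε → ∀ᶠ i in F,
    μ i {q | lam < ‖sF q w - Real.pi * Complex.I‖} ≤ ENNReal.ofReal (C / (lam * w.im) ^ p + ε)

/-- asymptotic translation invariance, for bounded continuous functions of values of `s` -/
def TransS : Prop :=
  ∀ (k : ℕ) (w : Fin k → ℂ), (∀ j, 0 < (w j).im) → ∀ (τ : ℝ) (f : (Fin k → ℂ) →ᵇ ℝ),
    Tendsto (fun i => ∫ p, f (fun j => sF p (w j + τ)) ∂(μ i) - ∫ p, f (fun j => sF p (w j)) ∂(μ i))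
      F (𝓝 0)

/-- asymptotic stationarity under `T` pairs of rank-one steps -/
def StatS (κ : ℝ) : Prop :=
  ∀ (T k : ℕ) (w : Fin k → ℂ), (∀ j, 0 < (w j).im) → ∀ f : (Fin k → ℂ) →ᵇ ℝ,
    Tendsto (fun i => EG (μ i) (ch T) w (fun Z => f fun j => chainJ κ T (Z j)) -
      ∫ p, f (fun j => sF p (w j)) ∂(μ i)) F (𝓝 0)

end Fam

/-! ## Matrices -/

-- `cx` (complexification) and `res H z = (cx H - z • 1)⁻¹` come from `R166/E/Res.lean`

open Classical in
/-- eigenvalues in increasing order (junk `0` off symmetric matrices) -/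
def evs {n : ℕ} (H : Matrix (Fin n) (Fin n) ℝ) : Fin n → ℝ :=
  if h : H.IsHermitian then fun i => h.eigenvalues₀ (Fin.cast (Fintype.card_fin n).symm i.rev)
  else 0

/-- `p` orthogonal eigenvectors of squared norm `n` with eigenvalues within `R / n` of `E` -/
def EigSys {n : ℕ} (H : Matrix (Fin n) (Fin n) ℝ) (E R : ℝ) (p : ℕ) (X : Fin p → Fin n → ℝ) :
    Prop :=
  (∀ i j, ∑ x, X i x * X j x = if i = j then (n : ℝ) else 0) ∧
    ∀ i, ∃ lam : ℝ, |lam - E| ≤ R / n ∧ H *ᵥ X i = lam • X i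

/-- the law of the unfolded GOE eigenvalues -/
def goeFam (n : ℕ) : Measure (Conf n) :=
  (Crest.ProbabilityR.RandomMatrix.goeDisorderLaw n).map fun g =>
    (fun i => n / Real.pi * evs (Crest.ProbabilityR.RandomMatrix.goeMatrix g) i, 0)

/-! ## Tree side -/

/-- values of the potential -/
abbrev J : Type := Set.Icc (-1 : ℝ) 1

/-- `0 : J` -/
def J0 : J := ⟨0, by constructor <;> norm_num⟩

/-- uniform law on `[-1, 1]` -/
def unifJ : Measure J := (2⁻¹ : NNReal) • Measure.comap Subtype.val (volume : Measure ℝ)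

/-- the two admissible disorder laws -/
def Adm (s : ℝ) (β : Measure J) : Prop := β = Measure.dirac J0 ∨ (0 < s ∧ β = unifJ)

/-- potential on the rooted `D`-ary tree (first letter = first step from the root) -/
abbrev Env (D : ℕ) : Type := List (Fin D) → J

def Env.sub {D : ℕ} (c : Fin D) (e : Env D) : Env D := fun l => e (c :: l)

def comb {D : ℕ} (v : J) (f : Fin D → Env D) : Env D
  | [] => v
  | c :: l => f c l

def envLaw (D : ℕ) (β : Measure J) : Measure (Env D) := Measure.infinitePi fun _ => β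

/-- potential at a vertex and the `D + 1` incoming environments -/
abbrev StarEnv (D : ℕ) : Type := J × (Fin (D + 1) → Env D)

def starLaw (D : ℕ) (β : Measure J) : Measure (StarEnv D) :=
  β.prod (Measure.pi fun _ => envLaw D β)

/-- outgoing environment through port `j` -/
def outEnv {D : ℕ} (σ : StarEnv D) (j : Fin (D + 1)) : Env D :=
  comb σ.1 fun c => σ.2 (j.succAbove c)

/-- depth-`k` cavity Green function -/
def mk {D : ℕ} (s : ℝ) (z : ℂ) : ℕ → Env D → ℂ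
  | 0, _ => 0
  | k + 1, e => 1 / (((s * (e [] : ℝ) : ℝ) : ℂ) - z - ∑ c, mk s z k (e.sub c))

/-- cavity Green function of the infinite tree, `Im z > 0` -/
def mT {D : ℕ} (s : ℝ) (z : ℂ) (e : Env D) : ℂ := limUnder atTop fun k => mk s z k e

/-- `E + 2^{-j} i` -/
def zj (E : ℝ) (j : ℕ) : ℂ := E + ((2⁻¹ : ℝ) ^ j : ℝ) * Complex.I

/-- boundary value of the cavity Green function -/
def m0 {D : ℕ} (s E : ℝ) (e : Env D) : ℂ := limUnder atTop fun j => mT s (zj E j) e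

/-- Green matrix of an edge with cavity values `m`, `m'`: `[[1/m, 1], [1, 1/m']]⁻¹` -/
def gE (m m' : ℂ) : Fin 2 → Fin 2 → ℂ := fun b c =>
  (if b = c then (if b = 0 then m else m') else -(m * m')) / (1 - m * m')

/-- Green function at the centre of a star -/
def gO {D : ℕ} (t z : ℂ) (m : Fin (D + 1) → ℂ) : ℂ := 1 / (t - z - ∑ j, m j)

/-- Green matrix of a star (`none` = centre, potential `t`; incoming cavity values `m`) -/
def gC {D : ℕ} (t z : ℂ) (m : Fin (D + 1) → ℂ) : Option (Fin (D + 1)) → Option (Fin (D + 1)) → ℂ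
  | none, none => gO t z m
  | none, some j => -(m j * gO t z m)
  | some i, none => -(m i * gO t z m)
  | some i, some j => (if i = j then m i else 0) + m i * m j * gO t z m

/-- lower-triangular Cholesky factor of a `2 × 2` positive definite matrix -/
def chol (S : Matrix (Fin 2) (Fin 2) ℝ) : Matrix (Fin 2) (Fin 2) ℝ :=
  !![√(S 0 0), 0; S 1 0 / √(S 0 0), √(S 1 1 - S 1 0 ^ 2 / S 0 0)]

/-- density of states at `E` -/
def rho (D : ℕ) (s : ℝ) (β : Measure J) (E : ℝ) : ℝ :=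
  (∫ e, (gE (m0 s E e.1) (m0 s E e.2) 0 0).im ∂((envLaw D β).prod (envLaw D β))) / Real.pi

/-- what the other parts need to know about the tree at energy `E` -/
def TreeOK (D : ℕ) (s : ℝ) (β : Measure J) (E : ℝ) : Prop :=
  (∀ᵐ e ∂(envLaw D β), Tendsto (fun j => mT s (zj E j) e) atTop (𝓝 (m0 s E e)) ∧
      0 < (m0 s E e).im) ∧
    Integrable (fun e : Env D × Env D => (gE (m0 s E e.1) (m0 s E e.2) 0 0).im)
      ((envLaw D β).prod (envLaw D β)) ∧
    0 < rho D s β E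

/-- clean boundary value `(-E + i √(4D - E²)) / (2D)` -/
def mc (D : ℕ) (E : ℝ) : ℂ := (-E + √(4 * D - E ^ 2) * Complex.I) / (2 * D)

/-- reference pair for the cavity recursion -/
structure Ref (D : ℕ) (c₀ : ℝ) (z m : ℂ) : Prop where
  eqn : D * m ^ 2 + z * m + 1 = 0
  zim : 0 ≤ z.im
  mim : c₀ ≤ m.im
  nsq : D * ‖m‖ ^ 2 ≤ 1
  gap : c₀ ≤ ‖1 - D * m ^ 2‖

/-- bounded coordinate in which the one-child map is `ζ ↦ m² ζ` -/
def zeta (m M : ℂ) : ℂ := (M - m) / (M - 1 / m)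

/-- cavity recursion with perturbation `t` -/
def recF {D : ℕ} (z t : ℂ) (M : Fin D → ℂ) : ℂ := -1 / (z + t + ∑ c, M c)

/-! ## Graph side -/

/-- half-edges -/
abbrev HE (n D : ℕ) : Type := Fin n × Fin (D + 1)

/-- simple pairings of the half-edges -/
def IsSP {n D : ℕ} (π : Equiv.Perm (HE n D)) : Prop :=
  (∀ h, π (π h) = h) ∧ (∀ h, (π h).1 ≠ h.1) ∧ ∀ x i j, (π (x, i)).1 = (π (x, j)).1 → i = j

def Pairing (n D : ℕ) : Type := {π : Equiv.Perm (HE n D) // IsSP π}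

instance (n D : ℕ) : Fintype (Pairing n D) := by unfold Pairing; classical infer_instance
instance (n D : ℕ) : DecidableEq (Pairing n D) := by classical infer_instance
instance (n D : ℕ) : MeasurableSpace (Pairing n D) := ⊤
instance (n D : ℕ) : DiscreteMeasurableSpace (Pairing n D) := ⟨fun _ => trivial⟩

/-- uniform average over a finite type (`0` if empty) -/
def avg {A : Type} [Fintype A] (f : A → ℝ) : ℝ := (∑ a, f a) / Fintype.card A

open Classical in
/-- proportion of a finite type satisfying a predicate -/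
def frac {A : Type} [Fintype A] (P : A → Prop) : ℝ := avg fun a => if P a then 1 else 0

abbrev Om (n D : ℕ) : Type := Pairing n D × (Fin n → J)

/-- uniform simple pairing and independent potentials (the zero measure if there is no pairing) -/
def POm (n D : ℕ) (β : Measure J) : Measure (Om n D) :=
  (uniformOn (Set.univ : Set (Pairing n D))).prod (Measure.pi fun _ => β)

def adj {n D : ℕ} (π : Equiv.Perm (HE n D)) : Matrix (Fin n) (Fin n) ℝ :=
  Matrix.of fun x y => ∑ i, if (π (x, i)).1 = y then 1 else 0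

def ham {n D : ℕ} (s : ℝ) (π : Equiv.Perm (HE n D)) (ω : Fin n → J) : Matrix (Fin n) (Fin n) ℝ :=
  adj π + diagonal fun x => s * (ω x : ℝ)

/-- vertex reached from the vertex of `h` by a non-backtracking word (away from `π h`) -/
def vtx {n D : ℕ} (π : Equiv.Perm (HE n D)) : HE n D → List (Fin D) → Fin n
  | h, [] => h.1
  | h, c :: l => vtx π (π (h.1, h.2.succAbove c)) l

def envH {n D : ℕ} (π : Equiv.Perm (HE n D)) (ω : Fin n → J) (h : HE n D) : Env D :=
  fun l => ω (vtx π h l)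

def starH {n D : ℕ} (π : Equiv.Perm (HE n D)) (ω : Fin n → J) (x : Fin n) : StarEnv D :=
  (ω x, fun i => envH π ω (π (x, i)))

/-- the two ends of the edge of `h` -/
def ends {n D : ℕ} (π : Equiv.Perm (HE n D)) (h : HE n D) : Fin 2 → Fin n :=
  fun b => if b = 0 then h.1 else (π h).1

/-- the centre and the neighbours -/
def starV {n D : ℕ} (π : Equiv.Perm (HE n D)) (x : Fin n) : Option (Fin (D + 1)) → Fin n
  | none => x
  | some i => (π (x, i)).1

/-- the universal cover is injective up to depth `k + 1` around `x` -/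
def TreeLike {n D : ℕ} (π : Equiv.Perm (HE n D)) (x : Fin n) (k : ℕ) : Prop :=
  (∀ i (l : List (Fin D)), l.length ≤ k → vtx π (π (x, i)) l ≠ x) ∧
    ∀ i i' (l l' : List (Fin D)), l.length ≤ k → l'.length ≤ k →
      vtx π (π (x, i)) l = vtx π (π (x, i')) l' → i = i' ∧ l = l'

/-- the simple graph of a pairing -/
def graphOf {n D : ℕ} (π : Pairing n D) : SimpleGraph (Fin n) where
  Adj x y := ∃ i, (π.1 (x, i)).1 = y
  symm := ⟨by
    rintro x y ⟨i, rfl⟩
    exact ⟨(π.1 (x, i)).2, by rw [Prod.mk.eta, π.2.1]⟩⟩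
  loopless := ⟨by
    rintro x ⟨i, h⟩
    exact π.2.2.1 (x, i) h⟩

/-- conjugating a pairing by a permutation of the half-edges (a switching) -/
def conjP {n D : ℕ} (τ π : Equiv.Perm (HE n D)) : Equiv.Perm (HE n D) := τ * π * τ⁻¹

open Classical in
/-- switch by `τ` if the result is simple, else do nothing -/
def switchP {n D : ℕ} (τ : Equiv.Perm (HE n D)) (π : Pairing n D) : Pairing n D :=
  if h : IsSP (conjP τ π.1) then ⟨conjP τ π.1, h⟩ else π

/-- (O1) local law for the Green matrix of a uniform edge at `η = K / n` -/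
def LocLaw (D : ℕ) (s : ℝ) (β : Measure J) (E : ℝ) : Prop :=
  ∀ ε : ℝ, 0 < ε → ∃ (K₀ : ℝ) (j₀ : ℕ), ∀ K : ℝ, K₀ ≤ K → 0 < K → ∀ j, j₀ ≤ j → ∀ᶠ n in atTop,
    POm n D β {o | ε < frac fun h : HE n D => ∃ b c,
      ε < ‖res (ham s o.1.1 o.2) (E + (K / n : ℝ) * Complex.I) (ends o.1.1 h b) (ends o.1.1 h c) -
        gE (mT s (zj E j) (envH o.1.1 o.2 h)) (mT s (zj E j) (envH o.1.1 o.2 (o.1.1 h))) b c‖} ≤
      ENNReal.ofReal ε

/-- (O2a) uniform integrability of the squares of window eigenvectors -/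
def UIEig (D : ℕ) (s : ℝ) (β : Measure J) (E : ℝ) : Prop :=
  ∀ R ε : ℝ, 0 < ε → ∃ L : ℝ, ∀ᶠ n in atTop,
    POm n D β {o | ∃ X : Fin 1 → Fin n → ℝ, EigSys (ham s o.1.1 o.2) E R 1 X ∧
      ε < avg fun x => if L < X 0 x ^ 2 then X 0 x ^ 2 else 0} ≤ ENNReal.ofReal ε

/-- (O2b) local law for the imaginary part of the trace -/
def TrLaw (D : ℕ) (s : ℝ) (β : Measure J) (E : ℝ) : Prop :=
  ∀ ε : ℝ, 0 < ε → ∃ K₀ : ℝ, ∀ K : ℝ, K₀ ≤ K → 0 < K → ∀ᶠ n in atTop,
    POm n D β {o | ε < |(avg fun x =>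
      (res (ham s o.1.1 o.2) (E + (K / n : ℝ) * Complex.I) x x).im) - Real.pi * rho D s β E|} ≤
      ENNReal.ofReal ε

/-- the Gaussian wave on an edge: environments and `p` independent copies with covariance
`Im gE / (π ρ)` -/
def waveInt (D : ℕ) (s : ℝ) (β : Measure J) (E : ℝ) (p : ℕ)
    (f : (Env D × Env D) × (Fin 2 × Fin p → ℝ) → ℝ) : ℝ :=
  ∫ e, ∫ g, f (e, fun q => (∑ c, chol (imM (gE (m0 s E e.1) (m0 s E e.2))) q.1 c * g (c, q.2)) /
      √(Real.pi * rho D s β E)) ∂(gpi (Fin 2 × Fin p)) ∂((envLaw D β).prod (envLaw D β))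

/-- (BF) quenched Gaussianity of window eigenvectors on a uniform edge -/
def GaussEig (D : ℕ) (s : ℝ) (β : Measure J) (E : ℝ) : Prop :=
  ∀ (p : ℕ) (R : ℝ) (f : (Env D × Env D) × (Fin 2 × Fin p → ℝ) →ᵇ ℝ) (ε : ℝ), 0 < ε →
    ∀ᶠ n in atTop, POm n D β {o | ∃ X : Fin p → Fin n → ℝ, EigSys (ham s o.1.1 o.2) E R p X ∧
      ε < |(avg fun h : HE n D => f ((envH o.1.1 o.2 h, envH o.1.1 o.2 (o.1.1 h)),
        fun q => X q.2 (ends o.1.1 h q.1))) - waveInt D s β E p f|} ≤ ENNReal.ofReal ε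

/-- sizes carrying a simple pairing -/
abbrev Idx (D : ℕ) : Type := {n : ℕ // Nonempty (Pairing n D)}

def FI (D : ℕ) : Filter (Idx D) := Filter.comap Subtype.val atTop

/-- unfolded eigenvalues `n ρ (λ - E)` -/
def xH {n D : ℕ} (s E ρ : ℝ) (o : Om n D) : Fin n → ℝ :=
  fun i => n * ρ * (evs (ham s o.1.1 o.2) i - E)

/-- the regularising shift `Re Σ 1/(x - iK)` -/
def aK {n : ℕ} (K : ℝ) (x : Fin n → ℝ) : ℝ := (sF (x, 0) (K * Complex.I)).re

/-- the graph family, indexed by the regularisation scale `K + 1` and the size -/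
def graphFam (D : ℕ) (s : ℝ) (β : Measure J) (E : ℝ) (i : ℕ × Idx D) : Measure (Conf i.2.1) :=
  (POm i.2.1 D β).map fun o =>
    (xH s E (rho D s β E) o, aK ((i.1 : ℝ) + 1) (xH s E (rho D s β E) o))

/-- `K → ∞` after `n → ∞` -/
def FG (D : ℕ) : Filter (ℕ × Idx D) := (atTop : Filter ℕ).curry (FI D)

end

end Crest.Agent.R166
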