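import Crest.Agent.R166.Gauss
import Crest.Agent.R166.Mob
import Crest.Agent.R166.Spec
import Crest.Agent.R166.E.Goe1

/-! # The GOE family: measurability, Laplace functional -/

set_option autoImplicit false
set_option linter.unusedVariables false
set_option linter.unusedSectionVars false

open MeasureTheory ProbabilityTheory Filter Topology Matrix
open scoped ENNReal BoundedContinuousFunction

namespace Crest.Agent.R166

open Crest.ProbabilityR.RandomMatrix in
theorem goe_cont (n : ℕ) : Continuous fun g : GOEDisorder n =>
    ((fun i => n / Real.pi * evs (goeMatrix g) i, 0) : Conf n) := by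
  have h : Continuous fun g : GOEDisorder n => evs (goeMatrix g) :=
    continuous_evs (continuous_matrix continuous_goeMatrix) fun g =>
      Matrix.IsSymm.ext fun i j => herm_symm (goeMatrix_herm g) j i
  exact (continuous_pi fun i => continuous_const.mul ((continuous_apply i).comp h)).prodMk
    continuous_const

theorem goe_isFam : IsFam (fun n : ℕ => n) goeFam := by
  intro n
  refine ⟨Measure.isProbabilityMeasure_map (goe_cont n).measurable.aemeasurable, ?_⟩
  have hs : MeasurableSet {p : Conf n | Monotone p.1} := by
    have : {p : Conf n | Monotone p.1} = ⋂ a, ⋂ b, ⋂ _ : a ≤ b, {p : Conf n | p.1 a ≤ p.1 b} := by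
      ext p
      simp only [Set.mem_ofPred_eq, Set.mem_iInter]
      exact Iff.rfl
    rw [this]
    exact MeasurableSet.iInter fun a => MeasurableSet.iInter fun b => MeasurableSet.iInter fun _ =>
      measurableSet_le (by fun_prop) (by fun_prop)
  refine (ae_map_iff (goe_cont n).measurable.aemeasurable hs).2 (Eventually.of_forall fun g => ?_)
  intro a b hab
  exact mul_le_mul_of_nonneg_left (evs_mono _ hab) (by positivity)

open Crest.ProbabilityR.RandomMatrix in
theorem goe_lap (n : ℕ) {h : ℝ → ℝ} (hc : Continuous h) :
    lap (goeFam n) h = ∫ g, goeLaplaceWeight g (unfoldAt h (n / Real.pi) 0) ∂goeDisorderLaw n := by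
  have hf : Continuous fun p : Conf n => Real.exp (-∑ i, h (p.1 i)) := by fun_prop
  rw [lap, goeFam, integral_map (goe_cont n).measurable.aemeasurable hf.aestronglyMeasurable]
  refine integral_congr_ae (Eventually.of_forall fun g => ?_)
  have := sum_evs (goeMatrix_herm g) (unfoldAt h (n / Real.pi) 0)
  simp only [unfoldAt, sub_zero] at this
  simp only [goeLaplaceWeight, laplaceWeight, unfoldAt, sub_zero, this]

end Crest.Agent.R166
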