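import Crest.Agent.R166.E0
import Crest.Agent.R166.E.Goe2

/-! # GOE: loop equation and (H0) -/

set_option autoImplicit false
set_option linter.unusedVariables false
set_option linter.unusedSectionVars false

open MeasureTheory ProbabilityTheory Filter Topology Matrix
open scoped ENNReal BoundedContinuousFunction

namespace Crest.Agent.R166

theorem sF_evs {n : ℕ} {H : Matrix (Fin n) (Fin n) ℝ} (hH : H.IsHermitian) {s : ℝ} (hs : 0 < s)
    {w : ℂ} (hw : w.im ≠ 0) :
    sF ((fun i => s * evs H i, 0) : Conf n) w = (s : ℂ)⁻¹ * (res H ((s : ℂ)⁻¹ * w)).trace := by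
  have hs' : (s : ℂ) ≠ 0 := by exact_mod_cast hs.ne'
  have hz : ((s : ℂ)⁻¹ * w).im ≠ 0 := by
    rw [← Complex.ofReal_inv, Complex.im_ofReal_mul]
    exact mul_ne_zero (inv_ne_zero hs.ne') hw
  rw [trace_res_evs (Matrix.IsSymm.ext fun i j => herm_symm hH j i) hz, sF, Finset.mul_sum]
  simp only [Complex.ofReal_zero, sub_zero]
  refine Finset.sum_congr rfl fun i _ => ?_
  have h1 := real_sub_ne hz (evs H i)
  have h2 : ((s * evs H i : ℝ) : ℂ) - w = s * ((evs H i : ℂ) - (s : ℂ)⁻¹ * w) := by
    push_cast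
    field_simp
  rw [h2, one_div, one_div, mul_inv]

open Crest.ProbabilityR.RandomMatrix in
/-- the law of the unfolded eigenvalues in terms of `symG` -/
theorem goeFam_eq (n : ℕ) : goeFam n = (gpi (Fin n × Fin n)).map fun X =>
    ((fun i => n / Real.pi * evs (symG (gc n) X) i, 0) : Conf n) := by
  rw [goeFam, ← (mp_goeT n).map_eq, Measure.map_map (goe_cont n).measurable (mp_goeT n).measurable]
  congr 1
  funext X
  simp only [Function.comp, goeMatrix_goeT]

theorem goe_cont' (n : ℕ) : Continuous fun X : Fin n × Fin n → ℝ =>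
    ((fun i => n / Real.pi * evs (symG (gc n) X) i, 0) : Conf n) := by
  have h : Continuous fun X : Fin n × Fin n → ℝ => evs (symG (gc n) X) :=
    continuous_evs (continuous_matrix (continuous_symG _)) fun g =>
      Matrix.IsSymm.ext fun i j => herm_symm (symG_herm _ g) j i
  exact (continuous_pi fun i => continuous_const.mul ((continuous_apply i).comp h)).prodMk
    continuous_const

theorem goe_H0 : H0 atTop (fun n : ℕ => n) goeFam := by
  intro ε hε
  have hπ := Real.pi_pos
  have hπ3 := Real.pi_gt_three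
  refine ⟨max 1 (5216 / ε ^ 3), fun K hK hK0 => ?_⟩
  have hK1 : 1 ≤ K := (le_max_left _ _).trans hK
  have hK2 : 5216 / ε ^ 3 ≤ K := (le_max_right _ _).trans hK
  have ht : Tendsto (fun n : ℕ => Real.pi * K / n) atTop (𝓝 0) :=
    tendsto_const_div_atTop_nhds_zero_nat _
  filter_upwards [ht.eventually (gt_mem_nhds (show (0 : ℝ) < min (1 / 2) (ε / (4 * Real.pi)) by
    positivity)), eventually_gt_atTop 0] with n hn hn0
  have hnR : (0 : ℝ) < n := by exact_mod_cast hn0
  have : Nonempty (Fin n) := ⟨⟨0, hn0⟩⟩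
  set z : ℂ := ((n / Real.pi : ℝ) : ℂ)⁻¹ * (K * Complex.I) with hz
  have hzeq : z = ((Real.pi * K / n : ℝ) : ℂ) * Complex.I := by
    rw [hz, ← Complex.ofReal_inv, ← mul_assoc, ← Complex.ofReal_mul]
    congr 2
    field_simp
  have hzim : z.im = Real.pi * K / n := by rw [hzeq, Complex.im_ofReal_mul, Complex.I_im, mul_one]
  have hzpos : 0 < z.im := by rw [hzim]; positivity
  have hzn : ‖z‖ = Real.pi * K / n := by
    rw [hzeq, norm_mul, Complex.norm_I, mul_one, Complex.norm_real, Real.norm_eq_abs,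
      abs_of_pos (by positivity)]
  have hz1 : ‖z‖ ≤ 1 / 2 := by rw [hzn]; exact (hn.trans_le (min_le_left _ _)).le
  have hz2 : ‖z‖ ≤ ε / (4 * Real.pi) := by rw [hzn]; exact (hn.trans_le (min_le_right _ _)).le
  have hNz : (Fintype.card (Fin n) : ℝ) * z.im = Real.pi * K := by
    rw [hzim, Fintype.card_fin]; field_simp
  have hloop := goe_loop (ι := Fin n) (c := gc n) (z := z) (by rw [gc_sq, Fintype.card_fin]) hzpos
    (by linarith) (by rw [hNz]; nlinarith)
  rw [hNz] at hloop
  have hwim : ((K : ℂ) * Complex.I).im ≠ 0 := by simpa using hK0.ne'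
  have hms : MeasurableSet {p : Conf n | ε < ‖sF p (K * Complex.I) - Real.pi * Complex.I‖} :=
    measurableSet_lt measurable_const ((continuous_sF hwim).sub continuous_const).norm.measurable
  rw [goeFam_eq, Measure.map_apply (goe_cont' n).measurable hms]
  have cP := continuous_PS (ι := Fin n) (c := gc n) hzpos.ne'
  have iP : Integrable (fun X : Fin n × Fin n → ℝ => ‖PS (gc n) z X‖ ^ 2) (gpi (Fin n × Fin n)) :=
    goe_integrable_bdd (cP.norm.pow 2).aestronglyMeasurable
      (C := (1 + ‖z‖ * |z.im|⁻¹ + |z.im|⁻¹ ^ 2) ^ 2) fun X => by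
        rw [Real.norm_eq_abs, abs_of_nonneg (by positivity)]
        gcongr
        exact norm_PS_le hzpos.ne' X
  have hsub : (fun X : Fin n × Fin n → ℝ =>
      ((fun i => n / Real.pi * evs (symG (gc n) X) i, 0) : Conf n)) ⁻¹'
      {p : Conf n | ε < ‖sF p (K * Complex.I) - Real.pi * Complex.I‖} ⊆
      {X | (ε / (4 * Real.pi)) ^ 2 ≤ ‖PS (gc n) z X‖ ^ 2} := by
    intro X hX
    simp only [Set.mem_preimage, Set.mem_ofPred_eq] at hX ⊢
    rw [sF_evs (symG_herm _ X) (by positivity) hwim, ← hz] at hX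
    have e : ((n / Real.pi : ℝ) : ℂ)⁻¹ * (res (symG (gc n) X) z).trace - Real.pi * Complex.I =
        Real.pi * (mS (gc n) z X - Complex.I) := by
      rw [mS, Fintype.card_fin]
      push_cast
      rw [inv_div, div_eq_mul_inv]
      ring
    rw [e, norm_mul, Complex.norm_real, Real.norm_eq_abs, abs_of_pos hπ] at hX
    have h1 := norm_mS_sub_I (c := gc n) hzpos hz1 X
    have h2 : ε / (4 * Real.pi) ≤ ‖PS (gc n) z X‖ := by
      have h3 : ε / Real.pi < ‖mS (gc n) z X - Complex.I‖ := by rwa [div_lt_iff₀' hπ]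
      have h4 : ε / Real.pi = 4 * (ε / (4 * Real.pi)) := by field_simp
      linarith
    gcongr
  refine (measure_mono hsub).trans ?_
  have hm := mul_meas_ge_le_integral_of_nonneg (Eventually.of_forall fun X => by positivity) iP
    ((ε / (4 * Real.pi)) ^ 2)
  rw [← ofReal_measureReal]
  refine ENNReal.ofReal_le_ofReal ?_
  have hpos : 0 < (ε / (4 * Real.pi)) ^ 2 := by positivity
  refine le_of_mul_le_mul_left (hm.trans (hloop.trans ?_)) hpos
  rw [div_le_iff₀ (by positivity)]
  have e : (ε / (4 * Real.pi)) ^ 2 * ε * (Real.pi * K) ^ 2 = ε ^ 3 * K * K / 16 := by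
    field_simp
    norm_num
  rw [e]
  rw [div_le_iff₀ (by positivity)] at hK2
  have : ε ^ 3 * K ≤ ε ^ 3 * K * K := le_mul_of_one_le_right (by positivity) hK1
  linarith

end Crest.Agent.R166
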