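import Crest.Agent.R166.E.Goe4

/-! # GOE: exchangeable minors and (H1) -/

set_option autoImplicit false
set_option linter.unusedVariables false
set_option linter.unusedSectionVars false

open MeasureTheory ProbabilityTheory Filter Topology Matrix
open scoped ENNReal BoundedContinuousFunction

namespace Crest.Agent.R166

theorem goe_rotQ_mul {r : ℕ} (θ θ' : Fin r → ℝ) :
    (rotQ θ).mul (rotQ θ') = rotQ fun b => θ b + θ' b := by
  have hπ := Real.pi_ne_zero
  refine Quad.ext ?_ ?_ ?_ ?_ <;>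
  · simp only [Quad.mul, rotQ, Matrix.diagonal_mul_diagonal, Matrix.diagonal_add, Real.cos_add,
      Real.sin_add]
    congr 1
    funext b
    field_simp
    try ring

theorem goe_rotD_mul (r : ℕ) :
    (rotD r (Real.pi / 2)).mul (rot1 (0 : Fin (r + 2))) = rot1 (1 : Fin (r + 2)) := by
  rw [rotD, rot1, goe_rotQ_mul, rot1]
  congr 1
  funext b
  by_cases h0 : b = 0
  · subst h0
    simp
  · by_cases h1 : b = 1 <;> simp [h0, h1]

theorem goe_mob_cSieg {r : ℕ} {q : Quad r} (h : q.IsSymp) {Z : Jet r} (hZ : Z ∈ cSieg r) :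
    mob q Z ∈ cSieg r := by
  by_cases h1 : Z ∈ Sieg r
  · exact Sieg_subset_cSieg r (mob_mem_Sieg h h1)
  · exact (mob_bdry h hZ h1).1

theorem goe_testFn_mul {r k : ℕ} {q q' : Quad r} (h : q.IsSymp) (h' : q'.IsSymp)
    {φ : (Fin k → Jet r) → ℝ} (hφ : TestFn φ) {Z : Fin k → Jet r} (hZ : ∀ j, Z j ∈ cSieg r) :
    φ (fun j => mob q (mob q' (Z j))) = φ fun j => mob (q.mul q') (Z j) := by
  by_cases h1 : ∀ j, Z j ∈ Sieg r
  · simp only [mob_mul h h' (h1 _)]
  · push Not at h1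
    obtain ⟨j, hj⟩ := h1
    obtain ⟨-, -, K, -, hK, h0⟩ := hφ
    rw [h0 _ (fun i => goe_mob_cSieg h (goe_mob_cSieg h' (hZ i))) fun hm =>
        (mob_bdry h (mob_bdry h' (hZ j) hj).1 (mob_bdry h' (hZ j) hj).2).2 (hK _ hm j),
      h0 _ (fun i => goe_mob_cSieg (h.mul h') (hZ i)) fun hm =>
        (mob_bdry (h.mul h') (hZ j) hj).2 (hK _ hm j)]

theorem jetG_mem_cSieg' {n r : ℕ} (p : Conf n) (g : Fin r × Fin n → ℝ) {w : ℂ} (hw : 0 < w.im) :
    jetG p g w ∈ cSieg r :=
  jetV_mem_cSieg p _ _ (fun b c => by simp only [eq_comm]) hw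

theorem jetM_mem_cSieg {n r : ℕ} {t : ℝ} (ht : 0 < t) {H : Matrix (Fin n) (Fin n) ℝ}
    (hH : H.IsHermitian) (v : Fin r × Fin n → ℝ) {w : ℂ} (hw : 0 < w.im) :
    jetM t H v w ∈ cSieg r := by
  obtain ⟨U, -, h⟩ := jetM_eq_jetG (r := r) hH
  rw [h t⁻¹ t ht (inv_mul_cancel₀ ht.ne') v w hw]
  exact jetG_mem_cSieg' _ _ hw

theorem add_shJ_mem {r : ℕ} {Z : Jet r} (hZ : Z ∈ cSieg r) (b₀ : Fin r) {α : ℂ} (hα : 0 ≤ α.im)
    (β : ℂ) : Z + shJ b₀ α β ∈ cSieg r := by
  obtain ⟨h1, h2, h3⟩ := hZ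
  refine ⟨Matrix.IsSymm.ext fun b c => ?_, Matrix.IsSymm.ext fun b c => ?_, ?_⟩
  · have := h1.apply b c
    simp only [Matrix.of_apply] at this
    simp only [Matrix.of_apply, Prod.fst_add, Pi.add_apply, shJ, this, and_comm]
  · have := h2.apply b c
    simp only [Matrix.of_apply] at this
    simp only [Matrix.of_apply, Prod.fst_add, Prod.snd_add, Pi.add_apply, shJ, this, and_comm]
  · have e : imM (Z + shJ b₀ α β).1 =
        imM Z.1 + diagonal fun b => if b = b₀ then α.im else 0 := by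
      ext b c
      simp only [imM, Matrix.of_apply, Prod.fst_add, Pi.add_apply, shJ, Complex.add_im,
        Matrix.add_apply, Matrix.diagonal_apply]
      congr 1
      by_cases hb : b = b₀ <;> by_cases hc : c = b₀
      · simp [hb, hc]
      · simp [hb, hc, Ne.symm hc]
      · simp [hb, hc]
      · simp [hb, hc]
    rw [e]
    refine h3.add (Matrix.posSemidef_diagonal_iff.2 fun b => ?_)
    split_ifs
    · exact hα
    · exact le_rfl

theorem norm_shJ_le {r : ℕ} (b₀ : Fin r) (α β : ℂ) : ‖shJ b₀ α β‖ ≤ ‖α‖ + ‖β‖ := by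
  have h0 : 0 ≤ ‖α‖ + ‖β‖ := by positivity
  refine norm_prod_le_iff.2 ⟨?_, norm_prod_le_iff.2 ⟨?_, ?_⟩⟩
  · refine (pi_norm_le_iff_of_nonneg h0).2 fun b => (pi_norm_le_iff_of_nonneg h0).2 fun c => ?_
    simp only [shJ]
    split_ifs
    · exact le_add_of_nonneg_right (norm_nonneg _)
    · simpa using h0
  · refine (pi_norm_le_iff_of_nonneg h0).2 fun b => (pi_norm_le_iff_of_nonneg h0).2 fun c => ?_
    simp only [shJ]
    split_ifs
    · exact le_add_of_nonneg_left (norm_nonneg _)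
    · simpa using h0
  · simpa [shJ] using h0

theorem continuous_shJ {X : Type*} [TopologicalSpace X] {r : ℕ} (b₀ : Fin r) {α : X → ℂ}
    (hα : Continuous α) (β : ℂ) : Continuous fun x => shJ b₀ (α x) β := by
  refine Continuous.prodMk (continuous_pi fun b => continuous_pi fun c => ?_) continuous_const
  split_ifs
  · exact hα
  · exact continuous_const

/-- the exchange of the zeroth row of the matrix with two channels -/
def exch {m r : ℕ} (ω : GOm (m + 1) (r + 2)) : GOm (m + 1) (r + 2) :=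
  (fun p => if p.1 = 0 then ω.2 (1, p.2) else ω.1 p,
   fun q => if q.1 = 0 then ω.1 (0, q.2) else if q.1 = 1 then ω.2 (0, q.2) else ω.2 q)

theorem mp_exch (m r : ℕ) :
    MeasurePreserving (exch (m := m) (r := r)) (GP (m + 1) (r + 2)) (GP (m + 1) (r + 2)) := by
  let σ : (Fin (m + 1) × Fin (m + 1)) ⊕ (Fin (r + 2) × Fin (m + 1)) →
      (Fin (m + 1) × Fin (m + 1)) ⊕ (Fin (r + 2) × Fin (m + 1)) :=
    Sum.elim (fun p => if p.1 = 0 then Sum.inr (1, p.2) else Sum.inl p)
      (fun q => if q.1 = 0 then Sum.inl (0, q.2) else if q.1 = 1 then Sum.inr (0, q.2) else Sum.inr q)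
  let τ : (Fin (m + 1) × Fin (m + 1)) ⊕ (Fin (r + 2) × Fin (m + 1)) →
      (Fin (m + 1) × Fin (m + 1)) ⊕ (Fin (r + 2) × Fin (m + 1)) :=
    Sum.elim (fun p => if p.1 = 0 then Sum.inr (0, p.2) else Sum.inl p)
      (fun q => if q.1 = 0 then Sum.inr (1, q.2) else if q.1 = 1 then Sum.inl (0, q.2) else Sum.inr q)
  have hσ : Function.LeftInverse τ σ := by
    rintro (⟨a, b⟩ | ⟨a, b⟩)
    · by_cases h : a = 0 <;> simp [σ, τ, h]
    · by_cases h : a = 0
      · simp [σ, τ, h]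
      · by_cases h' : a = 1 <;> simp [σ, τ, h, h']
  have h := (mp_gpi_sum _ _).comp ((mp_gpi_inj σ hσ.injective).comp (mp_elim _ _))
  convert h using 1
  funext ω
  refine Prod.ext (funext fun p => ?_) (funext fun q => ?_)
  · simp only [exch, Function.comp, σ, Sum.elim_inl]
    split_ifs <;> rfl
  · simp only [exch, Function.comp, σ, Sum.elim_inr]
    split_ifs <;> rfl

open Crest.ProbabilityR.RandomMatrix in
theorem upG_herm {n : ℕ} (Y : Fin n × Fin n → ℝ) : (upG Y).IsHermitian := goeMatrix_herm _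

theorem continuous_upG {n : ℕ} (a b : Fin n) : Continuous fun Y : Fin n × Fin n → ℝ => upG Y a b :=
  (continuous_goeMatrix a b).comp (by fun_prop)

theorem upG_col {m : ℕ} (Y : Fin (m + 1) × Fin (m + 1) → ℝ) (a : Fin m) :
    upG Y a.succ 0 = Y (0, a.succ) / √(m + 1 : ℕ) := by
  simp [upG, Crest.ProbabilityR.RandomMatrix.goeMatrix]

theorem upG_zero {m : ℕ} (Y : Fin (m + 1) × Fin (m + 1) → ℝ) :
    upG Y 0 0 = √2 * Y (0, 0) / √(m + 1 : ℕ) := by
  simp [upG, Crest.ProbabilityR.RandomMatrix.goeMatrix]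

theorem exch_minor {m r : ℕ} (ω : GOm (m + 1) (r + 2)) :
    (upG (exch ω).1).submatrix Fin.succ Fin.succ = (upG ω.1).submatrix Fin.succ Fin.succ := by
  ext a b
  simp [upG, Crest.ProbabilityR.RandomMatrix.goeMatrix, exch]

theorem exch_chW {m r : ℕ} (ω : GOm (m + 1) (r + 2)) :
    chW √(m + 1 : ℕ) 1 (fun a => upG (exch ω).1 a.succ 0) (exch ω).2 =
      chW √(m + 1 : ℕ) 0 (fun a => upG ω.1 a.succ 0) ω.2 := by
  have hρ : (√(m + 1 : ℕ) : ℝ) ≠ 0 := by positivity
  funext ⟨b, a⟩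
  simp only [chW, upG_col, exch, if_true]
  by_cases h0 : b = 0
  · subst h0
    simp only [Fin.zero_ne_one, if_false, if_true]
    field_simp
  · by_cases h1 : b = 1
    · subst h1
      simp only [h0, if_false, if_true]
      field_simp
    · simp only [h0, h1, if_false]

theorem goe_swap {r k : ℕ} {w : Fin k → ℂ} (hw : ∀ j, 0 < (w j).im)
    {φ ψ : (Fin k → Jet (r + 2)) → ℝ} (hφ : TestFn φ)
    (hψ : ∀ Z, (∀ j, Z j ∈ cSieg (r + 2)) → ψ Z = φ fun j => mob (rotD r (Real.pi / 2)) (Z j)) :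
    Tendsto (fun m : ℕ => AG m 0 w ψ - AG m 1 w φ) atTop (𝓝 0) := by
  have hπ := Real.pi_pos
  have s0 : (rot1 (0 : Fin (r + 2))).IsSymp := rotQ_isSymp _
  have s1 : (rot1 (1 : Fin (r + 2))).IsSymp := rotQ_isSymp _
  have sD : (rotD r (Real.pi / 2)).IsSymp := rotQ_isSymp _
  obtain ⟨χ, ⟨hc, hs, -⟩, hχ⟩ := TestFn.pullback s1 hφ
  obtain ⟨C, hC⟩ := hc.bounded_above_of_compact_support hs
  simp only [Real.norm_eq_abs] at hC
  have hC0 : 0 ≤ C := (abs_nonneg _).trans (hC 0)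
  rw [Metric.tendsto_nhds]
  intro ε hε
  obtain ⟨δ, hδ, hδ1, hU⟩ := goe_unif hc hs (ε := ε / 2) (by positivity)
  have ht : ∀ a : ℝ, Tendsto (fun m : ℕ => a / (m + 1 : ℕ)) atTop (𝓝 0) := fun a =>
    (tendsto_add_atTop_iff_nat (f := fun n : ℕ => a / n) 1).2
      (tendsto_const_div_atTop_nhds_zero_nat _)
  filter_upwards [(ht (2 * C / (δ / (4 * Real.pi)) ^ 2 * 4)).eventually (gt_mem_nhds (half_pos hε)),
    (ht (2 * Real.pi * Real.pi * (‖w‖ + 1))).eventually (gt_mem_nhds (half_pos hδ))] with m hm hm'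
  have hn : (0 : ℝ) < (m + 1 : ℕ) := by positivity
  set t : ℝ := Real.pi / (m + 1 : ℕ) with htdef
  have ht0 : 0 < t := div_pos hπ hn
  have hρ : √(m + 1 : ℕ) * √(m + 1 : ℕ) * t = Real.pi := by
    rw [Real.mul_self_sqrt hn.le, htdef]; field_simp
  let Z0 : GOm (m + 1) (r + 2) → Fin k → Jet (r + 2) := fun ω j =>
    jetM t ((upG ω.1).submatrix Fin.succ Fin.succ)
      (chW √(m + 1 : ℕ) 0 (fun a => upG ω.1 a.succ 0) ω.2) (w j)
  have cZ : Continuous Z0 := by
    have c1 : Continuous fun ω : GOm (m + 1) (r + 2) =>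
        chW √(m + 1 : ℕ) 0 (fun a => upG ω.1 a.succ 0) ω.2 := by
      refine continuous_pi fun q => ?_
      unfold chW
      split_ifs
      · exact continuous_const.mul ((continuous_upG _ _).comp continuous_fst)
      · fun_prop
    have c2 : ∀ a b : Fin m, Continuous fun ω : GOm (m + 1) (r + 2) =>
        (upG ω.1).submatrix Fin.succ Fin.succ a b := fun a b =>
      (continuous_upG a.succ b.succ).comp continuous_fst
    exact continuous_pi fun j => continuous_jetM
      (H := fun ω : GOm (m + 1) (r + 2) => (upG ω.1).submatrix Fin.succ Fin.succ) ht0 c2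
      (fun ω => (upG_herm ω.1).submatrix _) c1 (hw j)
  have mem : ∀ (ω : GOm (m + 1) (r + 2)) (b : Fin (r + 2)) (a : ℝ) (j : Fin k),
      Z0 ω j + shJ b (Real.pi * (t * w j - a)) (Real.pi * t) ∈ cSieg (r + 2) := fun ω b a j =>
    add_shJ_mem (jetM_mem_cSieg ht0 ((upG_herm ω.1).submatrix _) _ (hw j)) b (by
      rw [Complex.im_ofReal_mul, Complex.sub_im, Complex.im_ofReal_mul, Complex.ofReal_im, sub_zero]
      exact mul_nonneg hπ.le (mul_nonneg ht0.le (hw j).le)) _
  have e0 : AG m 0 w ψ = ∫ ω, χ (fun j => Z0 ω j +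
      shJ 0 (Real.pi * (t * w j - upG ω.1 0 0)) (Real.pi * t)) ∂GP (m + 1) (r + 2) := by
    refine integral_congr_ae (Eventually.of_forall fun ω => ?_)
    simp only
    rw [hψ _ fun j => jetM_mem_cSieg ht0 (upG_herm ω.1) _ (hw j), hχ _ (mem ω 0 _)]
    simp only [pivot (upG_herm ω.1) 0 ht0 hρ ω.2 (hw _)]
    rw [← goe_rotD_mul]
    exact goe_testFn_mul sD s0 hφ (mem ω 0 _)
  have e1 : AG m 1 w φ = ∫ ω, χ (fun j => Z0 ω j +
      shJ 1 (Real.pi * (t * w j - upG (exch ω).1 0 0)) (Real.pi * t)) ∂GP (m + 1) (r + 2) := by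
    have c : Continuous fun ω : GOm (m + 1) (r + 2) =>
        φ (fun j => jetM t (upG ω.1) (chV √(m + 1 : ℕ) 1 ω.2) (w j)) :=
      hφ.1.comp (continuous_pi fun j => continuous_jetM ht0
        (fun a b => (continuous_upG a b).comp continuous_fst) (fun ω => upG_herm _)
        ((continuous_chV _ _).comp continuous_snd) (hw j))
    refine (goe_mp_integral (mp_exch m r) c.measurable).symm.trans ?_
    refine integral_congr_ae (Eventually.of_forall fun ω => ?_)
    simp only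
    rw [hχ _ (mem ω 1 _)]
    simp only [pivot (upG_herm (exch ω).1) 1 ht0 hρ (exch ω).2 (hw _), exch_minor, exch_chW]
    rfl
  have ce : Continuous (exch (m := m) (r := r)) := by
    refine Continuous.prodMk (continuous_pi fun p => ?_) (continuous_pi fun q => ?_) <;>
      split_ifs <;> fun_prop
  have c0 : Continuous fun ω : GOm (m + 1) (r + 2) => upG ω.1 0 0 :=
    (continuous_upG 0 0).comp continuous_fst
  have cS : ∀ (b : Fin (r + 2)) {a : GOm (m + 1) (r + 2) → ℝ}, Continuous a →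
      Continuous fun ω => χ (fun j => Z0 ω j +
        shJ b (Real.pi * (t * w j - a ω)) (Real.pi * t)) := fun b a ha =>
    hc.comp (continuous_pi fun j => ((continuous_apply j).comp cZ).add
      (continuous_shJ b (by fun_prop) _))
  have iT : Integrable (fun ω : GOm (m + 1) (r + 2) => upG ω.1 0 0 ^ 2) (GP (m + 1) (r + 2)) ∧
      ∫ ω : GOm (m + 1) (r + 2), upG ω.1 0 0 ^ 2 ∂GP (m + 1) (r + 2) = 2 / (m + 1 : ℕ) := by
    have e : ∀ Y : Fin (m + 1) × Fin (m + 1) → ℝ,
        upG Y 0 0 ^ 2 = 2 / (m + 1 : ℕ) * Y (0, 0) ^ 2 := fun Y => by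
      rw [upG_zero, div_pow, mul_pow, Real.sq_sqrt (by norm_num), Real.sq_sqrt hn.le]
      ring
    obtain ⟨h1, h2⟩ := goe_sq_coord (I := Fin (m + 1) × Fin (m + 1)) (0, 0)
    simp only [e]
    refine ⟨(measurePreserving_fst.integrable_comp_of_integrable h1).const_mul _, ?_⟩
    rw [integral_const_mul, goe_mp_integral measurePreserving_fst
      (F := fun Y : Fin (m + 1) × Fin (m + 1) → ℝ => Y (0, 0) ^ 2) (by fun_prop), h2, mul_one]
  have iT' : Integrable (fun ω : GOm (m + 1) (r + 2) => upG (exch ω).1 0 0 ^ 2)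
      (GP (m + 1) (r + 2)) := (mp_exch m r).integrable_comp_of_integrable iT.1
  have hI : ∫ ω : GOm (m + 1) (r + 2), (upG ω.1 0 0 ^ 2 + upG (exch ω).1 0 0 ^ 2)
      ∂GP (m + 1) (r + 2) = 4 / (m + 1 : ℕ) := by
    rw [integral_add iT.1 iT', goe_mp_integral (mp_exch m r)
      (F := fun ω : GOm (m + 1) (r + 2) => upG ω.1 0 0 ^ 2) (c0.pow 2).measurable, iT.2]
    ring
  have key := goe_close (P := GP (m + 1) (r + 2)) (cS 0 c0).measurable
    (cS 1 (c0.comp ce)).measurable (δ := δ / (4 * Real.pi)) (ε := ε / 2) (by positivity)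
    (by positivity) (fun ω => hC _) (fun ω => hC _) (iT.1.add iT')
    (fun ω => add_nonneg (sq_nonneg _) (sq_nonneg _)) (fun ω hω => by
      refine hU _ _ (le_trans ?_ (le_mul_of_one_le_right hδ.le (le_add_of_nonneg_right
        (norm_nonneg _))))
      refine (pi_norm_le_iff_of_nonneg hδ.le).2 fun j => ?_
      have hb : ∀ (b : Fin (r + 2)) (a : ℝ), a ^ 2 ≤ (δ / (4 * Real.pi)) ^ 2 →
          ‖shJ b (Real.pi * (t * w j - a)) (Real.pi * t)‖ ≤ δ / 2 := by
        intro b a ha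
        have h1 : |a| ≤ δ / (4 * Real.pi) := abs_le.2 (abs_le_of_sq_le_sq' ha (by positivity))
        have h2 : ‖(t : ℂ) * w j - a‖ ≤ t * ‖w‖ + δ / (4 * Real.pi) := by
          refine (norm_sub_le _ _).trans (add_le_add ?_ (by simpa using h1))
          rw [norm_mul, Complex.norm_real, Real.norm_eq_abs, abs_of_pos ht0]
          exact mul_le_mul_of_nonneg_left (norm_le_pi_norm w j) ht0.le
        refine (norm_shJ_le _ _ _).trans ?_
        rw [norm_mul, norm_mul, Complex.norm_real, Complex.norm_real, Real.norm_eq_abs,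
          Real.norm_eq_abs, abs_of_pos hπ, abs_of_pos ht0]
        have h3 := mul_le_mul_of_nonneg_left h2 hπ.le
        have h4 : Real.pi * (t * ‖w‖ + δ / (4 * Real.pi)) + Real.pi * t =
            2 * Real.pi * Real.pi * (‖w‖ + 1) / (m + 1 : ℕ) / 2 + δ / 4 := by
          rw [htdef]; field_simp; ring
        linarith
      simp only [Pi.add_apply] at hω
      rw [Pi.sub_apply, add_sub_add_left_eq_sub]
      refine (norm_sub_le _ _).trans ?_
      have h1 := hb 0 (upG ω.1 0 0) (by linarith [sq_nonneg (upG (exch ω).1 0 0)])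
      have h2 := hb 1 (upG (exch ω).1 0 0) (by linarith [sq_nonneg (upG ω.1 0 0)])
      simp only [Function.comp]
      linarith)
  rw [Real.dist_eq, sub_zero, e0, e1]
  refine key.trans_lt ?_
  simp only [Pi.add_apply]
  rw [hI]
  have h1 : 2 * C / (δ / (4 * Real.pi)) ^ 2 * (4 / (m + 1 : ℕ)) =
      2 * C / (δ / (4 * Real.pi)) ^ 2 * 4 / (m + 1 : ℕ) := by ring
  linarith

theorem goe_H1 : ∃ θ : ℝ, Real.sin θ ≠ 0 ∧ H1 atTop (fun n : ℕ => n) goeFam θ := by
  refine ⟨Real.pi / 2, by simp, fun r => ⟨r, le_rfl, fun k w hw φ hφ => ?_⟩⟩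
  obtain ⟨ψ, hψ, h⟩ := TestFn.pullback (q := rotD r (Real.pi / 2)) (rotQ_isSymp _) hφ
  have e : ∀ n, EG (goeFam n) (r + 2) w (fun Z => φ fun j => mob (rotD r (Real.pi / 2)) (Z j)) =
      EG (goeFam n) (r + 2) w ψ := fun n => by
    simp only [EG, h _ fun j => jetG_mem_cSieg' _ _ (hw j)]
  simp only [e]
  rw [← tendsto_add_atTop_iff_nat 1]
  have h1 := ((goe_approx 0 hw hψ.1 hψ.2.1).add (goe_swap hw hφ h)).sub
    (goe_approx 1 hw hφ.1 hφ.2.1)
  rw [add_zero, sub_zero] at h1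
  exact h1.congr fun m => by ring

end Crest.Agent.R166
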