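/-!
# Row 166: the whole proof in words  (names refer to `R166/Defs.lean`; `d = D + 1 ≥ 3`)

Overview.  `Main.lean` derives S0251, S0252 from: T (tree), G (pairing model), A (local law, UI),
B (eigenvectors are Gaussian waves), X (graph ⇒ H0, H1), E (GOE ⇒ H0, H1), C (H0, H1 ⇒ tails,
translation invariance, stationarity), D (uniqueness).  `P*` = measure of a possibly
non-measurable set (fine for upper bounds).  `C` = constants depending on `(D, c₀)` only unless said.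

## T.  Tree
T0a–e, see the task hints.  `Dm = m - 1/m`, `u = M - m`, `ζ = u/(u+Dm)`, `ζ(recF z t M) = m² f(Σu_c + t)`,
`f(u) = u/(u+Dm)`.
TAIL (internal to T).  `χ(M) = |M-m|²/Im M`.  (i) `M̄ = (ΣM_c + t)/D`: `χ(M̄) ≤ 2 avg χ(M_c) + 2|t|²/(D² Im M̄)`,
`1/Im M ≤ C(1+χ(M))`; `F = -1/(z + D M̄)`, `F - m = -Dm(M̄-m)/(z+DM̄)` (here `Dm` = `D·m`), `Im F ≥ D Im M̄/|z+DM̄|²`, so
`χ(F) ≤ χ(M̄) ≤ λ(1 + max χ(M_c))`.  (ii) a child is good if `|M_c - m| ≤ δ`.  One good child ⇒ `|F| ≤ L₀`.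
All but one good and the last `|M₁| ≤ L₀` ⇒ `χ(F) ≤ C₀`.  With `T(L) = P(χ > L)`, `S(L) = P(χ > L, |M| > L₀)`,
`τ = P(not good)`:  `S(L) ≤ D² τ T(L/λ - 1)`,  `T(L) ≤ D² τ T(L/λ - 1) + D S(L/λ - 1)` for `L ≥ C₀`
(left sides for the output law).  For an approximate fixed point use continuous sandwiches in the
variable `ζ`: `1/(1+χ) = q₊/(q₊ + |ζ|²|Dm|²)`, `q = Im((m - ζ/m)(1 - conj ζ))`, and `|M| > L₀ ⇔ |m - ζ/m| > L₀|1-ζ|`;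
losing a factor 2 in `L` each time.  Hence `T(C₀ Λ^k) ≤ (Cτ)^{k/2} + C_k ε'`, i.e. `T(L) ≤ C L^{-8} + small` if `τ ≤ τ₀`.
ENDO.  `Δ = ζ - ζ̃`.  `Δ' = m²[Σ Δ_c ρ_c ρ̃_c + (t - t̃) Dm/((U+t+Dm)(Ũ+t̃+Dm))]`, `ρ_c = (u_c+Dm)/(U+t+Dm)`,
`1 - ρ_c = (Σ_{c'≠c} u_{c'} + t)/(U+t+Dm)`, denominators `≥ c₀`.  On the event all `|u_c|,|ũ_c| ≤ Λ'`:
`|ρρ̃ - 1| ≤ C(P+P̃+PP̃)`, `P = Σ_{c'≠c} min(|u_{c'}|,Λ') + s₁` independent of `Δ_c`, `E(..)² ≤ mom` with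
`mom ≤ C(δ² + s₁² + L₁⁴τ + L₁^{-4}) + C(Λ')ε'` small uniformly in `Λ'` (TAIL).  Off the event probability `≤ CΛ'^{-8}+..`.
With `β = EΔ`, `δ₂ = E|Δ|²`: `c₀|β| ≤ C√(δ₂ mom) + Cσ + off + 2ε'`, `δ₂ ≤ (3/5)δ₂ + C|β|² + C mom δ₂ + Cσ² + off + ε'`.
tree_close.  `a(η) = E|ζ_{mz}(mT(E+iη))|²` is continuous in `η` (mT_lip), the law is an exact fixed point
(envLaw_split, mT_rec; `t = -s e[]`), ab_step ⇒ `c₀|b| ≤ C(a+s)`, `a ≤ C s²` as soon as `a ≤ a_*`;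
at `η₁` use mT_small; so `a(η) ≤ C s²` on `(0, η₁]` (no jump over `(Cs², a_*)`), then Markov, ref_band.
tree_ok.  endo with the pair `(mT z, mT z')` on the same environment (exact, every `ε`): `E|ζ-ζ'|² ≤ C|z - z'|²`
(reference `(E, mc E)`, `t = z - E - s e[]`).  Along `zj` this is summable ⇒ `ζ_j` converges a.e.; TAIL + Fatou:
the limit is interior, so `mT (zj) → m0 ∈ ℍ`, `E (1/Im)^4 ≤ C`; `|gE m m' 0 0| = 1/|1/m - m'| ≤ 1/Im m'`.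
`ρ > 0` since `Im gE > 0` a.e.   tree_dos.  `F(z) = E gE(mT z e, mT z e')₀₀` is uniformly continuous on
`{E² ≤ 4D-κ', 0 < η ≤ η₁}` (ζ-closeness + moments), so `Im F(E+iη) → πρ(E)` locally uniformly, `ρ` continuous.
`ν`: finite word tree `T_k` (Prelude words of length `≤ k`), `H_k(ω)`; `f ↦ E (f(H_k))_{oo}` positive functional
(rfc; continuity in `ω` via polynomial approximation) ⇒ Riesz measure `ν_k` on `[-(d+s), d+s]`, cluster point `ν`;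
moments: `(H_k^j)_{oo}` = sum over lazy walks for `k ≥ j`, independence gives treeMoment; Stieltjes:
`(H_k - z)⁻¹_{oo} = gO(mk's) → gO(mT's)`, and `E gO = F(z)` (gC_edge, starLaw_edge).  Stieltjes inversion on `U`.
bethe.  `Φ(z) = E log g + (d/2) E log(1 - m m')`.  For `z' → z` write `log(g'/g) = -log(1 - g(δz + Σδm_j))`,
`log((1-m₁'m₂')/(1-m₁m₂))`, expand to first order (real parts of `log(1+u) = u + O(u²)`, `|δm| ≤ |δz|/η²`);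
the `δm` terms cancel because `g = m̃_j/(1 - m̃_j m_j)` with `(m̃_j, m_j) ~ envLaw²` and by symmetry.
edge_const.  Tree = words without equal neighbours (first letter = first step), `ρ_a l = if head = a then tail else a::l`
(an involution), `θ_v w = v·w`.  `ω ~ infinitePi β`; in/out environments at `o` are `ω ∘ (injective path maps)`, jointly
of law starLaw.  `A(ω) = α(out₀, in₀)`; `A∘ρ_a` = head value at port `a`; so `A = A∘(ρ_aρ_b)^n`; approximate a bounded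
function of `A` by a cylinder function, far translates are independent ⇒ variance 0.
no_factor_eig.  Dirac case: `(d - E)u = 0`.  Uniform case: `U(v)(ω) = u₀(ω∘θ_v)`, `(H-E)U = 0`.  Take bounded cylinder
`u_k`, `‖u₀-u_k‖ ≤ δ`, `err = (𝓗-E)u_k`, `‖err‖ ≤ Cδ`.  `E_v` = integrate out coordinate `v` (commuting orthogonal
projections), `Q_v = 1 - E_v`, `T = Π_{v∈S}(1 - εQ_v)`.  Telescoping: `ε Σ_v ‖Q_v T^{≠v} F‖² ≤ ‖F‖² - ‖TF‖²`.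
`F(v) = T u_k∘θ_v` satisfies `(H-E)F(v) = T err∘θ_v + ε R_v`, `R_v = (V_v E_v - E_v V_v) T^{≠v}(u_k∘θ_v)`.
Resample `ω_o → t`: `D(v) = F(v)(ω) - F(v)(ω')` has finite support, `(H-E)D = cδ_o + D_o(T err) + εD_oR`,
`c = -s(ω_o - t)F(o)(ω')`.  Pair with `ψ = Gδ_o` (explicit: `g Π(-mT)`, `(H-z)ψ = δ_o`, `Σ|ψ|² ≤ Im g/η`), imaginary part:
`|c|√Im g ≤ √η‖D‖ + (‖D_oT err‖ + ε‖D_oR‖)/√η`.  Mass transport (`v ↦ v⁻¹`): `E‖D‖² = 2Σ_v‖Q_vTu_k‖² =: 2I`,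
`E‖D_oR‖² ≤ C s² I` (`‖T^{≠v}F‖ ≤ ‖TF‖/(1-ε)` inside `Q_o`), `E‖D_oT err‖² ≤ C δ²/ε`.  `η ≈ ε`: `E c² Im g ≤ C(εI + δ²/ε²)`,
`εI ≤ ‖u_k‖² - ‖Tu_k‖² ≤ C(δ' + ε C_{k'})` (compare with a fixed `u_{k'}`).  Let `δ → 0`, `ε = 2^{-j} → 0`: `(ω_o-t)u₀(ω') = 0` a.e.

## A.  Local law  (everything for FIXED `ω` except Wegner; `𝔼` = avg over `π`; `z = E+iη`, `K = nη`, `m = mz z`, `k = K^{-1/2}`)
`H_h = H - edgeM x y` (`x = h.1`, `y = (πh).1`), `𝐌_h` = block of `res H_h z` on `(x,y)`: `M_h` (xx), `ξ_h` (xy), `M_{πh}` (yy).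
Cpl(H,S,y,ε): `∀ q : complex, supported on S, |(Gq)_y|² ≤ ε η‖Gq‖²`  (`η‖Gq‖² = q*(Im G)q`).
(a) `B` real symmetric supported on `S×S` ⇒ Cpl(H,S,y,ε) → Cpl(H+B,S,y,ε): `G'q = G(q - BG'q)`.
(b) Cpl for `y,ε₁` and `y',ε₂` ⇒ `|G'_{yy'} - G_{yy'}|² ≤ ε₁ε₂`: `q = BG'δ_{y'}`, `ψ = Gq = (G-G')δ_{y'}`, `η‖ψ‖² = -Im⟨ψ,q⟩ =
 -Im⟨Gδ_{y'},q⟩ ≤ |(G conj q)_{y'}| ≤ √(ε₂η‖ψ‖²)`  (`⟨G'δ,BG'δ⟩` is real, `‖G conj q‖ = ‖Gq‖`).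
(c) `#{y | ¬Cpl(H,S,y,ε)} ≤ |S|/(ηε)`: `Π` = projection on `span{Gδ_x, x∈S}`, `|ψ_y|² ≤ ‖Πδ_y‖²‖ψ‖²`, `Σ_y‖Πδ_y‖² ≤ |S|`.
(d) Cpl(H,S,a,ε), Cpl(H,S,b,ε), `G_e = res(H - edgeM a b)`, `‖G_e‖_{ab block} ≤ L`, `εL ≤ 1/20`: `G_e = G + G_eΔG = G + GΔG_e` ⇒
 `η‖G_eq‖² = (1 ± 6Lε)η‖Gq‖²`, `|G_e - G|_{xy} ≤ 6Lε√(Y_xY_y)` on `S`, Cpl(H-edge,S,a or b,20εL²)   (`L ≥ 1`).
(e) Cpl(S,b,ε₁), Cpl(S,a,ε₂), `Im G_aa ≥ c ≥ 4ε₂`, `|G_ab| ≤ θ` ⇒ Cpl(S∪{a},b,4ε₁+4θ²/c): `η‖G(q+λδ_a)‖² ≥ A/2 + (c-2ε₂)|λ|²`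
 because `|(Yq)_a| ≤ √(ε₂A)`.
(f) `Im G ≥ c` on the block `S₂`, Cpl(S',y∈S₂,ε₂), `ε₂ ≤ c/64`, Cpl(S',x,ε), Cpl(S₂,x,ε) ⇒ Cpl(S'∪S₂,x,4ε).
 A good block has `Im G_ee ≥ c`: `Gq = G_h q̃`, `q = (1+σ𝐌)q̃`.
Schur: if row `o` of `H₀` is diagonal then `res(H₀ + Σ_{l∈I} edgeM o b_l) o o = 1/(V_o - z - Σ_{l,l'∈I} res H₀ b_l b_l')`.
`bad(h) = min(1,(max(|M_h-m|,|M_{πh}-m|,|ξ_h|)/δ - 1)₊)`, `τ̃ = avg bad`, good = `bad < 1`; `σ(L) = frac |M_h|>L`, `σ̄(L) = frac ‖𝐌_h‖>L ≤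
2σ(L)+c(θ)`, `c(θ) = frac |ξ_h|>θ`, `ϖ(Λ) = frac |M_hM_{πh}-1| < 1/Λ`, `a = avg|ζ(M_h)|²`, `b = avg ζ(M_h)`.
ST (stability under a star or edge switch, support `S`, `ε = k`): for `h` off `S` with Cpl at both ends and `‖𝐌_h‖ ≤ L` or
`‖𝐌'_h‖ ≤ L`: `‖𝐌'_h-𝐌_h‖ ≤ CεL²` ((d),(b), symmetric by (a)); the other `h` have fraction `≤ C/(Kε)`.  So `|τ̃'-τ̃| ≤ Ck/δ`, and averages of
bounded continuous functions of `M_h`'s move by `≤ ω(CεL²) + Cσ̄(L) + Ck`.   `χ` = Lipschitz function of `τ̃`, values in `[0,1]`, support in `τ̃ ≤ τ_*`.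
RB.  StarOK, `a_i,b_i,c_i` as in starPts, `β_i = πα_i`, `S_i = all points except a_i, b_i` (independent of `α_i`), `N' = res(H' - star at o)` on the `b`'s.
 Block `i` good + Cpl(H,S_i,a_i and b_i,ε₀) ⇒ Cpl(H_{α_i},S_i∪{a_i},b_i,ε₁) by (d),(e); `H' - star = H_{α_i} + B`, `B` on `S_i∪{a_i}`;
 (b),(a) ⇒ `Im Σ_{l,l'∈I}N' ≥ Im M_{β_i} - 2ε₁ ≥ c₀/4` for every `I ∋ i`.
R1.  `𝔼χσ(L₀) ≤ 𝔼χτ̃² + Ck` (avg_star; two blocks `≠ j`; both fail ⊂ both not good ∪ ¬Cpl).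
R2.  Edge switch `h₁,h₂`; `G₂ = res(H - e₁ - e₂)` is invariant, `b₁ ↔ b₂`.  `|G₂(a₁,b₂)|² ≤ CεL³` if (`‖𝐌₂‖ ≤ L`, `|M_{h₁}| ≤ L`) or
 (`‖𝐌₁‖ ≤ L`, `|M_{πh₂}| ≤ L`) plus Cpl's; `|G₂ - 𝐌₁| ≤ CεL²`-type on block 1 if `‖𝐌₂‖ ≤ L` and the diagonal of `𝐌₁` is `≤ L`.  Hence for `θ² ≥ CεL³`, `L ≥ L₀`:
 `𝔼χc(θ) ≤ 𝔼χ(cσ̄ + σ̄² + 4σ) + C_Lk` ⇒ `𝔼χc(θ) ≤ C𝔼χσ(L) + C_Lk`  (`σ̄(L) ≤ τ̃ ≤ τ_*`);  `𝔼χϖ(Λ₀) ≤ 𝔼χ(τ̃² + Cσ̄(L₀)) + Ck`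
 (`|MM'-1| ≥ Im M/|M|` if `M` is within `3δ` of `m`).
MC.  `G° = res(H - star at o - Σ edgeM a_i b_i)` is invariant under the star switch, `b ↔ c`.  b-side event: all `‖𝐌_{α_i}‖ ≤ L`, Cpl(H,S_i,·,ε),
 `|ξ_{α_i}| ≤ θ`, `|M_{α_i}M_{β_i}-1| ≥ 1/Λ`; it gives `G°` on block `i` `≈ 𝐌_{α_i}`, `|G°_{xy}|² ≤ CεL² Im G°_{yy}` (`x` in block `i`, `y ∈ S_i`).
 c-side conditions `|G°_{cc}| ≤ L+1`, `|G°_{c_lc_l'}| ≤ θ'`, `|G°_{aa}G°_{cc}-1| ≥ 1/(2Λ)` fail with the probability of their b-versions (avg_star).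
 On MC solve `u = G°δ_{b_l} - G°ΣΔ(a_i,c_i)u` on the `a,c` coordinates (2×2 systems): `|N' - diag M_β| ≤ C(L,Λ)θ'`.
 `P(χ, ¬MC) ≤ C𝔼χ(σ̄(L)+c(θ)+ϖ(Λ)) + C_Lk =: Fail`.
QREC.  `Φ = avg_h φ(h)`, `Ψ = avg_o avg_{β : Fin D → HE} φ(recF z (-sω_o) M_β)`, weight `w = χ·conj(Φ-Ψ)`: `𝔼wΦ = 𝔼[OK, w(π')φ'(o,j)] + O(1/n)`,
 `|w'-w|` by ST, `e = φ' - φ(recF)` is small on MC (zeta_pointwise 3) ⇒ `𝔼χ|Φ-Ψ|² ≤ C(𝔼χ|e|² + 𝔼χσ̄ + k)`.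
ONE.  `∀x |sω_x| ≤ s'`.  QREC for `ζ`, direct exchange for `|ζ|²`, ab_step, `a ≤ C(δ²+τ̃)`, `τ̃ ≤ Ca/δ² + c(θ)`:
 `𝔼χτ̃ ≤ C₁(δ) s'² 𝔼χ + C₂(δ,Lip χ) k` when `δ ≤ δ₀`, `τ_* ≤ τ₀(δ)`.
BOOT.  `χ` a bump on `[τ_*/4,τ_*]` ⇒ `P(τ̃ ∈ [τ_*/2,3τ_*/4]) ≤ Ck` if `s'² ≤ τ_*/(8C₁)`.  Scales `η_j = min(η₁,(K/n)(1-ε₀)^{-j})`; between neighbours
 `|Δ𝐌|_{xy} ≤ |Δη|√(Y_xY'_y/(ηη'))`, im_res_mono ⇒ `|Δτ̃| ≤ Cε₀/δ ≤ τ_*/4`.  Start at `η₁`: locality_unif, gC_edge, mT_small and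
 `(1 - gEσ)(𝐌 - diag(m,m')) = (G_e - gE)(1+σ𝐌)`, `(1-gEσ)⁻¹ = 1 + diag σ`; treeLike_mean.  So `P(∃j, τ̃(η_j) ≥ τ_*/2) ≤ CK^{-1/2}`.
ERR.  `Fail → 0` as `n, K → ∞` then `L,Λ → ∞`.  Dirac: `V = 0`, ONE with `s' = 0`, `L₀,Λ₀`.  Uniform: Wegner `M_h = 1/(sω_x - Q)`, `Q` free of `ω_x` (Schur):
 `E_ω σ(L) ≤ 1/(sL)`, same for `G_xx = M_h/((1+ξ)² - M_hM_{πh})`, which bounds `ϖ(Λ) ≤ σ(L)+c(1/Λ)+frac(|G_xx| ≥ Λ/(8L))`.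
LocLaw.  `m̃_h = mT s (zj E j) (envH h)`; QREC for `φ(ζ(M_h),ζ(m̃_h))`, reference `(E, mc E)`, `t = iη - sω_o`, `t̃ = i2^{-j} - sω_o` (`m̃` obeys the
 recursion exactly; mT_local + vtx_congr + card_sees_le + TreeLike.branch for `envH π' β_i` vs `envH π β_i` and for ST); endo (`δ ≤ δ_endo/4`,
 tree_close + env_lln_edge for `m̃`); TreeOK ⇒ `m̃` stays in a compact part of `ℍ` with probability `1-ε` uniformly in `j ≥ j₀`; the identity of BOOT.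
UI, Dirac.  `𝒢_K = {∀j, τ̃(η_j) ≤ K_j^{-2/5}}`, `P(𝒢ᶜ) ≤ CK^{-1/10}`.  `P(𝒢,|G_oo|>C₀)(1-C/n) ≤ P(OK, π'∈𝒢, |G'_oo|>C₀) ≤ P(τ̃ ≤ 2K_j^{-2/5}, blocks 0,1,2 all fail RB)
 ≤ τ³ + 3τq + 6q²`, `q = C/K_j` (all good: `U_{j|l} = ¬Cpl(S'∪block l, block j, ε₂)`, `P(U_{j|l} ∧ F_i) ≤ q²`, no `U` ⇒ ¬F by (f)).  NO additive `1/n`.
 `Y_K ≤ (K_j/K)Y_{K_j}`, `Y_K ≤ n/K`, dyadic sum: `𝔼[𝒢, avg Y_K 1(Y_K>L)] ≤ CL^{-1/5} + Cn^{-1/5}`.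
UI, uniform.  `Y = Im Q/|sω_o - Q|²`, `Q = z + ΣN`: `E[Y;Y>L] ≤ (π/2s)P(Im Q < 1/L)`; avg_star + MC + lower tail of `Im M_h` (from LocLaw's proof) give
 `P(Im Q_K < 1/L) ≤ ε` for `K ≥ K₀(ε)`; for smaller `K` use `Im Q_K ≥ (K/K')Im Q_{K'}`.
UIEig: `X(x)² ≤ 2K Y_K(x)` for `K ≥ R`.  TrLaw: `avg min(Y,L) ≈ avg min(Im gE₀₀(m̃,m̃'),L) ≈ E min(..) → πρ` plus UI uniformly in `K ≥ K₀`.

## B.  Entropy
Space `𝒮 = StarEnv × (Option (Fin d) × Fin p → ℝ)`, `μ(π,ω,X)` = law of `(starH x, X∘starV x)`, `x` uniform; `edge_j(σ,X) = ((outEnv σ j,σ.2 j),(X none,X (some j)))`,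
`ν_e = avg_j (edge_j)_*ν`.  B8: `𝒦 = {∫|X|² ≤ (d+1)p}` is compact (Prokhorov).  Call `ν` admissible if (c1) env marginal = starLaw, (c2) `ν_e` flip-symmetric,
(c3) `r(X) := ΣX_j + (sσ.1 - E)X_o = 0` a.e., (c4) `∫X_oX_oᵀ = 1`, (c5) `I_C ≥ (d/2) I_e` for all `(B, η = 2^{-j}, a>0)`.  Every non-admissible `ν` has a neighbourhood `W` with
`P*(∃X, μ∈W) → 0`, or [(c4)] `W` disjoint from `𝒦^J = {∫X_{o,i}²1(>L_l) ≤ 2^{-l}, l ≤ J}` with `limsup P*(μ∉𝒦^J) ≤ ε` for all `J` (UIEig with `ε2^{-l}`; use continuous cut-offs).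
Admissible ⇒ `∫f dν_e = waveInt f` (B7).  Cover `𝒦 ∩ {|∫f dμ_e - waveInt f| ≥ ε}` by finitely many `W`.
B1 (counting).  Finite `𝓛` (vertex labels, weights `w`, sum 1), `𝒜` (half-edge labels), `own : 𝓛×(Fin d → 𝒜) → Fin d → 𝒜`, stars `σ_x` with `σ_x.1 = lab x`,
 `σ_x.2 i = own σ_{(π(x,i)).1} (π(x,i)).2`.  Given `σ`, `#compatible π / #allPairings ≤ poly · exp(-(M/2)H(τ_e(σ)))`, `M = nd`: write `π = φ⁻¹ flip φ`,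
 `φ : HE ≃ Fin(M/2)×Bool` (fibres have equal size); number of label sequences of symmetrised type `τ_e` is `≤ e^{(M/2)H}` (weights `Πτ_e(c_i)` sum to 1), each has `Πn_{ab}!`
 bijections, `Πn_{ab}!/M! ≤ poly·e^{-MH}`.  With count_simple and a positive test law `q` on stars (`ΣΠq(σ_x) = 1`): the (uniform ⊗ w^n)-mass of `{type ε-close to τ}` is
 `≤ exp(n[H(τ) + E_τ log w - (d/2)H(τ_e) + o_ε(1)] + O(log n))`.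
 Labels at level `k`: cells of `J` with boundaries `1/3 + j2^{-k}` (β-null), messages = cells along words of length `< k`, cells of `ℝ^p` (dyadic cubes in `[-k,k]^p` + outer cell; nested).
B2.  `Σ = Im res H (E+iη) = LLᵀ` (spectral square root), `Y = √a X^B + Lξ` (`X^B` clipped).  `γ(𝒜) = E[1_𝒜(Y) e^{-|Y|²/2+|ξ|²/2}] det(L)^p`; Chebyshev for `|Y|²,|ξ|²` ⇒
 `γ(𝒜) ≥ ¼exp(-n(thr+ε))` if `P(Y∈𝒜) ≥ ½`, `thr = ½[aE_ν|X^B_o|² + pE Im g - p - p(log η - 2 bethe)]`.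
 `(1/n)log|det(H-z)| ≤ bethe + ε` whp: `f_n(y) = avg log|λ-E-iy|`, `f_n' = avg Im G_xx` (Lipschitz in `y`), locality + env_lln on a grid, bethe_hasDerivAt, bethe_atTop.
B3.  If `μ∈W`, few non-tree-like `x`: the star type of the labels of `Y` is `ε`-close to `τ^k` (the type of `(env, √aX^B+Ψ)`, `Ψ|env ~ N(0, Im gC)^{⊗p}` under `ν`) with probability `→ 1`:
 mean by locality + TV-continuity of `N(0,S)` in `S` on `c ≤ S ≤ C` (uniform in the mean) + continuity of `μ ↦ ∫1_{cell}(env)F_c(env,X)` at `ν`; variance by Ward (`Σ_y|G_xy|² ≤ η^{-2}`).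
 Markov: `P*(∃X, μ∈W, good) ≤ e^{n(thr+ε)}·mass ≤ e^{-cn}` if `Φ_k := -H(τ)-E log w+(d/2)H(τ_e) > thr + 3ε`.
B5.  `Φ_k = KL(τ_C‖λ_C) - (d/2)KL(τ_e‖λ_e)` (cells; `λ_C = starLaw⊗γ^{d+1}`, `λ_e = envLaw²⊗γ²`; uses (c1),(c2)); `KL_e^k ≤ E log f_e` (Jensen per cell),
 `liminf KL_C^k ≥ E log f_C` (Gibbs inequality with cell-measurable approximations of the clamped `log f_C`; martingale convergence or density).  `f = Z·dΨ/dγ`,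
 `E log f = -I - p·dim/2 + E|Y|²/2 + (p/2)E log det P`;  `log det Im gC = 2log|g| + log η + Σlog Im m_j`, `log det Im gE = -2log|1-mm'| + log Im m + log Im m'`.
 So `Φ_∞ ≤ thr ⇔ I_C ≥ (d/2)I_e`.
B6 (channel).  Kernel `κ = condKernel`, `Y = √aX + Bξ`, `BBᵀP x = x` on the support, `Z(y) = ∫exp(√a xᵀPy - a xᵀPx/2)κ(dx)`, `X̂ = ∫x(..)/Z`;  gpi_shift ⇒ law `(X,Y)` =
 weight·(κ ⊗ law Bξ), `E[X f(Y)] = E[X̂ f(Y)]`.  `I(a) = aE P(X)/2 - E log Z(Y)`, for bounded `X`, `P`: `I' = ½E P(X - X̂)` (differentiate, gpi_ibp), `0 ≤ I(a) ≤ aE P(X)/2`.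
 `P_C = Σ_j q_j + r²/η + ηx_o²`, `q_j = |x_j+m_jx_o|²/Im m_j`, `P_e = q_{head→tail} + q_{tail→head}`; `B = [Re Γ, Im Γ]`, `Γ = gC·diag(η, Im m_j/|m_j|²)^{1/2}`; the edge marginal of the star noise is
 the edge noise (gC_edge, gpi_map_cov).  Pythagoras + flip: `mmse_C ≤ (d/2)mmse_e - gap + ηE|X_o|² + E r(X^B)²/η`, `gap = Σ_jE q_j(X̂_C - X̂_e∘edge_j)`.
 Choose `B(η)` with `E r(X^B)² ≤ η²`.  `Φ = I_C - (d/2)I_e ≥ 0`, `Φ' ≤ Cη - gap/2`, `Φ(0+) ≤ 0` ⇒ mean value theorem: `gap(a_η) ≤ Cη` for some `a_η∈[½,1]`.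
B7.  Subsequence `a_η → a`; `q_j(w) ≥ c(m_j)|w|²`, `m^η → m0` a.e., `X ∈ L²` ⇒ `E|X̂_C - X̂_e|² → 0`.  Star: limsup mmse ≤ mmse⁰ (continuous near-optimal estimator, same `ξ`); edge: liminf ≥
 (TV convergence, `Im gE(m0,m0')` positive definite).  So at `η = 0` (`P⁰ = Σq_j` on the hyperplane `𝓗 = {r = 0}`, `B⁰B⁰ᵀP⁰ = id` on `𝓗`): `X̂_C(y)|_{e_j} = X̂_e(edge_j; y_o,y_j)` for a.e. env and
 all `y∈𝓗` (full support, continuity).  `d ≥ 3`: the tail depends on `y_o` only; flip (uniqueness of condKernel): the head depends on `y_j` only; `r(X̂_C) = 0` with `y₁+y₂+y₃` fixed ⇒ heads are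
 affine with a common linear part; edge_const ⇒ constant matrix `A`.  `E[Xe^{i⟨t,Y⟩}] = E[(AY+b)e^{..}]` ⇒ `(1-√aA)E[Xe^{i√a⟨t,X⟩}] = (iAΣt+b)φ_X`, `1-√aA` invertible,
 ODE along rays ⇒ `φ_X(τ) = exp(i⟨τ,μ⟩ - τᵀ(Σ_e⊗S)τ/2)`.  `u = μ_tail`: `E[X_o|env_C] = u(edge_j)`, no_factor_eig ⇒ `μ = 0`; (c4) ⇒ `S_sym = 1/(πρ)`.

## C.
TightS: H0 ⇒ `Im s(iL) ≤ 2π`, `Im s(iK) ≥ π/2`, `L = 16K` ⇒ `≥ πK/4·` points in `[-L,L]`; Chebyshev for `Σggᵀ` over `N ≫ r²` of them; `E_g|M - sδ|² ≤ 2Im s/y`; `|s(w)-s(w')| ≤ C Im s(iK)`.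
`Γ_r = {q symplectic | ∀ w, TestFn φ, EG(φ∘mob q) - EG φ → 0}` is a group (pullback, mob_mul; jets lie in cSieg, mob_bdry) containing orthQ (EG_orth).  `u = P+iQ ↦ ⟨P,πQ,-Q/π,P⟩` is multiplicative.
`D R₀₂(φ) D⁻¹ = cos φ + sin φ(cos θ J + sin θ K)`, `K = i(E₀₂+E₂₀)`; with `cos φ + i sin φ cos θ = cos ψ e^{iγ}`, `sin ψ = sin φ sin θ`: `R(-γ/2)·that·R(-γ/2) = e^{ψK}`; conjugate by the 45° rotation and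
a transposition: `rotD ψ ∈ Γ` for small `ψ`, by powers for all `ψ`.  TightS upgrades `Γ` to bounded measurable `φ` continuous on `Sieg^k`; gpi_map_inj restricts to fewer channels (all `r`).
StatS: `stepJ(-κ)∘stepJ κ` = restriction of `mob (rotD ψ)`, `κ = -tan ψ/π`; induct on `T` (`φ∘chainJ` is bounded, continuous on Sieg).
LE: `r = 2`, `F = M₀₀(w₀)φ(s(w₀..w_k))χ_Λ(jets)`, `φ ∈ C¹_c`; `ψ ↦ F(mob(rotD ψ)Z)` has derivative `XF` uniformly (compactness in the ambient space, `j` invertible for `ψΛ` small);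
 `δM = πS + MSM/π`, `δs = tr(SM')/π`; remove `χ_Λ` by fourth moments given `x` (`Im s(w_j)` bounded on `supp φ`); gpi_bilin_cov ⇒
 `E[(π²+s²+s')(w₀)φ + 2Σ_j(∂_jφ t(w₀,w_j) + ∂̄_jφ t(w₀,w̄_j))] → 0`, `t(w,u) = Σ1/((x-w)(x-u)²)`.
TailS: `Δ = s - iπ`, `π²+s² = Δ(Δ+2πi)`, `|Δ+2πi| ≥ c(1+|Δ|) ≥ c' Im s`, `|s'| ≤ Im s/y`, `|t| ≤ Im s/y²`; `φ = conj(Δ)^pΔ^{p-1}χ(|Δ|/Λ)/(Δ+2πi)` ⇒
 `E|Δ|^{2p}χ ≤ C_p y^{-2}E[|Δ|^{2p-2};|Δ| ≤ 2Λ] + o(1)`; induct uniformly in `Λ`; tightness.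
TransS: `F = f(s(w_j+τ))`, `f∈C²_c`.  `y·Im` of LE at `w₀ = iy` (`s(w̄) = conj s(w)`, `F` real) is the deformation `δx = -y²/(x²+y²)`: `E[D_yF] + 2E∂_τF = O(Im s(iy)/y)`, `D_y = y Im(π²+s²+s')(iy) =
 2πy Re Δ(iy) + O_{L²}(y^{-2/3})` (`s' = (s(w+h)-s(w-h))/2h + O(h²Im s/y³)`, `h = y^{2/3}`).  `D̃_k = 2πy_k ReΔ(iy_k)χ_Λ`, `y_k = 2^ky₀`; LE at `iy_k` with test `D̃_l` (`k<l`): `|E D̃_kD̃_l| ≤ C2^{k-l} + small`.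
 Cauchy–Schwarz with `(1/N)ΣD̃_k`: `|E∂_τF| ≤ C/√N + small`.  So `E∂_τF_τ → 0` for each `τ`; `τ ↦ E F_τ` has bounded second derivative ⇒ `E F_τ - E F_0 → 0`.  Density + tightness for `→ᵇ`.

## D.
Rigidity (deterministic): bounds `|Δ(u+iy)| ≤ λ/y` on the integer grid ⇒ `|N(u₁,u₂] - (u₂-u₁)| ≤ C(1+λ)H_Y`, `Y ≥ u₂-u₁`: `A(y) = Σ[arctan((u₂-x)/y) - arctan((u₁-x)/y)]`,
 `A' = ReΔ(u₂+iy) - ReΔ(u₁+iy)`, `|s'| ≤ Im s/y`, top `A(Y) ≈ π(u₂-u₁)` on the unit grid, `πN - A(1) = πΣ[ψ(x-u₁)-ψ(x-u₂)]`, `|ψ(t)| ≤ C/(1+|t|) ≤ CΣ_{y≤Y}1/(t²+y²)`.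
 Labels `x_l = x(j₀+l)`, `j₀ = #{x ≤ 0}`.  TailS + union bound (uniform in `R`): with probability `1-ε(W)`, `|x_l - l| ≤ (W+|l|)^δ` for all `|l| ≤ R`  (`δ = 1/32`).
Truncated chain on `[-R,R]` (perturb to strict monotonicity, `g ≠ 0` a.s.): `x'_j` = root of `1 + κΣg_l²/(x_l-w)` in `(x_j,x_{j+1})` (`κ=1`) or `(x_{j-1},x_j)` (`κ=-1`); measurable since
 `{x'_j > t}` is explicit.  `O_{jl} = √ρ_j g_l/(x_l-x'_j)` is orthogonal, `diag x + κggᵀ = Oᵀdiag(x')O` ⇒ `stepJ κ (jetG x g) = jetG x' (Og)`, so by gpi_map_orth the chain with fresh Gaussians has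
 `s^{(2T)} ~ chainJ 1 T (jetG ..)`.  For fixed `W,T`: `jetG(truncated, a=0) - jetG(full) → 0` in probability as `R → ∞` (far variance `≤ C Im s(iR)/R`; `far(w) - far(iK')` small; `s_R(iK') ≈ iπ` by rigidity and
 the lattice sum), TightS + continuity ⇒ StatS, TailS, TransS hold for the truncated chain at even times up to `o_R(1)`.  Poisson sums `h̃ = Σc_l Im 1/(x-u_l-iη)`, `c_l ≥ 0`, `|h-h̃| ≤ ε/(1+x²)` turn these into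
 `E exp(-Σh(x^t_l - τ)) ≈ lap`.
Coupling: both chains use the same `g^t`; `v = y - x`.  Two-point identity `v'_jΣ_la_{jl} = Σ_la_{jl}v_l`, `a_{jl} = g_l²/((x_l-x'_j)(y_l-y'_j)) > 0` ⇒ along `x^θ = (1-θ)x+θy` the root is Lipschitz, then `C¹` with
 derivative `ΣP^θ_{jl}v_l`, `P^θ = O²` doubly stochastic; `v' = Pv`, `P = ∫P^θ`.  `χ(j) = (1-|j|/W)₊`: `Σχv'² ≤ Σχv² + Σ_{j,k}P_{jk}(χ_j-χ_k)₊v_k² - Σχ_jP_{jj}P_{j,j+1}(v_j-v_{j+1})²`.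
 Interlacing: `|x^t_l - l| ≤ t + (W+|l|+t)^δ`.  `P^θ_{jk} ≤ CL²g_k²/((g_{j-1}²+g_j²+g_{j+1}²)(j-k)²)` for `|j-k| ≥ n₁ = CL²`, `L = T + (2W)^δ`, `E 1/χ²₃ < ∞` ⇒ boundary term `≤ CW^{1/2+12δ}` per step in mean.
 `T = W^{3δ}`: total dissipation `= o(WT)`.  Good `(t,j)` (`t` even, `κ = 1`): `|x_l-x_j-(l-j)| ≤ m√(1+|l-j|)` for both chains, `g_j²,g_{j+1}² ≥ 1/m`, `|Σ(g_l²-1)/(l-j)| ≤ m`, `Σ(g_l²+1)/(1+|l-j|)^{3/2} ≤ m`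
 ⇒ far field bounded, `α = x'_j-x_j`, `β = x_{j+1}-x'_j` comparable ⇒ `P_{jj}P_{j,j+1} ≥ c(m)`.  Local rigidity at position `u` fails with probability `ε(m)` (grid of size `poly(L)` around `u`, global rigidity beyond);
 blocks of length `ℓ ≫ m²` turn positions into labels.  Finally `∫Lap(h(·-τ),x)dτ = Σ_jΨ_j(x)`, `Ψ_j = ∫_{x_j}^{x_{j+1}}`, `|Ψ_j(x)-Ψ_j(y)|` small when gaps near `j` agree and `j` is locally rigid; the other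
 `j` carry total length `o(W)` (good blocks cover all but `εW`).  Grid in `τ` of mesh `≪ 1/L` instead of the integral.

## E.  (helper57's variant is fine.)  H0: Stein identity `E[(s²+π²+πzs+s')φ + ..] = 0`, test `φ = conj(Δ)/(s - s₋)`.  H1: border by a Gaussian column, rotate, un-border; idle Gaussian channels.

## X.
`w ↦ z = E + w/(nρ)`.  Selection: `q` independent uniform half-edges `h₁..h_q`, vertices `S = ends h_l`, labels `e = (m̃_{h_l}, m̃_{πh_l})`, `L = ⊕chol(Im gE)/√π`, `R = ⊕Re gE`, normalisation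
`g_e = ⟨L,RL⁻ᵀ,0,L⁻ᵀ⟩`, raw jet `(G_SS,(G²)_SS/(nρ),s)`, true jet `= mob g_e⁻¹ raw = jetV x v (L⁻¹RL⁻ᵀ)`, `v = √(nρ)L⁻¹u(S)`.
(T1) `M(iK) ≈ iπ` (LocLaw; Ward for different edges; labels tight in `ℍ`).  (T2) for the window `{|x_i| ≤ R}` of size `p ≤ P`: law of `(e,v)` over the selection `≈ law(m0)^{2q}⊗γ` (GaussEig, product of empirical laws,
`j → ∞`).  Cauchy: `Σ(v²-1)c_i` small on average, `c_i = 1/(x-iK)-1/(x-iK')` ⇒ `s(iK)-s(iK')` small ⇒ H0 (with TrLaw).  Transfer: `Z ≈ Z_{R,K} = iπ + Σ_win vvᵀ[1/(x-w)-1/(x-iK)]` (far part `≤ C Im M(iR)/R`) for the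
true and the Gaussian jets, finite net in the window positions ⇒ `E avg F(e)φ(Z^true) - (∫F)EG φ → 0` for uniformly continuous bounded `φ`.
Switch `swap h₁ h₂`: raw jet moves by `orthQ(perm)∘⟨1,0,B,1⟩`, labels are kept up to `o(1)`, `a` moves by `Re tr(j⁻¹cM')(iK) → 0`.  `W(e) = g_{e'}⁻¹ P g_B g_e` is continuous in `e`; at `e = (m*,..,m*)`, `m*` in the support of
`law(m0)`, it fixes `iπ` with factor `u = O₁diag(e^{iφ},e^{-iφ},1,..)O₂`, `e^{iφ}` = phase of `(1+m*)/(1-m*)`, `sin φ ≠ 0`.  Bump `F` near `m*`, TestFn.close, avg_edge, EG_orth ⇒ H1.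
-/
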