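import Crest.Agent.R166.PartT
import Crest.Agent.R166.PartG
import Crest.Agent.R166.B.Final
import Crest.Agent.R166.B.Extract

/-! # Part B (interface): eigenvectors are Gaussian waves (entropy argument) -/

set_option autoImplicit false
set_option linter.unusedVariables false
set_option linter.unusedSectionVars false

open MeasureTheory ProbabilityTheory Filter Topology Matrix
open scoped ENNReal BoundedContinuousFunction

namespace Crest.Agent.R166

theorem partB {D : ℕ} (hD : 2 ≤ D) {s E : ℝ} {β : Measure J} (hβ : Adm s β) (hE : E ^ 2 < 4 * D)
    (hT : TreeOK D s β E) (hU : UIEig D s β E) : GaussEig D s β E := by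
  have := hβ.prob
  by_contra h
  obtain ⟨p, f, μ, hp, hμ, hne⟩ := B.extract hU h
  exact hne (B.wave_of_lim hD hβ hE hT hμ f)

end Crest.Agent.R166
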