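import Crest.Agent.R166.Gauss
import Crest.Agent.R166.Mob
import Crest.Agent.R166.C.Stat
import Crest.Agent.R166.C.LoopEq
import Crest.Agent.R166.C.TransC

/-! # Part C (interface): group argument, loop equations, tails, translation invariance -/

set_option autoImplicit false
set_option linter.unusedVariables false
set_option linter.unusedSectionVars false

open MeasureTheory ProbabilityTheory Filter Topology Matrix
open scoped ENNReal BoundedContinuousFunction

namespace Crest.Agent.R166

theorem partC {ι : Type} {F : Filter ι} {n : ι → ℕ} {μ : ∀ i, Measure (Conf (n i))}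
    (hf : IsFam n μ) (h0 : H0 F n μ) {θ : ℝ} (hθ : Real.sin θ ≠ 0) (h1 : H1 F n μ θ) :
    TightS F n μ ∧ TailS F n μ ∧ TransS F n μ ∧ ∀ κ, StatS F n μ κ := by
  have ht := tightS_of_H0 hf h0
  have hinv := inv_rotD hf ht hθ h1
  have hle := le_of_inv hf ht (hinv 0)
  have hm := momS_of_le hf ht hle
  exact ⟨ht, tailS_of_momS hf hm, transS_of hf ht hle hm, statS_of_inv hf ht hinv⟩

end Crest.Agent.R166
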