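import Crest.Agent.R166.DWin
import Crest.Agent.R166.DCpl

/-! # Part D (interface): uniqueness by the rank-one coupling -/

set_option autoImplicit false
set_option linter.unusedVariables false
set_option linter.unusedSectionVars false

open MeasureTheory ProbabilityTheory Filter Topology Matrix
open scoped ENNReal BoundedContinuousFunction

namespace Crest.Agent.R166

theorem partD {ι : Type} {F : Filter ι} {n n' : ι → ℕ} {μ : ∀ i, Measure (Conf (n i))}
    {μ' : ∀ i, Measure (Conf (n' i))}
    (hf : IsFam n μ) (ht : TightS F n μ) (ha : TailS F n μ) (hr : TransS F n μ)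
    (hs : StatS F n μ 1)
    (hf' : IsFam n' μ') (ht' : TightS F n' μ') (ha' : TailS F n' μ') (hr' : TransS F n' μ')
    (hs' : StatS F n' μ' 1)
    {h : ℝ → ℝ} (hc : Continuous h) (hK : HasCompactSupport h) (hp : ∀ t, 0 ≤ h t) :
    Tendsto (fun i => lap (μ i) h - lap (μ' i) h) F (𝓝 0) := by
  obtain ⟨ν, H⟩ := winFam_exists hf ht ha hr hs hc hK hp
  obtain ⟨ν', H'⟩ := winFam_exists hf' ht' ha' hr' hs' hc hK hp
  have h1 := coupling (tendsto_fst.mono_left Filter.curry_le_prod) H H' hc hK hp
  rw [Metric.tendsto_nhds] at h1 ⊢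
  intro ε hε
  have h2 := h1 ε hε
  rw [Filter.eventually_curry_iff] at h2
  obtain ⟨_, h3⟩ := h2.exists
  exact h3

end Crest.Agent.R166
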