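import Crest.Agent.R166.G1
import Crest.Agent.R166.Gauss
import Crest.Agent.R166.Spec
import Crest.Agent.R166.Mob

/-! # The graph family: measurability, Laplace functional -/

set_option autoImplicit false
set_option linter.unusedVariables false
set_option linter.unusedSectionVars false

open MeasureTheory ProbabilityTheory Filter Topology Matrix
open scoped ENNReal BoundedContinuousFunction

namespace Crest.Agent.R166

theorem X0_meas {n D : ℕ} (s E ρ : ℝ) {K : ℝ} (hK : K ≠ 0) :
    Measurable fun o : Om n D => ((xH s E ρ o, aK K (xH s E ρ o)) : Conf n) := by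
  have h1 : Measurable fun o : Om n D => xH s E ρ o :=
    measurable_pi_lambda _ fun i => measurable_const.mul
      (((measurable_pi_apply i).comp (measurable_evs_ham s)).sub measurable_const)
  have h2 : Continuous fun x : Fin n → ℝ => aK K x :=
    Complex.continuous_re.comp ((continuous_sF (w := K * Complex.I) (by simpa using hK)).comp
      (continuous_id.prodMk continuous_const))
  exact h1.prodMk (h2.measurable.comp h1)

theorem X0_lap (D : ℕ) (s E : ℝ) (β : Measure J) [IsProbabilityMeasure β] (i : ℕ × Idx D)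
    {h : ℝ → ℝ} (hc : Continuous h) :
    lap (graphFam D s β E i) h = avg fun π : Pairing i.2.1 D => ∫ ω, Real.exp
      (-∑ a, h (i.2.1 * rho D s β E * (evs (ham s π.1 ω) a - E))) ∂(Measure.pi fun _ => β) := by
  have hf : Continuous fun p : Conf i.2.1 => Real.exp (-∑ a, h (p.1 a)) := by fun_prop
  have hK : (i.1 : ℝ) + 1 ≠ 0 := by positivity
  have hcont : ∀ π : Pairing i.2.1 D, Continuous fun ω : Fin i.2.1 → J => Real.exp
      (-∑ a, h (i.2.1 * rho D s β E * (evs (ham s π.1 ω) a - E))) := fun π => by
    have := continuous_evs (continuous_ham π.1 s) fun ω => ham_isSymm π.2.1 s ω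
    fun_prop
  rw [lap, graphFam, integral_map (X0_meas s E _ hK).aemeasurable hf.aestronglyMeasurable]
  exact integral_POm β _ (fun π => (hcont π).integrable_of_hasCompactSupport
    (HasCompactSupport.of_compactSpace _)) fun π => (hcont π).measurable

open Crest.ProbabilityR.RandomMatrix in
theorem X0_weight {n : ℕ} {A B : Matrix (Fin n) (Fin n) ℝ} (hA : A.IsHermitian) (e : A = B)
    (φ : ℝ → ℝ) : laplaceWeight A hA φ = Real.exp (-∑ a, φ (evs B a)) := by
  subst e
  rw [laplaceWeight, sum_evs hA]

open Crest.ProbabilityR.RandomMatrix in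
theorem X0_potentialLaw (n : ℕ) :
    potentialLaw n = (Measure.pi fun _ : Fin n => unifJ).map fun ω a => (ω a : ℝ) := by
  have e : unifJ.map Subtype.val =
      (2⁻¹ : NNReal) • (volume : Measure ℝ).restrict (Set.Icc (-1 : ℝ) 1) := by
    rw [unifJ, Measure.map_smul, map_comap_subtype_coe measurableSet_Icc]
  rw [Measure.pi_map_pi (μ := fun _ : Fin n => unifJ) (f := fun _ (a : J) => (a : ℝ))
    fun _ => measurable_subtype_coe.aemeasurable, potentialLaw]
  simp only [e]

theorem graph_isFam (D : ℕ) (s E : ℝ) (β : Measure J) [IsProbabilityMeasure β]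
    (hρ : 0 ≤ rho D s β E) :
    IsFam (fun i : ℕ × Idx D => i.2.1) (graphFam D s β E) := by
  intro i
  have := i.2.2
  have hK : (i.1 : ℝ) + 1 ≠ 0 := by positivity
  have hm := (X0_meas (n := i.2.1) (D := D) s E (rho D s β E) hK).aemeasurable
    (μ := POm i.2.1 D β)
  refine ⟨Measure.isProbabilityMeasure_map hm, ?_⟩
  have hs : MeasurableSet {p : Conf i.2.1 | Monotone p.1} := by
    have : {p : Conf i.2.1 | Monotone p.1} =
        ⋂ a, ⋂ b, ⋂ _ : a ≤ b, {p : Conf i.2.1 | p.1 a ≤ p.1 b} := by
      ext p
      simp only [Set.mem_ofPred_eq, Set.mem_iInter]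
      exact Iff.rfl
    rw [this]
    exact MeasurableSet.iInter fun a => MeasurableSet.iInter fun b => MeasurableSet.iInter fun _ =>
      measurableSet_le (by fun_prop) (by fun_prop)
  refine (ae_map_iff hm hs).2 (Eventually.of_forall fun o => ?_)
  intro a b hab
  exact mul_le_mul_of_nonneg_left (sub_le_sub_right (evs_mono _ hab) E)
    (mul_nonneg (Nat.cast_nonneg _) hρ)

open Crest.ProbabilityR.RandomMatrix in
theorem graph_lap_clean (D : ℕ) (E : ℝ) (i : ℕ × Idx D) {h : ℝ → ℝ} (hc : Continuous h) :
    lap (graphFam D 0 (Measure.dirac J0) E i) h = regularAverage i.2.1 (D + 1) fun G =>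
      adjLaplaceWeight G (unfoldAt h (i.2.1 * rho D 0 (Measure.dirac J0) E) E) := by
  rw [X0_lap D 0 E _ i hc, regularAverage_eq]
  congr 1
  funext π
  have e : ∀ ω : Fin i.2.1 → J, ham 0 π.1 ω = adj π.1 := fun ω => by
    simp [ham]
  simp only [e, integral_const, probReal_univ, one_smul]
  rw [adjLaplaceWeight, X0_weight _ (adjMatrix_graphOf π)]
  rfl

open Crest.ProbabilityR.RandomMatrix in
theorem graph_lap_unif (D : ℕ) (s E : ℝ) (i : ℕ × Idx D) {h : ℝ → ℝ} (hc : Continuous h)
    (hp : ∀ t, 0 ≤ h t) :
    lap (graphFam D s unifJ E i) h = regularAverage i.2.1 (D + 1) fun G =>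
      ∫ ω, disorderedLaplaceWeight G s ω (unfoldAt h (i.2.1 * rho D s unifJ E) E)
        ∂potentialLaw i.2.1 := by
  rw [X0_lap D s E _ i hc, regularAverage_eq]
  congr 1
  funext π
  have e : ∀ ω : Fin i.2.1 → ℝ,
      disorderedLaplaceWeight (graphOf π) s ω (unfoldAt h (i.2.1 * rho D s unifJ E) E) =
        Real.exp (-∑ a, h (i.2.1 * rho D s unifJ E *
          (evs (adj π.1 + diagonal fun x => s * ω x) a - E))) := fun ω => by
    rw [disorderedLaplaceWeight, X0_weight (B := adj π.1 + diagonal fun x => s * ω x)]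
    · rfl
    · rw [← adjMatrix_graphOf π]
      ext a b
      by_cases hab : a = b
      · subst hab
        simp
      · simp [hab]
  have hcont : Continuous fun ω : Fin i.2.1 → ℝ => Real.exp (-∑ a, h (i.2.1 * rho D s unifJ E *
      (evs (adj π.1 + diagonal fun x => s * ω x) a - E))) := by
    have := continuous_evs (A := fun ω : Fin i.2.1 → ℝ => adj π.1 + diagonal fun x => s * ω x)
      (continuous_const.add (Continuous.matrix_diagonal (by fun_prop)))
      fun ω => (adj_isSymm π.2.1).add (isSymm_diagonal _)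
    fun_prop
  simp only [e]
  rw [X0_potentialLaw, integral_map (Measurable.aemeasurable (by fun_prop))
    hcont.aestronglyMeasurable]
  rfl

end Crest.Agent.R166
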