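import Crest.Agent.R166.X9

/-! # Part X: annealed invariance under the switch -/

set_option autoImplicit false
set_option linter.unusedVariables false
set_option linter.unusedSectionVars false

open MeasureTheory ProbabilityTheory Filter Topology Matrix
open scoped ENNReal BoundedContinuousFunction

namespace Crest.Agent.R166

theorem X10_int {n D : ℕ} (β : Measure J) [IsProbabilityMeasure β] {f : Om n D → ℝ}
    (hf : Measurable f) (hb : ∀ o, |f o| ≤ 1) (π : Pairing n D) :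
    Integrable (fun ω => f (π, ω)) (Measure.pi fun _ : Fin n => β) :=
  Integrable.of_bound (hf.comp measurable_prodMk_left).aestronglyMeasurable 1
    (Eventually.of_forall fun ω => hb _)

theorem X10_split {n D : ℕ} (β : Measure J) [IsProbabilityMeasure β] {A : Type} [Fintype A]
    {F : Om n D → A → ℝ} (hF : ∀ a, Measurable fun o => F o a) (hb : ∀ o a, |F o a| ≤ 1) :
    ∫ o, avg (F o) ∂(POm n D β) =
      avg fun π => avg fun a => ∫ ω, F (π, ω) a ∂(Measure.pi fun _ : Fin n => β) := by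
  rw [integral_POm β _ (X10_int β (measurable_avg hF) fun o => abs_avg_le_of_le one_pos.le (hb o))
    fun π => (measurable_avg hF).comp measurable_prodMk_left]
  exact avg_congr fun π => integral_avg fun a => X10_int β (hF a) (fun o => hb o a) π

theorem X10_abs {n D : ℕ} (β : Measure J) [IsProbabilityMeasure β] {A : Type} [Fintype A]
    (τ : A → Equiv.Perm (HE n D)) (hτ : ∀ a, τ a * τ a = 1) {Φ Ψ B : Om n D → A → ℝ}
    (mΦ : ∀ a, Measurable fun o => Φ o a) (mΨ : ∀ a, Measurable fun o => Ψ o a)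
    (mB : ∀ a, Measurable fun o => B o a) (bΦ : ∀ o a, |Φ o a| ≤ 1) (bΨ : ∀ o a, |Ψ o a| ≤ 1)
    (bB : ∀ o a, 0 ≤ B o a ∧ B o a ≤ 1) {ε ε₁ : ℝ} (hε : 0 ≤ ε) (hε₁ : 0 ≤ ε₁)
    (bad : Pairing n D → A → Prop)
    (h : ∀ π ω a, ¬ bad π a → |Φ (switchP (τ a) π, ω) a - Ψ (π, ω) a| ≤ ε * B (π, ω) a + ε₁) :
    |(∫ o, avg (Φ o) ∂(POm n D β)) - ∫ o, avg (Ψ o) ∂(POm n D β)| ≤
      ε * (∫ o, avg (B o) ∂(POm n D β)) + ε₁ + 2 * avg fun π => frac (bad π) := by
  classical
  have bB' : ∀ o a, |B o a| ≤ 1 := fun o a => by rw [abs_of_nonneg (bB o a).1]; exact (bB o a).2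
  rw [X10_split β mΦ bΦ, X10_split β mΨ bΨ, X10_split β mB bB']
  have e1 : (avg fun π => avg fun a => ∫ ω, Φ (π, ω) a ∂(Measure.pi fun _ : Fin n => β)) =
      avg fun π => avg fun a =>
        ∫ ω, Φ (switchP (τ a) π, ω) a ∂(Measure.pi fun _ : Fin n => β) := by
    rw [avg_comm, avg_comm fun π a =>
      ∫ ω, Φ (switchP (τ a) π, ω) a ∂(Measure.pi fun _ : Fin n => β)]
    exact avg_congr fun a => (avg_switchP (hτ a) fun π =>
      ∫ ω, Φ (π, ω) a ∂(Measure.pi fun _ : Fin n => β)).symm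
  have pt : ∀ π a, |(∫ ω, Φ (switchP (τ a) π, ω) a ∂(Measure.pi fun _ : Fin n => β)) -
      ∫ ω, Ψ (π, ω) a ∂(Measure.pi fun _ : Fin n => β)| ≤
      ε * (∫ ω, B (π, ω) a ∂(Measure.pi fun _ : Fin n => β)) + ε₁ +
        2 * if bad π a then 1 else 0 := fun π a => by
    have i1 := X10_int β (mΦ a) (fun o => bΦ o a) (switchP (τ a) π)
    have i2 := X10_int β (mΨ a) (fun o => bΨ o a) π
    have i3 := X10_int β (mB a) (fun o => bB' o a) π
    rw [← integral_sub i1 i2]
    refine abs_integral_le_integral_abs.trans ((integral_mono (i1.sub i2).abs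
      ((i3.const_mul ε).add (integrable_const (ε₁ + 2 * if bad π a then 1 else 0)))
      fun ω => ?_).trans (le_of_eq ?_))
    · simp only [Pi.add_apply, Pi.sub_apply]
      split_ifs with hb
      · have a1 := abs_sub (Φ (switchP (τ a) π, ω) a) (Ψ (π, ω) a)
        have a2 := mul_nonneg hε (bB (π, ω) a).1
        linarith [bΦ (switchP (τ a) π, ω) a, bΨ (π, ω) a]
      · linarith [h π ω a hb]
    · simp only [Pi.add_apply]
      rw [integral_add (i3.const_mul ε) (integrable_const _), integral_const_mul]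
      simp [add_assoc]
  rw [e1, ← avg_sub]
  refine (abs_avg_le _).trans ((avg_mono fun π => ?_).trans
    (b := avg fun π => ε * (avg fun a => ∫ ω, B (π, ω) a ∂(Measure.pi fun _ : Fin n => β)) + ε₁ +
      2 * frac (bad π)) ?_)
  · rw [← avg_sub]
    refine (abs_avg_le _).trans ((avg_mono (pt π)).trans ?_)
    rw [avg_add, avg_add, avg_const_mul, avg_const_mul]
    have := avg_le_of_le (f := fun _ : A => ε₁) hε₁ fun _ => le_rfl
    unfold frac
    linarith
  · rw [avg_add, avg_add, avg_const_mul, avg_const_mul]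
    have := avg_le_of_le (f := fun _ : Pairing n D => ε₁) hε₁ fun _ => le_rfl
    linarith

theorem switch_inv {D : ℕ} (s E ρ : ℝ) (hρ : 0 < ρ) (β : Measure J) [IsProbabilityMeasure β]
    {N q : ℕ} (ι : Fin N ≃ Fin 2 × Fin (q + 2)) {m : ℂ} (hm : 0 < m.im) {k : ℕ}
    (w : Fin k → ℂ) (hw : ∀ j, 0 < (w j).im) {φ : (Fin k → Jet N) → ℝ} (hφ : TestFn φ)
    (hb : ∀ Z, |φ Z| ≤ 1) {ε : ℝ} (hε : 0 < ε) : ∃ δ : ℝ, 0 < δ ∧ ∀ ε' : ℝ, 0 < ε' →
      ∀ᶠ K : ℕ in atTop, ∀ j : ℕ, ∀ᶠ i in FI D,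
      |(∫ o, (avg fun a : Fin (q + 2) → HE i.1 D => bumpF m δ (labH s E j o a) *
          φ fun t => trueJ ι s E ρ K j o a (w t)) ∂(POm i.1 D β)) -
        ∫ o, (avg fun a : Fin (q + 2) → HE i.1 D => bumpF m δ (labH s E j o a) *
          φ fun t => mob (Wq ι (fun _ => (m, m)) fun _ => (m, m)) (trueJ ι s E ρ K j o a (w t)))
          ∂(POm i.1 D β)| ≤
      ε * (∫ o, (avg fun a : Fin (q + 2) → HE i.1 D => bumpF m δ (labH s E j o a))
        ∂(POm i.1 D β)) + ε' := by
  obtain ⟨δ, hδ, h1⟩ := det_switch ι hm w hw hφ hb hε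
  refine ⟨δ, hδ, fun ε' hε' => ?_⟩
  obtain ⟨δ', hδ', K₀, h2⟩ := h1 (ε' / 2) (half_pos hε')
  filter_upwards [eventually_ge_atTop K₀] with K hK j
  obtain ⟨k₀, hk₀⟩ := mT_local (D := D) (s := s) (zj_im_pos E j) hδ'
  obtain ⟨C, hC⟩ := sel_good D q k₀
  have hev : ∀ᶠ n : ℕ in atTop, 0 < n ∧ C / n ≤ ε' / 4 :=
    (eventually_gt_atTop 0).and ((tendsto_const_div_atTop_nhds_zero_nat C).eventually
      (ge_mem_nhds (by positivity)))
  filter_upwards [(tendsto_comap (f := Subtype.val)).eventually hev] with i hi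
  obtain ⟨hn, hCn⟩ := hi
  have mB : ∀ a : Fin (q + 2) → HE i.1 D, Measurable fun o : Om i.1 D =>
      bumpF m δ (labH s E j o a) := fun a =>
    (continuous_bumpF m δ).measurable.comp (measurable_labH s E j a)
  have bB : ∀ (e : Lab (q + 2)) (Z : Fin k → Jet N), |bumpF m δ e * φ Z| ≤ 1 := fun e Z => by
    rw [abs_mul, abs_of_nonneg (bumpF_mem m hδ e).1]
    exact mul_le_one₀ (bumpF_mem m hδ e).2 (abs_nonneg _) (hb Z)
  have key := X10_abs β (fun a : Fin (q + 2) → HE i.1 D => Equiv.swap (a 0) (a 1))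
    (fun a => Equiv.swap_mul_self _ _)
    (Φ := fun o a => bumpF m δ (labH s E j o a) * φ fun t => trueJ ι s E ρ K j o a (w t))
    (Ψ := fun o a => bumpF m δ (labH s E j o a) *
      φ fun t => mob (Wq ι (fun _ => (m, m)) fun _ => (m, m)) (trueJ ι s E ρ K j o a (w t)))
    (B := fun o a => bumpF m δ (labH s E j o a))
    (fun a => (mB a).mul (hφ.1.measurable.comp (measurable_pi_lambda _ fun t =>
      measurable_trueJ ι s E ρ hρ K j a hn (hw t))))
    (fun a => (mB a).mul (hφ.1.measurable.comp (measurable_pi_lambda _ fun t =>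
      (measurable_mob _).comp (measurable_trueJ ι s E ρ hρ K j a hn (hw t)))))
    mB (fun o a => bB _ _) (fun o a => bB _ _) (fun o a => bumpF_mem m hδ _) hε.le
    (half_pos hε').le (fun π a => ¬ SelOK π a k₀) (fun π ω a hS => by
      push Not at hS
      exact h2 K hK s E ρ hρ j i.1 D (π, ω) a hS.1 (hS.2.1.comp ι.injective) fun l =>
        ⟨hk₀ _ _ fun u hu => congrArg ω (hS.2.2 l u hu).1,
          hk₀ _ _ fun u hu => congrArg ω (hS.2.2 l u hu).2⟩)
  linarith [hC i.1]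

end Crest.Agent.R166
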