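import Crest.Agent.R166.Mob
import Crest.Agent.R166.Gauss

/-! # Part X: removing the orthogonal factors -/

set_option autoImplicit false
set_option linter.unusedVariables false
set_option linter.unusedSectionVars false

open MeasureTheory ProbabilityTheory Filter Topology Matrix
open scoped ENNReal BoundedContinuousFunction

namespace Crest.Agent.R166

theorem X11_mob_c {r : ℕ} {q : Quad r} (h : q.IsSymp) {Z : Jet r} (hZ : Z ∈ cSieg r) :
    mob q Z ∈ cSieg r := by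
  by_cases h' : Z ∈ Sieg r
  · exact Sieg_subset_cSieg r (mob_mem_Sieg h h')
  · exact (mob_bdry h hZ h').1

theorem X11_vanish {r k : ℕ} {φ : (Fin k → Jet r) → ℝ} (hφ : TestFn φ) {Z : Fin k → Jet r}
    (hZ : ∀ j, Z j ∈ cSieg r) {j : Fin k} (hj : Z j ∉ Sieg r) : φ Z = 0 := by
  obtain ⟨-, -, K, -, h1, h2⟩ := hφ
  exact h2 Z hZ fun hK => hj (h1 Z hK j)

theorem X11_EG_congr {n r k : ℕ} (μ : Measure (Conf n)) {w : Fin k → ℂ} (hw : ∀ j, 0 < (w j).im)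
    {f g : (Fin k → Jet r) → ℝ} (h : ∀ Z, (∀ j, Z j ∈ cSieg r) → f Z = g Z) :
    EG μ r w f = EG μ r w g := by
  unfold EG
  congr 1
  funext p
  congr 1
  funext x
  refine h _ fun j => jetV_mem_cSieg _ _ _ (fun b c => ?_) (hw j)
  simp only [eq_comm]

theorem X11_EG_div {n r k : ℕ} (μ : Measure (Conf n)) (w : Fin k → ℂ)
    (f : (Fin k → Jet r) → ℝ) (B : ℝ) : EG μ r w (fun Z => f Z / B) = EG μ r w f / B := by
  simp only [EG, integral_div]

theorem X11_div {r k : ℕ} {φ : (Fin k → Jet r) → ℝ} (hφ : TestFn φ) (B : ℝ) :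
    TestFn fun Z => φ Z / B := by
  obtain ⟨h1, h2, K, h3, h4, h5⟩ := hφ
  refine ⟨h1.div_const B, h2.comp_left (g := fun x => x / B) (zero_div B), K, h3, h4,
    fun Z hZ hK => ?_⟩
  simp only [h5 Z hZ hK, zero_div]

theorem X11_cancel {r : ℕ} {O : Matrix (Fin r) (Fin r) ℝ} (h : Oᵀ * O = 1) (Y : Quad r) :
    (orthQ Oᵀ).mul ((orthQ O).mul Y) = Y := by
  ext1 <;> simp [Quad.mul, orthQ, ← Matrix.mul_assoc, h]

theorem TestFn.mob_mul {r k : ℕ} {q q' : Quad r} (h : q.IsSymp) (h' : q'.IsSymp)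
    {φ : (Fin k → Jet r) → ℝ} (hφ : TestFn φ) {Z : Fin k → Jet r} (hZ : ∀ j, Z j ∈ cSieg r) :
    φ (fun j => mob (q.mul q') (Z j)) = φ fun j => mob q (mob q' (Z j)) := by
  by_cases hall : ∀ j, Z j ∈ Sieg r
  · congr 1
    funext j
    exact Crest.Agent.R166.mob_mul h h' (hall j)
  · push Not at hall
    obtain ⟨j, hj⟩ := hall
    have h1 := mob_bdry h' (hZ j) hj
    rw [X11_vanish hφ (fun j => X11_mob_c (h.mul h') (hZ j)) (mob_bdry (h.mul h') (hZ j) hj).2,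
      X11_vanish hφ (fun j => X11_mob_c h (X11_mob_c h' (hZ j))) (mob_bdry h h1.1 h1.2).2]

theorem H1_of_W {ι : Type} {F : Filter ι} {n : ι → ℕ} {μ : ∀ i, Measure (Conf (n i))} {r : ℕ}
    {θ : ℝ} {O₁ O₂ : Matrix (Fin (r + 2)) (Fin (r + 2)) ℝ} (h₁ : O₁ * O₁ᵀ = 1) (h₂ : O₂ * O₂ᵀ = 1)
    {k : ℕ} {w : Fin k → ℂ} (hw : ∀ j, 0 < (w j).im)
    (H : ∀ ψ : (Fin k → Jet (r + 2)) → ℝ, TestFn ψ → (∀ Z, |ψ Z| ≤ 1) →
      Tendsto (fun i => EG (μ i) (r + 2) w (fun Z => ψ fun j =>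
        mob ((orthQ O₁).mul ((rotD r θ).mul (orthQ O₂))) (Z j)) - EG (μ i) (r + 2) w ψ) F (𝓝 0))
    {φ : (Fin k → Jet (r + 2)) → ℝ} (hφ : TestFn φ) :
    Tendsto (fun i => EG (μ i) (r + 2) w (fun Z => φ fun j => mob (rotD r θ) (Z j)) -
      EG (μ i) (r + 2) w φ) F (𝓝 0) := by
  have h₁' : O₁ᵀ * O₁ = 1 := mul_eq_one_comm.1 h₁
  have h₁'' : O₁ᵀ * O₁ᵀᵀ = 1 := by rwa [transpose_transpose]
  have hq := orthQ_isSymp h₁''
  have hr : (rotD r θ).IsSymp := rotQ_isSymp _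
  have hW := (orthQ_isSymp h₁).mul (hr.mul (orthQ_isSymp h₂))
  obtain ⟨ψ, hψ, e⟩ := hφ.pullback hq
  obtain ⟨B₀, hB₀⟩ := hψ.1.bounded_above_of_compact_support hψ.2.1
  have hB : 0 < |B₀| + 1 := by positivity
  have hb : ∀ Z, |ψ Z / (|B₀| + 1)| ≤ 1 := fun Z => by
    rw [abs_div, abs_of_pos hB, div_le_one hB]
    have h1 := hB₀ Z
    rw [Real.norm_eq_abs] at h1
    linarith [le_abs_self B₀]
  have h1 := (H _ (X11_div hψ (|B₀| + 1)) hb).mul_const (|B₀| + 1)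
  rw [zero_mul] at h1
  refine h1.congr fun i => ?_
  have hm : Measurable fun Z : Fin k → Jet (r + 2) => φ fun j => mob (rotD r θ) (Z j) :=
    hφ.1.measurable.comp
      (measurable_pi_lambda _ fun j => (measurable_mob _).comp (measurable_pi_apply j))
  have e1 : EG (μ i) (r + 2) w (fun Z => ψ fun j =>
      mob ((orthQ O₁).mul ((rotD r θ).mul (orthQ O₂))) (Z j)) =
      EG (μ i) (r + 2) w (fun Z => φ fun j => mob (rotD r θ) (Z j)) := by
    rw [← EG_orth (μ i) h₂ w hw hm]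
    refine X11_EG_congr _ hw fun Z hZ => ?_
    rw [e _ fun j => X11_mob_c hW (hZ j), ← hφ.mob_mul hq hW hZ, X11_cancel h₁',
      hφ.mob_mul hr (orthQ_isSymp h₂) hZ]
  have e2 : EG (μ i) (r + 2) w ψ = EG (μ i) (r + 2) w φ := by
    rw [← EG_orth (μ i) h₁'' w hw hφ.1.measurable]
    exact X11_EG_congr _ hw e
  rw [X11_EG_div (μ i) w (fun Z => ψ fun j =>
    mob ((orthQ O₁).mul ((rotD r θ).mul (orthQ O₂))) (Z j)), X11_EG_div, e1, e2, ← sub_div,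
    div_mul_cancel₀ _ hB.ne']

end Crest.Agent.R166
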