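import Crest.Agent.R166.X1

/-! # Part X: the switch element at equal labels is a rotation up to orthogonal channels -/

set_option autoImplicit false
set_option linter.unusedVariables false
set_option linter.unusedSectionVars false

open MeasureTheory ProbabilityTheory Filter Topology Matrix
open scoped ENNReal BoundedContinuousFunction

namespace Crest.Agent.R166

theorem X3_fac {L M : Matrix (Fin 2) (Fin 2) ℝ} (hL : IsUnit L.det) (hM : IsUnit M.det)
    (h : L * Lᵀ = M * Mᵀ) : ∃ Q : Matrix (Fin 2) (Fin 2) ℝ, Q * Qᵀ = 1 ∧ Lᵀ = Qᵀ * Mᵀ ∧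
      Mᵀ * (L⁻¹)ᵀ = Q := by
  have h1 : M⁻¹ * L * (M⁻¹ * L)ᵀ = 1 := by
    rw [transpose_mul, Matrix.mul_assoc, ← Matrix.mul_assoc L, h, Matrix.mul_assoc M,
      ← transpose_mul, Matrix.nonsing_inv_mul _ hM, transpose_one, Matrix.mul_one,
      Matrix.nonsing_inv_mul _ hM]
  have h2 : M * (M⁻¹ * L) = L := Matrix.mul_nonsing_inv_cancel_left _ _ hM
  refine ⟨M⁻¹ * L, h1, by rw [← transpose_mul, h2], ?_⟩
  have h3 : L * (M⁻¹ * L)ᵀ = M := by
    nth_rewrite 1 [← h2]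
    rw [Matrix.mul_assoc, h1, Matrix.mul_one]
  rw [← transpose_mul]
  nth_rewrite 1 [← h3]
  rw [Matrix.nonsing_inv_mul_cancel_left _ _ hL, transpose_transpose]

theorem X3_ne {m : ℂ} (hm : 0 < m.im) : m ≠ 0 ∧ 1 + m ≠ 0 ∧ 1 - m ≠ 0 ∧ 1 - m * m ≠ 0 := by
  have h1 : 1 + m ≠ 0 := fun h => by
    have := congrArg Complex.im h
    simp at this; linarith
  have h2 : 1 - m ≠ 0 := fun h => by
    have := congrArg Complex.im h
    simp at this; linarith
  refine ⟨fun h => by simp [h] at hm, h1, h2, ?_⟩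
  rw [show 1 - m * m = (1 + m) * (1 - m) by ring]
  exact mul_ne_zero h1 h2

theorem X3_gE (m : ℂ) : Matrix.of (gE m m) =
    !![m / ((1 + m) * (1 - m)), -(m * m) / ((1 + m) * (1 - m));
      -(m * m) / ((1 + m) * (1 - m)), m / ((1 + m) * (1 - m))] := by
  rw [show (1 + m) * (1 - m) = 1 - m * m by ring]
  ext i j
  fin_cases i <;> fin_cases j <;> simp [gE]

theorem X3_cx (a b c d : ℝ) : cx !![a, b; c, d] = !![(a : ℂ), b; c, d] := by
  ext i j
  fin_cases i <;> fin_cases j <;> rfl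

theorem X3_im {m : ℂ} (hm : 0 < m.im) :
    (m / (1 - m * m)).im = (m.im / ‖1 + m‖ ^ 2 + m.im / ‖1 - m‖ ^ 2) / 2 ∧
      (-(m * m) / (1 - m * m)).im = (m.im / ‖1 + m‖ ^ 2 - m.im / ‖1 - m‖ ^ 2) / 2 := by
  obtain ⟨h0, h1, h2, h3⟩ := X3_ne hm
  have e1 : (m / (1 + m)).im = m.im / ‖1 + m‖ ^ 2 := by
    rw [Complex.div_im, Complex.normSq_eq_norm_sq, ← sub_div]
    congr 1
    simp; ring
  have e2 : (m / (1 - m)).im = m.im / ‖1 - m‖ ^ 2 := by
    rw [Complex.div_im, Complex.normSq_eq_norm_sq, ← sub_div]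
    congr 1
    simp; ring
  have e3 : m / (1 - m * m) = (m / (1 + m) + m / (1 - m)) / (2 : ℝ) := by
    rw [show 1 - m * m = (1 + m) * (1 - m) by ring]; push_cast; field_simp; ring
  have e4 : -(m * m) / (1 - m * m) = (m / (1 + m) - m / (1 - m)) / (2 : ℝ) := by
    rw [show 1 - m * m = (1 + m) * (1 - m) by ring]; push_cast; field_simp; ring
  rw [e3, e4, Complex.div_ofReal_im, Complex.div_ofReal_im, Complex.add_im, Complex.sub_im, e1, e2]
  exact ⟨rfl, rfl⟩

/-- the two-by-two computation -/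
theorem two_by_two {m : ℂ} (hm : 0 < m.im) : ∃ θ : ℝ, Real.sin θ ≠ 0 ∧
    ∃ Q₁ Q₂ : Matrix (Fin 2) (Fin 2) ℝ, Q₁ * Q₁ᵀ = 1 ∧ Q₂ * Q₂ᵀ = 1 ∧
      cx (L2 (m, m))ᵀ * !![1 / m, 1; 1, 1 / m] * !![1, 0; 0, -1] * Matrix.of (gE m m) *
          cx ((L2 (m, m))⁻¹)ᵀ =
        cx Q₁ * !![Complex.exp (-(θ * Complex.I)), 0; 0, Complex.exp (θ * Complex.I)] * cx Q₂ := by
  obtain ⟨h0, h1, h2, h3⟩ := X3_ne hm
  obtain ⟨hLL, hL⟩ := L2_mul (m := (m, m)) hm hm
  obtain ⟨i1, i2⟩ := X3_im hm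
  have hπ := Real.pi_pos
  have n1 : 0 < ‖1 + m‖ := norm_pos_iff.2 h1
  have n2 : 0 < ‖1 - m‖ := norm_pos_iff.2 h2
  set c := √(m.im / (2 * Real.pi)) with hc
  have hc0 : 0 < c := Real.sqrt_pos.2 (by positivity)
  have hc2 : c ^ 2 = m.im / (2 * Real.pi) := Real.sq_sqrt (by positivity)
  set a := c / ‖1 + m‖ with ha
  set b := c / ‖1 - m‖ with hb
  have ha0 : 0 < a := by positivity
  have hb0 : 0 < b := by positivity
  have ha2 : a * a = m.im / ‖1 + m‖ ^ 2 / (2 * Real.pi) := by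
    rw [ha, div_mul_div_comm, ← sq, hc2]; field_simp
  have hb2 : b * b = m.im / ‖1 - m‖ ^ 2 / (2 * Real.pi) := by
    rw [hb, div_mul_div_comm, ← sq, hc2]; field_simp
  have hM : IsUnit (!![a, b; a, -b] : Matrix (Fin 2) (Fin 2) ℝ).det := by
    rw [det_fin_two_of, isUnit_iff_ne_zero]
    nlinarith [mul_pos ha0 hb0]
  have hMM : L2 (m, m) * (L2 (m, m))ᵀ = !![a, b; a, -b] * (!![a, b; a, -b])ᵀ := by
    rw [hLL]
    ext i j
    fin_cases i <;> fin_cases j <;>
      simp [imM, gE, Matrix.mul_apply, Fin.sum_univ_two, i1, i2, ha2, hb2] <;> field_simp <;> ring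
  obtain ⟨Q, hQ, hQ1, hQ2⟩ := X3_fac hL hM hMM
  set u : ℂ := (a / b : ℝ) * ((1 + m) / (1 - m)) with hu
  have hu1 : ‖u‖ = 1 := by
    rw [hu, norm_mul, norm_div, Complex.norm_real, Real.norm_eq_abs, abs_of_pos (by positivity),
      ha, hb]
    field_simp
  have hu0 : u ≠ 0 := fun h => by simp [h] at hu1
  have huim : u.im ≠ 0 := by
    rw [hu, Complex.im_ofReal_mul, Complex.div_im, ← sub_div]
    refine mul_ne_zero (by positivity) (div_ne_zero ?_ (by simpa using h2))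
    simp
    linarith
  have he : Complex.exp (u.arg * Complex.I) = u := by
    have := Complex.norm_mul_exp_arg_mul_I u
    rwa [hu1, Complex.ofReal_one, one_mul] at this
  refine ⟨-u.arg, ?_, Qᵀ, !![0, 1; 1, 0] * Q, mul_eq_one_comm.1 (by simpa using hQ), ?_, ?_⟩
  · rw [Real.sin_neg, Complex.sin_arg, hu1]
    simpa using huim
  · rw [transpose_mul, Matrix.mul_assoc, ← Matrix.mul_assoc Q, hQ, Matrix.one_mul]
    ext i j
    fin_cases i <;> fin_cases j <;> simp [Matrix.mul_apply, Fin.sum_univ_two]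
  · have e1 : Complex.exp (-(((-u.arg : ℝ) : ℂ) * Complex.I)) = u := by
      rw [← he]; congr 1; rw [he]; push_cast; ring
    have e2 : Complex.exp (((-u.arg : ℝ) : ℂ) * Complex.I) = u⁻¹ := by
      rw [← he, ← Complex.exp_neg]; congr 1; rw [he]; push_cast; ring
    have key : cx (!![a, b; a, -b])ᵀ * (!![1 / m, 1; 1, 1 / m] * !![1, 0; 0, -1] *
        Matrix.of (gE m m)) = !![u, 0; 0, u⁻¹] * cx !![0, 1; 1, 0] * cx (!![a, b; a, -b])ᵀ := by
      have ha' : (a : ℂ) ≠ 0 := by exact_mod_cast ha0.ne'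
      have hb' : (b : ℂ) ≠ 0 := by exact_mod_cast hb0.ne'
      have hT : (!![a, b; a, -b] : Matrix (Fin 2) (Fin 2) ℝ)ᵀ = !![a, a; b, -b] := by
        ext i j
        fin_cases i <;> fin_cases j <;> rfl
      simp only [hT, X3_gE, X3_cx, Matrix.mul_fin_two, hu]
      ext i j
      fin_cases i <;> fin_cases j <;> simp <;> field_simp <;> ring
    rw [e1, e2, hQ1, cx_mul, cx_mul]
    calc _ = cx Qᵀ * (cx (!![a, b; a, -b])ᵀ * (!![1 / m, 1; 1, 1 / m] * !![1, 0; 0, -1] *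
          Matrix.of (gE m m))) * cx ((L2 (m, m))⁻¹)ᵀ := by simp only [Matrix.mul_assoc]
      _ = _ := by rw [key, ← hQ2, cx_mul]; simp only [Matrix.mul_assoc]

theorem X3_ring {A : Type} [Ring A] [Algebra ℂ A] (κ : ℂ) {l lt li lit r s b h g : A}
    (h1 : li * l = 1) (h2 : lt * lit = 1) (hg : g = r + κ • (l * lt)) (hhg : h * g = 1)
    (hgh : g * h = 1) (hs : s * (h + b) = h * s) :
    lt * (s * b * (r * lit) + s * lit) + κ • (lt * (s * b * l)) = lt * h * s * g * lit ∧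
    (li * (s * (r * lit)) - li * r * (s * b * (r * lit) + s * lit)) +
      κ • (li * (s * l) - li * r * (s * b * l)) = κ • (lt * h * s * g * lit) := by
  have k1 : g * lit = r * lit + κ • l := by
    rw [hg, add_mul, smul_mul_assoc, mul_assoc, h2, mul_one]
  have k2 : s * b * (g * lit) + s * lit = h * s * g * lit := by
    rw [← hs]
    calc _ = s * b * (g * lit) + s * (h * g) * lit := by rw [hhg, mul_one]
      _ = _ := by noncomm_ring
  have k3 : li * (g - r) = κ • lt := by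
    rw [hg, add_sub_cancel_left, mul_smul_comm, ← mul_assoc, h1, one_mul]
  constructor
  · calc _ = lt * (s * b * (g * lit) + s * lit) := by
          rw [k1]; simp only [mul_add, mul_smul_comm]; abel
      _ = _ := by rw [k2]; simp only [mul_assoc]
  · calc _ = li * (s * (g * lit)) - li * r * (s * b * (g * lit) + s * lit) := by
          rw [k1]; simp only [mul_add, mul_smul_comm, smul_sub]; abel
      _ = li * (g * h) * (s * (g * lit)) - li * r * (h * s * g * lit) := by rw [k2, hgh, mul_one]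
      _ = li * (g - r) * (h * s * g * lit) := by noncomm_ring
      _ = _ := by rw [k3, smul_mul_assoc]; simp only [mul_assoc]

theorem X3_reim {X Y X' Y' : Matrix (Fin 2) (Fin 2) ℝ}
    (h : cx X + (Real.pi * Complex.I : ℂ) • cx Y = cx X' + (Real.pi * Complex.I : ℂ) • cx Y') :
    X = X' ∧ Y = Y' := by
  constructor
  · ext i j
    simpa using congrArg Complex.re (congrFun (congrFun h i) j)
  · ext i j
    simpa [Real.pi_ne_zero] using congrArg Complex.im (congrFun (congrFun h i) j)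

/-- the switch element on the antisymmetric channels -/
theorem X3_real {m : ℂ} (hm : 0 < m.im) : ∃ θ : ℝ, Real.sin θ ≠ 0 ∧
    ∃ Q₁ Q₂ : Matrix (Fin 2) (Fin 2) ℝ, Q₁ * Q₁ᵀ = 1 ∧ Q₂ * Q₂ᵀ = 1 ∧
      ∀ L Li R S B : Matrix (Fin 2) (Fin 2) ℝ, L = L2 (m, m) → Li = (L2 (m, m))⁻¹ → R = R2 (m, m) →
        S = !![1, 0; 0, -1] → B = !![0, -2; -2, 0] →
        Li * (S * L) - Li * R * (S * B * L) = Q₁ * diagonal ![Real.cos θ, Real.cos (-θ)] * Q₂ ∧
        Li * (S * (R * Liᵀ)) - Li * R * (S * B * (R * Liᵀ) + S * Liᵀ) =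
          Q₁ * diagonal ![Real.pi * Real.sin θ, Real.pi * Real.sin (-θ)] * Q₂ ∧
        Lᵀ * (S * B * L) =
          Q₁ * diagonal ![-(Real.sin θ / Real.pi), -(Real.sin (-θ) / Real.pi)] * Q₂ ∧
        Lᵀ * (S * B * (R * Liᵀ) + S * Liᵀ) = Q₁ * diagonal ![Real.cos θ, Real.cos (-θ)] * Q₂ := by
  obtain ⟨θ, hθ, Q₁, Q₂, hQ₁, hQ₂, h⟩ := two_by_two hm
  refine ⟨θ, hθ, Q₁, Q₂, hQ₁, hQ₂, ?_⟩
  rintro L Li R S B hL hLi hR hS hB
  obtain ⟨h0, h1, h2, h3⟩ := X3_ne hm
  obtain ⟨hLL, hdet⟩ := L2_mul (m := (m, m)) hm hm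
  have hπ : (Real.pi : ℂ) ≠ 0 := by exact_mod_cast Real.pi_ne_zero
  rw [← hL] at hLL hdet hLi
  rw [← hL, ← hLi] at h
  have e1 : Li * L = 1 := by rw [hLi]; exact Matrix.nonsing_inv_mul _ hdet
  have e2 : Lᵀ * Liᵀ = 1 := by rw [← transpose_mul, e1, transpose_one]
  have hS' : (!![1, 0; 0, -1] : Matrix (Fin 2) (Fin 2) ℂ) = cx S := by
    rw [hS]; ext i j; fin_cases i <;> fin_cases j <;> simp
  obtain ⟨k1, k2⟩ := X3_ring (Real.pi * Complex.I) (l := cx L) (lt := cx Lᵀ) (li := cx Li)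
    (lit := cx Liᵀ) (r := cx R) (s := cx S) (b := cx B) (h := !![1 / m, 1; 1, 1 / m])
    (g := Matrix.of (gE m m)) (by rw [← cx_mul, e1, cx_one]) (by rw [← cx_mul, e2, cx_one])
    (by
      rw [← cx_mul, hLL, hR]
      ext i j
      simp only [R2, imM, of_apply, Matrix.add_apply, Matrix.smul_apply, cx_apply, smul_eq_mul]
      push_cast
      field_simp
      rw [mul_comm]
      exact (Complex.re_add_im _).symm)
    (by
      rw [X3_gE, Matrix.mul_fin_two]
      ext i j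
      fin_cases i <;> fin_cases j <;> simp <;> field_simp <;> ring)
    (by
      rw [X3_gE, Matrix.mul_fin_two]
      ext i j
      fin_cases i <;> fin_cases j <;> simp <;> field_simp <;> ring)
    (by
      rw [hS, hB]
      ext i j
      fin_cases i <;> fin_cases j <;> simp [Matrix.mul_apply, Fin.sum_univ_two] <;> norm_num)
  rw [← hS', h, hS'] at k1 k2
  have d1 : (!![Complex.exp (-(θ * Complex.I)), 0; 0, Complex.exp (θ * Complex.I)] :
      Matrix (Fin 2) (Fin 2) ℂ) = cx (diagonal ![Real.cos θ, Real.cos (-θ)]) +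
        (Real.pi * Complex.I : ℂ) •
          cx (diagonal ![-(Real.sin θ / Real.pi), -(Real.sin (-θ) / Real.pi)]) := by
    rw [← neg_mul]
    ext i j
    fin_cases i <;> fin_cases j <;> simp [Complex.exp_mul_I, -neg_mul] <;> field_simp <;> ring
  have d2 : (Real.pi * Complex.I : ℂ) • (!![Complex.exp (-(θ * Complex.I)), 0; 0,
      Complex.exp (θ * Complex.I)] : Matrix (Fin 2) (Fin 2) ℂ) =
      cx (diagonal ![Real.pi * Real.sin θ, Real.pi * Real.sin (-θ)]) +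
        (Real.pi * Complex.I : ℂ) • cx (diagonal ![Real.cos θ, Real.cos (-θ)]) := by
    rw [← neg_mul]
    ext i j
    fin_cases i <;> fin_cases j <;> simp [Complex.exp_mul_I, -neg_mul] <;> ring_nf <;> simp <;> ring
  rw [← Matrix.smul_mul, ← Matrix.mul_smul, d2] at k2
  rw [d1] at k1
  simp only [Matrix.mul_add, Matrix.add_mul, Matrix.mul_smul, Matrix.smul_mul, ← cx_mul, ← cx_add,
    ← cx_sub] at k1 k2
  have r1 := X3_reim k1
  have r2 := X3_reim k2
  simp only [Matrix.mul_add]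
  exact ⟨r2.2, r2.1, r1.2, r1.1⟩

section Phi
open scoped Kronecker
variable {N q : ℕ} (ι : Fin N ≃ Fin 2 × Fin (q + 2))

/-- projection on the antisymmetric combination of the first two edges -/
noncomputable def X3_Pi (q : ℕ) : Matrix (Fin (q + 2)) (Fin (q + 2)) ℝ :=
  Matrix.of fun k l => sg01 k * sg01 l / 2

theorem X3_sg_sum (q : ℕ) : ∑ l : Fin (q + 2), sg01 l * sg01 l = 2 := by
  rw [Fin.sum_univ_succ, Fin.sum_univ_succ, Finset.sum_eq_zero]
  · simp [sg01]; norm_num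
  · intro l _
    have h1 : l.succ.succ ≠ 1 := fun h => by simpa using congrArg Fin.val h
    simp [sg01, h1]

theorem X3_Pi_sq (q : ℕ) : X3_Pi q * X3_Pi q = X3_Pi q := by
  ext k l
  have : ∀ j : Fin (q + 2), sg01 k * sg01 j / 2 * (sg01 j * sg01 l / 2) =
      sg01 k * sg01 l / 4 * (sg01 j * sg01 j) := fun j => by ring
  simp only [X3_Pi, Matrix.mul_apply, of_apply, this, ← Finset.mul_sum, X3_sg_sum]
  ring

theorem X3_Pi_T (q : ℕ) : (X3_Pi q)ᵀ = X3_Pi q := by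
  ext k l
  simp [X3_Pi, mul_comm]

/-- `a` on the symmetric channels, `b` on the antisymmetric ones -/
noncomputable def X3_Phi (a b : Matrix (Fin 2) (Fin 2) ℝ) : Matrix (Fin N) (Fin N) ℝ :=
  (a ⊗ₖ (1 - X3_Pi q) + b ⊗ₖ X3_Pi q).submatrix ι ι

theorem X3_Phi_apply (a b : Matrix (Fin 2) (Fin 2) ℝ) (x y : Fin N) : X3_Phi ι a b x y =
    (if (ι x).2 = (ι y).2 then a (ι x).1 (ι y).1 else 0) +
      (b (ι x).1 (ι y).1 - a (ι x).1 (ι y).1) * (sg01 (ι x).2 * sg01 (ι y).2 / 2) := by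
  simp only [X3_Phi, submatrix_apply, Matrix.add_apply, kroneckerMap_apply, Matrix.sub_apply,
    one_apply, X3_Pi, of_apply]
  split_ifs <;> ring

theorem X3_Phi_symm (a b : Matrix (Fin 2) (Fin 2) ℝ) (i j : Fin 2) (k l : Fin (q + 2)) :
    X3_Phi ι a b (ι.symm (i, k)) (ι.symm (j, l)) =
      (if k = l then a i j else 0) + (b i j - a i j) * (sg01 k * sg01 l / 2) := by
  rw [X3_Phi_apply, Equiv.apply_symm_apply, Equiv.apply_symm_apply]

theorem X3_Phi_mul (a b a' b' : Matrix (Fin 2) (Fin 2) ℝ) :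
    X3_Phi ι a b * X3_Phi ι a' b' = X3_Phi ι (a * a') (b * b') := by
  have e1 : (1 - X3_Pi q) * (1 - X3_Pi q) = 1 - X3_Pi q := by
    rw [Matrix.sub_mul, Matrix.mul_sub, Matrix.mul_sub, X3_Pi_sq]; simp
  have e2 : (1 - X3_Pi q) * X3_Pi q = 0 := by rw [Matrix.sub_mul, X3_Pi_sq]; simp
  have e3 : X3_Pi q * (1 - X3_Pi q) = 0 := by rw [Matrix.mul_sub, X3_Pi_sq]; simp
  unfold X3_Phi
  rw [submatrix_mul_equiv, Matrix.add_mul, Matrix.mul_add, Matrix.mul_add]
  simp only [← mul_kronecker_mul, e1, e2, e3, X3_Pi_sq, kronecker_zero, add_zero, zero_add]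

theorem X3_Phi_add (a b a' b' : Matrix (Fin 2) (Fin 2) ℝ) :
    X3_Phi ι a b + X3_Phi ι a' b' = X3_Phi ι (a + a') (b + b') := by
  ext x y
  simp only [Matrix.add_apply, X3_Phi_apply]
  split_ifs <;> ring

theorem X3_Phi_neg (a b : Matrix (Fin 2) (Fin 2) ℝ) : -X3_Phi ι a b = X3_Phi ι (-a) (-b) := by
  ext x y
  simp only [Matrix.neg_apply, X3_Phi_apply]
  split_ifs <;> ring

theorem X3_Phi_T (a b : Matrix (Fin 2) (Fin 2) ℝ) : (X3_Phi ι a b)ᵀ = X3_Phi ι aᵀ bᵀ := by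
  ext x y
  simp only [transpose_apply, X3_Phi_apply, eq_comm (a := (ι y).2)]
  ring

theorem X3_blk (a : Matrix (Fin 2) (Fin 2) ℝ) : blk ι (fun _ => a) = X3_Phi ι a a := by
  ext x y
  rw [blk_apply, X3_Phi_apply]
  simp

theorem X3_Phi_one : X3_Phi ι 1 1 = 1 := by rw [← X3_blk, blk_one]

theorem X3_swB : swB ι = X3_Phi ι 0 !![0, -2; -2, 0] := by
  ext x y
  rw [X3_Phi_apply]
  simp only [swB, of_apply]
  generalize (ι x).1 = i
  generalize (ι y).1 = j
  fin_cases i <;> fin_cases j <;> simp <;> ring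

theorem X3_pm : pm (swP ι) = X3_Phi ι 1 !![1, 0; 0, -1] := by
  ext x y
  obtain ⟨⟨i, k⟩, rfl⟩ := ι.symm.surjective x
  obtain ⟨⟨j, l⟩, rfl⟩ := ι.symm.surjective y
  rw [X3_Phi_symm, one_apply]
  simp only [pm, swP, of_apply, ι.symm.injective.swap_apply, EmbeddingLike.apply_eq_iff_eq]
  have hne : ∀ t : Fin q, t.succ.succ ≠ 1 := fun t h => by simpa using congrArg Fin.val h
  have hne' : ∀ t : Fin q, 1 ≠ t.succ.succ := fun t => (hne t).symm
  have hz : ∀ t : Fin (q + 1), 0 ≠ t.succ := fun t => (Fin.succ_ne_zero t).symm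
  refine Fin.cases ?_ (fun k => Fin.cases ?_ (fun k => ?_) k) k <;>
    refine Fin.cases ?_ (fun l => Fin.cases ?_ (fun l => ?_) l) l <;>
    fin_cases i <;> fin_cases j <;>
    simp [Equiv.swap_apply_def, sg01, hne, hne', hz] <;> norm_num

end Phi

theorem X3_diag {r q : ℕ} (ι : Fin (r + 2) ≃ Fin 2 × Fin (q + 2)) :
    ∃ O : Matrix (Fin (r + 2)) (Fin (r + 2)) ℝ, O * Oᵀ = 1 ∧ ∀ c d₀ d₁ : ℝ,
      X3_Phi ι (c • 1) (diagonal ![d₀, d₁]) =
        O * diagonal (fun b => if b = 0 then d₀ else if b = 1 then d₁ else c) * Oᵀ := by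
  let v : Fin (r + 2) → EuclideanSpace ℝ (Fin (r + 2)) := fun b => WithLp.toLp 2 fun x =>
    if (ι x).1 = (if b = 0 then 0 else 1) then sg01 (ι x).2 / √2 else 0
  have h2 : √2 * √2 = (2 : ℝ) := Real.mul_self_sqrt (by norm_num)
  have h20 : √2 ≠ (0 : ℝ) := by positivity
  have hsum : ∀ i j : Fin 2, (∑ x, (if (ι x).1 = i then sg01 (ι x).2 / √2 else 0) *
      (if (ι x).1 = j then sg01 (ι x).2 / √2 else 0)) = if i = j then 1 else 0 := by
    intro i j
    rw [Equiv.sum_comp ι (fun p => (if p.1 = i then sg01 p.2 / √2 else 0) *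
      (if p.1 = j then sg01 p.2 / √2 else 0)), Fintype.sum_prod_type]
    have : ∑ l : Fin (q + 2), sg01 l / √2 * (sg01 l / √2) = 1 := by
      simp only [div_mul_div_comm, h2, ← Finset.sum_div, X3_sg_sum]
      norm_num
    fin_cases i <;> fin_cases j <;> simp [this]
  have hv : Orthonormal ℝ (({0, 1} : Set (Fin (r + 2))).domRestrict v) := by
    rw [orthonormal_iff_ite]
    rintro ⟨b, hb⟩ ⟨b', hb'⟩
    simp only [Set.domRestrict_apply, v, PiLp.inner_apply, RCLike.inner_apply, conj_trivial, hsum,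
      Subtype.mk.injEq]
    rcases hb with rfl | rfl <;> rcases hb' with rfl | rfl <;> simp
  obtain ⟨e, he⟩ := hv.exists_orthonormalBasis_extension_of_card_eq (by simp)
  have e0 := he 0 (by simp)
  have e1 := he 1 (by simp)
  have hO : ∀ x y, ∑ b, e b x * e b y = if x = y then 1 else 0 := by
    intro x y
    have := e.sum_inner_mul_inner (EuclideanSpace.single x (1 : ℝ)) (EuclideanSpace.single y 1)
    simpa [EuclideanSpace.inner_single_left, EuclideanSpace.inner_single_right,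
      PiLp.single_apply, eq_comm] using this
  refine ⟨Matrix.of fun x b => e b x, ?_, fun c d₀ d₁ => ?_⟩
  · ext x y
    simp only [Matrix.mul_apply, of_apply, transpose_apply, hO, one_apply]
  · ext x y
    have hne : ∀ t : Fin r, t.succ.succ ≠ 1 := fun t h => by simpa using congrArg Fin.val h
    have s1 : (∑ b, e b x * (if b = 0 then d₀ else if b = 1 then d₁ else c) * e b y) =
        c * ∑ b, e b x * e b y + (d₀ - c) * (e 0 x * e 0 y) + (d₁ - c) * (e 1 x * e 1 y) := by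
      rw [Finset.mul_sum, Fin.sum_univ_succ, Fin.sum_univ_succ, Fin.sum_univ_succ,
        Fin.sum_univ_succ (n := r)]
      simp only [Fin.succ_zero_eq_one, if_true, one_ne_zero, if_false, Fin.succ_ne_zero, hne]
      rw [Finset.sum_congr rfl fun t _ => show e t.succ.succ x * c * e t.succ.succ y =
        c * (e t.succ.succ x * e t.succ.succ y) by ring]
      ring
    rw [X3_Phi_apply, Matrix.mul_apply]
    simp only [mul_diagonal, of_apply, transpose_apply]
    rw [s1, hO, e0, e1]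
    obtain ⟨⟨i, k⟩, rfl⟩ := ι.symm.surjective x
    obtain ⟨⟨j, l⟩, rfl⟩ := ι.symm.surjective y
    simp only [v, EmbeddingLike.apply_eq_iff_eq, Equiv.apply_symm_apply]
    fin_cases i <;> fin_cases j <;> simp [div_mul_div_comm, h2]

theorem Wq_decomp {m : ℂ} (hm : 0 < m.im) : ∃ θ : ℝ, Real.sin θ ≠ 0 ∧
    ∀ (r q : ℕ) (ι : Fin (r + 2) ≃ Fin 2 × Fin (q + 2)),
      ∃ O₁ O₂ : Matrix (Fin (r + 2)) (Fin (r + 2)) ℝ, O₁ * O₁ᵀ = 1 ∧ O₂ * O₂ᵀ = 1 ∧
        Wq ι (fun _ => (m, m)) (fun _ => (m, m)) =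
          (orthQ O₁).mul ((rotD r θ).mul (orthQ O₂)) := by
  obtain ⟨θ, hθ, Q₁, Q₂, hQ₁, hQ₂, h⟩ := X3_real hm
  refine ⟨θ, hθ, fun r q ι => ?_⟩
  obtain ⟨O, hO, hd⟩ := X3_diag ι
  obtain ⟨hA, hB, hC, hD⟩ := h _ _ _ _ _ rfl rfl rfl rfl rfl
  have hO' : Oᵀ * O = 1 := mul_eq_one_comm.1 hO
  have hdet := (L2_mul (m := (m, m)) hm hm).2
  have e1 : (L2 (m, m))⁻¹ * L2 (m, m) = 1 := Matrix.nonsing_inv_mul _ hdet
  have e2 : (L2 (m, m))ᵀ * ((L2 (m, m))⁻¹)ᵀ = 1 := by rw [← transpose_mul, e1, transpose_one]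
  have hR : (R2 (m, m))ᵀ = R2 (m, m) := by
    ext i j
    simp only [R2, transpose_apply, of_apply, gE_symm m m j i]
  have key : ∀ c d₀ d₁ : ℝ, X3_Phi ι (c • 1) (Q₁ * diagonal ![d₀, d₁] * Q₂) =
      X3_Phi ι 1 Q₁ * O * (diagonal (fun b => if b = 0 then d₀ else if b = 1 then d₁ else c) *
        (Oᵀ * X3_Phi ι 1 Q₂)) := by
    intro c d₀ d₁
    have := congrArg (fun M => X3_Phi ι 1 Q₁ * M * X3_Phi ι 1 Q₂) (hd c d₀ d₁)
    simp only [X3_Phi_mul, Matrix.one_mul, Matrix.mul_one] at this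
    rw [this]
    simp only [Matrix.mul_assoc]
  refine ⟨X3_Phi ι 1 Q₁ * O, Oᵀ * X3_Phi ι 1 Q₂, ?_, ?_, ?_⟩
  · rw [transpose_mul, Matrix.mul_assoc, ← Matrix.mul_assoc O, hO, Matrix.one_mul, X3_Phi_T,
      X3_Phi_mul, hQ₁, transpose_one, Matrix.one_mul, X3_Phi_one]
  · rw [transpose_mul, Matrix.mul_assoc, ← Matrix.mul_assoc (X3_Phi ι 1 Q₂), X3_Phi_T,
      X3_Phi_mul, hQ₂, transpose_one, Matrix.one_mul, X3_Phi_one, Matrix.one_mul,
      transpose_transpose, hO']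
  · have f : ∀ g : ℝ → ℝ, (fun b : Fin (r + 2) => g (if b = 0 then θ else if b = 1 then -θ else 0)) =
        fun b => if b = 0 then g θ else if b = 1 then g (-θ) else g 0 := by
      intro g
      funext b
      split_ifs <;> rfl
    have fc := f Real.cos
    have fs := f fun t => Real.pi * Real.sin t
    have fs' := f fun t => -(Real.sin t / Real.pi)
    refine Quad.ext ?_ ?_ ?_ ?_ <;>
      simp only [Wq, swQ, gQ, Quad.inv, Quad.mul, orthQ, rotD, rotQ, Lm, Li, Rm, X3_blk, X3_swB, X3_pm,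
        Matrix.mul_zero, Matrix.zero_mul, Matrix.mul_one, add_zero, zero_add, transpose_zero,
        neg_zero, X3_Phi_T, X3_Phi_mul, X3_Phi_add, X3_Phi_neg, transpose_transpose, transpose_mul,
        hR, fc, fs, fs', ← key, Matrix.one_mul, Matrix.neg_mul, ← sub_eq_add_neg]
    · rw [hA]; simp [e1]
    · rw [hB]; simp [Matrix.mul_assoc]
    · rw [hC]; simp
    · rw [hD]; simp [e2]

end Crest.Agent.R166
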