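import Crest.Agent.R166.XDefs

/-! # Part X: algebra of the normalisation -/

set_option autoImplicit false
set_option linter.unusedVariables false
set_option linter.unusedSectionVars false

open MeasureTheory ProbabilityTheory Filter Topology Matrix
open scoped ENNReal BoundedContinuousFunction

namespace Crest.Agent.R166

theorem gE_symm (m m' : ℂ) (b c : Fin 2) : gE m m' b c = gE m m' c b := by
  unfold gE
  by_cases h : b = c
  · subst h; rfl
  · rw [if_neg h, if_neg (Ne.symm h)]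

theorem L2_mul {m : ℂ × ℂ} (h1 : 0 < m.1.im) (h2 : 0 < m.2.im) :
    L2 m * (L2 m)ᵀ = (Real.pi)⁻¹ • imM (gE m.1 m.2) ∧ IsUnit (L2 m).det := by
  obtain ⟨a1, a2⟩ := chol_mul (imM_gE_posDef h1 h2)
  have hp : √Real.pi ≠ 0 := (Real.sqrt_pos.2 Real.pi_pos).ne'
  refine ⟨?_, ?_⟩
  · rw [L2, transpose_smul, Matrix.smul_mul, Matrix.mul_smul, smul_smul, a1, ← mul_inv,
      Real.mul_self_sqrt Real.pi_pos.le]
  · rw [L2, det_smul]
    exact (isUnit_iff_ne_zero.2 (pow_ne_zero _ (inv_ne_zero hp))).mul a2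

theorem continuousOn_L2 :
    ContinuousOn L2 {m | 0 < m.1.im ∧ 0 < m.2.im} ∧
    ContinuousOn (fun m => (L2 m)⁻¹) {m | 0 < m.1.im ∧ 0 < m.2.im} ∧
    ContinuousOn R2 {m | 0 < m.1.im ∧ 0 < m.2.im} ∧
    ContinuousOn (fun m : ℂ × ℂ => gE m.1 m.2) {m | 0 < m.1.im ∧ 0 < m.2.im} := by
  have hg : ∀ b c, ContinuousOn (fun m : ℂ × ℂ => gE m.1 m.2 b c)
      {m | 0 < m.1.im ∧ 0 < m.2.im} := fun b c => by
    unfold gE
    refine ContinuousOn.div ?_ (by fun_prop) fun m hm => T0b_one_sub_ne hm.1 hm.2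
    split_ifs <;> fun_prop
  have hi : ∀ b c, ContinuousOn (fun m : ℂ × ℂ => imM (gE m.1 m.2) b c)
      {m | 0 < m.1.im ∧ 0 < m.2.im} := fun b c => Complex.continuous_im.comp_continuousOn (hg b c)
  have h0 : ∀ m ∈ {m : ℂ × ℂ | 0 < m.1.im ∧ 0 < m.2.im}, 0 < imM (gE m.1 m.2) 0 0 :=
    fun m hm => (imM_gE_posDef hm.1 hm.2).diag_pos
  have hL : ContinuousOn L2 {m | 0 < m.1.im ∧ 0 < m.2.im} := by
    refine ContinuousOn.const_smul (g := fun m : ℂ × ℂ => chol (imM (gE m.1 m.2))) ?_ (√Real.pi)⁻¹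
    refine continuousOn_pi.2 fun b => continuousOn_pi.2 fun c => ?_
    fin_cases b <;> fin_cases c
    · exact (hi 0 0).sqrt
    · exact continuousOn_const (c := (0 : ℝ))
    · exact (hi 1 0).div (hi 0 0).sqrt fun m hm => (Real.sqrt_pos.2 (h0 m hm)).ne'
    · exact ((hi 1 1).sub (((hi 1 0).pow 2).div (hi 0 0) fun m hm => (h0 m hm).ne')).sqrt
  refine ⟨hL, fun m hm => ?_, ?_, continuousOn_pi.2 fun b => continuousOn_pi.2 fun c => hg b c⟩
  · obtain ⟨u, hu⟩ := (L2_mul hm.1 hm.2).2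
    exact (continuousAt_matrix_inv _ (hu ▸ NormedRing.inverse_continuousAt u)).comp_continuousWithinAt
      (hL m hm)
  · exact continuousOn_pi.2 fun b => continuousOn_pi.2 fun c =>
      Complex.continuous_re.comp_continuousOn (hg b c)

section
variable {N q : ℕ} (ι : Fin N ≃ Fin 2 × Fin q)

theorem blk_apply (f : Fin q → Matrix (Fin 2) (Fin 2) ℝ) (b c : Fin N) :
    blk ι f b c = if (ι b).2 = (ι c).2 then f (ι b).2 (ι b).1 (ι c).1 else 0 := by
  rfl

theorem blk_mul (f g : Fin q → Matrix (Fin 2) (Fin 2) ℝ) :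
    blk ι f * blk ι g = blk ι fun l => f l * g l := by
  rw [blk, blk, blk, submatrix_mul_equiv, ← blockDiagonal_mul]

theorem blk_transpose (f : Fin q → Matrix (Fin 2) (Fin 2) ℝ) :
    (blk ι f)ᵀ = blk ι fun l => (f l)ᵀ := by
  rw [blk, blk, transpose_submatrix, blockDiagonal_transpose]

theorem blk_one : blk ι (fun _ => 1) = 1 := by
  rw [blk, show (fun _ : Fin q => (1 : Matrix (Fin 2) (Fin 2) ℝ)) = 1 from rfl, blockDiagonal_one,
    submatrix_one_equiv]

theorem Li_mul_Lm {e : Lab q} (he : LabH e) : Li ι e * Lm ι e = 1 ∧ Lm ι e * Li ι e = 1 := by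
  have h : Li ι e * Lm ι e = 1 := by
    rw [Li, Lm, blk_mul, ← blk_one ι]
    congr 1
    funext l
    exact nonsing_inv_mul _ (L2_mul (he l).1 (he l).2).2
  exact ⟨h, mul_eq_one_comm.1 h⟩

theorem Rm_isSymm (e : Lab q) : (Rm ι e).IsSymm := by
  rw [Matrix.IsSymm, Rm, blk_transpose]
  congr 1
  funext l
  ext b c
  simp only [R2, transpose_apply, of_apply, gE_symm _ _ c b]

theorem gQ_isSymp {e : Lab q} (he : LabH e) : (gQ ι e).IsSymp := by
  refine ⟨?_, ?_, ?_⟩ <;> simp only [gQ]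
  · rw [Matrix.mul_zero]; exact isSymm_zero
  · rw [Matrix.IsSymm]
    simp only [transpose_mul, transpose_transpose, (Rm_isSymm ι e).eq, Matrix.mul_assoc]
  · rw [transpose_zero, Matrix.zero_mul, sub_zero, ← transpose_mul, (Li_mul_Lm ι he).1, transpose_one]

theorem mob_gQ_inv {e : Lab q} (he : LabH e) (Z : Jet N) : mob (gQ ι e).inv Z = nrm ι e Z := by
  have h1 : (jfac (gQ ι e).inv Z)⁻¹ = cx (Li ι e)ᵀ := by
    refine Matrix.inv_eq_right_inv ?_
    simp only [jfac, gQ, Quad.inv, transpose_zero, neg_zero, Mob1_cx_zero, Matrix.zero_mul, zero_add]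
    rw [← cx_mul, ← transpose_mul, (Li_mul_Lm ι he).1, transpose_one, cx_one]
  rw [mob, h1, nrm]
  simp only [gQ, Quad.inv, transpose_zero, neg_zero, Mob1_cx_zero, Matrix.zero_mul,
    Matrix.mul_zero, trace_zero, sub_zero, transpose_transpose, transpose_mul, (Rm_isSymm ι e).eq]
  refine Prod.ext ?_ rfl
  have h2 : cx (-(Li ι e * Rm ι e)) = -(cx (Li ι e) * cx (Rm ι e)) := by
    rw [← cx_mul]; ext a b; simp
  simp only [h2, Matrix.mul_sub, sub_eq_add_neg, Matrix.mul_add, Matrix.mul_neg]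

theorem X1_conj {n : ℕ} (A : Matrix (Fin N) (Fin N) ℝ) (v : Fin N → Fin n → ℝ) (k : Fin n → ℂ)
    (b c : Fin N) :
    (cx A * Matrix.of (fun b c => ∑ i, ((v b i * v c i : ℝ) : ℂ) / k i) * cx Aᵀ) b c =
      ∑ i, (((∑ c', A b c' * v c' i) * ∑ c', A c c' * v c' i : ℝ) : ℂ) / k i := by
  simp only [Matrix.mul_apply, cx_apply, of_apply, transpose_apply, Finset.sum_mul, Finset.mul_sum,
    Finset.sum_div, Complex.ofReal_sum, Complex.ofReal_mul]
  rw [Finset.sum_comm (s := (Finset.univ : Finset (Fin n)))]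
  refine Finset.sum_congr rfl fun c' _ => ?_
  rw [Finset.sum_comm (s := (Finset.univ : Finset (Fin n)))]
  refine Finset.sum_congr rfl fun b' _ => Finset.sum_congr rfl fun i _ => ?_
  ring

theorem nrm_jetV (e : Lab q) {n : ℕ} (p : Conf n) (v : Fin N → Fin n → ℝ) (w : ℂ) :
    nrm ι e (jetV p v (fun _ _ => 0) w) =
      jetV p (fun b i => ∑ c, Li ι e b c * v c i)
        (fun b c => (Li ι e * Rm ι e * (Li ι e)ᵀ) b c) w := by
  refine Prod.ext ?_ (Prod.ext ?_ rfl)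
  · funext b c
    have h := X1_conj (Li ι e) v (fun i => (p.1 i : ℂ) - w) b c
    simp only [nrm, jetV, Complex.ofReal_zero, sub_zero, Matrix.mul_sub, Matrix.sub_mul,
      of_symm_apply, ← cx_mul]
    rw [← h]
    rfl
  · funext b c
    exact X1_conj (Li ι e) v (fun i => ((p.1 i : ℂ) - w) ^ 2) b c

/-- the normalisation sends the block-diagonal tree Green matrix to `iπ` -/
theorem nrm_gE {e : Lab q} (he : LabH e) (Z : Jet N) (b c : Fin N) :
    (nrm ι e Z).1 b c - ipi b c = ∑ b', ∑ c', (Li ι e b b' : ℂ) *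
      (Z.1 b' c' - if (ι b').2 = (ι c').2 then gE (e (ι b').2).1 (e (ι b').2).2 (ι b').1 (ι c').1
        else 0) * (Li ι e c c' : ℂ) := by
  have h1 : Matrix.of (fun b' c' => Z.1 b' c' - if (ι b').2 = (ι c').2 then
      gE (e (ι b').2).1 (e (ι b').2).2 (ι b').1 (ι c').1 else 0) =
      Matrix.of Z.1 - cx (Rm ι e) - ((Real.pi : ℂ) * Complex.I) • cx (Lm ι e * (Lm ι e)ᵀ) := by
    ext b' c'
    simp only [Lm, Rm, blk_transpose, blk_mul, of_apply, Matrix.sub_apply, Matrix.smul_apply, cx_apply,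
      blk_apply]
    split_ifs with h
    · rw [(L2_mul (he _).1 (he _).2).1, sub_sub]
      congr 1
      have hp : (Real.pi : ℂ) ≠ 0 := Complex.ofReal_ne_zero.2 Real.pi_pos.ne'
      simp only [R2, imM, of_apply, Matrix.smul_apply, smul_eq_mul, Complex.ofReal_mul,
        Complex.ofReal_inv]
      rw [mul_mul_mul_comm, mul_inv_cancel₀ hp, one_mul, mul_comm Complex.I, Complex.re_add_im]
    · simp
  have h2 : cx (Li ι e) * cx (Lm ι e * (Lm ι e)ᵀ) * cx (Li ι e)ᵀ = 1 := by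
    rw [← cx_mul, ← cx_mul, ← Matrix.mul_assoc, (Li_mul_Lm ι he).1, Matrix.one_mul,
      ← transpose_mul, (Li_mul_Lm ι he).1, transpose_one, cx_one]
  have h4 : ∀ A B C D : Matrix (Fin N) (Fin N) ℂ, ∀ t : ℂ,
      A * (B - t • C) * D = A * B * D - t • (A * C * D) := fun A B C D t => by
    rw [mul_sub, sub_mul, mul_smul_comm, smul_mul_assoc]
  have h5 := h4 (cx (Li ι e)) (Matrix.of Z.1 - cx (Rm ι e)) (cx (Lm ι e * (Lm ι e)ᵀ))
    (cx (Li ι e)ᵀ) ((Real.pi : ℂ) * Complex.I)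
  rw [← h1, h2] at h5
  have h3 := Matrix.ext_iff.2 h5 b c
  rw [Matrix.sub_apply] at h3
  refine Eq.trans ?_ (h3.symm.trans ?_)
  · congr 1
    by_cases h : b = c <;> simp [ipi, h]
  · simp only [Matrix.mul_apply, cx_apply, of_apply, transpose_apply, Finset.sum_mul]
    exact Finset.sum_comm

end

section
variable {N q : ℕ} (ι : Fin N ≃ Fin 2 × Fin (q + 2))

theorem pm_orth (τ : Equiv.Perm (Fin N)) : pm τ * (pm τ)ᵀ = 1 := by
  ext b c
  simp [pm, Matrix.mul_apply, Matrix.one_apply, eq_comm]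

theorem swB_isSymm : (swB ι).IsSymm := by
  ext b c
  simp only [swB, transpose_apply, of_apply, eq_comm (a := (ι c).1), mul_comm (sg01 (ι c).2)]

theorem shear_isSymp {B : Matrix (Fin N) (Fin N) ℝ} (hB : B.IsSymm) :
    (⟨1, 0, B, 1⟩ : Quad N).IsSymp := by
  refine ⟨?_, ?_, ?_⟩
  · simpa using hB
  · simp
  · simp

theorem swQ_isSymp : (swQ ι).IsSymp := by
  exact (orthQ_isSymp (pm_orth _)).mul (shear_isSymp (swB_isSymm ι))

theorem Wq_isSymp {e e' : Lab (q + 2)} (he : LabH e) (he' : LabH e') : (Wq ι e e').IsSymp := by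
  exact (gQ_isSymp ι he').inv.1.mul ((swQ_isSymp ι).mul (gQ_isSymp ι he))

/-- continuity of a family of block matrices at a point -/
def X1QC {X : Type} [TopologicalSpace X] (F : X → Quad N) (x : X) : Prop :=
  ContinuousAt (fun y => (F y).A) x ∧ ContinuousAt (fun y => (F y).B) x ∧
    ContinuousAt (fun y => (F y).C) x ∧ ContinuousAt (fun y => (F y).D) x

theorem X1_tr {X : Type} [TopologicalSpace X] {F : X → Matrix (Fin N) (Fin N) ℝ} {x : X}
    (h : ContinuousAt F x) : ContinuousAt (fun y => (F y)ᵀ) x :=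
  (continuous_id.matrix_transpose).continuousAt.comp h

theorem X1QC.const {X : Type} [TopologicalSpace X] (a : Quad N) (x : X) : X1QC (fun _ => a) x :=
  ⟨continuousAt_const, continuousAt_const, continuousAt_const, continuousAt_const⟩

theorem X1QC.comp {X Y : Type} [TopologicalSpace X] [TopologicalSpace Y] {F : Y → Quad N}
    {g : X → Y} {x : X} (h : X1QC F (g x)) (hg : ContinuousAt g x) : X1QC (fun y => F (g y)) x :=
  ⟨h.1.comp hg, h.2.1.comp hg, h.2.2.1.comp hg, h.2.2.2.comp hg⟩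

theorem X1QC.mul {X : Type} [TopologicalSpace X] {F G : X → Quad N} {x : X} (h : X1QC F x)
    (h' : X1QC G x) : X1QC (fun y => (F y).mul (G y)) x :=
  ⟨(h.1.mul h'.1).add (h.2.1.mul h'.2.2.1), (h.1.mul h'.2.1).add (h.2.1.mul h'.2.2.2),
    (h.2.2.1.mul h'.1).add (h.2.2.2.mul h'.2.2.1), (h.2.2.1.mul h'.2.1).add (h.2.2.2.mul h'.2.2.2)⟩

theorem X1QC.inv {X : Type} [TopologicalSpace X] {F : X → Quad N} {x : X} (h : X1QC F x) :
    X1QC (fun y => (F y).inv) x :=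
  ⟨X1_tr h.2.2.2, (X1_tr h.2.1).neg, (X1_tr h.2.2.1).neg, X1_tr h.1⟩

theorem X1_blk_cont {q : ℕ} (ι : Fin N ≃ Fin 2 × Fin q) {f : ℂ × ℂ → Matrix (Fin 2) (Fin 2) ℝ}
    {m : ℂ × ℂ} (hf : ContinuousAt f m) :
    ContinuousAt (fun e : Lab q => blk ι fun l => f (e l)) fun _ => m := by
  refine continuousAt_pi.2 fun b => continuousAt_pi.2 fun c => ?_
  simp only [blk_apply]
  split_ifs
  · exact ContinuousAt.comp (f := fun e : Lab q => e (ι b).2) (x := fun _ => m)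
      (continuousAt_pi.1 (continuousAt_pi.1 hf (ι b).1) (ι c).1) (continuousAt_apply _ _)
  · exact continuousAt_const

theorem X1_gQ_cont {q : ℕ} (ι : Fin N ≃ Fin 2 × Fin q) {m : ℂ} (hm : 0 < m.im) :
    X1QC (gQ ι) fun _ => (m, m) := by
  have hU : {m : ℂ × ℂ | 0 < m.1.im ∧ 0 < m.2.im} ∈ 𝓝 (m, m) :=
    ((isOpen_lt continuous_const (Complex.continuous_im.comp continuous_fst)).inter
      (isOpen_lt continuous_const (Complex.continuous_im.comp continuous_snd))).mem_nhds ⟨hm, hm⟩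
  obtain ⟨h1, h2, h3, -⟩ := continuousOn_L2
  have a1 := X1_blk_cont ι (h1.continuousAt hU)
  have a2 := X1_tr (X1_blk_cont ι (h2.continuousAt hU))
  have a3 := X1_blk_cont ι (h3.continuousAt hU)
  exact ⟨a1, a3.mul a2, continuousAt_const, a2⟩

/-- continuity of the switch element at equal labels -/
theorem Wq_close {m : ℂ} (hm : 0 < m.im) {δ₁ : ℝ} (h : 0 < δ₁) : ∃ δ : ℝ, 0 < δ ∧ δ < m.im ∧
    ∀ e e' : Lab (q + 2), (∀ l, ‖(e l).1 - m‖ ≤ δ ∧ ‖(e l).2 - m‖ ≤ δ) →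
      (∀ l, ‖(e' l).1 - m‖ ≤ δ ∧ ‖(e' l).2 - m‖ ≤ δ) → ∀ b c,
      |(Wq ι e e').A b c - (Wq ι (fun _ => (m, m)) fun _ => (m, m)).A b c| ≤ δ₁ ∧
      |(Wq ι e e').B b c - (Wq ι (fun _ => (m, m)) fun _ => (m, m)).B b c| ≤ δ₁ ∧
      |(Wq ι e e').C b c - (Wq ι (fun _ => (m, m)) fun _ => (m, m)).C b c| ≤ δ₁ ∧
      |(Wq ι e e').D b c - (Wq ι (fun _ => (m, m)) fun _ => (m, m)).D b c| ≤ δ₁ := by
  have hg := X1_gQ_cont ι hm
  set x₀ : Lab (q + 2) × Lab (q + 2) := (fun _ => (m, m), fun _ => (m, m)) with hx₀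
  have hW : X1QC (fun x : Lab (q + 2) × Lab (q + 2) => Wq ι x.1 x.2) x₀ :=
    (hg.comp (x := x₀) continuousAt_snd).inv.mul
      ((X1QC.const (swQ ι) x₀).mul (hg.comp (x := x₀) continuousAt_fst))
  have hev : ∀ {F : Lab (q + 2) × Lab (q + 2) → Matrix (Fin N) (Fin N) ℝ}, ContinuousAt F x₀ →
      ∀ b c, ∀ᶠ x in 𝓝 x₀, |F x b c - F x₀ b c| ≤ δ₁ := fun hF b c =>
    ((continuousAt_pi.1 (continuousAt_pi.1 hF b)) c).eventually_mem
      (Metric.closedBall_mem_nhds _ h)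
  obtain ⟨ε, hε, H⟩ := Metric.eventually_nhds_iff.1 (eventually_all.2 fun b => eventually_all.2
    fun c => (hev hW.1 b c).and ((hev hW.2.1 b c).and ((hev hW.2.2.1 b c).and (hev hW.2.2.2 b c))))
  have hδ : 0 < min (ε / 2) (m.im / 2) := lt_min (by linarith) (by linarith)
  refine ⟨min (ε / 2) (m.im / 2), hδ, (min_le_right _ _).trans_lt (by linarith),
    fun e e' he he' => H (y := (e, e')) ?_⟩
  refine lt_of_le_of_lt ?_ ((min_le_left (ε / 2) (m.im / 2)).trans_lt (by linarith))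
  rw [Prod.dist_eq]
  refine max_le ((dist_pi_le_iff hδ.le).2 fun l => ?_) ((dist_pi_le_iff hδ.le).2 fun l => ?_)
  · rw [Prod.dist_eq, dist_eq_norm, dist_eq_norm]
    exact max_le (he l).1 (he l).2
  · rw [Prod.dist_eq, dist_eq_norm, dist_eq_norm]
    exact max_le (he' l).1 (he' l).2

end

end Crest.Agent.R166
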