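import Crest.Agent.R166.X5
import Crest.Agent.R166.X1

/-! # Part X: the normalised wave is standard Gaussian in the limit -/

set_option autoImplicit false
set_option linter.unusedVariables false
set_option linter.unusedSectionVars false

open MeasureTheory ProbabilityTheory Filter Topology Matrix
open scoped ENNReal BoundedContinuousFunction

namespace Crest.Agent.R166

/-- regrouping independent Gaussian blocks -/
theorem gpi_regroup {N q P : ℕ} (ι : Fin N ≃ Fin 2 × Fin q) :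
    (Measure.pi fun _ : Fin q => gpi (Fin 2 × Fin P)).map
      (fun g (x : Fin N × Fin P) => g (ι x.1).2 ((ι x.1).1, x.2)) = gpi (Fin N × Fin P) := by
  have h1 : (Measure.pi fun _ : Fin q => gpi (Fin 2 × Fin P)) =
      (gpi (Fin q × (Fin 2 × Fin P))).map (MeasurableEquiv.curry (Fin q) (Fin 2 × Fin P) ℝ) := by
    have := Measure.infinitePi_map_curry (ι := Fin q) (κ := Fin 2 × Fin P)
      (fun _ _ => gaussianReal 0 1)
    simp only [Measure.infinitePi_eq_pi] at this
    exact this.symm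
  rw [h1, Measure.map_map (by fun_prop) (MeasurableEquiv.measurable _)]
  refine gpi_map_inj (fun x : Fin N × Fin P => ((ι x.1).2, ((ι x.1).1, x.2))) ?_
  rintro ⟨a, b⟩ ⟨a', b'⟩ h
  simp only [Prod.mk.injEq] at h
  exact Prod.ext (ι.injective (Prod.ext h.2.1 h.1)) h.2.2

/-- labels at height `2^{-j}` and normalised wave values -/
noncomputable def nrmObs {N q D P : ℕ} (ι : Fin N ≃ Fin 2 × Fin q) (s E ρ : ℝ) (j : ℕ)
    (y : Fin q → WS D P) : Lab q × (Fin N × Fin P → ℝ) :=
  (fun l => (mT s (zj E j) (y l).1.1, mT s (zj E j) (y l).1.2),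
   fun x => ∑ c, Li ι (fun l => (mT s (zj E j) (y l).1.1, mT s (zj E j) (y l).1.2)) x.1 c *
     (√ρ * (y (ι c).2).2 ((ι c).1, x.2)))

theorem X6_contOn_Li {N q : ℕ} (ι : Fin N ≃ Fin 2 × Fin q) (b c : Fin N) :
    ContinuousOn (fun e : Lab q => Li ι e b c) {e | LabH e} := by
  simp only [Li, blk_apply]
  split_ifs with h
  · have h1 : ContinuousOn (fun e : Lab q => (L2 (e (ι b).2))⁻¹) {e | LabH e} :=
      continuousOn_L2.2.1.comp (continuous_apply (ι b).2).continuousOn fun e he => he (ι b).2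
    have h2 : Continuous fun M : Matrix (Fin 2) (Fin 2) ℝ => M (ι b).1 (ι c).1 :=
      continuous_id.matrix_elem _ _
    exact h2.comp_continuousOn h1
  · exact continuousOn_const

theorem X6_isOpen (q : ℕ) : IsOpen {e : Lab q | LabH e} := by
  have : {e : Lab q | LabH e} = ⋂ l, {e | 0 < (e l).1.im} ∩ {e | 0 < (e l).2.im} := by
    ext e
    simp [LabH]
  rw [this]
  exact isOpen_iInter_of_finite fun l =>
    (isOpen_lt continuous_const (by fun_prop)).inter (isOpen_lt continuous_const (by fun_prop))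

theorem continuous_nrmObs {N q D P : ℕ} (ι : Fin N ≃ Fin 2 × Fin q) (s E ρ : ℝ) (j : ℕ) :
    Continuous (nrmObs (D := D) (P := P) ι s E ρ j) := by
  have hm := continuous_mT (D := D) (s := s) (zj_im_pos E j)
  have h1 : Continuous fun (y : Fin q → WS D P) (l : Fin q) =>
      (mT s (zj E j) (y l).1.1, mT s (zj E j) (y l).1.2) :=
    continuous_pi fun l => (hm.comp (continuous_apply l).fst.fst).prodMk
      (hm.comp (continuous_apply l).fst.snd)
  refine h1.prodMk (continuous_pi fun x => continuous_finsetSum _ fun c _ => ?_)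
  refine Continuous.mul ((X6_contOn_Li ι x.1 c).comp_continuous h1 fun y l =>
    ⟨mT_im_pos (zj_im_pos E j) _, mT_im_pos (zj_im_pos E j) _⟩) (continuous_const.mul ?_)
  exact (continuous_apply _).comp (continuous_apply (ι c).2).snd

instance (D : ℕ) (s : ℝ) (β : Measure J) [IsProbabilityMeasure β] (E : ℝ) (q : ℕ) :
    IsProbabilityMeasure (labLaw D s β E q) := by
  have : IsProbabilityMeasure (((envLaw D β).prod (envLaw D β)).map
      fun e => (m0 s E e.1, m0 s E e.2)) :=
    Measure.isProbabilityMeasure_map (((measurable_m0 E).comp measurable_fst).prodMk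
      ((measurable_m0 E).comp measurable_snd)).aemeasurable
  unfold labLaw
  infer_instance

/-- the limit observable -/
noncomputable def X6_lim {N q D P : ℕ} (ι : Fin N ≃ Fin 2 × Fin q) (s E : ℝ)
    (o : Fin q → WS D P) : Lab q × (Fin N × Fin P → ℝ) :=
  (fun l => (m0 s E (o l).1.1, m0 s E (o l).1.2), fun x => (o (ι x.1).2).2 ((ι x.1).1, x.2))

theorem X6_law {N q D P : ℕ} (ι : Fin N ≃ Fin 2 × Fin q) (s E : ℝ) (β : Measure J)
    [IsProbabilityMeasure β] :
    MeasurePreserving (X6_lim (D := D) (P := P) ι s E)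
      (Measure.pi fun _ : Fin q => ((envLaw D β).prod (envLaw D β)).prod (gpi (Fin 2 × Fin P)))
      ((labLaw D s β E q).prod (gpi (Fin N × Fin P))) := by
  have hm : Measurable fun e : Env D × Env D => (m0 s E e.1, m0 s E e.2) :=
    ((measurable_m0 E).comp measurable_fst).prodMk ((measurable_m0 E).comp measurable_snd)
  have : IsProbabilityMeasure (((envLaw D β).prod (envLaw D β)).map
      fun e => (m0 s E e.1, m0 s E e.2)) := Measure.isProbabilityMeasure_map hm.aemeasurable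
  have h1 : MeasurePreserving (fun (e : Fin q → Env D × Env D) l => (m0 s E (e l).1, m0 s E (e l).2))
      (Measure.pi fun _ : Fin q => (envLaw D β).prod (envLaw D β)) (labLaw D s β E q) :=
    ⟨measurable_pi_lambda _ fun l => hm.comp (measurable_pi_apply l),
      Measure.pi_map_pi (μ := fun _ : Fin q => (envLaw D β).prod (envLaw D β))
        (f := fun _ e => (m0 s E e.1, m0 s E e.2)) fun _ => hm.aemeasurable⟩
  have h2 : MeasurePreserving
      (fun (g : Fin q → Fin 2 × Fin P → ℝ) (x : Fin N × Fin P) => g (ι x.1).2 ((ι x.1).1, x.2))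
      (Measure.pi fun _ : Fin q => gpi (Fin 2 × Fin P)) (gpi (Fin N × Fin P)) :=
    ⟨by fun_prop, gpi_regroup ι⟩
  have h3 : MeasurePreserving (fun o : Fin q → WS D P => (fun l => (o l).1, fun l => (o l).2))
      (Measure.pi fun _ : Fin q => ((envLaw D β).prod (envLaw D β)).prod (gpi (Fin 2 × Fin P)))
      ((Measure.pi fun _ : Fin q => (envLaw D β).prod (envLaw D β)).prod
        (Measure.pi fun _ : Fin q => gpi (Fin 2 × Fin P))) :=
    measurePreserving_arrowProdEquivProdArrow (Env D × Env D)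
      (Fin 2 × Fin P → ℝ) (Fin q) (fun _ => (envLaw D β).prod (envLaw D β))
      fun _ => gpi (Fin 2 × Fin P)
  have h4 := (h1.prod h2).comp h3
  have e : X6_lim (D := D) (P := P) ι s E =
      Prod.map (fun (e : Fin q → Env D × Env D) l => (m0 s E (e l).1, m0 s E (e l).2))
        (fun (g : Fin q → Fin 2 × Fin P → ℝ) (x : Fin N × Fin P) => g (ι x.1).2 ((ι x.1).1, x.2)) ∘
        fun o : Fin q → WS D P => (fun l => (o l).1, fun l => (o l).2) := by
    funext o
    simp only [X6_lim, Function.comp, Prod.map]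
  rw [e]
  exact h4

theorem X6_cancel {N q : ℕ} (ι : Fin N ≃ Fin 2 × Fin q) {e : Lab q} (he : LabH e)
    (g : Fin q → Fin 2 → ℝ) (b : Fin N) :
    ∑ c, Li ι e b c * ∑ c', L2 (e (ι c).2) (ι c).1 c' * g (ι c).2 c' = g (ι b).2 (ι b).1 := by
  have h1 : ∀ c, ∑ c', L2 (e (ι c).2) (ι c).1 c' * g (ι c).2 c' =
      (Lm ι e *ᵥ fun d => g (ι d).2 (ι d).1) c := by
    intro c
    simp only [Matrix.mulVec, dotProduct, Lm, blk_apply]
    rw [← ι.symm.sum_comp, Fintype.sum_prod_type]
    refine Finset.sum_congr rfl fun c' _ => ?_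
    simp only [Equiv.apply_symm_apply, ite_mul, zero_mul, Finset.sum_ite_eq, Finset.mem_univ,
      if_true]
  simp only [h1]
  change (Li ι e *ᵥ (Lm ι e *ᵥ fun d => g (ι d).2 (ι d).1)) b = _
  rw [Matrix.mulVec_mulVec, (Li_mul_Lm ι he).1, Matrix.one_mulVec]

theorem X6_ae {D : ℕ} {s E : ℝ} {β : Measure J} [IsProbabilityMeasure β] (hT : TreeOK D s β E)
    {N q : ℕ} (ι : Fin N ≃ Fin 2 × Fin q) (P : ℕ) :
    ∀ᵐ o ∂(Measure.pi fun _ : Fin q =>
        ((envLaw D β).prod (envLaw D β)).prod (gpi (Fin 2 × Fin P))),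
      Tendsto (fun j => nrmObs ι s E (rho D s β E) j fun l => waveMap D s β E P (o l)) atTop
        (𝓝 (X6_lim ι s E o)) := by
  have h1 : ∀ᵐ x ∂(((envLaw D β).prod (envLaw D β)).prod (gpi (Fin 2 × Fin P))),
      (Tendsto (fun j => mT s (zj E j) x.1.1) atTop (𝓝 (m0 s E x.1.1)) ∧ 0 < (m0 s E x.1.1).im) ∧
      (Tendsto (fun j => mT s (zj E j) x.1.2) atTop (𝓝 (m0 s E x.1.2)) ∧ 0 < (m0 s E x.1.2).im) :=
    Measure.quasiMeasurePreserving_fst.ae
      ((Measure.quasiMeasurePreserving_fst.ae hT.1).and (Measure.quasiMeasurePreserving_snd.ae hT.1))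
  have h2 := ae_all_iff.mpr fun l : Fin q => (measurePreserving_eval (fun _ : Fin q =>
    ((envLaw D β).prod (envLaw D β)).prod (gpi (Fin 2 × Fin P))) l).quasiMeasurePreserving.ae h1
  filter_upwards [h2] with o ho
  have hH : LabH (X6_lim ι s E o).1 := fun l => ⟨(ho l).1.2, (ho l).2.2⟩
  have h3 : Tendsto (fun j (l : Fin q) => (mT s (zj E j) (o l).1.1, mT s (zj E j) (o l).1.2)) atTop
      (𝓝 (X6_lim ι s E o).1) :=
    tendsto_pi_nhds.2 fun l => (ho l).1.1.prodMk_nhds (ho l).2.1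
  refine h3.prodMk_nhds (tendsto_pi_nhds.2 fun x => ?_)
  have hρ : √(rho D s β E) ≠ 0 := (Real.sqrt_pos.2 hT.2.2).ne'
  have h4 : ∀ c : Fin N, √(rho D s β E) * (waveMap D s β E P (o (ι c).2)).2 ((ι c).1, x.2) =
      ∑ c', L2 ((X6_lim ι s E o).1 (ι c).2) (ι c).1 c' * (o (ι c).2).2 (c', x.2) := by
    intro c
    simp only [waveMap, L2, X6_lim, Matrix.smul_apply, smul_eq_mul, mul_assoc]
    rw [← Finset.mul_sum, Real.sqrt_mul Real.pi_pos.le]
    field_simp
  have h5 := X6_cancel ι hH (fun l c' => (o l).2 (c', x.2)) x.1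
  simp only [h4]
  change Tendsto _ _ (𝓝 ((o (ι x.1).2).2 ((ι x.1).1, x.2)))
  rw [← h5]
  refine tendsto_finsetSum _ fun c _ => Tendsto.mul_const _ ?_
  exact (((X6_contOn_Li ι x.1 c).continuousAt ((X6_isOpen q).mem_nhds hH)).tendsto).comp h3

theorem wave_limit {D : ℕ} {s E : ℝ} {β : Measure J} [IsProbabilityMeasure β] (hT : TreeOK D s β E)
    {N q : ℕ} (ι : Fin N ≃ Fin 2 × Fin q) (P : ℕ) {Θ : Type} [MetricSpace Θ]
    [SecondCountableTopology Θ] {C : Set Θ} (hC : IsCompact C) {F : Lab q → ℝ} (hF : Continuous F)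
    (hF1 : ∀ e, |F e| ≤ 1) {ψ : Θ × (Fin N × Fin P → ℝ) → ℝ} (hψ : Continuous ψ)
    (hψ1 : ∀ x, |ψ x| ≤ 1) {ε : ℝ} (hε : 0 < ε) : ∀ᶠ j in atTop, ∀ θ ∈ C,
      |∫ y, F (nrmObs ι s E (rho D s β E) j y).1 * ψ (θ, (nrmObs ι s E (rho D s β E) j y).2)
          ∂(Measure.pi fun _ : Fin q => waveM D s β E P) -
        (∫ e, F e ∂(labLaw D s β E q)) * ∫ u, ψ (θ, u) ∂(gpi (Fin N × Fin P))| ≤ ε := by
  set μ₀ : Measure (Fin q → WS D P) := Measure.pi fun _ : Fin q =>
    ((envLaw D β).prod (envLaw D β)).prod (gpi (Fin 2 × Fin P)) with hμ₀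
  have hW : MeasurePreserving (fun (o : Fin q → WS D P) l => waveMap D s β E P (o l)) μ₀
      (Measure.pi fun _ : Fin q => waveM D s β E P) :=
    ⟨measurable_pi_lambda _ fun l => (measurable_waveMap D s β E P).comp (measurable_pi_apply l),
      Measure.pi_map_pi (μ := fun _ : Fin q =>
        ((envLaw D β).prod (envLaw D β)).prod (gpi (Fin 2 × Fin P)))
        (f := fun _ => waveMap D s β E P) fun _ => (measurable_waveMap D s β E P).aemeasurable⟩
  have hm : ∀ j, Measurable (nrmObs (D := D) (P := P) ι s E (rho D s β E) j) := fun j =>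
    (continuous_nrmObs ι s E _ j).measurable
  have hL := X6_law (D := D) (P := P) ι s E β
  have hD := tendstoInDistribution_of_ae_tendsto (l := atTop) (μ' := μ₀)
    (X := fun j o => nrmObs ι s E (rho D s β E) j fun l => waveMap D s β E P (o l))
    (Z := X6_lim ι s E) (fun j => ((hm j).comp hW.measurable).aemeasurable)
    hL.measurable.aemeasurable (X6_ae hT ι P)
  have hf : Continuous fun x : Θ × (Lab q × (Fin N × Fin P → ℝ)) => F x.2.1 * ψ (x.1, x.2.2) := by
    fun_prop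
  have hb : ∀ x : Θ × (Lab q × (Fin N × Fin P → ℝ)), |F x.2.1 * ψ (x.1, x.2.2)| ≤ 1 := fun x => by
    rw [abs_mul]; exact mul_le_one₀ (hF1 _) (abs_nonneg _) (hψ1 _)
  filter_upwards [hD.tendsto.eventually (unif_nhds hC hf hb _ hε)] with j hj θ hθ
  have h1 := hj θ hθ
  have hfθ : Continuous fun x : Lab q × (Fin N × Fin P → ℝ) => F x.1 * ψ (θ, x.2) := by fun_prop
  simp only [ProbabilityMeasure.coe_mk] at h1
  rw [hL.map_eq, integral_prod_mul F (fun u => ψ (θ, u))] at h1
  have e : μ₀.map (fun o => nrmObs ι s E (rho D s β E) j fun l => waveMap D s β E P (o l)) =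
      (Measure.pi fun _ : Fin q => waveM D s β E P).map (nrmObs ι s E (rho D s β E) j) := by
    rw [← hW.map_eq, Measure.map_map (hm j) hW.measurable]
    rfl
  rw [e, integral_map (hm j).aemeasurable hfθ.aestronglyMeasurable] at h1
  exact h1

/-- (T2) the quenched window law -/
theorem win_law {D : ℕ} {s E : ℝ} {β : Measure J} [IsProbabilityMeasure β] (hT : TreeOK D s β E)
    (hG : GaussEig D s β E) {N q : ℕ} (ι : Fin N ≃ Fin 2 × Fin q) (P : ℕ) (R : ℝ) {Θ : Type}
    [MetricSpace Θ] [SecondCountableTopology Θ] {C : Set Θ} (hC : IsCompact C) {F : Lab q → ℝ}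
    (hF : Continuous F) (hF1 : ∀ e, |F e| ≤ 1) {ψ : Θ × (Fin N × Fin P → ℝ) → ℝ}
    (hψ : Continuous ψ) (hψ1 : ∀ x, |ψ x| ≤ 1) {ε : ℝ} (hε : 0 < ε) :
    ∀ᶠ j in atTop, ∀ᶠ n in atTop,
      POm n D β {o | ∃ X : Fin P → Fin n → ℝ, EigSys (ham s o.1.1 o.2) E R P X ∧ ∃ θ ∈ C,
        ε < |(avg fun a : Fin q → HE n D => F (labH s E j o a) * ψ (θ, fun x =>
            ∑ c, Li ι (labH s E j o a) x.1 c * (√(rho D s β E) * X x.2 (selV ι o.1.1 a c)))) -
          (∫ e, F e ∂(labLaw D s β E q)) * ∫ u, ψ (θ, u) ∂(gpi (Fin N × Fin P))|} ≤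
        ENNReal.ofReal ε := by
  filter_upwards [wave_limit hT ι P hC hF hF1 hψ hψ1 (half_pos hε)] with j hj
  have hf : Continuous fun x : Θ × (Fin q → WS D P) =>
      F (nrmObs ι s E (rho D s β E) j x.2).1 * ψ (x.1, (nrmObs ι s E (rho D s β E) j x.2).2) := by
    have h := (continuous_nrmObs (D := D) (P := P) ι s E (rho D s β E) j).comp
      (continuous_snd (X := Θ))
    exact (hF.comp h.fst).mul (hψ.comp (continuous_fst.prodMk h.snd))
  have hb : ∀ x : Θ × (Fin q → WS D P), |F (nrmObs ι s E (rho D s β E) j x.2).1 *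
      ψ (x.1, (nrmObs ι s E (rho D s β E) j x.2).2)| ≤ 1 := fun x => by
    rw [abs_mul]; exact mul_le_one₀ (hF1 _) (abs_nonneg _) (hψ1 _)
  filter_upwards [gauss_sel hG q P R hC hf hb (half_pos hε)] with n hn
  refine le_trans (measure_mono ?_) (hn.trans (ENNReal.ofReal_le_ofReal (half_le_self hε.le)))
  rintro o ⟨X, hX, θ, hθ, h⟩
  refine ⟨X, hX, θ, hθ, ?_⟩
  have h1 := hj θ hθ
  by_contra h2
  push Not at h2
  have h3 := (abs_sub_le _ _ _).trans (add_le_add h2 h1)
  rw [add_halves] at h3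
  exact absurd h (not_lt.2 h3)

end Crest.Agent.R166
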