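import Crest.Agent.R166.X2

/-! # Part X: local laws for a selection of edges -/

set_option autoImplicit false
set_option linter.unusedVariables false
set_option linter.unusedSectionVars false

open MeasureTheory ProbabilityTheory Filter Topology Matrix
open scoped ENNReal BoundedContinuousFunction

namespace Crest.Agent.R166

section
variable {D : ℕ} {s E : ℝ} {β : Measure J} [IsProbabilityMeasure β]

/-- cut-off -/
noncomputable def X7_g (k : ℕ) (x : ℂ) : ℝ := min 1 (max 0 (‖x‖ - k) + max 0 (2 - k * x.im))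

theorem X7_g_cont (k : ℕ) : Continuous (X7_g k) := by
  unfold X7_g
  fun_prop

theorem X7_g_nonneg (k : ℕ) (x : ℂ) : 0 ≤ X7_g k x :=
  le_min zero_le_one (add_nonneg (le_max_left _ _) (le_max_left _ _))

theorem X7_g_norm (k : ℕ) (x : ℂ) : ‖X7_g k x‖ ≤ 1 := by
  rw [Real.norm_of_nonneg (X7_g_nonneg k x)]
  exact min_le_left _ _

theorem X7_g_one {k : ℕ} {x : ℂ} (hx : ¬ (‖x‖ ≤ k + 1 ∧ 1 ≤ k * x.im)) : X7_g k x = 1 := by
  refine min_eq_left ?_
  have h1 := le_max_left 0 (‖x‖ - k)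
  have h2 := le_max_right 0 (‖x‖ - k)
  have h3 := le_max_left 0 (2 - k * x.im)
  have h4 := le_max_right 0 (2 - k * x.im)
  rcases not_and_or.1 hx with h | h <;> linarith [not_le.1 h]

theorem X7_g_tendsto {x : ℂ} (hx : 0 < x.im) : Tendsto (fun k => X7_g k x) atTop (𝓝 0) := by
  refine tendsto_const_nhds.congr' ?_
  filter_upwards [tendsto_natCast_atTop_atTop.eventually_ge_atTop ‖x‖,
    tendsto_natCast_atTop_atTop.eventually_ge_atTop (2 / x.im)] with k h1 h2
  rw [div_le_iff₀ hx] at h2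
  rw [X7_g, max_eq_left (by linarith), max_eq_left (by linarith)]
  simp

theorem X7_zj (E : ℝ) (j : ℕ) : 0 < (zj E j).im := by
  rw [zj, Complex.add_im, Complex.ofReal_im, Complex.mul_I_im, Complex.ofReal_re, zero_add]
  positivity

theorem X7_frac_ends {n D : ℕ} (π : Equiv.Perm (HE n D)) (c : Fin 2) (P : Fin n → Prop) :
    frac (fun h : HE n D => P (ends π h c)) = frac P := by
  by_cases hc : c = 0
  · simp only [ends, hc, if_true]
    exact G6_frac_fst P
  · simp only [ends, hc, if_false]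
    exact (frac_equiv π fun h : HE n D => P h.1).trans (G6_frac_fst P)

theorem X7_frac_eval {A K : Type} [Fintype A] [Fintype K] [DecidableEq K] (i : K) (P : A → Prop) :
    frac (fun α : K → A => P (α i)) = frac P := by
  classical
  exact avg_pi_eval i fun a => @ite _ (P a) (Classical.propDecidable _) (1 : ℝ) 0

theorem X7_frac_eval₂ {A K : Type} [Fintype A] [Fintype K] [DecidableEq K] {i j : K} (hij : i ≠ j)
    (P : A → A → Prop) {c : ℝ} (hc : 0 ≤ c) (h : ∀ a, frac (P a) ≤ c) :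
    frac (fun α : K → A => P (α i) (α j)) ≤ c := by
  refine (avg_pi_eval₂ hij fun a b =>
    @ite _ (P a b) (Classical.propDecidable _) (1 : ℝ) 0).trans_le ?_
  exact avg_le_of_le hc h

theorem X7_bound {C : Set ℂ} (hC : IsCompact C) (hpos : ∀ x ∈ C, 0 < x.im) : ∃ A : ℝ, 0 < A ∧
    ∀ x ∈ C, ∀ y ∈ C, ∀ b c, |(L2 (x, y))⁻¹ b c| ≤ A ∧ ‖gE x y b c‖ ≤ A := by
  have hsub : C ×ˢ C ⊆ {m : ℂ × ℂ | 0 < m.1.im ∧ 0 < m.2.im} :=
    fun m hm => ⟨hpos _ hm.1, hpos _ hm.2⟩
  obtain ⟨A₁, h₁⟩ := (hC.prod hC).exists_bound_of_continuousOn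
    (f := fun m : ℂ × ℂ => (fun b c => (L2 m)⁻¹ b c : Fin 2 → Fin 2 → ℝ))
    (continuousOn_L2.2.1.mono hsub)
  obtain ⟨A₂, h₂⟩ := (hC.prod hC).exists_bound_of_continuousOn
    (continuousOn_L2.2.2.2.mono hsub)
  refine ⟨max 1 (max A₁ A₂), lt_max_of_lt_left one_pos, fun x hx y hy b c => ⟨?_, ?_⟩⟩
  · refine le_max_of_le_right (le_max_of_le_left (le_trans ?_ (h₁ (x, y) ⟨hx, hy⟩)))
    exact (norm_le_pi_norm (fun c => (L2 (x, y))⁻¹ b c) c).trans
      (norm_le_pi_norm (fun b c => (L2 (x, y))⁻¹ b c : Fin 2 → Fin 2 → ℝ) b)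
  · refine le_max_of_le_right (le_max_of_le_right (le_trans ?_ (h₂ (x, y) ⟨hx, hy⟩)))
    exact (norm_le_pi_norm (gE x y b) c).trans (norm_le_pi_norm (gE x y) b)

/-- the labels stay in a compact part of the upper half plane -/
theorem lab_tight (hT : TreeOK D s β E) {ε : ℝ} (hε : 0 < ε) : ∃ C : Set ℂ, IsCompact C ∧
    (∀ x ∈ C, 0 < x.im) ∧ ∀ᶠ j in atTop, ∀ᶠ n in atTop,
      POm n D β {o | ε < frac fun h : HE n D => mT s (zj E j) (envH o.1.1 o.2 h) ∉ C ∨
        mT s (zj E j) (envH o.1.1 o.2 (o.1.1 h)) ∉ C} ≤ ENNReal.ofReal ε := by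
  have hm0 : ∀ k, AEStronglyMeasurable (fun e : Env D => X7_g k (m0 s E e)) (envLaw D β) :=
    fun k => ((X7_g_cont k).measurable.comp (measurable_m0 E)).aestronglyMeasurable
  have h1 : Tendsto (fun k => ∫ e, X7_g k (m0 s E e) ∂(envLaw D β)) atTop
      (𝓝 (∫ _e, (0 : ℝ) ∂(envLaw D β))) :=
    tendsto_integral_of_dominated_convergence (fun _ => 1) hm0 (integrable_const _)
      (fun k => Eventually.of_forall fun e => X7_g_norm _ _)
      (hT.1.mono fun e he => X7_g_tendsto he.2)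
  rw [integral_zero] at h1
  obtain ⟨k, hk⟩ := (h1.eventually_lt_const (show 0 < ε / 4 by positivity)).exists
  have hc : ∀ j, Continuous fun e : Env D => X7_g k (mT s (zj E j) e) :=
    fun j => (X7_g_cont k).comp (continuous_mT (X7_zj E j))
  have h2 : Tendsto (fun j => ∫ e, X7_g k (mT s (zj E j) e) ∂(envLaw D β)) atTop
      (𝓝 (∫ e, X7_g k (m0 s E e) ∂(envLaw D β))) :=
    tendsto_integral_of_dominated_convergence (fun _ => 1) (fun j => (hc j).aestronglyMeasurable)
      (integrable_const _) (fun j => Eventually.of_forall fun e => X7_g_norm _ _)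
      (hT.1.mono fun e he => ((X7_g_cont k).tendsto _).comp he.1)
  refine ⟨{x | ‖x‖ ≤ k + 1 ∧ 1 ≤ k * x.im}, ?_, ?_, ?_⟩
  · refine Metric.isCompact_of_isClosed_isBounded
      ((isClosed_le continuous_norm continuous_const).inter
        (isClosed_le continuous_const (continuous_const.mul Complex.continuous_im)))
      ((Metric.isBounded_closedBall (x := (0 : ℂ)) (r := k + 1)).subset fun x hx => ?_)
    exact mem_closedBall_zero_iff.2 hx.1
  · intro x hx
    by_contra h
    have := mul_nonpos_of_nonneg_of_nonpos (Nat.cast_nonneg (α := ℝ) k) (not_lt.1 h)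
    linarith [hx.2]
  filter_upwards [h2.eventually_lt_const hk] with j hj
  let f : C(Env D × Env D, ℝ) := ⟨fun e => X7_g k (mT s (zj E j) e.1) + X7_g k (mT s (zj E j) e.2),
    ((hc j).comp continuous_fst).add ((hc j).comp continuous_snd)⟩
  have hf : ∫ e, f e ∂((envLaw D β).prod (envLaw D β)) < ε / 2 := by
    simp only [f, ContinuousMap.coe_mk]
    rw [integral_add (G8_integrable _ ((hc j).comp' continuous_fst))
      (G8_integrable _ ((hc j).comp' continuous_snd)),
      integral_fun_fst (fun e => X7_g k (mT s (zj E j) e)),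
      integral_fun_snd (fun e => X7_g k (mT s (zj E j) e))]
    simp only [probReal_univ, one_smul]
    linarith
  filter_upwards [env_lln_edge D β f (half_pos hε)] with n hn
  refine le_trans (measure_mono fun o ho => ?_) (hn.trans (ENNReal.ofReal_le_ofReal (by linarith)))
  have h3 : ε < avg fun h : HE n D => f (envH o.1.1 o.2 h, envH o.1.1 o.2 (o.1.1 h)) := by
    refine lt_of_lt_of_le ho (avg_mono fun h => ?_)
    simp only [f, ContinuousMap.coe_mk]
    have h4 := X7_g_nonneg k (mT s (zj E j) (envH o.1.1 o.2 h))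
    have h5 := X7_g_nonneg k (mT s (zj E j) (envH o.1.1 o.2 (o.1.1 h)))
    split_ifs with hh
    · rcases hh with hh | hh <;> linarith [X7_g_one hh]
    · linarith
  rw [Set.mem_setOf_eq]
  exact lt_of_lt_of_le (by linarith) (le_abs_self _)

/-- Ward: few vertices are strongly correlated with a given one -/
theorem frac_offdiag {n : ℕ} {H : Matrix (Fin n) (Fin n) ℝ} (hH : H.IsSymm) {z : ℂ} (hz : 0 < z.im)
    (x : Fin n) {δ : ℝ} (hδ : 0 < δ) :
    frac (fun y => δ < ‖res H z x y‖) ≤ (res H z x x).im / (n * z.im * δ ^ 2) := by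
  have h1 : frac (fun y => δ < ‖res H z x y‖) ≤ frac fun y => δ ^ 2 ≤ ‖res H z x y‖ ^ 2 :=
    frac_mono fun y hy => pow_le_pow_left₀ hδ.le hy.le 2
  refine h1.trans ((frac_le_avg_div (fun y => sq_nonneg _) (by positivity)).trans (le_of_eq ?_))
  rw [← ward (spec1_herm hH) hz.ne' x, avg, Fintype.card_fin]
  have hn : (0 : ℝ) < n := by exact_mod_cast x.pos
  field_simp

/-- (T1) the normalised Green matrix is close to `iπ` at large unfolded heights -/
theorem sel_locLaw (hT : TreeOK D s β E) (hL : LocLaw D s β E) {N q : ℕ}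
    (ι : Fin N ≃ Fin 2 × Fin q) {δ : ℝ} (hδ : 0 < δ) : ∃ K₀ : ℝ, ∀ K' : ℝ, K₀ ≤ K' → 0 < K' →
      ∀ᶠ j in atTop, ∀ᶠ n in atTop, ∀ K : ℕ,
        POm n D β {o | δ < frac fun a : Fin q → HE n D => ∃ b c,
          δ < ‖(trueJ ι s E (rho D s β E) K j o a (K' * Complex.I)).1 b c - ipi b c‖} ≤
          ENNReal.ofReal δ := by
  have hρ : 0 < rho D s β E := hT.2.2
  have hε₁ : 0 < δ / (3 * (q + 1)) := by positivity
  obtain ⟨C, hC, hpos, hlab⟩ := lab_tight hT hε₁
  obtain ⟨A, hA, hb⟩ := X7_bound hC hpos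
  have hε₂ : 0 < δ / (N ^ 2 * A ^ 2 + 1) := by positivity
  set ε₁ := δ / (3 * (q + 1)) with e₁
  set ε₂ := δ / (N ^ 2 * A ^ 2 + 1) with e₂
  have hε₃ : 0 < min ε₁ (min ε₂ 1) := lt_min hε₁ (lt_min hε₂ one_pos)
  obtain ⟨K₀, j₀, hK₀⟩ := hL _ hε₃
  refine ⟨rho D s β E * max K₀ (3 * N ^ 2 * (A + 1) / (δ * ε₂ ^ 2)), fun K' hK' hK'0 => ?_⟩
  rw [mul_comm, ← le_div_iff₀ hρ, max_le_iff] at hK'
  have hKp : 0 < K' / rho D s β E := by positivity
  filter_upwards [hlab, eventually_ge_atTop j₀] with j hj hjj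
  filter_upwards [hj, hK₀ _ hK'.1 hKp j hjj, eventually_gt_atTop 0] with n h1 h2 hn K
  have hq₁ : q * ε₁ ≤ δ / 3 := by
    rw [e₁, ← mul_div_assoc, div_le_div_iff₀ (by positivity) (by positivity)]
    nlinarith
  have hq₂ : ε₁ ≤ δ / 3 := by
    rw [e₁]
    gcongr
    linarith [Nat.cast_nonneg (α := ℝ) q]
  refine le_trans (measure_mono fun o ho => ?_) ((measure_union_le _ _).trans
    ((add_le_add h1 h2).trans ?_))
  swap
  · rw [← ENNReal.ofReal_add hε₁.le hε₃.le]
    exact ENNReal.ofReal_le_ofReal (by linarith [min_le_left ε₁ (min ε₂ 1)])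
  by_contra hcon
  simp only [Set.mem_union, Set.mem_setOf_eq, not_or, not_lt] at hcon ho
  obtain ⟨g1, g2⟩ := hcon
  set z : ℂ := E + (K' / rho D s β E / n : ℝ) * Complex.I with hz
  have hn' : (0 : ℝ) < n := by exact_mod_cast hn
  have hzim : z.im = K' / rho D s β E / n := by
    rw [hz, Complex.add_im, Complex.ofReal_im, Complex.mul_I_im, Complex.ofReal_re, zero_add]
  have hz0 : 0 < z.im := by rw [hzim]; positivity
  set G := res (ham s o.1.1 o.2) z with hG
  let P₁ : HE n D → Prop := fun h => mT s (zj E j) (envH o.1.1 o.2 h) ∉ C ∨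
    mT s (zj E j) (envH o.1.1 o.2 (o.1.1 h)) ∉ C
  let P₂ : HE n D → Prop := fun h => ∃ b c, min ε₁ (min ε₂ 1) <
    ‖G (ends o.1.1 h b) (ends o.1.1 h c) -
      gE (mT s (zj E j) (envH o.1.1 o.2 h)) (mT s (zj E j) (envH o.1.1 o.2 (o.1.1 h))) b c‖
  let P₃ : Fin N × Fin N → (Fin q → HE n D) → Prop := fun p a => (ι p.1).2 ≠ (ι p.2).2 ∧
    (¬ (P₁ (a (ι p.1).2) ∨ P₂ (a (ι p.1).2)) ∧
      ε₂ < ‖G (ends o.1.1 (a (ι p.1).2) (ι p.1).1) (ends o.1.1 (a (ι p.2).2) (ι p.2).1)‖)
  have f12 : frac (fun a : Fin q → HE n D => ∃ l ∈ Finset.univ, P₁ (a l) ∨ P₂ (a l)) ≤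
      δ / 3 + δ / 3 := by
    refine (frac_exists_le _ _).trans ((Finset.sum_le_card_nsmul _ _ (ε₁ + ε₁) fun l _ => ?_).trans ?_)
    · rw [X7_frac_eval l fun h => P₁ h ∨ P₂ h]
      exact (frac_or_le _ _).trans (add_le_add g1 (g2.trans (min_le_left _ _)))
    · rw [Finset.card_univ, Fintype.card_fin, nsmul_eq_mul]
      linarith
  have f3 : frac (fun a : Fin q → HE n D => ∃ p ∈ Finset.univ, P₃ p a) ≤ δ / 3 := by
    refine (frac_exists_le _ _).trans ((Finset.sum_le_card_nsmul _ _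
      ((A + 1) / (K' / rho D s β E * ε₂ ^ 2)) fun p _ => ?_).trans ?_)
    · by_cases hp : (ι p.1).2 = (ι p.2).2
      · refine ((frac_congr fun a => ?_).trans frac_false).trans_le (by positivity)
        simp [P₃, hp]
      refine (frac_mono fun a ha => ha.2).trans (X7_frac_eval₂ hp (fun h h' => ¬ (P₁ h ∨ P₂ h) ∧
        ε₂ < ‖G (ends o.1.1 h (ι p.1).1) (ends o.1.1 h' (ι p.2).1)‖) (by positivity) fun h => ?_)
      by_cases hh : P₁ h ∨ P₂ h
      · refine ((frac_congr fun a => ?_).trans frac_false).trans_le (by positivity)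
        simp [hh]
      refine (frac_mono fun a ha => ha.2).trans ?_
      rw [X7_frac_ends o.1.1 _ fun y => ε₂ < ‖G (ends o.1.1 h (ι p.1).1) y‖]
      refine (frac_offdiag (ham_isSymm o.1.2.1 s o.2) hz0 _ hε₂).trans ?_
      rw [hzim, mul_div_cancel₀ _ hn'.ne']
      refine div_le_div_of_nonneg_right ((Complex.im_le_norm _).trans ?_) (by positivity)
      simp only [P₁, P₂, not_or, not_not, not_exists, not_lt] at hh
      have h3 := (hh.2 (ι p.1).1 (ι p.1).1).trans ((min_le_right _ _).trans (min_le_right _ _))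
      have h4 := (hb _ hh.1.1 _ hh.1.2 (ι p.1).1 (ι p.1).1).2
      exact (norm_le_norm_add_norm_sub' _ _).trans (add_le_add h4 h3)
    · have h3 := hK'.2
      rw [div_le_iff₀ (by positivity)] at h3
      rw [Finset.card_univ, Fintype.card_prod, Fintype.card_fin, nsmul_eq_mul, ← mul_div_assoc,
        div_le_div_iff₀ (by positivity) (by positivity)]
      push_cast
      nlinarith
  refine absurd ho (not_lt.2 (le_trans (frac_mono fun a ha => ?_)
    ((frac_or_le _ _).trans ((add_le_add f12 f3).trans (by linarith)))))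
  by_contra hcon
  rw [not_or] at hcon
  obtain ⟨c1, c2⟩ := hcon
  have c3 : ∀ l, ¬ (P₁ (a l) ∨ P₂ (a l)) := fun l h => c1 ⟨l, Finset.mem_univ _, h⟩
  obtain ⟨b, c, hbc⟩ := ha
  refine absurd hbc (not_lt.2 ?_)
  have hLi : ∀ b b', ‖(Li ι (labH s E j o a) b b' : ℂ)‖ ≤ A := by
    intro b b'
    rw [Complex.norm_real, Real.norm_eq_abs, Li, blk_apply]
    split_ifs
    · have := c3 (ι b).2
      simp only [P₁, not_or, not_not] at this
      exact (hb _ this.1.1 _ this.1.2 _ _).1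
    · simpa using hA.le
  have hzz : (E : ℂ) + K' * Complex.I / ((n * rho D s β E : ℝ) : ℂ) = z := by
    rw [hz]; push_cast; ring
  rw [trueJ, nrm_gE ι (labH_pos s E j o a)]
  have hterm : ∀ b' c' : Fin N, ‖(rawJ (ham s o.1.1 o.2) E (n * rho D s β E)
      (confH s E (rho D s β E) K o).2 (selV ι o.1.1 a) (K' * Complex.I)).1 b' c' -
      if (ι b').2 = (ι c').2 then gE (labH s E j o a (ι b').2).1 (labH s E j o a (ι b').2).2
        (ι b').1 (ι c').1 else 0‖ ≤ ε₂ := by
    intro b' c'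
    simp only [rawJ, hzz, selV, ← hG]
    split_ifs with hp
    · have := c3 (ι b').2
      simp only [P₂, not_or, not_exists, not_lt] at this
      rw [← hp]
      exact (this.2 _ _).trans ((min_le_right _ _).trans (min_le_left _ _))
    · rw [sub_zero]
      by_contra h
      exact c2 ⟨(b', c'), Finset.mem_univ _, hp, c3 _, not_le.1 h⟩
  refine (norm_sum_le _ _).trans ((Finset.sum_le_card_nsmul _ _ (N * (A * ε₂ * A))
    fun b' _ => (norm_sum_le _ _).trans ((Finset.sum_le_card_nsmul _ _ (A * ε₂ * A)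
      fun c' _ => ?_).trans (by simp))).trans ?_)
  · rw [norm_mul, norm_mul]
    exact mul_le_mul (mul_le_mul (hLi _ _) (hterm _ _) (norm_nonneg _) hA.le) (hLi _ _)
      (norm_nonneg _) (by positivity)
  · have : ε₂ * (N ^ 2 * A ^ 2 + 1) = δ := by rw [e₂]; field_simp
    rw [Finset.card_univ, Fintype.card_fin, nsmul_eq_mul]
    nlinarith

/-- the trace law in the unfolded variable -/
theorem tr_law (hT : TreeOK D s β E) (hR : TrLaw D s β E) {δ : ℝ} (hδ : 0 < δ) :
    ∃ K₀ : ℝ, ∀ K' : ℝ, K₀ ≤ K' → 0 < K' → ∀ᶠ n in atTop, ∀ K : ℕ,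
      POm n D β {o | δ < |(sF (confH s E (rho D s β E) K o) (K' * Complex.I)).im - Real.pi|} ≤
        ENNReal.ofReal δ := by
  have hρ : 0 < rho D s β E := hT.2.2
  obtain ⟨K₀, hK₀⟩ := hR _ (lt_min hδ (mul_pos hδ hρ))
  refine ⟨rho D s β E * K₀, fun K' hK' hK'0 => ?_⟩
  rw [mul_comm, ← le_div_iff₀ hρ] at hK'
  filter_upwards [hK₀ _ hK' (by positivity), eventually_gt_atTop 0] with n h1 hn K
  refine le_trans (measure_mono fun o ho => ?_)
    (h1.trans (ENNReal.ofReal_le_ofReal (min_le_left _ _)))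
  have hn' : (0 : ℝ) < n := by exact_mod_cast hn
  simp only [Set.mem_setOf_eq] at ho ⊢
  set z : ℂ := E + (K' / rho D s β E / n : ℝ) * Complex.I with hz
  have hzim : z.im = K' / rho D s β E / n := by
    rw [hz, Complex.add_im, Complex.ofReal_im, Complex.mul_I_im, Complex.ofReal_re, zero_add]
  have hz0 : 0 < z.im := by rw [hzim]; positivity
  have e1 : (avg fun x => (res (ham s o.1.1 o.2) z x x).im) =
      rho D s β E * (sF (confH s E (rho D s β E) K o) (K' * Complex.I)).im := by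
    have e2 : (res (ham s o.1.1 o.2) z).trace = ((n * rho D s β E : ℝ) : ℂ) *
        ∑ i, 1 / ((xH s E (rho D s β E) o i : ℂ) - K' * Complex.I) := by
      rw [trace_res_evs (ham_isSymm o.1.2.1 s o.2) hz0.ne', Finset.mul_sum]
      refine Finset.sum_congr rfl fun i _ => ?_
      have h0 : ((n * rho D s β E : ℝ) : ℂ) ≠ 0 := by exact_mod_cast (mul_pos hn' hρ).ne'
      have e3 : (xH s E (rho D s β E) o i : ℂ) - K' * Complex.I =
          ((n * rho D s β E : ℝ) : ℂ) * (evs (ham s o.1.1 o.2) i - z) := by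
        have h2 : (n : ℂ) ≠ 0 := by exact_mod_cast hn.ne'
        have h3 : (rho D s β E : ℂ) ≠ 0 := by exact_mod_cast hρ.ne'
        rw [hz, xH]
        push_cast
        field_simp
        ring
      rw [e3, one_div, one_div, mul_inv, ← mul_assoc, mul_inv_cancel₀ h0, one_mul]
    rw [avg, ← Complex.im_sum, Fintype.card_fin]
    change (res (ham s o.1.1 o.2) z).trace.im / n = _
    rw [e2, Complex.im_ofReal_mul, sF, Complex.sub_im, Complex.ofReal_im, sub_zero, confH]
    field_simp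
  rw [e1, mul_comm Real.pi, ← mul_sub, abs_mul, abs_of_pos hρ]
  exact (min_le_right _ _).trans_lt (by nlinarith)

end

end Crest.Agent.R166
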