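import Crest.Agent.R166.X4
import Crest.Agent.R166.X6
import Crest.Agent.R166.X7

/-! # Part X: transfer from the graph to the Gaussian model -/

set_option autoImplicit false
set_option linter.unusedVariables false
set_option linter.unusedSectionVars false

open MeasureTheory ProbabilityTheory Filter Topology Matrix
open scoped ENNReal BoundedContinuousFunction

namespace Crest.Agent.R166

theorem X8_add {Ω : Type} [MeasurableSpace Ω] {μ : Measure Ω} {A B : Set Ω} {a b : ℝ} (ha : 0 ≤ a)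
    (hb : 0 ≤ b) (hA : μ A ≤ ENNReal.ofReal a) (hB : μ B ≤ ENNReal.ofReal b) :
    μ (A ∪ B) ≤ ENNReal.ofReal (a + b) := by
  rw [ENNReal.ofReal_add ha hb]
  exact (measure_union_le A B).trans (add_le_add hA hB)

theorem X8_sum {Ω : Type} [MeasurableSpace Ω] {μ : Measure Ω} {t : Finset ℕ} {W : ℕ → Set Ω} {a : ℝ}
    (h : ∀ P ∈ t, μ (W P) ≤ ENNReal.ofReal a) :
    μ (⋃ P ∈ t, W P) ≤ ENNReal.ofReal (t.card * a) := by
  refine (measure_biUnion_finset_le t W).trans ((Finset.sum_le_card_nsmul _ _ _ h).trans_eq ?_)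
  rw [ENNReal.ofReal_mul (Nat.cast_nonneg _), ENNReal.ofReal_natCast, nsmul_eq_mul]

theorem X8_int {Ω : Type} [MeasurableSpace Ω] (μ : Measure Ω) [IsProbabilityMeasure μ]
    {f g : Ω → ℝ} (hf : Measurable f) (hg : Measurable g) (hf1 : ∀ o, |f o| ≤ 1)
    (hg1 : ∀ o, |g o| ≤ 1) {ε : ℝ} (hε : 0 ≤ ε)
    (h : μ {o | ε < |f o - g o|} ≤ ENNReal.ofReal ε) :
    |∫ o, f o ∂μ - ∫ o, g o ∂μ| ≤ 3 * ε := by
  have i1 : Integrable f μ := Integrable.of_bound hf.aestronglyMeasurable 1 (ae_of_all _ hf1)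
  have i2 : Integrable g μ := Integrable.of_bound hg.aestronglyMeasurable 1 (ae_of_all _ hg1)
  have hS : MeasurableSet {o | ε < |f o - g o|} :=
    measurableSet_lt measurable_const (hf.sub hg).abs
  have i3 : Integrable ({o | ε < |f o - g o|}.indicator fun _ => (2 : ℝ)) μ :=
    (integrable_const _).indicator hS
  rw [← integral_sub i1 i2]
  calc |∫ o, f o - g o ∂μ| ≤ ∫ o, |f o - g o| ∂μ := abs_integral_le_integral_abs
    _ ≤ ∫ o, ε + {o | ε < |f o - g o|}.indicator (fun _ => (2 : ℝ)) o ∂μ := by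
        refine integral_mono (i1.sub i2).abs ((integrable_const _).add i3) fun o => ?_
        by_cases ho : o ∈ {o | ε < |f o - g o|}
        · simp only [Set.indicator_of_mem ho]
          have := abs_sub (f o) (g o)
          linarith [hf1 o, hg1 o]
        · simp only [Set.indicator_of_notMem ho, add_zero]
          exact not_lt.1 ho
    _ = ε + μ.real {o | ε < |f o - g o|} * 2 := by
        rw [integral_add (integrable_const _) i3, integral_indicator_const _ hS]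
        simp
    _ ≤ 3 * ε := by
        have := ENNReal.toReal_le_of_le_ofReal hε h
        rw [measureReal_def]
        linarith

theorem X8_abs_int {Ω : Type} [MeasurableSpace Ω] (μ : Measure Ω) [IsProbabilityMeasure μ]
    {f : Ω → ℝ} (hf1 : ∀ o, |f o| ≤ 1) : |∫ o, f o ∂μ| ≤ 1 := by
  simpa using norm_integral_le_of_norm_le_const (μ := μ) (f := f) (C := 1) (ae_of_all _ hf1)

theorem X8_re {n D : ℕ} (s E ρ : ℝ) (K : ℕ) (o : Om n D) :
    ‖sF (confH s E ρ K o) ((((K : ℝ) + 1 : ℝ) : ℂ) * Complex.I) - Real.pi * Complex.I‖ =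
      |(sF (confH s E ρ K o) ((((K : ℝ) + 1 : ℝ) : ℂ) * Complex.I)).im - Real.pi| := by
  have h : (sF (confH s E ρ K o) ((((K : ℝ) + 1 : ℝ) : ℂ) * Complex.I)).re = 0 := by
    simp only [sF, confH, aK, Complex.sub_re, Complex.ofReal_re, sub_zero, sub_self]
  generalize sF (confH s E ρ K o) ((((K : ℝ) + 1 : ℝ) : ℂ) * Complex.I) = z at h ⊢
  have e : z - Real.pi * Complex.I = ((z.im - Real.pi : ℝ) : ℂ) * Complex.I := by
    apply Complex.ext <;> simp [h]
  rw [e, norm_mul, Complex.norm_I, mul_one, Complex.norm_real, Real.norm_eq_abs]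

theorem X8_im {x δ : ℝ} (h : |x - Real.pi| ≤ δ) (hδ : δ ≤ 1) : x ≤ 5 := by
  linarith [(abs_le.1 h).2, Real.pi_le_four]

theorem X8_imI {K : ℝ} (hK : 0 < K) : 0 < ((K : ℂ) * Complex.I).im := by simpa using hK

section
variable {D : ℕ} {s E : ℝ} {β : Measure J} [IsProbabilityMeasure β]

theorem quenched_transfer (hT : TreeOK D s β E) (hL : LocLaw D s β E) (hR : TrLaw D s β E)
    (hG : GaussEig D s β E) {N q : ℕ} (ι : Fin N ≃ Fin 2 × Fin q) {k : ℕ} (w : Fin k → ℂ)
    (hw : ∀ j, 0 < (w j).im) {F : Lab q → ℝ} (hF : Continuous F) (hF1 : ∀ e, |F e| ≤ 1)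
    {φ : (Fin k → Jet N) → ℝ} (hφ : UniformContinuous φ) (hb : ∀ Z, |φ Z| ≤ 1) {ε : ℝ}
    (hε : 0 < ε) : ∀ᶠ K : ℕ in atTop, ∀ᶠ j in atTop, ∀ᶠ n in atTop,
      POm n D β {o | ε < |(avg fun a : Fin q → HE n D => F (labH s E j o a) *
          φ fun t => trueJ ι s E (rho D s β E) K j o a (w t)) -
        (∫ e, F e ∂(labLaw D s β E q)) *
          ∫ g, φ (fun t => jetG (confH s E (rho D s β E) K o) g (w t)) ∂(gpi (Fin N × Fin n))|} ≤
        ENNReal.ofReal ε := by
  have hρ : 0 < rho D s β E := hT.2.2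
  obtain ⟨δ, hδ, hδ1, K₀, hK₀, hdet⟩ := det_transfer N w hw hφ hb hε
  obtain ⟨δ₁, h₁, h₁δ, h₁ε⟩ : ∃ δ₁ : ℝ, 0 < δ₁ ∧ δ₁ ≤ δ ∧ δ₁ ≤ ε / 5 :=
    ⟨min δ (ε / 5), by positivity, min_le_left _ _, min_le_right _ _⟩
  obtain ⟨K₁, hsel⟩ := sel_locLaw hT hL ι h₁
  obtain ⟨K₂, htr⟩ := tr_law hT hR h₁
  filter_upwards [tendsto_natCast_atTop_atTop.eventually_ge_atTop (max K₀ (max K₁ K₂))] with K hK
  simp only [max_le_iff] at hK
  have hK' : (0 : ℝ) < (K : ℝ) + 1 := by positivity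
  obtain ⟨R₀, hR₀, hdet⟩ := hdet ((K : ℝ) + 1) (by linarith [hK.1])
  obtain ⟨R, hR0, hR1, hR2⟩ : ∃ R : ℝ, R₀ ≤ R ∧ K₁ ≤ R ∧ K₂ ≤ R :=
    ⟨max R₀ (max K₁ K₂), le_max_left _ _, (le_max_left _ _).trans (le_max_right _ _),
      (le_max_right _ _).trans (le_max_right _ _)⟩
  have hRp : 0 < R := hR₀.trans_le hR0
  obtain ⟨P₀, T, hwin⟩ := win_bounds w hw hK' hRp
  obtain ⟨δ₂, h₂, h₂δ, h₂ε⟩ : ∃ δ₂ : ℝ, 0 < δ₂ ∧ δ₂ ≤ δ ∧ δ₂ ≤ ε / 5 / ((P₀ + 1 : ℕ) : ℝ) :=
    ⟨min δ (ε / 5 / ((P₀ + 1 : ℕ) : ℝ)), by positivity, min_le_left _ _, min_le_right _ _⟩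
  have hlaw := (eventually_all_finset (Finset.range (P₀ + 1))).2 fun P _ =>
    win_law hT hG ι P (R / rho D s β E) (Θ := (Fin P → ℝ) × (Fin k → ℂ))
      ((isCompact_closedBall 0 R).prod (isCompact_closedBall 0 |T|)) hF hF1
      (ψ := fun x => φ (winJ ((K : ℝ) + 1) w x.1.1 x.1.2 x.2))
      (hφ.continuous.comp (continuous_winJ hK' w hw)) (fun x => hb _) h₂
  filter_upwards [hlaw, hsel ((K : ℝ) + 1) (by linarith [hK.2.1]) hK', hsel R hR1 hRp]
    with j j1 j2 j3
  filter_upwards [(eventually_all_finset _).2 j1, j2, j3,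
    htr ((K : ℝ) + 1) (by linarith [hK.2.2]) hK', htr R hR2 hRp, eventually_gt_atTop 0]
    with n n1 n2 n3 n4 n5 hn
  refine le_trans (measure_mono ?_) ((X8_add (by positivity) (by positivity)
    (X8_add (by positivity) (by positivity) (X8_add h₁.le h₁.le (n2 K) (n3 K))
      (X8_add h₁.le h₁.le (n4 K) (n5 K))) (X8_sum n1)).trans (ENNReal.ofReal_le_ofReal ?_))
  swap
  · rw [Finset.card_range]
    rw [le_div_iff₀ (by positivity)] at h₂ε
    linarith
  intro o ho
  by_contra hcon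
  simp only [Set.mem_union, Set.mem_iUnion, Set.mem_ofPred_eq, not_or, not_lt, not_exists,
    not_and] at hcon
  obtain ⟨⟨⟨c1, c2⟩, c3, c4⟩, c5⟩ := hcon
  refine (not_lt.2 ?_) (Set.mem_ofPred_eq ▸ ho)
  have hn' : (0 : ℝ) < n := by exact_mod_cast hn
  obtain ⟨U, hU', hU, hev⟩ := exists_eigenbasis (ham_isSymm o.1.2.1 s o.2)
  have hJ : ∀ (a : Fin q → HE n D) (z : ℂ), 0 < z.im →
      trueJ ι s E (rho D s β E) K j o a z = jetV (confH s E (rho D s β E) K o)
        (fun b i => ∑ c, Li ι (labH s E j o a) b c *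
          (√(n * rho D s β E) * U i (selV ι o.1.1 a c)))
        (fun b c => (Li ι (labH s E j o a) * Rm ι (labH s E j o a) *
          (Li ι (labH s E j o a))ᵀ) b c) z := by
    intro a z hz
    rw [trueJ, rawJ_eq_jetV hU hU' hev (by positivity) _ hz, nrm_jetV]
    rfl
  have d1 := (X8_re s E (rho D s β E) K o).trans_le (c3.trans h₁δ)
  have d2 := X8_im c4 (h₁δ.trans hδ1)
  obtain ⟨e1, e2⟩ := hwin n _ (d1.trans hδ1) d2
  obtain ⟨W, hW⟩ : ∃ W, W = Finset.univ.filter fun i =>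
    |(confH s E (rho D s β E) K o).1 i| ≤ R := ⟨_, rfl⟩
  rw [← hW] at e1
  have hen : ∀ i, i ∈ Set.range (W.orderEmbOfFin rfl).toEmbedding ↔
      |(confH s E (rho D s β E) K o).1 i| ≤ R := by
    intro i
    rw [RelEmbedding.coe_toEmbedding, Finset.range_orderEmbOfFin, Finset.mem_coe, hW]
    simp
  generalize (W.orderEmbOfFin rfl).toEmbedding = en at hen
  have hE : EigSys (ham s o.1.1 o.2) E (R / rho D s β E) W.card
      fun i x => √(n : ℝ) * U (en i) x := by
    refine ⟨fun i i' => ?_, fun i => ⟨evs (ham s o.1.1 o.2) (en i), ?_, ?_⟩⟩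
    · have h1 := congrFun (congrFun hU' (en i)) (en i')
      rw [Matrix.mul_apply, Matrix.one_apply] at h1
      simp only [Matrix.transpose_apply, en.apply_eq_iff_eq] at h1
      calc ∑ x, √(n : ℝ) * U (en i) x * (√(n : ℝ) * U (en i') x)
          = √(n : ℝ) * √(n : ℝ) * ∑ x, U (en i) x * U (en i') x := by
            rw [Finset.mul_sum]
            exact Finset.sum_congr rfl fun x _ => by ring
        _ = _ := by
            rw [h1, Real.mul_self_sqrt hn'.le]
            split_ifs <;> simp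
    · have h1 : |n * rho D s β E * (evs (ham s o.1.1 o.2) (en i) - E)| ≤ R :=
        (hen (en i)).1 ⟨i, rfl⟩
      rw [abs_mul, abs_of_pos (by positivity : 0 < n * rho D s β E)] at h1
      rw [le_div_iff₀ hn', le_div_iff₀ hρ]
      linarith
    · change ham s o.1.1 o.2 *ᵥ (√(n : ℝ) • U (en i)) = _ • (√(n : ℝ) • U (en i))
      rw [Matrix.mulVec_smul, hev, smul_comm]
  have c6 := c5 W.card (Finset.mem_range.2 (Nat.lt_succ_of_le e1)) _ hE
    (fun i => (confH s E (rho D s β E) K o).1 (en i),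
      fun t => sF (confH s E (rho D s β E) K o) (w t))
    ⟨mem_closedBall_zero_iff.2 ((pi_norm_le_iff_of_nonneg hRp.le).2 fun i =>
        (hen (en i)).1 ⟨i, rfl⟩),
      mem_closedBall_zero_iff.2 ((pi_norm_le_iff_of_nonneg (abs_nonneg T)).2 fun t =>
        (e2 t).trans (le_abs_self T))⟩
  simp only [hJ _ _ (hw _)]
  simp only [hJ _ _ (X8_imI hK')] at c1
  simp only [hJ _ _ (X8_imI hRp)] at c2
  refine hdet R hR0 n W.card _ en hen _ _ _ _ _ (fun a => hF1 _) (X8_abs_int _ hF1) d1 d2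
    (le_trans (frac_mono ?_) (c1.trans h₁δ)) (le_trans (frac_mono ?_) (c2.trans h₁δ))
    (le_trans (le_of_eq ?_) (c6.trans h₂δ))
  · rintro a ⟨b, b', h⟩
    exact ⟨b, b', h₁δ.trans_lt h⟩
  · rintro a ⟨b, b', h⟩
    exact ⟨b, b', h₁δ.trans_lt h⟩
  · simp only [Real.sqrt_mul hn'.le, mul_comm (√(n : ℝ)) (√(rho D s β E)), mul_assoc]

theorem annealed_transfer (hT : TreeOK D s β E) (hL : LocLaw D s β E) (hR : TrLaw D s β E)
    (hG : GaussEig D s β E) {N q : ℕ} (ι : Fin N ≃ Fin 2 × Fin q) {k : ℕ} (w : Fin k → ℂ)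
    (hw : ∀ j, 0 < (w j).im) {F : Lab q → ℝ} (hF : Continuous F) (hF1 : ∀ e, |F e| ≤ 1)
    {φ : (Fin k → Jet N) → ℝ} (hφ : UniformContinuous φ) (hb : ∀ Z, |φ Z| ≤ 1) {ε : ℝ}
    (hε : 0 < ε) : ∀ᶠ K : ℕ in atTop, ∀ᶠ j in atTop, ∀ᶠ i in FI D,
      |(∫ o, (avg fun a : Fin q → HE i.1 D => F (labH s E j o a) *
          φ fun t => trueJ ι s E (rho D s β E) K j o a (w t)) ∂(POm i.1 D β)) -
        (∫ e, F e ∂(labLaw D s β E q)) * EG (graphFam D s β E (K, i)) N w φ| ≤ ε := by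
  have hρ : 0 < rho D s β E := hT.2.2
  filter_upwards [quenched_transfer hT hL hR hG ι w hw hF hF1 hφ hb (ε := ε / 3) (by positivity)]
    with K hK
  filter_upwards [hK] with j hj
  filter_upwards [(hj.and (eventually_gt_atTop 0)).comap (Subtype.val : Idx D → ℕ)] with i hi
  obtain ⟨hi, hn⟩ := hi
  have := i.2
  have hm : StronglyMeasurable fun p : Conf i.1 =>
      ∫ g, φ (fun t => jetG p g (w t)) ∂(gpi (Fin N × Fin i.1)) :=
    (hφ.continuous.comp (continuous_pi fun t => continuous_jetG (hw t))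
      ).stronglyMeasurable.integral_prod_right'
  have e : EG (graphFam D s β E (K, i)) N w φ = ∫ o, ∫ g,
      φ (fun t => jetG (confH s E (rho D s β E) K o) g (w t)) ∂(gpi (Fin N × Fin i.1))
        ∂(POm i.1 D β) :=
    integral_map (measurable_confH s E _ K).aemeasurable hm.aestronglyMeasurable
  rw [e, ← integral_const_mul]
  refine (X8_int _ ?_ ?_ (fun o => ?_) (fun o => ?_) (by positivity) hi).trans_eq (by ring)
  · exact measurable_avg fun a => (hF.measurable.comp (measurable_labH s E j a)).mul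
      (hφ.continuous.measurable.comp (measurable_pi_lambda _ fun t =>
        measurable_trueJ ι s E _ hρ K j a hn (hw t)))
  · exact (hm.measurable.comp (measurable_confH s E _ K)).const_mul _
  · refine abs_avg_le_of_le zero_le_one fun a => ?_
    rw [abs_mul]
    exact mul_le_one₀ (hF1 _) (abs_nonneg _) (hb _)
  · rw [abs_mul]
    exact mul_le_one₀ (X8_abs_int _ hF1) (abs_nonneg _) (X8_abs_int _ fun g => hb _)

theorem graph_H0 (hT : TreeOK D s β E) (hL : LocLaw D s β E) (hR : TrLaw D s β E)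
    (hG : GaussEig D s β E) : H0 (FG D) (fun i => i.2.1) (graphFam D s β E) := by
  intro ε hε
  obtain ⟨δ, hδ, K₀, hdet⟩ := det_H0 hε
  obtain ⟨δ₁, h₁, h₁δ, h₁ε, h₁1⟩ : ∃ δ₁ : ℝ, 0 < δ₁ ∧ δ₁ ≤ δ / 3 ∧ δ₁ ≤ ε / 3 ∧ δ₁ ≤ 1 :=
    ⟨min (δ / 3) (min (ε / 3) 1), by positivity, min_le_left _ _,
      (min_le_right _ _).trans (min_le_left _ _), (min_le_right _ _).trans (min_le_right _ _)⟩
  let ι : Fin 2 ≃ Fin 2 × Fin 1 := (Equiv.prodUnique _ _).symm
  obtain ⟨K₁, hsel⟩ := sel_locLaw hT hL ι h₁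
  obtain ⟨K₂, htr⟩ := tr_law hT hR h₁
  refine ⟨max K₀ (max K₁ K₂), fun K' hK' hK0 => ?_⟩
  simp only [max_le_iff] at hK'
  have hφ : UniformContinuous fun Z : Fin 1 → Jet 2 =>
      min 1 ‖(Z 0).1 0 0 - Real.pi * Complex.I‖ := by
    refine (LipschitzWith.id.const_min (1 : ℝ)).uniformContinuous.comp
      (uniformContinuous_norm.comp (UniformContinuous.sub ?_ uniformContinuous_const))
    exact (Pi.uniformContinuous_proj _ 0).comp ((Pi.uniformContinuous_proj _ 0).comp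
      (uniformContinuous_fst.comp (Pi.uniformContinuous_proj _ 0)))
  have hq := quenched_transfer hT hL hR hG ι (fun _ : Fin 1 => (K' : ℂ) * Complex.I)
    (fun _ => X8_imI hK0) (F := fun _ => 1) continuous_const (fun _ => by simp) hφ
    (fun Z => by rw [abs_of_nonneg (le_min zero_le_one (norm_nonneg _))]; exact min_le_left _ _) h₁
  rw [FG, eventually_curry_iff]
  filter_upwards [hq] with K hK
  obtain ⟨j, j1, j2⟩ := (hK.and (hsel K' hK'.2.1 hK0)).exists
  filter_upwards [(j1.and (j2.and (htr K' hK'.2.2 hK0))).comap (Subtype.val : Idx D → ℕ)] with i hi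
  obtain ⟨n1, n2, n3⟩ := hi
  have hS : MeasurableSet {p : Conf i.1 | ε < ‖sF p (K' * Complex.I) - Real.pi * Complex.I‖} :=
    measurableSet_lt measurable_const
      ((continuous_sF (X8_imI hK0).ne').sub continuous_const).norm.measurable
  refine le_trans (Measure.map_apply (measurable_confH s E _ K) hS).le ?_
  refine le_trans (measure_mono ?_) ((X8_add (by positivity) h₁.le (X8_add h₁.le h₁.le n1 (n2 K))
    (n3 K)).trans (ENNReal.ofReal_le_ofReal (by linarith)))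
  intro o ho
  by_contra hcon
  simp only [Set.mem_union, Set.mem_ofPred_eq, not_or, not_lt] at hcon
  obtain ⟨⟨c1, c2⟩, c3⟩ := hcon
  refine (not_lt.2 (hdet K' hK'.1 hK0 _ 2 _ 0 (X8_im c3 h₁1) ?_)) ho
  simp only [one_mul, integral_const, probReal_univ, smul_eq_mul] at c1
  have c4 : (avg fun a : Fin 1 → HE i.1 D => min 1
      ‖(trueJ ι s E (rho D s β E) K j o a (K' * Complex.I)).1 0 0 - Real.pi * Complex.I‖) ≤
      δ₁ + δ₁ := by
    refine le_trans ?_ (add_le_add (avg_le_of_le (f := fun _ : Fin 1 → HE i.1 D => δ₁) h₁.le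
      fun _ => le_rfl) c2)
    rw [frac, ← avg_add]
    refine avg_mono fun a => ?_
    split_ifs with h
    · linarith [min_le_left 1
        ‖(trueJ ι s E (rho D s β E) K j o a (K' * Complex.I)).1 0 0 - Real.pi * Complex.I‖]
    · push Not at h
      have h2 := h 0 0
      rw [ipi, if_pos rfl] at h2
      rw [add_zero]
      exact (min_le_right _ _).trans h2
  linarith [(abs_le.1 c1).1]

end

end Crest.Agent.R166
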