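import Crest.Agent.R166.PartT
import Crest.Agent.R166.X0
import Crest.Agent.R166.X3
import Crest.Agent.R166.X8
import Crest.Agent.R166.X10
import Crest.Agent.R166.X11

/-! # Part X: from the graph to the abstract hypotheses -/

set_option autoImplicit false
set_option linter.unusedVariables false
set_option linter.unusedSectionVars false

open MeasureTheory ProbabilityTheory Filter Topology Matrix
open scoped ENNReal BoundedContinuousFunction

namespace Crest.Agent.R166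

theorem partX_W {D : ℕ} {s E : ℝ} {β : Measure J} [IsProbabilityMeasure β]
    (hT : TreeOK D s β E) (hL : LocLaw D s β E) (hR : TrLaw D s β E) (hG : GaussEig D s β E)
    {N q : ℕ} (ι : Fin N ≃ Fin 2 × Fin (q + 2)) {m : ℂ} (hm : 0 < m.im)
    (hs : ∀ δ : ℝ, 0 < δ → 0 < ∫ e, bumpF m δ e ∂(labLaw D s β E (q + 2)))
    {k : ℕ} {w : Fin k → ℂ} (hw : ∀ j, 0 < (w j).im) {ψ : (Fin k → Jet N) → ℝ} (hψ : TestFn ψ)
    (hb : ∀ Z, |ψ Z| ≤ 1) :
    Tendsto (fun i : ℕ × Idx D => EG (graphFam D s β E i) N w (fun Z => ψ fun j =>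
      mob (Wq ι (fun _ => (m, m)) fun _ => (m, m)) (Z j)) - EG (graphFam D s β E i) N w ψ)
      (FG D) (𝓝 0) := by
  have hρ : 0 < rho D s β E := hT.2.2
  have hmm : LabH (q := q + 2) fun _ => (m, m) := fun _ => ⟨hm, hm⟩
  set W := Wq ι (fun _ => (m, m)) fun _ => (m, m) with hWdef
  obtain ⟨χ₀, hχ₀, hχ₀e⟩ := hψ.pullback (Wq_isSymp ι hmm hmm)
  set χ : (Fin k → Jet N) → ℝ := fun Z => max (-1) (min 1 (χ₀ Z)) with hχdef
  have hχu : UniformContinuous χ := by
    have h0 : UniformContinuous χ₀ := hχ₀.2.1.uniformContinuous_of_continuous hχ₀.1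
    have h1 : LipschitzWith 1 fun x : ℝ => max (-1) (min 1 x) :=
      (LipschitzWith.id.const_min 1).const_max (-1)
    exact h1.uniformContinuous.comp h0
  have hχb : ∀ Z, |χ Z| ≤ 1 := fun Z => by
    rw [abs_le]; exact ⟨le_max_left _ _, max_le (by norm_num) (min_le_left _ _)⟩
  have hχe : ∀ Z, (∀ j, Z j ∈ cSieg N) → χ Z = ψ fun j => mob W (Z j) := fun Z hZ => by
    have h1 := abs_le.1 (hb fun j => mob W (Z j))
    simp only [hχdef, hχ₀e Z hZ]
    rw [min_eq_right h1.2, max_eq_right h1.1]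
  have hψu : UniformContinuous ψ := hψ.2.1.uniformContinuous_of_continuous hψ.1
  rw [Metric.tendsto_nhds]
  intro ε₀ hε₀
  obtain ⟨ε, hε, hε1, hεε⟩ : ∃ ε : ℝ, 0 < ε ∧ ε ≤ 1 ∧ ε ≤ ε₀ :=
    ⟨min ε₀ 1, lt_min hε₀ one_pos, min_le_right _ _, min_le_left _ _⟩
  obtain ⟨δ, hδ, hsw⟩ := switch_inv (D := D) s E _ hρ β ι hm w hw hψ hb (ε := ε / 8) (by positivity)
  have hc := hs δ hδ
  set c := ∫ e, bumpF m δ e ∂(labLaw D s β E (q + 2)) with hcdef
  have hε' : 0 < c * ε / 8 := by positivity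
  have hF1 : ∀ e : Lab (q + 2), |bumpF m δ e| ≤ 1 := fun e => by
    rw [abs_of_nonneg (bumpF_mem m hδ e).1]; exact (bumpF_mem m hδ e).2
  have t1 := annealed_transfer hT hL hR hG ι w hw (continuous_bumpF m δ) hF1 hψu hb hε'
  have t2 := annealed_transfer hT hL hR hG ι w hw (continuous_bumpF m δ) hF1 hχu hχb hε'
  have t3 := annealed_transfer hT hL hR hG ι w hw (continuous_bumpF m δ) hF1
    (φ := fun _ => 1) uniformContinuous_const (fun _ => by simp) hε'
  rw [FG, Filter.eventually_curry_iff]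
  filter_upwards [t1, t2, t3, hsw _ hε'] with K a1 a2 a3 a4
  obtain ⟨j, b1, b2, b3⟩ := (a1.and (a2.and a3)).exists
  have hpos : ∀ᶠ i : Idx D in FI D, 0 < i.1 :=
    (tendsto_comap (f := (Subtype.val : Idx D → ℕ)) (x := atTop)).eventually (eventually_gt_atTop 0)
  filter_upwards [b1, b2, b3, a4 j, hpos] with i c1 c2 c3 c4 hi
  have hP := (graph_isFam D s E β hρ.le (K, i)).1
  have e1 : EG (graphFam D s β E (K, i)) N w (fun _ => (1 : ℝ)) = 1 := by simp [EG]
  have e2 : EG (graphFam D s β E (K, i)) N w χ =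
      EG (graphFam D s β E (K, i)) N w (fun Z => ψ fun j => mob W (Z j)) := by
    unfold EG
    congr 1; funext p; congr 1; funext g
    exact hχe _ fun j => jetV_mem_cSieg _ _ _ (fun b c => by simp [eq_comm]) (hw j)
  have e3 : ∀ (o : Om i.1 D) (a : Fin (q + 2) → HE i.1 D),
      χ (fun t => trueJ ι s E (rho D s β E) K j o a (w t)) =
        ψ fun t => mob W (trueJ ι s E (rho D s β E) K j o a (w t)) := fun o a =>
    hχe _ fun t => trueJ_mem_cSieg ι s E _ hρ K j o a hi (hw t)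
  simp only [e3, e2] at c2
  simp only [e1, mul_one] at c3
  rw [← hcdef] at c1 c2 c3
  rw [Real.dist_eq, sub_zero]
  generalize EG (graphFam D s β E (K, i)) N w (fun Z => ψ fun j => mob W (Z j)) = u at *
  generalize EG (graphFam D s β E (K, i)) N w ψ = v at *
  rw [abs_le] at c1 c2 c3 c4
  have h1 : c * |u - v| < c * ε := by
    rw [← abs_of_pos hc, ← abs_mul, abs_of_pos hc, abs_lt]
    have h2 : ε / 8 * (c * ε / 8) ≤ c * ε / 8 := by nlinarith
    constructor <;> nlinarith [mul_le_mul_of_nonneg_left c3.2 (by positivity : 0 ≤ ε / 8)]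
  exact lt_of_lt_of_le (lt_of_mul_lt_mul_left h1 hc.le) hεε

theorem partX {D : ℕ} (hD : 2 ≤ D) {s E : ℝ} {β : Measure J} [IsProbabilityMeasure β]
    (hT : TreeOK D s β E) (hL : LocLaw D s β E) (hR : TrLaw D s β E) (hG : GaussEig D s β E) :
    H0 (FG D) (fun i => i.2.1) (graphFam D s β E) ∧
      ∃ θ : ℝ, Real.sin θ ≠ 0 ∧ H1 (FG D) (fun i => i.2.1) (graphFam D s β E) θ := by
  refine ⟨graph_H0 hT hL hR hG, ?_⟩
  obtain ⟨m, hm, hsupp⟩ := exists_support hT
  obtain ⟨θ, hθ, hdec⟩ := Wq_decomp hm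
  refine ⟨θ, hθ, fun r₀ => ⟨2 * (r₀ + 1), by omega, fun k w hw φ hφ => ?_⟩⟩
  let ι : Fin (2 * (r₀ + 1) + 2) ≃ Fin 2 × Fin (r₀ + 2) :=
    (finProdFinEquiv (m := 2) (n := r₀ + 2)).symm
  obtain ⟨O₁, O₂, h₁, h₂, hW⟩ := hdec _ _ ι
  refine H1_of_W h₁ h₂ hw (fun ψ hψ hb => ?_) hφ
  rw [← hW]
  exact partX_W hT hL hR hG ι hm (hsupp _) hw hψ hb

end Crest.Agent.R166
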