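import Crest.Agent.R166.PartA
import Crest.Agent.R166.PartB
import Crest.Agent.R166.PartC
import Crest.Agent.R166.PartD
import Crest.Agent.R166.PartE
import Crest.Agent.R166.PartX

/-! # Assembly -/

set_option autoImplicit false
set_option linter.unusedVariables false
set_option linter.unusedSectionVars false

open MeasureTheory ProbabilityTheory Filter Topology Matrix
open scoped ENNReal BoundedContinuousFunction

namespace Crest.Agent.R166

theorem H0.comp {ι ι' : Type} {F : Filter ι} {F' : Filter ι'} {n : ι → ℕ}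
    {μ : ∀ i, Measure (Conf (n i))} (h : H0 F n μ) {f : ι' → ι} (hf : Tendsto f F' F) :
    H0 F' (fun i => n (f i)) (fun i => μ (f i)) := by
  intro ε hε
  obtain ⟨K₀, hK⟩ := h ε hε
  exact ⟨K₀, fun K h1 h2 => hf.eventually (hK K h1 h2)⟩

theorem H1.comp {ι ι' : Type} {F : Filter ι} {F' : Filter ι'} {n : ι → ℕ}
    {μ : ∀ i, Measure (Conf (n i))} {θ : ℝ} (h : H1 F n μ θ) {f : ι' → ι} (hf : Tendsto f F' F) :
    H1 F' (fun i => n (f i)) (fun i => μ (f i)) θ := by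
  intro r₀
  obtain ⟨r, hr, hK⟩ := h r₀
  exact ⟨r, hr, fun k w hw φ hφ => (hK k w hw φ hφ).comp hf⟩

theorem tendsto_FG (D : ℕ) : Tendsto (fun i : ℕ × Idx D => i.2.1) (FG D) atTop := by
  have h1 : Tendsto (fun i : ℕ × Idx D => i.2) (FG D) (FI D) :=
    tendsto_snd.mono_left Filter.curry_le_prod
  exact (tendsto_comap (f := (Subtype.val : Idx D → ℕ)) (x := atTop)).comp h1

theorem eventually_of_FG {D : ℕ} {u : ℕ → ℝ}
    (h : Tendsto (fun i : ℕ × Idx D => u i.2.1) (FG D) (𝓝 0)) {ε : ℝ} (hε : 0 < ε) :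
    ∃ N : ℕ, ∀ n, N ≤ n → Nonempty (Pairing n D) → |u n| < ε := by
  have h1 := (Metric.tendsto_nhds.1 h) ε hε
  rw [FG, Filter.eventually_curry_iff] at h1
  obtain ⟨K, hK⟩ := h1.exists
  rw [FI, Filter.eventually_comap, Filter.eventually_atTop] at hK
  obtain ⟨N, hN⟩ := hK
  refine ⟨N, fun n hn hne => ?_⟩
  have := hN n hn ⟨n, hne⟩ rfl
  simpa [Real.dist_eq] using this

theorem graph_univ {D : ℕ} (hD : 2 ≤ D) {κ : ℝ} (hκ : 0 < κ) : ∃ s₀ : ℝ, 0 < s₀ ∧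
    ∀ s : ℝ, 0 ≤ s → s < s₀ → ∀ β : Measure J, Adm s β → ∀ E : ℝ, E ^ 2 ≤ 4 * D - κ →
      TreeOK D s β E ∧ ∀ h : ℝ → ℝ, Continuous h → HasCompactSupport h → (∀ t, 0 ≤ h t) →
        Tendsto (fun i : ℕ × Idx D => lap (graphFam D s β E i) h - lap (goeFam i.2.1) h)
          (FG D) (𝓝 0) := by
  obtain ⟨s₁, hs₁, hT⟩ := tree_ok hD hκ
  obtain ⟨s₂, hs₂, hA⟩ := partA hD hκ
  refine ⟨min s₁ s₂, lt_min hs₁ hs₂, fun s hs hs' β hβ E hE => ?_⟩
  have := hβ.prob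
  have t := hT s hs (hs'.trans_le (min_le_left _ _)) β E hE
  obtain ⟨a1, a2, a3⟩ := hA s hs (hs'.trans_le (min_le_right _ _)) β hβ E hE
  have b := partB hD hβ (by linarith) t a2
  obtain ⟨x0, θ, hθ, x1⟩ := partX hD t a1 a3 b
  refine ⟨t, fun h hc hK hp => ?_⟩
  obtain ⟨c1, c2, c3, c4⟩ := partC (graph_isFam D s E β t.2.2.le) x0 hθ x1
  obtain ⟨θ', hθ', e1⟩ := goe_H1
  have ef : IsFam (fun i : ℕ × Idx D => i.2.1) (fun i => goeFam i.2.1) := fun i => goe_isFam i.2.1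
  obtain ⟨d1, d2, d3, d4⟩ := partC ef (goe_H0.comp (tendsto_FG D)) hθ' (e1.comp (tendsto_FG D))
  exact partD (graph_isFam D s E β t.2.2.le) c1 c2 c3 (c4 1) ef d1 d2 d3 (d4 1) hc hK hp

end Crest.Agent.R166
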