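import Crest.Agent.R166.Defs

/-! # Möbius action on jets: algebra -/

set_option autoImplicit false
set_option linter.unusedVariables false
set_option linter.unusedSectionVars false

open MeasureTheory ProbabilityTheory Filter Topology Matrix
open scoped ENNReal BoundedContinuousFunction

namespace Crest.Agent.R166

theorem Mob1_ring {R : Type*} [Ring R] {a b c d ta tb tc td : R} (h1 : ta * c = tc * a)
    (h2 : tb * d = td * b) (h3 : ta * d - tc * b = 1) (h4 : td * a - tb * c = 1)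
    (x y x' y' : R) :
    (x * ta + y * tb) * (c * x' + d * y') - (x * tc + y * td) * (a * x' + b * y') =
      x * y' - y * x' := by
  calc _ = x * (ta * c - tc * a) * x' + x * (ta * d - tc * b) * y' -
        y * (td * a - tb * c) * x' + y * (tb * d - td * b) * y' := by noncomm_ring
    _ = _ := by rw [h1, h2, h3, h4]; noncomm_ring

theorem Mob1_rel {r : ℕ} {q : Quad r} (h : q.IsSymp) :
    q.Aᵀ * q.C = q.Cᵀ * q.A ∧ q.Bᵀ * q.D = q.Dᵀ * q.B ∧ q.Aᵀ * q.D - q.Cᵀ * q.B = 1 ∧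
      q.Dᵀ * q.A - q.Bᵀ * q.C = 1 := by
  obtain ⟨h1, h2, h3⟩ := h
  refine ⟨?_, ?_, h3, ?_⟩
  · rw [← h1.eq, transpose_mul, transpose_transpose]
  · rw [← h2.eq, transpose_mul, transpose_transpose]
  · have := congrArg transpose h3
    simpa only [transpose_sub, transpose_mul, transpose_transpose, transpose_one] using this

theorem Mob1_symm {r : ℕ} {X Y : Matrix (Fin r) (Fin r) ℝ} (h : Xᵀ * Y - Yᵀ * X = 0) :
    (Xᵀ * Y).IsSymm := by
  rw [IsSymm, transpose_mul, transpose_transpose]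
  exact (sub_eq_zero.1 h).symm

theorem Quad.IsSymp.mul {r : ℕ} {q q' : Quad r} (h : q.IsSymp) (h' : q'.IsSymp) :
    (q.mul q').IsSymp := by
  obtain ⟨h1, h2, h3, h4⟩ := Mob1_rel h
  obtain ⟨g1, g2, g3, g4⟩ := Mob1_rel h'
  refine ⟨Mob1_symm ?_, Mob1_symm ?_, ?_⟩
  · simp only [Quad.mul, transpose_add, transpose_mul]
    rw [Mob1_ring h1 h2 h3 h4, g1, sub_self]
  · simp only [Quad.mul, transpose_add, transpose_mul]
    rw [Mob1_ring h1 h2 h3 h4, g2, sub_self]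
  · simp only [Quad.mul, transpose_add, transpose_mul]
    rw [Mob1_ring h1 h2 h3 h4, g3]

/-- inverse of a symplectic quadruple -/
def Quad.inv {r : ℕ} (q : Quad r) : Quad r := ⟨q.Dᵀ, -q.Bᵀ, -q.Cᵀ, q.Aᵀ⟩

def Quad.one (r : ℕ) : Quad r := ⟨1, 0, 0, 1⟩

theorem Mob1_one_iff {r : ℕ} (q q' : Quad r) : q.mul q' = Quad.one r ↔
    fromBlocks q.A q.B q.C q.D * fromBlocks q'.A q'.B q'.C q'.D = 1 := by
  rw [fromBlocks_multiply, ← fromBlocks_one, fromBlocks_inj, Quad.ext_iff]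
  rfl

theorem Quad.IsSymp.inv {r : ℕ} {q : Quad r} (h : q.IsSymp) :
    q.inv.IsSymp ∧ q.inv.mul q = Quad.one r ∧ q.mul q.inv = Quad.one r := by
  obtain ⟨h1, h2, h3, h4⟩ := Mob1_rel h
  have hl : q.inv.mul q = Quad.one r := by
    refine Quad.ext ?_ ?_ ?_ ?_ <;> simp only [Quad.mul, Quad.inv, Quad.one, neg_mul]
    · rw [← h4, sub_eq_add_neg]
    · rw [h2, add_neg_cancel]
    · rw [h1, neg_add_cancel]
    · rw [← h3, sub_eq_neg_add]
  have hr : q.mul q.inv = Quad.one r := (Mob1_one_iff _ _).2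
    (mul_eq_one_comm.1 ((Mob1_one_iff _ _).1 hl))
  have hB := congrArg Quad.B hr
  have hC := congrArg Quad.C hr
  have hD := congrArg Quad.D hr
  simp only [Quad.mul, Quad.inv, Quad.one, mul_neg] at hB hC hD
  refine ⟨⟨Mob1_symm ?_, Mob1_symm ?_, ?_⟩, hl, hr⟩ <;>
    simp only [Quad.inv, transpose_neg, transpose_transpose, mul_neg, neg_mul]
  · rw [← hC]; abel
  · rw [← neg_eq_zero, ← hB]; abel
  · rw [← hD]; abel

theorem Quad.mul_assoc {r : ℕ} (a b c : Quad r) : (a.mul b).mul c = a.mul (b.mul c) := by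
  refine Quad.ext ?_ ?_ ?_ ?_ <;> simp only [Quad.mul] <;> noncomm_ring

theorem Mob1_cx_zero {r : ℕ} : cx (0 : Matrix (Fin r) (Fin r) ℝ) = 0 := by
  ext a b; simp

theorem mob_one {r : ℕ} (Z : Jet r) : mob (Quad.one r) Z = Z := by
  have hj : jfac (Quad.one r) Z = 1 := by
    simp only [jfac, Quad.one, Mob1_cx_zero, cx_one, zero_mul, zero_add]
  rw [mob, hj]
  simp only [Quad.one, Mob1_cx_zero, cx_one, inv_one, transpose_one, one_mul, mul_one,
    add_zero, mul_zero, zero_mul, trace_zero, sub_zero, Equiv.symm_apply_apply]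

theorem Sieg_subset_cSieg (r : ℕ) : Sieg r ⊆ cSieg r := by
  exact fun Z hZ => ⟨hZ.1, hZ.2.1, hZ.2.2.posSemidef⟩

theorem isClosed_cSieg (r : ℕ) : IsClosed (cSieg r) := by
  have : cSieg r = (⋂ i, ⋂ j, {Z : Jet r | Z.1 j i = Z.1 i j}) ∩
      ((⋂ i, ⋂ j, {Z : Jet r | Z.2.1 j i = Z.2.1 i j}) ∩
        ((⋂ i, ⋂ j, {Z : Jet r | (Z.1 j i).im = (Z.1 i j).im}) ∩
          ⋂ x : Fin r → ℝ, {Z : Jet r | 0 ≤ ∑ i, x i * ∑ j, (Z.1 i j).im * x j})) := by
    ext Z
    simp only [cSieg, Set.mem_ofPred_eq, Set.mem_inter_iff, Set.mem_iInter, IsSymm.ext_iff,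
      posSemidef_iff_dotProduct_mulVec, IsHermitian.ext_iff, imM, of_apply, star_trivial,
      dotProduct, mulVec]
  rw [this]
  refine IsClosed.inter ?_ (IsClosed.inter ?_ (IsClosed.inter ?_ ?_))
  · exact isClosed_iInter fun i => isClosed_iInter fun j =>
      isClosed_eq (by fun_prop) (by fun_prop)
  · exact isClosed_iInter fun i => isClosed_iInter fun j =>
      isClosed_eq (by fun_prop) (by fun_prop)
  · exact isClosed_iInter fun i => isClosed_iInter fun j =>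
      isClosed_eq (by fun_prop) (by fun_prop)
  · exact isClosed_iInter fun x => isClosed_le continuous_const (by fun_prop)

section Mob1Aux

open scoped ComplexOrder

variable {r : ℕ}

theorem Mob1_cx_conj (Y : Matrix (Fin r) (Fin r) ℝ) : (cx Y)ᴴ = (cx Y)ᵀ := by
  ext a b; simp

theorem Mob1_form {Y : Matrix (Fin r) (Fin r) ℝ} (hY : Y.IsHermitian) (v : Fin r → ℂ) :
    star v ⬝ᵥ (cx Y *ᵥ v) =
      (((fun i => (v i).re) ⬝ᵥ (Y *ᵥ fun i => (v i).re) +
        (fun i => (v i).im) ⬝ᵥ (Y *ᵥ fun i => (v i).im) : ℝ) : ℂ) := by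
  apply Complex.ext
  · simp [dotProduct, mulVec, Finset.sum_add_distrib, Complex.re_sum, Complex.im_sum]
  · simp only [dotProduct, mulVec, Complex.im_sum, Complex.ofReal_im, Finset.mul_sum,
      Pi.star_apply, Complex.mul_im, Complex.mul_re, cx_apply, Complex.ofReal_re,
      Complex.star_def, Complex.conj_re, Complex.conj_im, zero_mul, add_zero, sub_zero,
      Finset.sum_add_distrib, neg_mul, Finset.sum_neg_distrib]
    rw [add_neg_eq_zero, Finset.sum_comm]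
    refine Finset.sum_congr rfl fun i _ => Finset.sum_congr rfl fun j _ => ?_
    rw [herm_symm hY i j]
    ring

theorem Mob1_psd_iff {Y : Matrix (Fin r) (Fin r) ℝ} : (cx Y).PosSemidef ↔ Y.PosSemidef := by
  constructor
  · intro h
    have hY : Y.IsHermitian := herm_of_symm fun a b => by
      have := h.isHermitian.apply b a
      simpa using this
    refine PosSemidef.of_dotProduct_mulVec_nonneg hY fun x => ?_
    have := h.dotProduct_mulVec_nonneg fun i => (x i : ℂ)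
    rw [Mob1_form hY, Complex.zero_le_real] at this
    simpa [dotProduct] using this
  · intro h
    refine PosSemidef.of_dotProduct_mulVec_nonneg ?_ fun v => ?_
    · rw [IsHermitian, Mob1_cx_conj, ← cx_transpose]
      congr 1
      ext a b
      exact herm_symm h.isHermitian b a
    · rw [Mob1_form h.isHermitian, Complex.zero_le_real]
      exact add_nonneg (h.dotProduct_mulVec_nonneg _) (h.dotProduct_mulVec_nonneg _)

theorem Mob1_det (Y : Matrix (Fin r) (Fin r) ℝ) : (cx Y).det = (Y.det : ℂ) :=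
  (Complex.ofRealHom.map_det Y).symm

theorem Mob1_pd_iff {Y : Matrix (Fin r) (Fin r) ℝ} : (cx Y).PosDef ↔ Y.PosDef := by
  constructor
  · intro h
    refine (Mob1_psd_iff.1 h.posSemidef).posDef_iff_det_ne_zero.2 fun h0 => ?_
    exact h.posSemidef.posDef_iff_det_ne_zero.1 h (by rw [Mob1_det, h0, Complex.ofReal_zero])
  · intro h
    refine (Mob1_psd_iff.2 h.posSemidef).posDef_iff_det_ne_zero.2 ?_
    rw [Mob1_det]
    exact_mod_cast h.posSemidef.posDef_iff_det_ne_zero.1 h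

theorem Mob1_im {M : Matrix (Fin r) (Fin r) ℂ} (hM : M.IsSymm) :
    M - Mᴴ = (2 * Complex.I) • cx (imM (Matrix.of.symm M)) := by
  ext a b
  simp only [Matrix.sub_apply, conjTranspose_apply, Matrix.smul_apply, cx_apply, imM, of_apply,
    smul_eq_mul, of_symm_apply, hM.apply a b, Complex.star_def, Complex.sub_conj]
  push_cast
  ring

theorem Mob1_crel {q : Quad r} (h : q.IsSymp) :
    (cx q.A)ᵀ * cx q.C = (cx q.C)ᵀ * cx q.A ∧ (cx q.B)ᵀ * cx q.D = (cx q.D)ᵀ * cx q.B ∧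
      (cx q.A)ᵀ * cx q.D - (cx q.C)ᵀ * cx q.B = 1 ∧
      (cx q.D)ᵀ * cx q.A - (cx q.B)ᵀ * cx q.C = 1 := by
  obtain ⟨h1, h2, h3, h4⟩ := Mob1_rel h
  simp only [← cx_transpose, ← cx_mul, ← cx_sub, h1, h2, h3, h4, cx_one, and_self]

theorem Mob1_key {q : Quad r} (h : q.IsSymp) (N M : Matrix (Fin r) (Fin r) ℂ) :
    (N * (cx q.C)ᵀ + (cx q.D)ᵀ) * (cx q.A * M + cx q.B) -
      (N * (cx q.A)ᵀ + (cx q.B)ᵀ) * (cx q.C * M + cx q.D) = M - N := by
  obtain ⟨h1, h2, h3, h4⟩ := Mob1_crel h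
  have := Mob1_ring h1 h2 h3 h4 N 1 M 1
  simp only [one_mul, mul_one] at this
  rw [← neg_sub, this, neg_sub]

theorem Mob1_keyT {q : Quad r} (h : q.IsSymp) {Z : Jet r} (hZ : (Matrix.of Z.1).IsSymm) :
    (jfac q Z)ᵀ * (cx q.A * Matrix.of Z.1 + cx q.B) =
      (cx q.A * Matrix.of Z.1 + cx q.B)ᵀ * jfac q Z := by
  have := Mob1_key h (Matrix.of Z.1) (Matrix.of Z.1)
  rw [sub_self, sub_eq_zero] at this
  simpa only [jfac, transpose_add, transpose_mul, hZ.eq] using this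

theorem Mob1_keyH {q : Quad r} (h : q.IsSymp) (Z : Jet r) :
    (jfac q Z)ᴴ * (cx q.A * Matrix.of Z.1 + cx q.B) -
      (cx q.A * Matrix.of Z.1 + cx q.B)ᴴ * jfac q Z = Matrix.of Z.1 - (Matrix.of Z.1)ᴴ := by
  have := Mob1_key h (Matrix.of Z.1)ᴴ (Matrix.of Z.1)
  simpa only [jfac, conjTranspose_add, conjTranspose_mul, Mob1_cx_conj] using this

theorem Mob1_W {q : Quad r} {Z : Jet r} (hu : IsUnit (jfac q Z).det) :
    Matrix.of (mob q Z).1 * jfac q Z = cx q.A * Matrix.of Z.1 + cx q.B := by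
  simp only [mob, Equiv.apply_symm_apply]
  rw [nonsing_inv_mul_cancel_right _ _ hu]

theorem Mob1_symm1 {q : Quad r} (h : q.IsSymp) {Z : Jet r} (hZ : (Matrix.of Z.1).IsSymm)
    (hu : IsUnit (jfac q Z).det) : (Matrix.of (mob q Z).1).IsSymm := by
  have hk := Mob1_keyT h hZ
  rw [← Mob1_W hu, transpose_mul, ← Matrix.mul_assoc] at hk
  have hj : IsUnit (jfac q Z) := (isUnit_iff_isUnit_det _).2 hu
  have hjT : IsUnit (jfac q Z)ᵀ := (isUnit_iff_isUnit_det _).2 (by rwa [det_transpose])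
  exact (hjT.mul_left_cancel (hj.mul_right_cancel hk)).symm

theorem Mob1_symm2 (q : Quad r) {Z : Jet r} (hZ : (Matrix.of Z.2.1).IsSymm) :
    (Matrix.of (mob q Z).2.1).IsSymm := by
  simp only [mob, Equiv.apply_symm_apply]
  rw [IsSymm, transpose_mul, transpose_mul, transpose_transpose, hZ.eq, Matrix.mul_assoc]

theorem Mob1_imW {q : Quad r} (h : q.IsSymp) {Z : Jet r} (hZ : (Matrix.of Z.1).IsSymm)
    (hu : IsUnit (jfac q Z).det) :
    star (jfac q Z) * cx (imM (mob q Z).1) * jfac q Z = cx (imM Z.1) := by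
  have hk := Mob1_keyH h Z
  rw [← Mob1_W hu, conjTranspose_mul, Mob1_im hZ, ← Matrix.mul_assoc, ← Matrix.sub_mul,
    ← Matrix.mul_sub, Mob1_im (Mob1_symm1 h hZ hu), Matrix.mul_smul, Matrix.smul_mul] at hk
  have h2 : (2 * Complex.I) ≠ 0 := mul_ne_zero two_ne_zero Complex.I_ne_zero
  exact smul_right_injective _ h2 hk

theorem Mob1_psd {q : Quad r} (h : q.IsSymp) {Z : Jet r} (hZ : (Matrix.of Z.1).IsSymm)
    (hu : IsUnit (jfac q Z).det) : (imM (mob q Z).1).PosSemidef ↔ (imM Z.1).PosSemidef := by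
  rw [← Mob1_psd_iff, ← Mob1_psd_iff (Y := imM Z.1), ← Mob1_imW h hZ hu,
    Matrix.IsUnit.posSemidef_star_left_conjugate_iff ((isUnit_iff_isUnit_det _).2 hu)]

theorem Mob1_pd {q : Quad r} (h : q.IsSymp) {Z : Jet r} (hZ : (Matrix.of Z.1).IsSymm)
    (hu : IsUnit (jfac q Z).det) : (imM (mob q Z).1).PosDef ↔ (imM Z.1).PosDef := by
  rw [← Mob1_pd_iff, ← Mob1_pd_iff (Y := imM Z.1), ← Mob1_imW h hZ hu,
    Matrix.IsUnit.posDef_star_left_conjugate_iff ((isUnit_iff_isUnit_det _).2 hu)]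

theorem Mob1_unit {q : Quad r} (h : q.IsSymp) {Z : Jet r} (hZ : Z ∈ Sieg r) :
    IsUnit (jfac q Z).det := by
  rw [isUnit_iff_ne_zero]
  intro h0
  obtain ⟨v, hv, hjv⟩ := Matrix.exists_mulVec_eq_zero_iff.2 h0
  have hk := congrArg (fun X => star v ⬝ᵥ (X *ᵥ v)) (Mob1_keyH h Z)
  have hpos := (Mob1_pd_iff.2 hZ.2.2).dotProduct_mulVec_pos hv
  simp only [sub_mulVec (_ * _), ← mulVec_mulVec, hjv, mulVec_zero, sub_zero] at hk
  rw [dotProduct_mulVec, ← star_mulVec, hjv, star_zero, zero_dotProduct, Mob1_im hZ.1,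
    smul_mulVec, dotProduct_smul, smul_eq_mul] at hk
  exact mul_ne_zero (mul_ne_zero two_ne_zero Complex.I_ne_zero) hpos.ne' hk.symm

end Mob1Aux

theorem jfac_isUnit {r : ℕ} {q : Quad r} (h : q.IsSymp) {Z : Jet r} (hZ : Z ∈ Sieg r) :
    IsUnit (jfac q Z).det := by
  exact Mob1_unit h hZ

theorem mob_mem_Sieg {r : ℕ} {q : Quad r} (h : q.IsSymp) {Z : Jet r} (hZ : Z ∈ Sieg r) :
    mob q Z ∈ Sieg r := by
  have hu := jfac_isUnit h hZ
  exact ⟨Mob1_symm1 h hZ.1 hu, Mob1_symm2 q hZ.2.1, (Mob1_pd h hZ.1 hu).2 hZ.2.2⟩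

/-- on the boundary of the domain the image stays in the closed domain and off the open one -/
theorem mob_bdry {r : ℕ} {q : Quad r} (h : q.IsSymp) {Z : Jet r} (hZ : Z ∈ cSieg r)
    (hZ' : Z ∉ Sieg r) : mob q Z ∈ cSieg r ∧ mob q Z ∉ Sieg r := by
  by_cases hu : IsUnit (jfac q Z).det
  · exact ⟨⟨Mob1_symm1 h hZ.1 hu, Mob1_symm2 q hZ.2.1, (Mob1_psd h hZ.1 hu).2 hZ.2.2⟩,
      fun hm => hZ' ⟨hZ.1, hZ.2.1, (Mob1_pd h hZ.1 hu).1 hm.2.2⟩⟩
  · have h1 : Matrix.of (mob q Z).1 = 0 := by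
      simp only [mob, Equiv.apply_symm_apply, nonsing_inv_apply_not_isUnit _ hu, mul_zero]
    have h2 : imM (mob q Z).1 = 0 := by
      ext a b
      have : (mob q Z).1 a b = 0 := congrFun (congrFun h1 a) b
      simp [imM, this]
    refine ⟨⟨by rw [h1]; exact isSymm_zero, Mob1_symm2 q hZ.2.1, h2 ▸ PosSemidef.zero⟩,
      fun hm => ?_⟩
    have h3 := hm.2.2
    rw [h2] at h3
    cases r with
    | zero => exact hu (by rw [det_isEmpty]; exact isUnit_one)
    | succ r => exact lt_irrefl _ (h3.diag_pos (i := 0))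

theorem mob_mul {r : ℕ} {q q' : Quad r} (h : q.IsSymp) (h' : q'.IsSymp) {Z : Jet r}
    (hZ : Z ∈ Sieg r) : mob (q.mul q') Z = mob q (mob q' Z) := by
  have hu' := jfac_isUnit h' hZ
  have hu := jfac_isUnit h (mob_mem_Sieg h' hZ)
  have hW := Mob1_W hu'
  have hs := (Mob1_symm1 h' hZ.1 hu').eq
  have hW2 : Matrix.of (mob q' Z).2.1 = ((jfac q' Z)⁻¹)ᵀ * Matrix.of Z.2.1 * (jfac q' Z)⁻¹ := rfl
  have hW3 : (mob q' Z).2.2 = Z.2.2 - trace ((jfac q' Z)⁻¹ * cx q'.C * Matrix.of Z.2.1) := rfl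
  have hj : jfac (q.mul q') Z = jfac q (mob q' Z) * jfac q' Z := by
    rw [jfac, jfac.eq_1 q, Matrix.add_mul _ _ (jfac q' Z), Matrix.mul_assoc, hW, jfac]
    simp only [Quad.mul, cx_add, cx_mul]
    noncomm_ring
  have hP : cx (q.mul q').A * Matrix.of Z.1 + cx (q.mul q').B =
      (cx q.A * Matrix.of (mob q' Z).1 + cx q.B) * jfac q' Z := by
    rw [Matrix.add_mul _ _ (jfac q' Z), Matrix.mul_assoc, hW, jfac]
    simp only [Quad.mul, cx_add, cx_mul]
    noncomm_ring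
  have hT : ((jfac q' Z)⁻¹)ᵀ = cx q'.A - Matrix.of (mob q' Z).1 * cx q'.C := by
    rw [transpose_nonsing_inv]
    refine inv_eq_right_inv ?_
    rw [Matrix.mul_sub, ← Matrix.mul_assoc, ← hs, ← transpose_mul, hW]
    obtain ⟨h1, h2, h3, h4⟩ := Mob1_crel h'
    simp only [jfac, transpose_add, transpose_mul, hZ.1.eq, Matrix.add_mul, Matrix.mul_assoc, h1]
    rw [← h4]
    abel
  have hC : cx (q.mul q').C = jfac q (mob q' Z) * cx q'.C + cx q.C * ((jfac q' Z)⁻¹)ᵀ := by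
    rw [hT, jfac]
    simp only [Quad.mul, cx_add, cx_mul]
    noncomm_ring
  rw [mob, mob.eq_1 q, hj, hP, hC, hW2, hW3, Matrix.mul_inv_rev]
  refine Prod.ext ?_ (Prod.ext ?_ ?_)
  · dsimp only
    rw [← Matrix.mul_assoc, mul_nonsing_inv_cancel_right _ _ hu']
  · simp only [transpose_mul, Matrix.mul_assoc]
  · dsimp only
    rw [Matrix.mul_add, Matrix.add_mul, trace_add, Matrix.mul_assoc (jfac q' Z)⁻¹,
      nonsing_inv_mul_cancel_left _ _ hu, sub_sub]
    congr 2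
    rw [Matrix.mul_assoc, Matrix.mul_assoc, trace_mul_comm]
    simp only [Matrix.mul_assoc]

theorem rotQ_isSymp {r : ℕ} (θ : Fin r → ℝ) : (rotQ θ).IsSymp := by
  refine ⟨?_, ?_, ?_⟩ <;> simp only [rotQ, diagonal_transpose, diagonal_mul_diagonal]
  · exact isSymm_diagonal _
  · exact isSymm_diagonal _
  · rw [diagonal_sub, ← diagonal_one]
    congr 1
    ext b
    have := Real.pi_ne_zero
    field_simp
    linarith [Real.sin_sq_add_cos_sq (θ b)]

theorem orthQ_isSymp {r : ℕ} {O : Matrix (Fin r) (Fin r) ℝ} (h : O * Oᵀ = 1) :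
    (orthQ O).IsSymp := by
  refine ⟨?_, ?_, ?_⟩ <;>
    simp only [orthQ, transpose_zero, mul_zero, zero_mul, sub_zero, isSymm_zero]
  exact mul_eq_one_comm.1 h

end Crest.Agent.R166
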