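import Crest.Agent.R166.PartT
import Crest.Agent.R166.PartG
import Crest.Agent.R166.A.ZClose
import Crest.Agent.R166.A.Loclaw
import Crest.Agent.R166.A.TightC
import Crest.Agent.R166.A.UIu
import Crest.Agent.R166.A.UIc
import Crest.Agent.R166.A.Tr

/-! # Part A (interface): local law and uniform integrability -/

set_option autoImplicit false
set_option linter.unusedVariables false
set_option linter.unusedSectionVars false

open MeasureTheory ProbabilityTheory Filter Topology Matrix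
open scoped ENNReal BoundedContinuousFunction

namespace Crest.Agent.R166

theorem partA {D : ℕ} (hD : 2 ≤ D) {κ : ℝ} (hκ : 0 < κ) : ∃ s₀ : ℝ, 0 < s₀ ∧
    ∀ s : ℝ, 0 ≤ s → s < s₀ → ∀ β : Measure J, Adm s β → ∀ E : ℝ, E ^ 2 ≤ 4 * D - κ →
      LocLaw D s β E ∧ UIEig D s β E ∧ TrLaw D s β E := by
  obtain ⟨c₀, η₁, C₀, hb⟩ := PA.band_exists hD hκ
  obtain ⟨s₁, hs₁, hT⟩ := tree_ok hD hκ
  obtain ⟨s₂, hs₂, hZ⟩ := PA.zclose hD hκ
  refine ⟨min s₁ s₂, lt_min hs₁ hs₂, fun s hs hs' β hβ E hE => ?_⟩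
  have := hβ.prob
  have hR := (hb.2.2.2.2 E hE).1
  have t := hT s hs (hs'.trans_le (min_le_left _ _)) β E hE
  have tt := PA.tree_tight β t
  have tight : PA.Tight D s β E := by
    rcases hβ with rfl | ⟨h, rfl⟩
    · exact PA.tight_clean hD hb s hE
    · exact PA.tight_unif h (hb.1.trans_le hR.mim)
  have L := PA.loclaw_of hD hb.1 hR β
    (hZ s hs (hs'.trans_le (min_le_right _ _)) β E hE tight) tt
  have U : PA.UIG D s β E := by
    rcases hβ with rfl | ⟨h, rfl⟩
    · exact PA.uig_clean hD hb s hE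
    · exact PA.uig_unif h L tt
  exact ⟨L, PA.uieig_of β U, PA.trlaw_of β t L U⟩

end Crest.Agent.R166
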