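import Crest.Agent.R166.T3a

/-! # Almost sure boundary values (abstract) -/

set_option autoImplicit false
set_option linter.unusedVariables false
set_option linter.unusedSectionVars false

open MeasureTheory ProbabilityTheory Filter Topology Matrix
open scoped ENNReal BoundedContinuousFunction

namespace Crest.Agent.R166

theorem T3c_fatou {X : Type} [MeasurableSpace X] (μ : Measure X) {φ : ℕ → X → ℝ}
    (hφ : ∀ j, Integrable (φ j) μ) (h0 : ∀ j x, 0 ≤ φ j x) {b : ℕ → ℝ} {b' : ℝ}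
    (hb : Tendsto b atTop (𝓝 b')) (hle : ∀ᶠ j in atTop, ∫ x, φ j x ∂μ ≤ b j) :
    ∫⁻ x, liminf (fun j => ENNReal.ofReal (φ j x)) atTop ∂μ ≤ ENNReal.ofReal b' := by
  refine (lintegral_liminf_le' fun j => (hφ j).aemeasurable.ennreal_ofReal).trans ?_
  rw [← (ENNReal.tendsto_ofReal hb).liminf_eq]
  refine liminf_le_liminf ?_
  filter_upwards [hle] with j hj
  rw [← ofReal_integral_eq_lintegral_ofReal (hφ j) (Eventually.of_forall (h0 j))]
  exact ENNReal.ofReal_le_ofReal hj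

theorem T3c_fatou' {X : Type} [MeasurableSpace X] (μ : Measure X) {φ : ℕ → X → ℝ} {φ' : X → ℝ}
    (hφ : ∀ j, Integrable (φ j) μ) (h0 : ∀ j x, 0 ≤ φ j x)
    (hlim : ∀ᵐ x ∂μ, Tendsto (fun j => φ j x) atTop (𝓝 (φ' x))) {b : ℕ → ℝ} {b' : ℝ}
    (hb : Tendsto b atTop (𝓝 b')) (hle : ∀ᶠ j in atTop, ∫ x, φ j x ∂μ ≤ b j) :
    Integrable φ' μ ∧ ∫ x, φ' x ∂μ ≤ b' := by
  have h1 := T3c_fatou μ hφ h0 hb hle
  have h2 : ∫⁻ x, liminf (fun j => ENNReal.ofReal (φ j x)) atTop ∂μ =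
      ∫⁻ x, ENNReal.ofReal (φ' x) ∂μ :=
    lintegral_congr_ae (hlim.mono fun x hx => (ENNReal.tendsto_ofReal hx).liminf_eq)
  rw [h2] at h1
  have hm : AEStronglyMeasurable φ' μ :=
    aestronglyMeasurable_of_tendsto_ae atTop (fun j => (hφ j).aestronglyMeasurable) hlim
  have hn : 0 ≤ᵐ[μ] φ' := hlim.mono fun x hx => ge_of_tendsto' hx fun j => h0 j x
  have hb' : 0 ≤ b' := ge_of_tendsto hb (hle.mono fun j hj =>
    (integral_nonneg (h0 j)).trans hj)
  have hi : Integrable φ' μ :=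
    ⟨hm, (hasFiniteIntegral_iff_ofReal hn).2 (h1.trans_lt ENNReal.ofReal_lt_top)⟩
  refine ⟨hi, ?_⟩
  rw [← ofReal_integral_eq_lintegral_ofReal hi hn] at h1
  exact (ENNReal.ofReal_le_ofReal_iff hb').1 h1

/-- Summable `L¹` increments give a.e. convergence (`lintegral_tsum`, `ae_lt_top`, `cauchySeq_of_summable_dist`);
Fatou (`lintegral_liminf_le`) for `bb^8`: at a point of convergence with `Im limit = 0` one has
`bb (g j x) → ∞`, otherwise `bb (g j x) → bb limit`. -/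
theorem ae_limit {X : Type} [MeasurableSpace X] (μ : Measure X) [IsProbabilityMeasure μ]
    {g : ℕ → X → ℂ} (hg : ∀ j, Measurable (g j)) (hi : ∀ j x, 0 < (g j x).im)
    (hint : ∀ j, Integrable (g j) μ) (hb : ∀ j, Integrable (fun x => bb (g j x) ^ 8) μ)
    {C : ℝ} {j₀ : ℕ} (h1 : ∀ j, j₀ ≤ j → ∫ x, ‖g j x - g (j + 1) x‖ ∂μ ≤ C * (2⁻¹ : ℝ) ^ j)
    (h2 : ∀ j, j₀ ≤ j → ∫ x, bb (g j x) ^ 8 ∂μ ≤ C) :
    (∀ᵐ x ∂μ, Tendsto (fun j => g j x) atTop (𝓝 (limUnder atTop fun j => g j x)) ∧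
      0 < (limUnder atTop fun j => g j x).im) ∧
    Integrable (fun x => bb (limUnder atTop fun j => g j x) ^ 8) μ ∧
    ∫ x, bb (limUnder atTop fun j => g j x) ^ 8 ∂μ ≤ C := by
  have hd : ∀ j, Integrable (fun x => ‖g j x - g (j + 1) x‖) μ := fun j =>
    ((hint j).sub (hint (j + 1))).norm
  have hs : Summable fun j => ∫ x, ‖g j x - g (j + 1) x‖ ∂μ := by
    refine Summable.of_norm_bounded_eventually_nat
      ((summable_geometric_of_lt_one (r := 2⁻¹) (by norm_num) (by norm_num)).mul_left C) ?_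
    filter_upwards [eventually_ge_atTop j₀] with j hj
    rw [Real.norm_of_nonneg (integral_nonneg fun x => norm_nonneg _)]
    exact h1 j hj
  have hfin : ∫⁻ x, ∑' j, ENNReal.ofReal ‖g j x - g (j + 1) x‖ ∂μ ≠ ∞ := by
    rw [lintegral_tsum fun j => (hd j).aemeasurable.ennreal_ofReal]
    simp_rw [← ofReal_integral_eq_lintegral_ofReal (hd _)
      (Eventually.of_forall fun x => norm_nonneg _)]
    exact hs.tsum_ofReal_ne_top
  have hconv : ∀ᵐ x ∂μ, Tendsto (fun j => g j x) atTop (𝓝 (limUnder atTop fun j => g j x)) := by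
    filter_upwards [ae_lt_top' (AEMeasurable.tsum fun j =>
      (hd j).aemeasurable.ennreal_ofReal) hfin] with x hx
    have h3 := ENNReal.summable_toReal hx.ne
    simp only [ENNReal.toReal_ofReal (norm_nonneg _)] at h3
    simp only [← dist_eq_norm] at h3
    exact (cauchySeq_of_summable_dist h3).tendsto_limUnder
  have h0 : ∀ j x, 0 ≤ bb (g j x) ^ 8 := fun j x => by positivity
  have hle : ∀ᶠ j in atTop, ∫ x, bb (g j x) ^ 8 ∂μ ≤ C := (eventually_ge_atTop j₀).mono h2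
  have hF := T3c_fatou μ hb h0 tendsto_const_nhds hle
  have hpos : ∀ᵐ x ∂μ, Tendsto (fun j => g j x) atTop (𝓝 (limUnder atTop fun j => g j x)) ∧
      0 < (limUnder atTop fun j => g j x).im := by
    filter_upwards [hconv, ae_lt_top (Measurable.liminf fun j =>
      ((measurable_bb.comp (hg j)).pow_const 8).ennreal_ofReal) (hF.trans_lt ENNReal.ofReal_lt_top).ne] with x hx hx'
    refine ⟨hx, ?_⟩
    have him := (Complex.continuous_im.tendsto _).comp hx
    refine (ge_of_tendsto' him fun j => (hi j x).le).lt_of_ne fun h => hx'.ne ?_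
    rw [← h] at him
    have h3 : Tendsto (fun j => ((g j x).im)⁻¹) atTop atTop :=
      tendsto_inv_nhdsGT_zero.comp (tendsto_nhdsWithin_iff.2 ⟨him, Eventually.of_forall fun j => hi j x⟩)
    have h4 : Tendsto (fun j => bb (g j x)) atTop atTop := by
      refine tendsto_atTop_mono (fun j => ?_) h3
      have := hi j x
      rw [bb, inv_eq_one_div]
      gcongr
      exact le_add_of_nonneg_right (by positivity)
    exact (ENNReal.tendsto_ofReal_atTop.comp
      ((tendsto_pow_atTop (n := 8) (by norm_num)).comp h4)).liminf_eq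
  refine ⟨hpos, T3c_fatou' μ hb h0 (hpos.mono fun x hx => ?_) tendsto_const_nhds hle⟩
  exact ((tendsto_const_nhds.add (hx.1.norm.pow 2)).div
    ((Complex.continuous_im.tendsto _).comp hx.1) hx.2.ne').pow 8

/-- Fatou for `L¹` distances -/
theorem integral_norm_sub_le_of_tendsto {X : Type} [MeasurableSpace X] (μ : Measure X)
    {f : X → ℂ} {h : ℕ → X → ℂ} {h' : X → ℂ} (hf : Integrable f μ) (hh : ∀ j, Integrable (h j) μ)
    (hlim : ∀ᵐ x ∂μ, Tendsto (fun j => h j x) atTop (𝓝 (h' x))) {b : ℕ → ℝ} {b' : ℝ}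
    (hb : Tendsto b atTop (𝓝 b')) (hle : ∀ᶠ j in atTop, ∫ x, ‖f x - h j x‖ ∂μ ≤ b j) :
    Integrable h' μ ∧ ∫ x, ‖f x - h' x‖ ∂μ ≤ b' := by
  obtain ⟨h1, h2⟩ := T3c_fatou' μ (φ := fun j x => ‖f x - h j x‖) (φ' := fun x => ‖f x - h' x‖)
    (fun j => (hf.sub (hh j)).norm) (fun _ _ => norm_nonneg _)
    (hlim.mono fun x hx => (tendsto_const_nhds.sub hx).norm) hb hle
  refine ⟨?_, h2⟩
  have hm : AEStronglyMeasurable h' μ :=
    aestronglyMeasurable_of_tendsto_ae atTop (fun j => (hh j).aestronglyMeasurable) hlim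
  have h3 : Integrable (fun x => f x - h' x) μ :=
    (integrable_norm_iff (hf.aestronglyMeasurable.sub hm)).1 h1
  refine (hf.sub h3).congr (Eventually.of_forall fun x => ?_)
  simp

end Crest.Agent.R166
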