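import Crest.Agent.R166.T3b
import Crest.Agent.R166.T3c

/-! # The tree at real energy -/

set_option autoImplicit false
set_option linter.unusedVariables false
set_option linter.unusedSectionVars false

open MeasureTheory ProbabilityTheory Filter Topology Matrix
open scoped ENNReal BoundedContinuousFunction

namespace Crest.Agent.R166

/-- averaged Green function of the tree -/
noncomputable def SF (D : ℕ) (s : ℝ) (β : Measure J) (z : ℂ) : ℂ :=
  ∫ e, gE (mT s z e.1) (mT s z e.2) 0 0 ∂((envLaw D β).prod (envLaw D β))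

theorem T3_zj_succ (E : ℝ) (j : ℕ) : ‖zj E j - zj E (j + 1)‖ ≤ (2⁻¹ : ℝ) ^ j := by
  have : zj E j - zj E (j + 1) = (((2⁻¹ : ℝ) ^ (j + 1) : ℝ) : ℂ) * Complex.I := by
    unfold zj
    push_cast
    ring
  rw [this, norm_mul, Complex.norm_I, mul_one, Complex.norm_real, Real.norm_of_nonneg (by positivity)]
  exact pow_le_pow_of_le_one (by norm_num) (by norm_num) (Nat.le_succ j)

theorem T3_zj_real (E E' : ℝ) (j : ℕ) : ‖zj E j - E'‖ ≤ |E - E'| + (2⁻¹ : ℝ) ^ j := by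
  have : zj E j - E' = ((E - E' : ℝ) : ℂ) + (((2⁻¹ : ℝ) ^ j : ℝ) : ℂ) * Complex.I := by
    unfold zj
    push_cast
    ring
  rw [this]
  refine (norm_add_le _ _).trans (le_of_eq ?_)
  rw [norm_mul, Complex.norm_I, mul_one, Complex.norm_real, Complex.norm_real, Real.norm_eq_abs,
    Real.norm_of_nonneg (by positivity)]

theorem T3_tendsto {m m' : ℂ} (hm : 0 < m.im) (hm' : 0 < m'.im) {a b : ℕ → ℂ}
    (ha : Tendsto a atTop (𝓝 m)) (hb : Tendsto b atTop (𝓝 m')) :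
    Tendsto (fun j => gE (a j) (b j) 0 0) atTop (𝓝 (gE m m' 0 0)) :=
  (continuousAt_gE00 hm hm').tendsto.comp (f := fun j => (a j, b j)) (ha.prodMk_nhds hb)

theorem T3_meas {D : ℕ} (s : ℝ) {z : ℂ} (hz : 0 < z.im) :
    Measurable fun e : Env D × Env D => gE (mT s z e.1) (mT s z e.2) 0 0 :=
  measurable_gE00.comp (f := fun e : Env D × Env D => (mT s z e.1, mT s z e.2))
    (((measurable_mT hz).comp measurable_fst).prodMk ((measurable_mT hz).comp measurable_snd))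

theorem T3_int {D : ℕ} (s : ℝ) (β : Measure J) [IsProbabilityMeasure β] {z : ℂ} (hz : 0 < z.im) :
    Integrable (fun e : Env D × Env D => gE (mT s z e.1) (mT s z e.2) 0 0)
      ((envLaw D β).prod (envLaw D β)) := by
  refine integrable_of_ae_bdd _ (T3_meas s hz)
    (B := 1 / (z.im / (|s| + ‖z‖ + D / z.im) ^ 2)) (ae_of_all _ fun e => ?_)
  refine (norm_gE00_le (mT_im_pos hz _) (mT_im_pos hz _)).trans ?_
  have h0 : 0 < ‖z‖ := hz.trans_le ((le_abs_self _).trans (Complex.abs_im_le_norm z))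
  exact one_div_le_one_div_of_le (by positivity) (mT_im_ge hz _)

theorem T3_SF_le {D : ℕ} (s : ℝ) (β : Measure J) [IsProbabilityMeasure β] {z : ℂ} (hz : 0 < z.im) :
    ‖SF D s β z‖ ≤ ∫ e, bb (mT s z e) ^ 8 ∂(envLaw D β) := by
  have h1 : Integrable (fun e : Env D × Env D => bb (mT s z e.2) ^ 8)
      ((envLaw D β).prod (envLaw D β)) :=
    (measurePreserving_snd (μ := envLaw D β) (ν := envLaw D β)).integrable_comp_of_integrable
      (integrable_bb_mT s β hz 8)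
  refine (norm_integral_le_of_norm_le h1 (ae_of_all _ fun e => ?_)).trans ?_
  · exact (norm_gE00_le_bb (mT_im_pos hz _) (mT_im_pos hz _)).trans
      (le_self_pow₀ (one_le_bb (mT_im_pos hz _)) (by norm_num))
  · rw [integral_fun_snd (fun e => bb (mT s z e) ^ 8), probReal_univ, one_smul]

/-- `ae_limit` with `g j = mT s (zj E' j)` (`|zj E' j - zj E' (j+1)| ≤ 2^{-j}`); a.e. statements on the product by
`Measure.quasiMeasurePreserving_fst/snd`; `gE00` converges a.e. (`continuousAt_gE00`);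
`integral_norm_sub_le_of_tendsto` with `b j' = C |zj E j - zj E' j'| → C |zj E j - E'| ≤ C (|E - E'| + 2^{-j})`
gives integrability and the rate; `ρ > 0` from `gE00_im_pos` (`integral_pos_iff_support_of_nonneg_ae`);
`|SF| ≤ ∫ bb ≤ ∫ bb^8`. -/
theorem tree_limit {D : ℕ} (hD : 2 ≤ D) {κ : ℝ} (hκ : 0 < κ) : ∃ (s₀ C r₀ : ℝ) (j₀ : ℕ), 0 < s₀ ∧
    0 < r₀ ∧ ∀ s : ℝ, 0 ≤ s → s < s₀ → ∀ (β : Measure J) [IsProbabilityMeasure β] (E : ℝ),
      E ^ 2 ≤ 4 * D - κ → TreeOK D s β E ∧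
      Integrable (fun e => bb (m0 s E e) ^ 8) (envLaw D β) ∧
      ∫ e, bb (m0 s E e) ^ 8 ∂(envLaw D β) ≤ C ∧ ∀ j, j₀ ≤ j →
        ∫ e, bb (mT s (zj E j) e) ^ 8 ∂(envLaw D β) ≤ C ∧ ‖SF D s β (zj E j)‖ ≤ C ∧
        ∀ E' : ℝ, E' ^ 2 ≤ 4 * D - κ → |E - E'| ≤ r₀ →
          |(SF D s β (zj E j)).im - Real.pi * rho D s β E'| ≤ C * (|E - E'| + (2⁻¹ : ℝ) ^ j) := by
  obtain ⟨s₀, C, r₀, j₀, hs₀, hC, hr₀, H⟩ := tree_L1 hD hκ
  refine ⟨s₀, C, r₀, j₀, hs₀, hr₀, fun s hs hs' β _ E hE => ?_⟩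
  have hlim : ∀ E' : ℝ, E' ^ 2 ≤ 4 * D - κ →
      (∀ᵐ e ∂(envLaw D β), Tendsto (fun j => mT s (zj E' j) e) atTop (𝓝 (m0 s E' e)) ∧
        0 < (m0 s E' e).im) ∧ Integrable (fun e => bb (m0 s E' e) ^ 8) (envLaw D β) ∧
      ∫ e, bb (m0 s E' e) ^ 8 ∂(envLaw D β) ≤ C := fun E' hE' =>
    ae_limit (envLaw D β) (g := fun j => mT s (zj E' j)) (fun j => measurable_mT (zj_im_pos E' j))
      (fun j e => mT_im_pos (zj_im_pos E' j) e)
      (fun j => integrable_of_ae_bdd _ (measurable_mT (zj_im_pos E' j))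
        (ae_of_all _ (norm_mT_le (zj_im_pos E' j))))
      (fun j => integrable_bb_mT s β (zj_im_pos E' j) 8) (j₀ := j₀)
      (fun j hj => ((H s hs hs' β E' hE' j hj).2 E' hE' (by simpa using hr₀.le) (j + 1)
        (by omega)).1.trans (mul_le_mul_of_nonneg_left (T3_zj_succ E' j) hC.le))
      fun j hj => (H s hs hs' β E' hE' j hj).1
  have hprod : ∀ E' : ℝ, E' ^ 2 ≤ 4 * D - κ → ∀ᵐ e ∂((envLaw D β).prod (envLaw D β)),
      (Tendsto (fun j => mT s (zj E' j) e.1) atTop (𝓝 (m0 s E' e.1)) ∧ 0 < (m0 s E' e.1).im) ∧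
      (Tendsto (fun j => mT s (zj E' j) e.2) atTop (𝓝 (m0 s E' e.2)) ∧ 0 < (m0 s E' e.2).im) :=
    fun E' hE' => (Measure.quasiMeasurePreserving_fst.ae (hlim E' hE').1).and
      (Measure.quasiMeasurePreserving_snd.ae (hlim E' hE').1)
  have hrate : ∀ j, j₀ ≤ j → ∀ E' : ℝ, E' ^ 2 ≤ 4 * D - κ → |E - E'| ≤ r₀ →
      Integrable (fun e : Env D × Env D => gE (m0 s E' e.1) (m0 s E' e.2) 0 0)
        ((envLaw D β).prod (envLaw D β)) ∧
      ∫ e, ‖gE (mT s (zj E j) e.1) (mT s (zj E j) e.2) 0 0 - gE (m0 s E' e.1) (m0 s E' e.2) 0 0‖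
        ∂((envLaw D β).prod (envLaw D β)) ≤ C * ‖zj E j - E'‖ := fun j hj E' hE' hr => by
    have a1 : ∀ᵐ e ∂((envLaw D β).prod (envLaw D β)), Tendsto
        (fun j' => gE (mT s (zj E' j') e.1) (mT s (zj E' j') e.2) 0 0) atTop
        (𝓝 (gE (m0 s E' e.1) (m0 s E' e.2) 0 0)) := by
      filter_upwards [hprod E' hE'] with e he
      exact T3_tendsto he.1.2 he.2.2 he.1.1 he.2.1
    have a2 : ∀ᶠ j' in atTop, ∫ e, ‖gE (mT s (zj E j) e.1) (mT s (zj E j) e.2) 0 0 -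
        gE (mT s (zj E' j') e.1) (mT s (zj E' j') e.2) 0 0‖ ∂((envLaw D β).prod (envLaw D β)) ≤
        C * ‖zj E j - zj E' j'‖ := by
      filter_upwards [eventually_ge_atTop j₀] with j' hj'
      exact ((H s hs hs' β E hE j hj).2 E' hE' hr j' hj').2
    have a3 : Tendsto (fun j' => C * ‖zj E j - zj E' j'‖) atTop (𝓝 (C * ‖zj E j - E'‖)) :=
      ((tendsto_const_nhds.sub (tendsto_zj E')).norm).const_mul C
    have a4 : ∀ j', Integrable ((fun j' (e : Env D × Env D) =>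
        gE (mT s (zj E' j') e.1) (mT s (zj E' j') e.2) 0 0) j') ((envLaw D β).prod (envLaw D β)) := by
      intro j'
      beta_reduce
      exact T3_int s β (z := zj E' j') (zj_im_pos E' j')
    exact integral_norm_sub_le_of_tendsto _ (T3_int s β (zj_im_pos E j)) a4 a1 a3 a2
  have hI := (hrate j₀ le_rfl E hE (by simpa using hr₀.le)).1
  have hI' : Integrable (fun e : Env D × Env D => (gE (m0 s E e.1) (m0 s E e.2) 0 0).im)
      ((envLaw D β).prod (envLaw D β)) := hI.im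
  refine ⟨⟨(hlim E hE).1, hI', div_pos ?_ Real.pi_pos⟩, (hlim E hE).2.1, (hlim E hE).2.2,
    fun j hj => ⟨(H s hs hs' β E hE j hj).1,
      (T3_SF_le s β (zj_im_pos E j)).trans (H s hs hs' β E hE j hj).1, fun E' hE' hr => ?_⟩⟩
  · have hpos : ∀ᵐ e ∂((envLaw D β).prod (envLaw D β)),
        0 < (gE (m0 s E e.1) (m0 s E e.2) 0 0).im :=
      (hprod E hE).mono fun e he => gE00_im_pos he.1.2 he.2.2
    rw [integral_pos_iff_support_of_nonneg_ae (hpos.mono fun e he => he.le) hI', pos_iff_ne_zero]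
    intro h0
    have h1 : ∀ᵐ e ∂((envLaw D β).prod (envLaw D β)), False := by
      filter_upwards [hpos, measure_eq_zero_iff_ae_notMem.1 h0] with e he he'
      exact he' he.ne'
    exact (ae_neBot.2 (IsProbabilityMeasure.ne_zero _)).ne (eventually_false_iff_eq_bot.1 h1)
  · obtain ⟨h1, h2⟩ := hrate j hj E' hE' hr
    have h3 : Real.pi * rho D s β E' = (∫ e, gE (m0 s E' e.1) (m0 s E' e.2) 0 0
        ∂((envLaw D β).prod (envLaw D β))).im := by
      unfold rho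
      rw [mul_div_cancel₀ _ Real.pi_ne_zero]
      exact integral_im h1
    rw [h3, ← Complex.sub_im, SF, ← integral_sub (T3_int s β (zj_im_pos E j)) h1]
    exact (Complex.abs_im_le_norm _).trans ((norm_integral_le_integral_norm _).trans
      (h2.trans (mul_le_mul_of_nonneg_left (T3_zj_real E E' j) hC.le)))

theorem tree_ok {D : ℕ} (hD : 2 ≤ D) {κ : ℝ} (hκ : 0 < κ) : ∃ s₀ : ℝ, 0 < s₀ ∧
    ∀ s : ℝ, 0 ≤ s → s < s₀ → ∀ (β : Measure J) [IsProbabilityMeasure β] (E : ℝ),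
      E ^ 2 ≤ 4 * D - κ → TreeOK D s β E := by
  obtain ⟨s₀, C, r₀, j₀, h1, h2, h⟩ := tree_limit hD hκ
  exact ⟨s₀, h1, fun s hs hs' β _ E hE => (h s hs hs' β E hE).1⟩

end Crest.Agent.R166
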