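import Crest.Agent.R166.TW

/-! # Averaged moments = `treeMoment` -/

set_option autoImplicit false
set_option linter.unusedVariables false
set_option linter.unusedSectionVars false

open MeasureTheory ProbabilityTheory Filter Topology Matrix
open scoped ENNReal BoundedContinuousFunction

namespace Crest.Agent.R166

open Crest.ProbabilityR.RandomMatrix

theorem integral_unifJ_pow (m : ℕ) : ∫ v : J, (v : ℝ) ^ m ∂unifJ = uniformMoment m := by
  unfold unifJ uniformMoment
  rw [integral_smul_nnreal_measure,
    integral_subtype_comap measurableSet_Icc (fun x : ℝ => x ^ m), integral_Icc_eq_integral_Ioc,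
    ← intervalIntegral.integral_of_le (by norm_num), integral_pow, NNReal.smul_def, smul_eq_mul]
  have : ((m : ℝ) + 1) ≠ 0 := by positivity
  split_ifs with h
  · rw [h.add_one.neg_one_pow]; push_cast; field_simp; ring
  · rw [(Nat.not_even_iff_odd.1 h).add_one.neg_one_pow]; simp

/-- independence of the coordinates (`iIndepFun_infinitePi`, or `integral_infinitePi_of_piFinset`) -/
theorem integral_PW_prod {D : ℕ} (β : Measure J) [IsProbabilityMeasure β] (S : Finset (Wd (D + 1)))
    {f : Wd (D + 1) → J → ℝ} (hf : ∀ v, Continuous (f v)) :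
    ∫ ω, ∏ v ∈ S, f v (ω v) ∂(PW D β) = ∏ v ∈ S, ∫ t, f v t ∂β := by
  have h := integral_restrict_infinitePi (μ := fun _ : Wd (D + 1) => β) (s := S)
    (f := fun y : (∀ _ : S, J) => ∏ v : S, f v (y v))
    (Continuous.aestronglyMeasurable (continuous_finset_prod _ fun v _ =>
      (hf v).comp (continuous_apply v)))
  rw [integral_fintype_prod_eq_prod (fun (v : S) (t : J) => f v t),
    Finset.prod_coe_sort S (fun v => ∫ t, f v t ∂β)] at h
  rw [← h]
  unfold PW
  refine integral_congr_ae (ae_of_all _ fun ω => ?_)
  exact (Finset.prod_coe_sort S (fun v => f v (ω v))).symm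

/-- the moves from a reduced word are the right multiplications by the generators -/
theorem sum_treeMoves {d : ℕ} {l : List (Fin d)} (hl : l.IsChain (· ≠ ·)) (φ : List (Fin d) → ℝ) :
    ((treeMoves d l).map φ).sum = ∑ i, φ (rmul l i) := by
  have h1 : ∀ (L : List (Fin d)) (q : Fin d → Bool) (f : Fin d → ℝ),
      ((L.filter q).map f).sum = (L.map fun b => if q b then f b else 0).sum := by
    intro L q f
    induction L with
    | nil => rfl
    | cons a L ih => by_cases h : q a <;> simp [h, ih]
  unfold treeMoves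
  rw [List.map_append, List.sum_append, List.map_map, h1, ← Fin.sum_univ_def]
  cases l with
  | nil => simp [rmul]
  | cons a t =>
    have h2 : φ t = ∑ i, if a = i then φ t else 0 := by simp
    simp only [List.head?_cons, reduceCtorEq, if_false, List.tail_cons, List.map_cons, List.map_nil,
      List.sum_cons, List.sum_nil, add_zero]
    rw [h2, ← Finset.sum_add_distrib]
    refine Finset.sum_congr rfl fun i _ => ?_
    by_cases h : a = i <;> simp [rmul, h]

theorem T4a_moves_chain {d : ℕ} {l u : List (Fin d)} (hl : l.IsChain (· ≠ ·)) (hu : u ∈ treeMoves d l) :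
    u.IsChain (· ≠ ·) ∧ u ≠ l := by
  unfold treeMoves at hu
  rcases List.mem_append.1 hu with hu | hu
  · obtain ⟨b, hb, rfl⟩ := List.mem_map.1 hu
    have hb' : l.head? ≠ some b := by simpa using (List.mem_filter.1 hb).2
    have := rmul_chain hl b
    rw [rmul, if_neg hb'] at this
    exact ⟨this, List.cons_ne_self _ _⟩
  · cases l with
    | nil => simp at hu
    | cons a t =>
      obtain rfl : u = t := by simpa using hu
      exact ⟨hl.tail, (List.cons_ne_self _ _).symm⟩

theorem lazyWalks_chain {d k : ℕ} {w : List (List (Fin d))} (hw : w ∈ lazyWalks d k) :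
    w ≠ [] ∧ ∀ v ∈ w, v.IsChain (· ≠ ·) := by
  induction k generalizing w with
  | zero =>
    obtain rfl : w = [[]] := by simpa [lazyWalks] using hw
    simp
  | succ k ih =>
    obtain ⟨w', hw', hw⟩ := List.mem_flatMap.1 hw
    obtain ⟨u, hu, rfl⟩ := List.mem_map.1 hw
    obtain ⟨h1, h2⟩ := ih hw'
    refine ⟨List.cons_ne_nil _ _, ?_⟩
    have hh : (w'.headD []).IsChain (· ≠ ·) := by
      cases w' with
      | nil => exact (h1 rfl).elim
      | cons a t => exact h2 a List.mem_cons_self
    intro v hv
    rcases List.mem_cons.1 hv with rfl | hv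
    · rcases List.mem_cons.1 hu with rfl | hu
      · exact hh
      · exact (T4a_moves_chain hh hu).1
    · exact h2 v hv

theorem T4a_dedup_prod {d : ℕ} (w : List (List (Fin d))) (f : List (Fin d) → ℝ) :
    (w.dedup.map f).prod = ∏ v ∈ w.toFinset, f v := by
  rw [← List.prod_toFinset f (List.nodup_dedup w)]
  congr 1
  ext v
  simp

theorem T4a_stay_cons {d : ℕ} (u h : List (Fin d)) (t : List (List (Fin d))) (v : List (Fin d)) :
    stayCount (u :: h :: t) v = stayCount (h :: t) v + if u = v ∧ h = v then 1 else 0 := by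
  simp [stayCount, List.countP_cons]

theorem T4a_stay_zero {d : ℕ} {w : List (List (Fin d))} {v : List (Fin d)} (hv : v ∉ w) :
    stayCount w v = 0 := by
  unfold stayCount
  rw [List.countP_eq_zero]
  rintro ⟨a, b⟩ hab h
  have h1 : a = v := (of_decide_eq_true h).1
  exact hv (h1 ▸ (List.of_mem_zip hab).1)

theorem T4a_wt_cons {d : ℕ} (p : List (Fin d) → ℝ) (u h : List (Fin d)) (t : List (List (Fin d))) :
    ∏ v ∈ (u :: h :: t).toFinset, p v ^ stayCount (u :: h :: t) v =
      (∏ v ∈ (h :: t).toFinset, p v ^ stayCount (h :: t) v) * if u = h then p u else 1 := by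
  rw [List.toFinset_cons]
  simp only [T4a_stay_cons]
  split_ifs with huh
  · subst huh
    have hu : u ∈ (u :: t).toFinset := by simp
    rw [Finset.insert_eq_of_mem hu]
    simp only [pow_add, and_self, Finset.prod_mul_distrib, pow_ite, pow_one, pow_zero]
    rw [Finset.prod_ite_eq, if_pos hu]
  · have : ∀ v, ¬ (u = v ∧ h = v) := fun v hv => huh (hv.1.trans hv.2.symm)
    simp only [this, if_false, add_zero, mul_one]
    refine Finset.prod_insert_of_eq_one_if_notMem fun hu => ?_
    rw [T4a_stay_zero (by simpa using hu), pow_zero]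

theorem T4a_walks {d : ℕ} (p : List (Fin d) → ℝ) (k : ℕ) (φ : List (Fin d) → ℝ) :
    ((lazyWalks d k).map fun w => (∏ v ∈ w.toFinset, p v ^ stayCount w v) * φ (w.headD [])).sum =
      (fun (ψ : List (Fin d) → ℝ) l => p l * ψ l + ((treeMoves d l).map ψ).sum)^[k] φ [] := by
  induction k generalizing φ with
  | zero => simp [lazyWalks, stayCount]
  | succ k ih =>
    rw [Function.iterate_succ_apply, ← ih, lazyWalks, List.map_flatMap, List.flatMap_def,
      List.sum_flatten, List.map_map]
    congr 1
    refine List.map_congr_left fun w hw => ?_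
    obtain ⟨h1, h2⟩ := lazyWalks_chain hw
    cases w with
    | nil => exact (h1 rfl).elim
    | cons h t =>
      simp only [Function.comp, List.headD_cons, List.map_cons, List.sum_cons, List.map_map,
        T4a_wt_cons, if_true]
      rw [mul_add, ← List.sum_map_mul_left, mul_assoc]
      congr 2
      refine List.map_congr_left fun u hu => ?_
      simp only [Function.comp, List.headD_cons, T4a_wt_cons]
      rw [if_neg (T4a_moves_chain (h2 h List.mem_cons_self) hu).2, mul_one]

/-- Walk expansion.  For `p : List (Fin d) → ℝ` let `wt w = (w.dedup.map fun v => p v ^ stayCount w v).prod`;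
`wt (u :: w) = wt w * (if u = head w then p u else 1)` for `w ≠ []` (a move changes the length, so it is not a
stay), hence `Σ_{w ∈ lazyWalks d k} wt w * φ (head w) = (top^[k] φ) []` with
`top φ l = p l * φ l + Σ_{u ∈ treeMoves l} φ u` (induction on `k` generalizing `φ`, `Function.iterate_succ_apply`). -/
theorem momW_eq_walks {D : ℕ} (s : ℝ) (ω : OmW D) (k : ℕ) (p : List (Fin (D + 1)) → ℝ)
    (hp : ∀ w : Wd (D + 1), p w.1 = s * (ω w : ℝ)) :
    momW s ω k = (((lazyWalks (D + 1) k).filter fun w => w.headD [] = []).map fun w =>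
      (w.dedup.map fun v => p v ^ stayCount w v).prod).sum := by
  have h1 : ∀ (n : ℕ) (w : Wd (D + 1)),
      (opW s ω)^[n] (fun w => if w = 1 then 1 else 0) w =
        (fun (ψ : List (Fin (D + 1)) → ℝ) l => p l * ψ l + ((treeMoves (D + 1) l).map ψ).sum)^[n]
          (fun l => if l = [] then 1 else 0) w.1 := by
    intro n
    induction n with
    | zero =>
      intro w
      have : w = 1 ↔ w.1 = [] := ⟨fun h => h ▸ rfl, fun h => Subtype.ext h⟩
      simp [this]
    | succ n ih =>
      intro w
      rw [Function.iterate_succ_apply', Function.iterate_succ_apply', sum_treeMoves w.2, hp, opW, ih]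
      congr 1
      exact Finset.sum_congr rfl fun i _ => ih _
  unfold momW
  rw [h1, Wd.one_val, ← T4a_walks]
  generalize lazyWalks (D + 1) k = L
  induction L with
  | nil => rfl
  | cons w L ih =>
    rw [List.map_cons, List.sum_cons, ih, List.filter_cons]
    by_cases h : w.headD [] = []
    · rw [if_pos h, if_pos (by simpa using h), List.map_cons, List.sum_cons, T4a_dedup_prod, mul_one]
    · rw [if_neg h, if_neg (by simpa using h), mul_zero, zero_add]

theorem integral_momW (D : ℕ) (s : ℝ) (k : ℕ) :
    ∫ ω, momW s ω k ∂(PW D unifJ) = treeMoment (D + 1) s k := by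
  classical
  let p : OmW D → List (Fin (D + 1)) → ℝ := fun ω l =>
    if h : l.IsChain (· ≠ ·) then s * (ω ⟨l, h⟩ : ℝ) else 0
  have hp : ∀ ω (w : Wd (D + 1)), p ω w.1 = s * (ω w : ℝ) := fun ω w => dif_pos w.2
  simp only [fun ω => momW_eq_walks s ω k (p ω) (hp ω), treeMoment, T4a_dedup_prod]
  have hL : ∀ w ∈ (lazyWalks (D + 1) k).filter fun w => w.headD [] = [],
      ∀ v ∈ w, v.IsChain (· ≠ ·) := fun w hw => (lazyWalks_chain (List.mem_filter.1 hw).1).2
  generalize ((lazyWalks (D + 1) k).filter fun w => w.headD [] = []) = L at hL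
  have key : ∀ w : List (List (Fin (D + 1))), (∀ v ∈ w, v.IsChain (· ≠ ·)) →
      Continuous (fun ω => ∏ v ∈ w.toFinset, p ω v ^ stayCount w v) ∧
      ∫ ω, ∏ v ∈ w.toFinset, p ω v ^ stayCount w v ∂(PW D unifJ) =
        ∏ v ∈ w.toFinset, s ^ stayCount w v * uniformMoment (stayCount w v) := by
    intro w hw
    let S : Finset (Wd (D + 1)) :=
      (w.toFinset.subtype (List.IsChain (· ≠ ·)) : Finset {l : List (Fin (D + 1)) // l.IsChain (· ≠ ·)})
    have hS : ∀ f : List (Fin (D + 1)) → ℝ, ∏ v ∈ w.toFinset, f v = ∏ v ∈ S, f v.1 := fun f =>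
      (Finset.prod_subtype_of_mem f fun x hx => hw x (List.mem_toFinset.1 hx)).symm
    simp only [hS, hp]
    refine ⟨continuous_finset_prod _ fun v _ => by fun_prop, ?_⟩
    rw [integral_PW_prod unifJ S (f := fun v t => (s * (t : ℝ)) ^ stayCount w v.1)
      (fun v => by fun_prop)]
    refine Finset.prod_congr rfl fun v _ => ?_
    simp only [mul_pow]
    rw [integral_const_mul, integral_unifJ_pow]
  suffices h : Continuous (fun ω => (L.map fun w => ∏ v ∈ w.toFinset, p ω v ^ stayCount w v).sum) ∧
      ∫ ω, (L.map fun w => ∏ v ∈ w.toFinset, p ω v ^ stayCount w v).sum ∂(PW D unifJ) =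
        (L.map fun w => ∏ v ∈ w.toFinset, s ^ stayCount w v * uniformMoment (stayCount w v)).sum from h.2
  induction L with
  | nil => simp [continuous_const]
  | cons w L ih =>
    obtain ⟨c1, e1⟩ := key w (hL w List.mem_cons_self)
    obtain ⟨c2, e2⟩ := ih fun w' hw' => hL w' (List.mem_cons_of_mem _ hw')
    simp only [List.map_cons, List.sum_cons]
    refine ⟨c1.add c2, ?_⟩
    rw [integral_add (c1.integrable_of_hasCompactSupport (HasCompactSupport.of_compactSpace _))
      (c2.integrable_of_hasCompactSupport (HasCompactSupport.of_compactSpace _)), e1, e2]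

end Crest.Agent.R166
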