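import Crest.Agent.R166.Defs

/-! # Averaging spectral measures through their moments (abstract) -/

set_option autoImplicit false
set_option linter.unusedVariables false
set_option linter.unusedSectionVars false

open MeasureTheory ProbabilityTheory Filter Topology Matrix
open scoped ENNReal BoundedContinuousFunction

namespace Crest.Agent.R166

theorem T4b_pow {ι : Type} [Fintype ι] [DecidableEq ι] {A : Matrix ι ι ℝ} (hA : A.IsHermitian)
    (k : ℕ) : rfc hA (fun x => (x : ℂ) ^ k) = cx (A ^ k) := by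
  induction k with
  | zero => simp only [pow_zero, rfc_const, one_smul, cx_one]
  | succ k ih => simp only [pow_succ, ← rfc_mul, ih, rfc_id, cx_mul]

/-- the spectral measure of a real symmetric matrix at a basis vector -/
theorem exists_spectral_measure {ι : Type} [Fintype ι] [DecidableEq ι] {A : Matrix ι ι ℝ}
    (hA : A.IsHermitian) (o : ι) {R : ℝ} (hR : ∀ k, |hA.eigenvalues k| ≤ R) :
    ∃ N : Measure ℝ, IsProbabilityMeasure N ∧ N (Set.Icc (-R) R)ᶜ = 0 ∧
      (∀ k : ℕ, ∫ x, x ^ k ∂N = (A ^ k) o o) ∧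
      ∀ z : ℂ, z.im ≠ 0 → ∫ x, ((x : ℂ) - z)⁻¹ ∂N = res A z o o := by
  let N : Measure ℝ := ∑ k, ENNReal.ofReal (evec hA o k ^ 2) • Measure.dirac (hA.eigenvalues k)
  have hint : ∀ f : ℝ → ℂ, ∫ x, f x ∂N = rfc hA f o o := by
    intro f
    rw [integral_finsetSum_measure fun k _ =>
      (integrable_dirac enorm_lt_top).smul_measure ENNReal.ofReal_ne_top, rfc_apply]
    refine Finset.sum_congr rfl fun k _ => ?_
    rw [integral_smul_measure, integral_dirac, ENNReal.toReal_ofReal (sq_nonneg _),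
      Complex.real_smul]
    push_cast
    ring
  refine ⟨N, ⟨?_⟩, ?_, fun k => ?_, fun z hz => ?_⟩
  · simp only [N, Measure.finsetSum_apply, Measure.smul_apply, measure_univ, smul_eq_mul, mul_one]
    rw [← ENNReal.ofReal_sum_of_nonneg fun k _ => sq_nonneg _]
    have := evec_row hA o o
    simp only [if_true, ← sq] at this
    rw [this, ENNReal.ofReal_one]
  · simp only [N, Measure.finsetSum_apply, Measure.smul_apply, smul_eq_mul]
    refine Finset.sum_eq_zero fun k _ => ?_
    rw [Measure.dirac_apply, Set.indicator_of_notMem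
      (Set.notMem_compl_iff.2 (Set.mem_Icc.2 (abs_le.1 (hR k)))), mul_zero]
  · have := hint fun x => (x : ℂ) ^ k
    rw [T4b_pow, cx_apply] at this
    simp only [← Complex.ofReal_pow, integral_complex_ofReal] at this
    exact_mod_cast this
  · rw [hint, res_eq hA hz]

theorem T4b_integrable {E : Type} [NormedAddCommGroup E] {R : ℝ} {N : Measure ℝ} [IsFiniteMeasure N]
    (hN : N (Set.Icc (-R) R)ᶜ = 0) {f : ℝ → E} (hf : Continuous f) : Integrable f N := by
  have h : ∀ᵐ x ∂N, x ∈ Set.Icc (-R) R := hN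
  rw [← Measure.restrict_eq_self_of_ae_mem h]
  exact hf.continuousOn.integrableOn_compact isCompact_Icc

/-- `K = Icc (-R) R`; `ProbabilityMeasure K` is compact (Prokhorov instance).  The set `M_L` of moment vectors
`(∫ x^k)_{k ≤ L}` is compact and convex, so it contains the average of `a · ω` (`Convex.integral_mem`); the closed
sets `{ν | moments agree up to L}` are nonempty and decreasing, take a point of the intersection and push it
forward to `ℝ`. -/
theorem exists_avg_measure {Ω : Type} [MeasurableSpace Ω] (P : Measure Ω) [IsProbabilityMeasure P]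
    {R : ℝ} {a : ℕ → Ω → ℝ} (ha : ∀ k, Integrable (a k) P)
    (h : ∀ L ω, ∃ N : Measure ℝ, IsProbabilityMeasure N ∧ N (Set.Icc (-R) R)ᶜ = 0 ∧
      ∀ k ≤ L, ∫ x, x ^ k ∂N = a k ω) :
    ∃ ν : Measure ℝ, IsProbabilityMeasure ν ∧ ν (Set.Icc (-R) R)ᶜ = 0 ∧
      ∀ k, ∫ x, x ^ k ∂ν = ∫ ω, a k ω ∂P := by
  let K := Set.Icc (-R) R
  have hK : MeasurableSet K := measurableSet_Icc
  let mom : ℕ → ProbabilityMeasure K → ℝ := fun k μ => ∫ x : K, (x : ℝ) ^ k ∂(μ : Measure K)
  have hc : ∀ k, Continuous (mom k) := fun k =>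
    ProbabilityMeasure.continuous_integral_boundedContinuousFunction
      (BoundedContinuousFunction.mkOfCompact ⟨fun x : K => (x : ℝ) ^ k, by fun_prop⟩)
  have hi : ∀ (k : ℕ) (μ : ProbabilityMeasure K), Integrable (fun x : K => (x : ℝ) ^ k) μ :=
    fun k μ => (BoundedContinuousFunction.mkOfCompact
      (⟨fun x : K => (x : ℝ) ^ k, by fun_prop⟩ : C(K, ℝ))).integrable _
  let t : ℕ → Set (ProbabilityMeasure K) := fun L => {μ | ∀ k ≤ L, mom k μ = ∫ ω, a k ω ∂P}
  have hcl : ∀ L, IsClosed (t L) := fun L => by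
    simp only [t, Set.ofPred_forall]
    exact isClosed_iInter fun k => isClosed_iInter fun _ => isClosed_eq (hc k) continuous_const
  have hne : ∀ L, (t L).Nonempty := by
    intro L
    let M : Set (Fin (L + 1) → ℝ) := Set.range fun μ (k : Fin (L + 1)) => mom k μ
    have hM : IsCompact M := isCompact_range (continuous_pi fun k => hc k)
    have hconv : Convex ℝ M := by
      rintro _ ⟨μ, rfl⟩ _ ⟨μ', rfl⟩ s s' hs hs' hss
      have hp : IsProbabilityMeasure
          (ENNReal.ofReal s • (μ : Measure K) + ENNReal.ofReal s' • (μ' : Measure K)) := ⟨by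
        simp only [Measure.add_apply, Measure.smul_apply, measure_univ, smul_eq_mul, mul_one]
        rw [← ENNReal.ofReal_add hs hs', hss, ENNReal.ofReal_one]⟩
      refine ⟨⟨_, hp⟩, funext fun k => ?_⟩
      simp only [mom, ProbabilityMeasure.coe_mk, Pi.add_apply, Pi.smul_apply]
      rw [integral_add_measure ((hi k μ).smul_measure ENNReal.ofReal_ne_top)
        ((hi k μ').smul_measure ENNReal.ofReal_ne_top), integral_smul_measure,
        integral_smul_measure, ENNReal.toReal_ofReal hs, ENNReal.toReal_ofReal hs']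
    have hmem : ∀ ω, (fun k : Fin (L + 1) => a k ω) ∈ M := by
      intro ω
      obtain ⟨N, hN, hN0, hNm⟩ := h L ω
      have h0 : ∀ᵐ x ∂N, x ∈ K := hN0
      refine ⟨⟨N.comap Subtype.val, (MeasurableEmbedding.subtype_coe hK).isProbabilityMeasure_comap
        (by simpa using h0)⟩, funext fun k => ?_⟩
      simp only [mom, ProbabilityMeasure.coe_mk]
      rw [integral_subtype_comap hK fun x => x ^ (k : ℕ), Measure.restrict_eq_self_of_ae_mem h0]
      exact hNm k (Nat.le_of_lt_succ k.2)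
    obtain ⟨μ, hμ⟩ := hconv.integral_mem hM.isClosed (ae_of_all P hmem)
      (Integrable.of_eval fun k => ha k)
    refine ⟨μ, fun k hk => ?_⟩
    have := congrFun hμ ⟨k, Nat.lt_succ_of_le hk⟩
    rwa [eval_integral fun k : Fin (L + 1) => ha k] at this
  obtain ⟨μ, hμ⟩ := IsCompact.nonempty_iInter_of_sequence_nonempty_isCompact_isClosed t
    (fun L μ hμ k hk => hμ k (Nat.le_succ_of_le hk)) hne (hcl 0).isCompact hcl
  refine ⟨(μ : Measure K).map Subtype.val,
    Measure.isProbabilityMeasure_map measurable_subtype_coe.aemeasurable, ?_, fun k => ?_⟩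
  · rw [Measure.map_apply measurable_subtype_coe hK.compl]
    simp
  · rw [(MeasurableEmbedding.subtype_coe hK).integral_map]
    exact Set.mem_iInter.1 hμ k k le_rfl

theorem T4b_approx (R : ℝ) {f : ℝ → ℂ} (hf : Continuous f) {ε : ℝ} (hε : 0 < ε) :
    ∃ (n : ℕ) (c : ℕ → ℂ), ∀ x ∈ Set.Icc (-R) R,
      ‖f x - ∑ k ∈ Finset.range (n + 1), c k * ((x ^ k : ℝ) : ℂ)‖ ≤ ε := by
  obtain ⟨p, hp⟩ := exists_polynomial_near_of_continuousOn (-R) R (fun x => (f x).re)
    (by fun_prop) _ (half_pos hε)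
  obtain ⟨q, hq⟩ := exists_polynomial_near_of_continuousOn (-R) R (fun x => (f x).im)
    (by fun_prop) _ (half_pos hε)
  refine ⟨max p.natDegree q.natDegree, fun k => p.coeff k + q.coeff k * Complex.I, fun x hx => ?_⟩
  have h1 := Polynomial.eval_eq_sum_range' (Nat.lt_succ_of_le (le_max_left p.natDegree q.natDegree)) x
  have h2 := Polynomial.eval_eq_sum_range' (Nat.lt_succ_of_le (le_max_right p.natDegree q.natDegree)) x
  have h3 : ∑ k ∈ Finset.range (max p.natDegree q.natDegree + 1),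
      ((p.coeff k : ℂ) + q.coeff k * Complex.I) * ((x ^ k : ℝ) : ℂ) =
      (p.eval x : ℝ) + (q.eval x : ℝ) * Complex.I := by
    rw [h1, h2]
    push_cast
    rw [Finset.sum_mul, ← Finset.sum_add_distrib]
    exact Finset.sum_congr rfl fun k _ => by ring
  rw [h3]
  refine (Complex.norm_le_abs_re_add_abs_im _).trans ?_
  have a1 := hp x hx
  have a2 := hq x hx
  rw [abs_sub_comm] at a1 a2
  simp only [Complex.sub_re, Complex.add_re, Complex.ofReal_re, Complex.mul_re, Complex.I_re,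
    Complex.ofReal_im, Complex.I_im, Complex.sub_im, Complex.add_im, Complex.mul_im, mul_zero,
    mul_one, sub_zero, add_zero, zero_add]
  linarith

theorem T4b_close {R ε : ℝ} {f : ℝ → ℂ} (hf : Continuous f) {n : ℕ} {c : ℕ → ℂ}
    (h : ∀ x ∈ Set.Icc (-R) R, ‖f x - ∑ k ∈ Finset.range (n + 1), c k * ((x ^ k : ℝ) : ℂ)‖ ≤ ε)
    {N : Measure ℝ} [IsProbabilityMeasure N] (hN : N (Set.Icc (-R) R)ᶜ = 0) :
    ‖∫ x, f x ∂N - ∑ k ∈ Finset.range (n + 1), c k * ((∫ x, x ^ k ∂N : ℝ) : ℂ)‖ ≤ ε := by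
  have h0 : ∀ᵐ x ∂N, x ∈ Set.Icc (-R) R := hN
  have e : ∑ k ∈ Finset.range (n + 1), c k * ((∫ x, x ^ k ∂N : ℝ) : ℂ) =
      ∫ x, ∑ k ∈ Finset.range (n + 1), c k * ((x ^ k : ℝ) : ℂ) ∂N := by
    rw [integral_finsetSum _ fun k _ => T4b_integrable hN (by fun_prop)]
    simp only [integral_const_mul, integral_complex_ofReal]
  rw [e, ← integral_sub (T4b_integrable hN hf) (T4b_integrable hN (by fun_prop))]
  simpa using norm_integral_le_of_norm_le_const (h0.mono h)

/-- Weierstrass (`exists_polynomial_near_of_continuousOn`) for the real and imaginary parts of `f` -/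
theorem tendsto_avg_integral {Ω : Type} [MeasurableSpace Ω] (P : Measure Ω) [IsProbabilityMeasure P]
    {R : ℝ} {a : ℕ → Ω → ℝ} (ha : ∀ k, Integrable (a k) P) {ν : Measure ℝ}
    [IsProbabilityMeasure ν] (hν : ν (Set.Icc (-R) R)ᶜ = 0)
    (hm : ∀ k, ∫ x, x ^ k ∂ν = ∫ ω, a k ω ∂P) {f : ℝ → ℂ} (hf : Continuous f)
    {F : ℕ → Ω → ℂ} (hF : ∀ L, Integrable (F L) P)
    (h : ∀ L ω, ∃ N : Measure ℝ, IsProbabilityMeasure N ∧ N (Set.Icc (-R) R)ᶜ = 0 ∧
      (∀ k ≤ L, ∫ x, x ^ k ∂N = a k ω) ∧ ∫ x, f x ∂N = F L ω) :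
    Tendsto (fun L => ∫ ω, F L ω ∂P) atTop (𝓝 (∫ x, f x ∂ν)) := by
  rw [Metric.tendsto_atTop]
  intro ε hε
  obtain ⟨n, c, hc⟩ := T4b_approx R hf (show 0 < ε / 3 by positivity)
  refine ⟨n, fun L hL => ?_⟩
  have h1 := T4b_close hf hc hν
  have hi : ∀ k, Integrable (fun ω => c k * ((a k ω : ℝ) : ℂ)) P := fun k =>
    (ha k).ofReal.const_mul _
  have h2 : ‖∫ ω, F L ω ∂P - ∑ k ∈ Finset.range (n + 1), c k * ((∫ x, x ^ k ∂ν : ℝ) : ℂ)‖ ≤
      ε / 3 := by
    have e : ∑ k ∈ Finset.range (n + 1), c k * ((∫ x, x ^ k ∂ν : ℝ) : ℂ) =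
        ∫ ω, ∑ k ∈ Finset.range (n + 1), c k * ((a k ω : ℝ) : ℂ) ∂P := by
      rw [integral_finsetSum _ fun k _ => hi k]
      simp only [integral_const_mul, integral_complex_ofReal, hm]
    rw [e, ← integral_sub (hF L) (integrable_finsetSum _ fun k _ => hi k)]
    have := norm_integral_le_of_norm_le_const (μ := P) (C := ε / 3) (f := fun ω =>
      F L ω - ∑ k ∈ Finset.range (n + 1), c k * ((a k ω : ℝ) : ℂ)) (ae_of_all P fun ω => ?_)
    · simpa using this
    · obtain ⟨N, hN, hN0, hNm, hNf⟩ := h L ω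
      have h3 := T4b_close hf hc hN0
      rw [hNf, Finset.sum_congr rfl fun k hk => by
        rw [hNm k ((Nat.le_of_lt_succ (Finset.mem_range.1 hk)).trans hL)]] at h3
      exact h3
  rw [dist_eq_norm]
  have h3 := norm_sub_le_norm_sub_add_norm_sub (∫ ω, F L ω ∂P)
    (∑ k ∈ Finset.range (n + 1), c k * ((∫ x, x ^ k ∂ν : ℝ) : ℂ)) (∫ x, f x ∂ν)
  rw [norm_sub_rev] at h1
  linarith

end Crest.Agent.R166
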