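import Crest.Agent.R166.Defs

/-! # Stieltjes inversion (abstract) -/

set_option autoImplicit false
set_option linter.unusedVariables false
set_option linter.unusedSectionVars false

open MeasureTheory ProbabilityTheory Filter Topology Matrix
open scoped ENNReal BoundedContinuousFunction

namespace Crest.Agent.R166

/-- Cauchy density -/
noncomputable def t4cK (t : ℝ) : ℝ := Real.pi⁻¹ * (1 + t ^ 2)⁻¹

theorem t4cK_nonneg (t : ℝ) : 0 ≤ t4cK t := by
  unfold t4cK; have := Real.pi_pos; positivity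

theorem t4cK_le (t : ℝ) : t4cK t ≤ Real.pi⁻¹ := by
  unfold t4cK
  have := Real.pi_pos
  exact mul_le_of_le_one_right (by positivity) (inv_le_one_of_one_le₀ (by nlinarith [sq_nonneg t]))

theorem t4cK_cont : Continuous t4cK := by
  unfold t4cK
  exact continuous_const.mul (Continuous.inv₀ (by fun_prop) fun t => by positivity)

theorem t4cK_int : ∫ t, t4cK t = 1 := by
  unfold t4cK
  rw [integral_const_mul, integral_univ_inv_one_add_sq, inv_mul_cancel₀ Real.pi_ne_zero]

theorem t4cK_integrable : Integrable t4cK :=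
  integrable_inv_one_add_sq.const_mul _

theorem t4c_im (x E : ℝ) (j : ℕ) :
    (((x : ℂ) - zj E j)⁻¹).im = Real.pi * (2 ^ j * t4cK (2 ^ j * (x - E))) := by
  have hp := Real.pi_pos
  have h2 : (0 : ℝ) < 2 ^ j := by positivity
  rw [Complex.inv_im, Complex.normSq_apply]
  simp only [zj, Complex.sub_im, Complex.sub_re, Complex.add_im, Complex.add_re,
    Complex.ofReal_re, Complex.ofReal_im, Complex.mul_im, Complex.mul_re, Complex.I_re,
    Complex.I_im, t4cK, inv_pow, mul_zero, mul_one, sub_zero, add_zero, zero_add, zero_sub,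
    neg_neg]
  generalize (2 : ℝ) ^ j = c at h2
  generalize x - E = y
  have h3 : y * y + -c⁻¹ * -c⁻¹ ≠ 0 := by
    have : 0 < c⁻¹ * c⁻¹ := by positivity
    nlinarith [mul_self_nonneg y]
  have h4 : 1 + (c * y) ^ 2 ≠ 0 := by positivity
  rw [div_eq_iff h3]
  field_simp
  ring

theorem t4c_g (ν : Measure ℝ) [IsProbabilityMeasure ν] (E : ℝ) (j : ℕ) :
    (∫ x, ((x : ℂ) - zj E j)⁻¹ ∂ν).im = Real.pi * ∫ x, 2 ^ j * t4cK (2 ^ j * (x - E)) ∂ν := by
  have h2 : (0 : ℝ) < (2⁻¹ : ℝ) ^ j := by positivity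
  have hne : ∀ x : ℝ, (2⁻¹ : ℝ) ^ j ≤ ‖(x : ℂ) - zj E j‖ := fun x => by
    refine le_trans ?_ (Complex.abs_im_le_norm _)
    simp only [zj, Complex.sub_im, Complex.add_im, Complex.ofReal_re, Complex.ofReal_im,
      Complex.mul_im, Complex.I_re, Complex.I_im]
    rw [show (0 - (0 + ((2⁻¹ : ℝ) ^ j * 1 + 0 * 0)) : ℝ) = -(2⁻¹ ^ j) by ring, abs_neg]
    exact le_abs_self _
  have hint : Integrable (fun x : ℝ => ((x : ℂ) - zj E j)⁻¹) ν := by
    refine Integrable.of_bound (Continuous.aestronglyMeasurable (Continuous.inv₀ (by fun_prop)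
      fun x h => ?_)) ((2⁻¹ : ℝ) ^ j)⁻¹ (ae_of_all _ fun x => ?_)
    · have := hne x
      rw [h, norm_zero] at this
      linarith
    · rw [norm_inv]
      exact inv_anti₀ h2 (hne x)
  have := integral_im hint
  simp only [RCLike.im_to_complex] at this
  rw [← this, ← integral_const_mul]
  simp_rw [t4c_im]

theorem t4c_subst (φ : ℝ → ℝ) (x : ℝ) (j : ℕ) :
    ∫ E, φ E * (2 ^ j * t4cK (2 ^ j * (x - E))) = ∫ t, φ (x - (2⁻¹ : ℝ) ^ j * t) * t4cK t := by
  have h2 : (0 : ℝ) < 2 ^ j := by positivity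
  have h1 := Measure.integral_comp_mul_left
    (fun t => φ (x - (2⁻¹ : ℝ) ^ j * t) * t4cK t) ((2 : ℝ) ^ j)
  rw [abs_of_pos (inv_pos.2 h2), smul_eq_mul, eq_inv_mul_iff_mul_eq₀ h2.ne'] at h1
  rw [← h1, ← integral_const_mul, ← integral_sub_left_eq_self _ volume x]
  refine integral_congr_ae (ae_of_all _ fun E => ?_)
  have h3 : (2⁻¹ : ℝ) ^ j * (2 ^ j * E) = E := by
    rw [← mul_assoc, ← mul_pow]; simp
  simp only [sub_sub_cancel, h3]
  ring

theorem t4c_main (ν : Measure ℝ) [IsProbabilityMeasure ν] {φ : ℝ → ℝ} (hc : Continuous φ)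
    {M : ℝ} (hM : ∀ x, |φ x| ≤ M) (hi : Integrable φ) :
    (∀ j : ℕ, Integrable fun E => φ E * (∫ x, ((x : ℂ) - zj E j)⁻¹ ∂ν).im) ∧
    Tendsto (fun j : ℕ => ∫ E, φ E * (∫ x, ((x : ℂ) - zj E j)⁻¹ ∂ν).im) atTop
      (𝓝 (Real.pi * ∫ x, φ x ∂ν)) := by
  have hK := t4cK_cont
  have hprod : ∀ j : ℕ, Integrable (Function.uncurry fun E x : ℝ =>
      φ E * (2 ^ j * t4cK (2 ^ j * (x - E)))) (volume.prod ν) := by
    intro j
    refine Integrable.mono' ((hi.norm.mul_const (2 ^ j * Real.pi⁻¹)).comp_fst ν)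
      (Continuous.aestronglyMeasurable (by fun_prop)) (ae_of_all _ fun p => ?_)
    simp only [Function.uncurry, norm_mul]
    refine mul_le_mul_of_nonneg_left ?_ (norm_nonneg _)
    rw [Real.norm_of_nonneg (by positivity), Real.norm_of_nonneg (t4cK_nonneg _)]
    exact mul_le_mul_of_nonneg_left (t4cK_le _) (by positivity)
  have he : ∀ (j : ℕ) (E : ℝ), φ E * (∫ x, ((x : ℂ) - zj E j)⁻¹ ∂ν).im
      = Real.pi * ∫ x, φ E * (2 ^ j * t4cK (2 ^ j * (x - E))) ∂ν := by
    intro j E
    rw [t4c_g, integral_const_mul (φ E)]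
    ring
  refine ⟨fun j => ?_, ?_⟩
  · simp_rw [he]
    exact (hprod j).integral_prod_left.const_mul _
  · simp_rw [he, integral_const_mul Real.pi]
    refine Tendsto.const_mul _ ?_
    simp_rw [integral_integral_swap (hprod _), t4c_subst]
    have hb : ∀ (y t : ℝ), ‖φ y * t4cK t‖ ≤ M * t4cK t := fun y t => by
      rw [norm_mul, Real.norm_of_nonneg (t4cK_nonneg _)]
      exact mul_le_mul_of_nonneg_right (hM _) (t4cK_nonneg _)
    refine tendsto_integral_of_dominated_convergence (fun _ => M) (fun j => ?_)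
      (integrable_const _) (fun j => ae_of_all _ fun x => ?_) (ae_of_all _ fun x => ?_)
    · have := (hprod j).swap.integral_prod_left.aestronglyMeasurable
      simp only [Function.uncurry, Function.comp, Prod.swap, t4c_subst] at this
      exact this
    · refine (norm_integral_le_of_norm_le (t4cK_integrable.const_mul M)
        (ae_of_all _ fun t => hb _ t)).trans ?_
      rw [integral_const_mul, t4cK_int, mul_one]
    · have h1 : φ x = ∫ t, φ x * t4cK t := by rw [integral_const_mul, t4cK_int, mul_one]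
      rw [h1]
      refine tendsto_integral_of_dominated_convergence (fun t => M * t4cK t)
        (fun j => Continuous.aestronglyMeasurable (by fun_prop)) (t4cK_integrable.const_mul M)
        (fun j => ae_of_all _ fun t => hb _ t) (ae_of_all _ fun t => ?_)
      refine Tendsto.mul_const _ ((hc.tendsto x).comp ?_)
      have := ((tendsto_pow_atTop_nhds_zero_of_lt_one (r := (2⁻¹ : ℝ)) (by norm_num)
        (by norm_num)).mul_const t).const_sub x
      simpa using this

/-- For `φ` bounded, continuous, integrable: `∫ φ(E) Im (x - E - iη)⁻¹ / π dE → φ x` boundedly as `η ↓ 0`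
(Poisson kernel, `tendsto_integral_comp_smul_smul_of_integrable'` with `1/(π(1+x²))`), Fubini and dominated
convergence give `∫ φ dν = ∫ φ ρ` for such `φ` vanishing off `U`.  Take `φ = f · min 1 (n · infDist x Uᶜ)` and
`ext_of_forall_integral_eq_of_IsFiniteMeasure` (`0 ≤ ρ ≤ B/π` on `U`). -/
theorem stieltjes_inversion (ν : Measure ℝ) [IsProbabilityMeasure ν] {U : Set ℝ} (hU : IsOpen U)
    (hUb : Bornology.IsBounded U) {ρ : ℝ → ℝ} (hρ : ContinuousOn ρ U) {B : ℝ} {j₀ : ℕ}
    (hB : ∀ E ∈ U, ∀ j, j₀ ≤ j → |(∫ x, ((x : ℂ) - zj E j)⁻¹ ∂ν).im| ≤ B)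
    (hlim : ∀ E ∈ U, Tendsto (fun j => (∫ x, ((x : ℂ) - zj E j)⁻¹ ∂ν).im) atTop
      (𝓝 (Real.pi * ρ E))) :
    ν.restrict U = (volume.restrict U).withDensity fun t => ENNReal.ofReal (ρ t) := by
  have hp := Real.pi_pos
  have hUm := hU.measurableSet
  have hρ0 : ∀ E ∈ U, 0 ≤ ρ E := fun E hE => by
    have : 0 ≤ Real.pi * ρ E := ge_of_tendsto' (hlim E hE) fun j => by
      rw [t4c_g]
      exact mul_nonneg hp.le (integral_nonneg fun x =>
        mul_nonneg (by positivity) (t4cK_nonneg _))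
    exact nonneg_of_mul_nonneg_right this hp
  have hρB : ∀ E ∈ U, ρ E ≤ B / Real.pi := fun E hE => by
    have : Real.pi * ρ E ≤ B := le_of_tendsto (hlim E hE)
      ((eventually_ge_atTop j₀).mono fun j hj => (le_abs_self _).trans (hB E hE j hj))
    rw [le_div_iff₀ hp]; linarith
  have hvol : volume U ≠ ⊤ := hUb.measure_lt_top.ne
  have : IsFiniteMeasure (volume.restrict U) := isFiniteMeasure_restrict.2 hvol
  have hρm : AEStronglyMeasurable ρ (volume.restrict U) := hρ.aestronglyMeasurable hUm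
  have hρi : Integrable ρ (volume.restrict U) :=
    Integrable.of_bound hρm (B / Real.pi) ((ae_restrict_iff' hUm).2 (ae_of_all _ fun E hE => by
      rw [Real.norm_of_nonneg (hρ0 E hE)]; exact hρB E hE))
  have : IsFiniteMeasure ((volume.restrict U).withDensity fun t => ENNReal.ofReal (ρ t)) :=
    isFiniteMeasure_withDensity_ofReal hρi.2
  have key : ∀ φ : ℝ → ℝ, Continuous φ → ∀ M, (∀ x, |φ x| ≤ M) → (∀ x, x ∉ U → φ x = 0) →
      ∫ x, φ x ∂(ν.restrict U)
        = ∫ x, φ x ∂((volume.restrict U).withDensity fun t => ENNReal.ofReal (ρ t)) := by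
    intro φ hc M hM h0
    have hi : Integrable φ := by
      rw [← integrableOn_iff_integrable_of_support_subset (s := U)
        (fun x hx => by by_contra h; exact hx (h0 x h))]
      exact Integrable.of_bound hc.aestronglyMeasurable M (ae_of_all _ hM)
    obtain ⟨h1, h2⟩ := t4c_main ν hc hM hi
    have h3 : Tendsto (fun j : ℕ => ∫ E, φ E * (∫ x, ((x : ℂ) - zj E j)⁻¹ ∂ν).im) atTop
        (𝓝 (∫ E, φ E * (Real.pi * ρ E))) := by
      refine tendsto_integral_filter_of_dominated_convergence (fun E => ‖φ E‖ * B)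
        (Eventually.of_forall fun j => (h1 j).1)
        ((eventually_ge_atTop j₀).mono fun j hj => ae_of_all _ fun E => ?_)
        (hi.norm.mul_const B) (ae_of_all _ fun E => ?_)
      · by_cases hE : E ∈ U
        · rw [norm_mul]
          exact mul_le_mul_of_nonneg_left (hB E hE j hj) (norm_nonneg _)
        · simp [h0 E hE]
      · by_cases hE : E ∈ U
        · exact (hlim E hE).const_mul _
        · simp [h0 E hE]
    have h4 := tendsto_nhds_unique h2 h3
    rw [setIntegral_eq_integral_of_forall_compl_eq_zero h0,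
      integral_withDensity_eq_integral_toReal_smul₀ hρm.aemeasurable.ennreal_ofReal
        (ae_of_all _ fun _ => ENNReal.ofReal_lt_top),
      setIntegral_congr_fun hUm (g := fun E => φ E * ρ E) (fun E hE => by
        simp only [ENNReal.toReal_ofReal (hρ0 E hE), smul_eq_mul, mul_comm]),
      setIntegral_eq_integral_of_forall_compl_eq_zero (fun x hx => by simp [h0 x hx])]
    apply mul_left_cancel₀ hp.ne'
    rw [h4, ← integral_const_mul]
    refine integral_congr_ae (ae_of_all _ fun E => ?_)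
    ring
  have hne : (Uᶜ).Nonempty := by
    by_contra h
    rw [Set.not_nonempty_iff_eq_empty, Set.compl_empty_iff] at h
    rw [h] at hvol
    simp at hvol
  refine ext_of_forall_integral_eq_of_IsFiniteMeasure fun f => ?_
  let φ : ℕ → ℝ → ℝ := fun n x => f x * min 1 (n * Metric.infDist x Uᶜ)
  have hφc : ∀ n, Continuous (φ n) := fun n =>
    f.continuous.mul (continuous_const.min
      (continuous_const.mul (Metric.continuous_infDist_pt _)))
  have hφb : ∀ n x, |φ n x| ≤ ‖f‖ := fun n x => by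
    have h1 : 0 ≤ min 1 (n * Metric.infDist x Uᶜ) :=
      le_min zero_le_one (mul_nonneg (Nat.cast_nonneg _) Metric.infDist_nonneg)
    simp only [φ]
    rw [abs_mul, abs_of_nonneg h1]
    exact (mul_le_of_le_one_right (abs_nonneg _) (min_le_left _ _)).trans (f.norm_coe_le_norm x)
  have hφ0 : ∀ n x, x ∉ U → φ n x = 0 := fun n x hx => by
    simp [φ, Metric.infDist_zero_of_mem (show x ∈ Uᶜ from hx)]
  have hφl : ∀ x ∈ U, Tendsto (fun n => φ n x) atTop (𝓝 (f x)) := fun x hx => by
    have hd : 0 < Metric.infDist x Uᶜ :=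
      (hU.isClosed_compl.notMem_iff_infDist_pos hne).1 (fun h => h hx)
    refine tendsto_const_nhds.congr' ?_
    filter_upwards [(tendsto_natCast_atTop_atTop.atTop_mul_const hd).eventually_ge_atTop 1]
      with n hn
    simp [φ, min_eq_left hn]
  have hlim' : ∀ (μ : Measure ℝ) [IsFiniteMeasure μ], (∀ᵐ x ∂μ, x ∈ U) →
      Tendsto (fun n => ∫ x, φ n x ∂μ) atTop (𝓝 (∫ x, f x ∂μ)) := fun μ _ hμ =>
    tendsto_integral_of_dominated_convergence (fun _ => ‖f‖)
      (fun n => (hφc n).aestronglyMeasurable) (integrable_const _)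
      (fun n => ae_of_all _ fun x => hφb n x) (hμ.mono hφl)
  refine tendsto_nhds_unique (hlim' _ (ae_restrict_mem hUm)) ?_
  simp_rw [fun n => key (φ n) (hφc n) _ (hφb n) (hφ0 n)]
  exact hlim' _ ((withDensity_absolutelyContinuous _ _).ae_le (ae_restrict_mem hUm))

end Crest.Agent.R166
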