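import Crest.Agent.R166.TW

/-! # The Hamiltonian on a ball of the word tree -/

set_option autoImplicit false
set_option linter.unusedVariables false
set_option linter.unusedSectionVars false

open MeasureTheory ProbabilityTheory Filter Topology Matrix
open scoped ENNReal BoundedContinuousFunction

namespace Crest.Agent.R166

theorem HL_herm {D : ℕ} (s : ℝ) (ω : OmW D) (L : ℕ) : (HL s ω L).IsHermitian := by
  refine herm_of_symm fun u v => ?_
  simp only [HL, Matrix.of_apply]
  congr 1
  · by_cases h : u = v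
    · rw [h]
    · rw [if_neg h, if_neg (Ne.symm h)]
  · refine Finset.sum_congr rfl fun i _ => if_congr ⟨fun h => ?_, fun h => ?_⟩ rfl rfl
    · rw [← h, mul_gen_gen]
    · rw [← h, mul_gen_gen]

theorem TW2_sum {D : ℕ} (s : ℝ) (ω : OmW D) (L : ℕ) {E : Type} [AddCommGroup E] [Module ℝ E]
    {φ : Wd (D + 1) → E} (u : Ball D L)
    (hφ : ∀ i, L < (u.1 * gen i).1.length → φ (u.1 * gen i) = 0) :
    ∑ v, HL s ω L u v • φ v.1 = (s * (ω u.1 : ℝ)) • φ u.1 + ∑ i, φ (u.1 * gen i) := by
  simp only [HL, Matrix.of_apply, add_smul, Finset.sum_add_distrib, Finset.sum_smul, ite_smul,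
    zero_smul, one_smul, Finset.sum_ite_eq, Finset.mem_univ, if_true]
  rw [Finset.sum_comm]
  congr 1
  refine Finset.sum_congr rfl fun i _ => ?_
  rcases le_or_gt (u.1 * gen i).1.length L with h | h
  · exact (Finset.sum_eq_single (⟨_, h⟩ : Ball D L)
      (fun v _ hv => if_neg fun e => hv (Subtype.ext (Eq.symm e))) (by simp)).trans (if_pos rfl)
  · rw [hφ i h]
    exact Finset.sum_eq_zero fun v _ => if_neg fun e => (e ▸ h).not_ge v.2

/-- action on a vector extended by zero -/
theorem HL_mulVec {D : ℕ} (s : ℝ) (ω : OmW D) (L : ℕ) {φ : Wd (D + 1) → ℝ} (u : Ball D L)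
    (hφ : ∀ i, L < (u.1 * gen i).1.length → φ (u.1 * gen i) = 0) :
    (HL s ω L *ᵥ fun v => φ v.1) u = opW s ω φ u.1 := by
  exact TW2_sum s ω L u hφ

theorem continuous_HL {D : ℕ} (s : ℝ) (L : ℕ) (u v : Ball D L) :
    Continuous fun ω : OmW D => HL s ω L u v := by
  simp only [HL, Matrix.of_apply]
  split_ifs <;> fun_prop

/-- extension by zero -/
def TW2_ext {D L : ℕ} (f : Ball D L → ℝ) (w : Wd (D + 1)) : ℝ :=
  if h : w.1.length ≤ L then f ⟨w, h⟩ else 0

theorem TW2_mulVec {D : ℕ} (s : ℝ) (ω : OmW D) (L : ℕ) (f : Ball D L → ℝ) (u : Ball D L) :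
    ∑ v, HL s ω L u v * f v = s * (ω u.1 : ℝ) * f u + ∑ i, TW2_ext f (u.1 * gen i) := by
  have e : ∀ v : Ball D L, TW2_ext f v.1 = f v := fun v => dif_pos v.2
  simpa only [e, smul_eq_mul] using
    TW2_sum s ω L (φ := TW2_ext f) u fun i h => dif_neg h.not_ge

/-- Gershgorin: at a coordinate of maximal modulus of an eigenvector (`mulVec_evec`) -/
theorem HL_eig {D : ℕ} (s : ℝ) (ω : OmW D) (L : ℕ) (k : Ball D L) :
    |(HL_herm s ω L).eigenvalues k| ≤ D + 1 + |s| := by
  obtain ⟨a, ha⟩ := @Finite.exists_max _ _ _ ⟨k⟩ _ fun a => |evec (HL_herm s ω L) a k|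
  have h0 : 0 < |evec (HL_herm s ω L) a k| := by
    by_contra! h
    have h1 := evec_col (HL_herm s ω L) k k
    rw [if_pos rfl, Finset.sum_eq_zero fun b _ => by
      rw [abs_nonpos_iff.1 ((ha b).trans h), zero_mul]] at h1
    exact zero_ne_one h1
  refine le_of_mul_le_mul_right ?_ h0
  rw [← abs_mul, ← mulVec_evec, TW2_mulVec, add_comm, add_mul]
  refine (abs_add_le _ _).trans (add_le_add ((Finset.abs_sum_le_sum_abs _ _).trans
    ((Finset.sum_le_card_nsmul _ _ |evec (HL_herm s ω L) a k| fun i _ => ?_).trans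
      (le_of_eq (by simp)))) ?_)
  · unfold TW2_ext
    split_ifs
    · exact ha _
    · simp
  · rw [abs_mul, abs_mul]
    exact mul_le_mul_of_nonneg_right
      (mul_le_of_le_one_right (abs_nonneg _) (abs_le.2 (ω a.1).2)) h0.le

theorem TW2_len {d : ℕ} (u : Wd d) (i : Fin d) : (u * gen i).1.length ≤ u.1.length + 1 := by
  rw [Wd.mul_gen_val, rmul]
  split_ifs
  · rw [List.length_tail]
    omega
  · exact le_rfl

/-- `(HL^k) u root = (opW^[k] δ) u` whenever `|u| + k ≤ L` (induction on `k`) -/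
theorem HL_pow {D : ℕ} (s : ℝ) (ω : OmW D) {L k : ℕ} (hk : k ≤ L) :
    (HL s ω L ^ k) (rootB D L) (rootB D L) = momW s ω k := by
  have key : ∀ k (u : Ball D L), u.1.1.length + k ≤ L → (HL s ω L ^ k) u (rootB D L) =
      (opW s ω)^[k] (fun w => if w = 1 then 1 else 0) u.1 := fun k => by
    induction k with
    | zero => exact fun u _ => if_congr Subtype.ext_iff rfl rfl
    | succ k ih =>
      intro u hu
      rw [pow_succ', Matrix.mul_apply, TW2_mulVec, Function.iterate_succ_apply', opW,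
        ih u (by omega)]
      congr 1
      refine Finset.sum_congr rfl fun i _ => ?_
      have := TW2_len u.1 i
      exact (dif_pos (by omega)).trans (ih ⟨_, by omega⟩ (by change (u.1 * gen i).1.length + k ≤ L; omega))
  exact key k _ (by simpa [rootB, Wd.one_val] using hk)

theorem continuous_momW {D : ℕ} (s : ℝ) (k : ℕ) : Continuous fun ω : OmW D => momW s ω k := by
  have key : ∀ k w, Continuous fun ω : OmW D =>
      (opW s ω)^[k] (fun w => if w = 1 then 1 else 0) w := fun k => by
    induction k with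
    | zero => exact fun w => continuous_const
    | succ k ih =>
      intro w
      simp only [Function.iterate_succ_apply', opW]
      exact (Continuous.mul (by fun_prop) (ih w)).add (continuous_finsetSum _ fun i _ => ih _)
  exact key k 1

/-- the column of the resolvent -/
noncomputable def TW2_F {D : ℕ} (s : ℝ) (ω : OmW D) (L : ℕ) (z G : ℂ) : List (Fin (D + 1)) → ℂ
  | [] => G
  | b :: l => -mk s z (L - l.length)
      (envW ω (⟨lmul [] (b :: l), lmul_chain List.IsChain.nil _⟩, b)) * TW2_F s ω L z G l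

theorem TW2_F_cons {D : ℕ} (s : ℝ) (ω : OmW D) (L : ℕ) (z G : ℂ) {w : Wd (D + 1)} {b : Fin (D + 1)}
    {l : List (Fin (D + 1))} (h : w.1 = b :: l) :
    TW2_F s ω L z G w.1 = -mk s z (L - l.length) (envW ω (w, b)) * TW2_F s ω L z G l := by
  have e : (⟨lmul [] (b :: l), lmul_chain List.IsChain.nil _⟩ : Wd (D + 1)) = w :=
    (Subtype.ext (congrArg (lmul []) h.symm)).trans (one_mul w)
  rw [h, TW2_F, e]

/-- Explicit column of the resolvent.  For a list `l` put `F [] = G` (the right-hand side) and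
`F (b :: l) = -Γ (b :: l) * F l`, where for a reduced word `w = b :: l`,
`Γ w = mk s z (L - l.length) (envW ω (w, b))`.  The neighbours of `w = b :: l` are `w * gen b = l` and
`w * gen (b.succAbove c) = b.succAbove c :: w` (`Fin.sum_univ_succAbove`), `Γ w = 1/(s ω w - z - Σ_c Γ (child c))`
with `Γ (child) = mk .. 0 = 0` when `|w| = L`.  Hence `(cx HL - z) F = δ_root` on the ball, and `res_mul_sub`
identifies `F` with the column of `res`. -/
theorem HL_res_root {D : ℕ} (s : ℝ) (ω : OmW D) (L : ℕ) {z : ℂ} (hz : 0 < z.im) :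
    res (HL s ω L) z (rootB D L) (rootB D L) =
      gO (((s * (ω 1 : ℝ) : ℝ) : ℂ)) z fun i => mk s z L ((starW ω 1).2 i) := by
  set G := gO (((s * (ω 1 : ℝ) : ℝ) : ℂ)) z fun i => mk s z L ((starW ω 1).2 i) with hG
  have key : (cx (HL s ω L) - z • (1 : Matrix _ _ ℂ)) *ᵥ (fun v => TW2_F s ω L z G v.1.1) =
      Pi.single (rootB D L) 1 := by
    funext u
    have h1 := TW2_sum s ω L (φ := fun w => TW2_F s ω L z G w.1) u fun i hi => by
      obtain ⟨b, l, h⟩ := List.exists_cons_of_length_pos (Nat.zero_lt_of_lt hi)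
      rw [h, List.length_cons] at hi
      rw [TW2_F_cons s ω L z G h, Nat.sub_eq_zero_of_le (by omega), mk, neg_zero, zero_mul]
    simp only [Complex.real_smul] at h1
    rw [Matrix.sub_mulVec, Matrix.smul_mulVec, Matrix.one_mulVec, Pi.sub_apply, Pi.smul_apply,
      smul_eq_mul]
    refine (congrArg (· - _) h1).trans ?_
    clear h1
    obtain ⟨w, h3⟩ := u
    rcases hw' : w.1 with _ | ⟨b, l⟩
    · obtain rfl : w = 1 := Subtype.ext hw'
      have e : ∀ i : Fin (D + 1), TW2_F s ω L z G (1 * gen i : Wd (D + 1)).1 =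
          -mk s z L ((starW ω 1).2 i) * G := fun i => TW2_F_cons s ω L z G (l := []) rfl
      have d := (T0a_den hz (s * (ω 1 : ℝ)) fun i => (T0a_mk (s := s) hz L ((starW ω 1).2 i)).1).2.1
      refine Eq.trans ?_ (Pi.single_eq_same (M := fun _ => ℂ) (rootB D L) 1).symm
      change _ * G + ∑ i, TW2_F s ω L z G (1 * gen i : Wd (D + 1)).1 - z * G = 1
      rw [← mul_one_div_cancel d, ← gO, ← hG]
      simp only [e, neg_mul, Finset.sum_neg_distrib, ← Finset.sum_mul]
      ring
    · rw [Pi.single_eq_of_ne (fun h => by simpa [rootB, Wd.one_val, hw'] using congrArg (·.1.1) h)]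
      have e0 : (w * gen b).1 = l := by simp [Wd.mul_gen_val, rmul, hw']
      have e : ∀ c : Fin D, TW2_F s ω L z G (w * gen (b.succAbove c)).1 =
          -mk s z (L - (l.length + 1)) ((envW ω (w, b)).sub c) * TW2_F s ω L z G (b :: l) :=
        fun c => TW2_F_cons s ω L z G (l := b :: l)
          (by simp [Wd.mul_gen_val, rmul, hw', (Fin.succAbove_ne b c).symm])
      have d := (T0a_den hz (s * (ω w : ℝ)) fun c =>
        (T0a_mk (s := s) hz (L - (l.length + 1)) ((envW ω (w, b)).sub c)).1).2.1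
      have e1 := TW2_F_cons s ω L z G hw'
      rw [hw', show L - l.length = L - (l.length + 1) + 1 by
        rw [hw', List.length_cons] at h3; omega, mk, envW_nil] at e1
      rw [Fin.sum_univ_succAbove _ b, e0]
      simp only [e, neg_mul, Finset.sum_neg_distrib, ← Finset.sum_mul]
      rw [e1]
      field_simp
      ring
  have h := congrFun (congrArg (res (HL s ω L) z *ᵥ ·) key) (rootB D L)
  simp only [Matrix.mulVec_mulVec, res_mul_sub (HL_herm s ω L) hz.ne', Matrix.one_mulVec,
    Matrix.mulVec_single_one] at h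
  exact h.symm

/-- uniform convergence of the root Green function -/
theorem HL_res_tendsto {D : ℕ} (s : ℝ) {z : ℂ} (hz : 0 < z.im) :
    TendstoUniformly (fun L (ω : OmW D) => res (HL s ω L) z (rootB D L) (rootB D L))
      (fun ω => gO (((s * (ω 1 : ℝ) : ℝ) : ℂ)) z fun i => mT s z ((starW ω 1).2 i)) atTop := by
  simp only [HL_res_root s _ _ hz]
  refine Metric.tendstoUniformly_iff.2 fun ε hε => ?_
  filter_upwards [Metric.tendstoUniformly_iff.1 (mk_tendstoUniformly (D := D) (s := s) hz)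
    (ε * z.im ^ 2 / (D + 2)) (by positivity)] with L hL ω
  have d1 := T0a_den hz (s * (ω 1 : ℝ)) fun i => T0a_mT (s := s) hz ((starW ω 1).2 i)
  have d2 := T0a_den hz (s * (ω 1 : ℝ)) fun i => (T0a_mk (s := s) hz L ((starW ω 1).2 i)).1
  rw [dist_eq_norm, gO, gO, div_sub_div _ _ d1.2.1 d2.2.1, one_mul, mul_one, norm_div, norm_mul,
    sub_sub_sub_cancel_left, ← Finset.sum_sub_distrib,
    div_lt_iff₀ (mul_pos (hz.trans_le d1.2.2) (hz.trans_le d2.2.2))]
  refine ((norm_sum_le _ _).trans (Finset.sum_le_card_nsmul _ _ _ fun i _ =>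
    ((dist_eq_norm _ _).symm.trans_lt (hL _)).le)).trans_lt (lt_of_lt_of_le (b := ε * (z.im * z.im)) ?_
      (mul_le_mul_of_nonneg_left (mul_le_mul d1.2.2 d2.2.2 hz.le (norm_nonneg _)) hε.le))
  rw [Finset.card_univ, Fintype.card_fin, nsmul_eq_mul, ← mul_div_assoc, div_lt_iff₀ (by positivity)]
  have : 0 < ε * z.im ^ 2 := by positivity
  push_cast
  nlinarith

end Crest.Agent.R166
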