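import Crest.Agent.R166.T3
import Crest.Agent.R166.Spec
import Crest.Agent.R166.TW1
import Crest.Agent.R166.TW2
import Crest.Agent.R166.T4a
import Crest.Agent.R166.T4b
import Crest.Agent.R166.T4c

/-! # Density of states -/

set_option autoImplicit false
set_option linter.unusedVariables false
set_option linter.unusedSectionVars false

open MeasureTheory ProbabilityTheory Filter Topology Matrix
open scoped ENNReal BoundedContinuousFunction

namespace Crest.Agent.R166

open Crest.ProbabilityR.RandomMatrix in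
/-- `exists_avg_measure` / `tendsto_avg_integral` with `Ω = OmW D`, `a k ω = momW s ω k`, `N` = spectral measure of
`HL s ω L` at the root (`exists_spectral_measure`, `HL_eig`, `HL_pow`), `F L ω = res (HL s ω L) z root root`;
`integral_momW`; `HL_res_tendsto`, `measurePreserving_starW`, `integral_gE_eq_gO`. -/
theorem tree_nu {D : ℕ} (hD : 1 ≤ D) {s : ℝ} (hs : 0 ≤ s) : ∃ ν : Measure ℝ,
    IsTreeDOS (D + 1) s ν ∧ ∀ z : ℂ, 0 < z.im → ∫ x, ((x : ℂ) - z)⁻¹ ∂ν = SF D s unifJ z := by
  have hint : ∀ {V : Type} [NormedAddCommGroup V] {f : OmW D → V}, Continuous f →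
      Integrable f (PW D unifJ) := fun hf =>
    hf.integrable_of_hasCompactSupport (HasCompactSupport.of_compactSpace _)
  have ha : ∀ k, Integrable (fun ω : OmW D => momW s ω k) (PW D unifJ) := fun k =>
    hint (continuous_momW s k)
  have hsp := fun (L : ℕ) (ω : OmW D) =>
    exists_spectral_measure (HL_herm s ω L) (rootB D L) (HL_eig s ω L)
  obtain ⟨ν, hν, hν0, hm⟩ := exists_avg_measure (PW D unifJ) (R := D + 1 + |s|)
    (a := fun k ω => momW s ω k) ha (fun L ω => by
      obtain ⟨N, h1, h2, h3, -⟩ := hsp L ω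
      exact ⟨N, h1, h2, fun k hk => (h3 k).trans (HL_pow s ω hk)⟩)
  refine ⟨ν, ⟨hν, ?_, fun k => (hm k).trans (integral_momW D s k)⟩, fun z hz => ?_⟩
  · rw [abs_of_nonneg hs] at hν0
    push_cast
    exact hν0
  · have hf : Continuous fun x : ℝ => ((x : ℂ) - z)⁻¹ :=
      (Complex.continuous_ofReal.sub continuous_const).inv₀ fun x h => by
        have : ((x : ℂ) - z).im = (0 : ℂ).im := congrArg Complex.im h
        simp only [Complex.sub_im, Complex.ofReal_im, Complex.zero_im] at this
        linarith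
    have hFc : ∀ L, Continuous fun ω : OmW D => res (HL s ω L) z (rootB D L) (rootB D L) :=
      fun L => continuous_res' (continuous_pi fun u => continuous_pi fun v => continuous_HL s L u v)
        (fun ω => by simpa [Matrix.IsHermitian, Matrix.IsSymm] using HL_herm s ω L) hz.ne' _ _
    have h1 := tendsto_avg_integral (PW D unifJ) ha hν0 hm hf (fun L => hint (hFc L))
      (fun L ω => by
        obtain ⟨N, h1, h2, h3, h4⟩ := hsp L ω
        exact ⟨N, h1, h2, fun k hk => (h3 k).trans (HL_pow s ω hk), h4 z hz.ne'⟩)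
    have hU := HL_res_tendsto (D := D) s hz
    have hG := hU.continuous (Eventually.of_forall hFc).frequently
    have h2 : Tendsto (fun L => ∫ ω, res (HL s ω L) z (rootB D L) (rootB D L) ∂(PW D unifJ)) atTop
        (𝓝 (∫ ω : OmW D, gO (((s * (ω 1 : ℝ) : ℝ) : ℂ)) z
          (fun i => mT s z ((starW ω 1).2 i)) ∂(PW D unifJ))) := by
      rw [Metric.tendsto_nhds]
      intro ε hε
      filter_upwards [Metric.tendstoUniformly_iff.1 hU (ε / 2) (half_pos hε)] with L hL
      rw [dist_eq_norm, ← integral_sub (hint (hFc L)) (hint hG)]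
      refine (norm_integral_le_of_norm_le_const (C := ε / 2)
        (Eventually.of_forall fun ω => ?_)).trans_lt ?_
      · rw [← dist_eq_norm, dist_comm]; exact (hL ω).le
      · simpa using hε
    have hmeas : Measurable fun σ : StarEnv D =>
        gO (((s * (σ.1 : ℝ) : ℝ) : ℂ)) z (fun i => mT s z (σ.2 i)) := by
      unfold gO
      refine measurable_const.div (((Complex.measurable_ofReal.comp
        ((measurable_subtype_coe.comp measurable_fst).const_mul s)).sub measurable_const).sub
        (Finset.measurable_sum _ fun i _ => ?_))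
      exact (measurable_mT hz).comp ((measurable_pi_apply i).comp measurable_snd)
    have hp := measurePreserving_starW (D := D) unifJ 1
    rw [tendsto_nhds_unique h1 h2, SF, integral_gE_eq_gO hD s unifJ hz, ← hp.map_eq,
      integral_map hp.aemeasurable hmeas.aestronglyMeasurable]
    rfl

open Crest.ProbabilityR.RandomMatrix in
/-- `tree_limit` (let `j → ∞` in the two-energy bound: `ρ` is locally Lipschitz on the band), `tree_nu`,
`stieltjes_inversion` -/
theorem tree_dos {D : ℕ} (hD : 2 ≤ D) {κ : ℝ} (hκ : 0 < κ) : ∃ s₀ : ℝ, 0 < s₀ ∧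
    ∀ s : ℝ, 0 < s → s < s₀ → ∃ ν : Measure ℝ, IsTreeDOS (D + 1) s ν ∧
      ContinuousOn (rho D s unifJ) {E | E ^ 2 < 4 * D - κ} ∧
      ν.restrict {E | E ^ 2 < 4 * D - κ} =
        (volume.restrict {E | E ^ 2 < 4 * D - κ}).withDensity
          fun t => ENNReal.ofReal (rho D s unifJ t) := by
  obtain ⟨s₀, C, r₀, j₀, h1, h2, h⟩ := tree_limit hD hκ
  refine ⟨s₀, h1, fun s hs hs' => ?_⟩
  obtain ⟨ν, hν, hS⟩ := tree_nu (D := D) (by omega) hs.le
  have hp : Tendsto (fun j : ℕ => (2⁻¹ : ℝ) ^ j) atTop (𝓝 0) :=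
    tendsto_pow_atTop_nhds_zero_of_lt_one (by norm_num) (by norm_num)
  have hlim : ∀ E : ℝ, E ^ 2 < 4 * D - κ → Tendsto (fun j => (SF D s unifJ (zj E j)).im) atTop
      (𝓝 (Real.pi * rho D s unifJ E)) := by
    intro E hE
    rw [tendsto_iff_dist_tendsto_zero]
    refine squeeze_zero' (Eventually.of_forall fun _ => dist_nonneg) ?_
      (by simpa using hp.const_mul C)
    filter_upwards [eventually_ge_atTop j₀] with j hj
    have := ((h s hs.le hs' unifJ E hE.le).2.2.2 j hj).2.2 E hE.le (by simpa using h2.le)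
    simpa [Real.dist_eq] using this
  have hlip : ∀ E E' : ℝ, E ^ 2 < 4 * D - κ → E' ^ 2 < 4 * D - κ → |E - E'| ≤ r₀ →
      |Real.pi * rho D s unifJ E - Real.pi * rho D s unifJ E'| ≤ C * |E - E'| := by
    intro E E' hE hE' hr
    have t1 := ((hlim E hE).sub_const (Real.pi * rho D s unifJ E')).abs
    have t2 := (hp.const_add |E - E'|).const_mul C
    rw [add_zero] at t2
    refine le_of_tendsto_of_tendsto t1 t2 ?_
    filter_upwards [eventually_ge_atTop j₀] with j hj
    exact ((h s hs.le hs' unifJ E hE.le).2.2.2 j hj).2.2 E' hE'.le hr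
  have hc : ContinuousOn (rho D s unifJ) {E | E ^ 2 < 4 * D - κ} := by
    have hc' : ContinuousOn (fun E => Real.pi * rho D s unifJ E) {E | E ^ 2 < 4 * D - κ} := by
      intro E hE
      rw [ContinuousWithinAt, tendsto_iff_dist_tendsto_zero]
      have t1 : Tendsto (fun E' : ℝ => |E' - E|) (𝓝 E) (𝓝 0) := by
        simpa using ((tendsto_id (x := 𝓝 E)).sub_const E).abs
      refine squeeze_zero' (Eventually.of_forall fun _ => dist_nonneg) ?_
        (by simpa using (t1.const_mul C).mono_left nhdsWithin_le_nhds)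
      filter_upwards [self_mem_nhdsWithin,
        mem_nhdsWithin_of_mem_nhds (t1.eventually (ge_mem_nhds h2))] with E' hE' hr
      exact hlip E' E hE' hE hr
    exact (hc'.div_const Real.pi).congr fun E _ =>
      (mul_div_cancel_left₀ _ Real.pi_ne_zero).symm
  refine ⟨ν, hν, hc, ?_⟩
  have := hν.1
  refine stieltjes_inversion ν (isOpen_lt (continuous_pow 2) continuous_const) ?_ hc (B := C)
    (j₀ := j₀) (fun E hE j hj => ?_) (fun E hE => ?_)
  · refine (Metric.isBounded_Icc (-(4 * D + 1 : ℝ)) (4 * D + 1)).subset fun E hE => ?_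
    have hE' : E ^ 2 < 4 * D - κ := hE
    constructor <;> nlinarith [sq_nonneg (E - 1), sq_nonneg (E + 1)]
  · rw [hS _ (zj_im_pos E j)]
    exact (Complex.abs_im_le_norm _).trans
      ((h s hs.le hs' unifJ E (le_of_lt hE)).2.2.2 j hj).2.1
  · simp only [hS _ (zj_im_pos E _)]
    exact hlim E hE

end Crest.Agent.R166
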