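import Crest.Agent.R166.PartT0

/-! # Kesten–McKay density -/

set_option autoImplicit false
set_option linter.unusedVariables false
set_option linter.unusedSectionVars false

open MeasureTheory ProbabilityTheory Filter Topology Matrix
open scoped ENNReal BoundedContinuousFunction

namespace Crest.Agent.R166

theorem T5_m0 {D : ℕ} (hD : 2 ≤ D) {E : ℝ} (hE : E ^ 2 < 4 * D) (e : Env D) :
    m0 0 E e = mc D E := by
  obtain ⟨c₀, η₁, C, -, hη, -, h⟩ := ref_band hD (κ := 4 * D - E ^ 2) (by linarith)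
  obtain ⟨-, h⟩ := h E (by linarith)
  apply Tendsto.limUnder_eq
  have h2 : Tendsto (fun j : ℕ => (2⁻¹ : ℝ) ^ j) atTop (𝓝 0) :=
    tendsto_pow_atTop_nhds_zero_of_lt_one (by norm_num) (by norm_num)
  rw [tendsto_iff_norm_sub_tendsto_zero]
  refine squeeze_zero' (Eventually.of_forall fun _ => norm_nonneg _) ?_
    (by simpa using h2.const_mul C)
  filter_upwards [h2.eventually (ge_mem_nhds hη)] with j hj
  rw [mT_zero]
  simpa [zj] using (h _ (by positivity) hj).2.1

theorem T5_im {D : ℕ} (hD : 2 ≤ D) {E : ℝ} (hE : E ^ 2 < 4 * D) :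
    (gE (mc D E) (mc D E) 0 0).im =
      (D + 1) * √(4 * D - E ^ 2) / (2 * (((D : ℝ) + 1) ^ 2 - E ^ 2)) := by
  have hD' : (2 : ℝ) ≤ D := by exact_mod_cast hD
  have hr : 0 < √(4 * D - E ^ 2) := Real.sqrt_pos.2 (by linarith)
  have hr2 : √(4 * D - E ^ 2) ^ 2 = 4 * D - E ^ 2 := Real.sq_sqrt (by linarith)
  have hW : 0 < ((D : ℝ) + 1) ^ 2 - E ^ 2 := by nlinarith [sq_nonneg ((D : ℝ) - 1)]
  have hm : mc D E = ⟨-E / (2 * D), √(4 * D - E ^ 2) / (2 * D)⟩ := by
    have : (2 * D : ℂ) = ((2 * D : ℝ) : ℂ) := by push_cast; rfl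
    rw [mc, this]
    apply Complex.ext <;> simp only [Complex.div_ofReal_re, Complex.div_ofReal_im] <;> simp
  have him : 0 < (mc D E).im := by rw [hm]; positivity
  have hne := T0b_one_sub_ne him him
  have key : gE (mc D E) (mc D E) 0 0 = ⟨-(D - 1) * E / (2 * (((D : ℝ) + 1) ^ 2 - E ^ 2)),
      (D + 1) * √(4 * D - E ^ 2) / (2 * (((D : ℝ) + 1) ^ 2 - E ^ 2))⟩ := by
    simp only [gE, if_true]
    rw [div_eq_iff hne, hm]
    generalize √(4 * D - E ^ 2) = r at hr hr2
    have hD0 : (D : ℝ) ≠ 0 := by positivity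
    apply Complex.ext
    · simp only [Complex.mul_re, Complex.sub_re, Complex.one_re, Complex.sub_im, Complex.one_im,
        Complex.mul_im]
      field_simp
      linear_combination (E * (3 * D + 1)) * hr2
    · simp only [Complex.mul_re, Complex.sub_re, Complex.one_re, Complex.sub_im, Complex.one_im,
        Complex.mul_im]
      field_simp
      linear_combination (-(D + 1) * r) * hr2
  rw [key]

open Crest.ProbabilityR.RandomMatrix in
theorem rho_clean {D : ℕ} (hD : 2 ≤ D) {E : ℝ} (hE : E ^ 2 < 4 * D) :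
    rho D 0 (Measure.dirac J0) E = kestenMcKayDensity (D + 1) E := by
  simp only [rho, T5_m0 hD hE, integral_const, probReal_univ, one_smul, T5_im hD hE,
    kestenMcKayDensity]
  push_cast
  rw [add_sub_cancel_right, div_div]
  congr 1
  ring

end Crest.Agent.R166
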