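import Crest.Agent.R166.T1
import Crest.Agent.R166.T2
import Crest.Agent.R166.T3
import Crest.Agent.R166.T4
import Crest.Agent.R166.T5
import Crest.Agent.R166.T6
import Crest.Agent.R166.T7
import Crest.Agent.R166.T8
import Crest.Agent.R166.Spec

/-! Part T -/
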