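import Crest.Agent.R166.Defs

/-! # Independent children: integration tools -/

set_option autoImplicit false
set_option linter.unusedVariables false
set_option linter.unusedSectionVars false

open MeasureTheory ProbabilityTheory Filter Topology Matrix
open scoped ENNReal BoundedContinuousFunction

namespace Crest.Agent.R166

section
variable {X : Type} [MeasurableSpace X] {D : ℕ}

theorem integral_pi_eval (μ : Measure X) [IsProbabilityMeasure μ] {f : X → ℝ} (hf : Measurable f)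
    (c : Fin D) : ∫ M, f (M c) ∂(Measure.pi fun _ : Fin D => μ) = ∫ x, f x ∂μ := by
  exact integral_comp_eval (μ := fun _ : Fin D => μ) hf.aestronglyMeasurable

theorem integral_pi_evalC (μ : Measure X) [IsProbabilityMeasure μ] {f : X → ℂ} (hf : Measurable f)
    (c : Fin D) : ∫ M, f (M c) ∂(Measure.pi fun _ : Fin D => μ) = ∫ x, f x ∂μ := by
  exact integral_comp_eval (μ := fun _ : Fin D => μ) hf.aestronglyMeasurable

theorem integral_pi_pair (μ : Measure X) [IsProbabilityMeasure μ] {f g : X → ℝ}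
    (hf : Measurable f) (hg : Measurable g) {c c' : Fin D} (h : c ≠ c') :
    ∫ M, f (M c) * g (M c') ∂(Measure.pi fun _ : Fin D => μ) = (∫ x, f x ∂μ) * ∫ x, g x ∂μ := by
  have h1 : iIndepFun (fun (i : Fin D) (M : Fin D → X) => M i) (Measure.pi fun _ : Fin D => μ) :=
    iIndepFun_pi (X := fun _ : Fin D => fun x : X => x) fun _ => aemeasurable_id
  have h2 := (h1.indepFun h).comp hf hg
  have h3 := h2.integral_fun_mul_eq_mul_integral
    (hf.comp (measurable_pi_apply c)).aestronglyMeasurable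
    (hg.comp (measurable_pi_apply c')).aestronglyMeasurable
  simp only [Function.comp] at h3
  rw [h3, integral_comp_eval (μ := fun _ : Fin D => μ) hf.aestronglyMeasurable,
    integral_comp_eval (μ := fun _ : Fin D => μ) hg.aestronglyMeasurable]

theorem ae_pi_forall (μ : Measure X) [IsProbabilityMeasure μ] {P : X → Prop} (h : ∀ᵐ x ∂μ, P x) :
    ∀ᵐ M ∂(Measure.pi fun _ : Fin D => μ), ∀ c, P (M c) := by
  exact ae_all_iff.mpr fun c =>
    (measurePreserving_eval (fun _ : Fin D => μ) c).quasiMeasurePreserving.ae h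

/-- a.e.-bounded measurable functions are integrable -/
theorem integrable_of_ae_bdd {E : Type} [NormedAddCommGroup E] [MeasurableSpace E] [BorelSpace E]
    [SecondCountableTopology E] (μ : Measure X) [IsFiniteMeasure μ] {f : X → E}
    (hf : Measurable f) {B : ℝ} (hB : ∀ᵐ x ∂μ, ‖f x‖ ≤ B) : Integrable f μ :=
  Integrable.of_bound hf.aestronglyMeasurable B hB

theorem T0g_int_sq (μ : Measure X) [IsFiniteMeasure μ] {u : X → ℝ} (hu : Measurable u) {K : ℝ}
    (hK : ∀ᵐ x ∂μ, |u x| ≤ K) : Integrable (fun x => u x ^ 2) μ := by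
  refine Integrable.of_bound (hu.pow_const 2).aestronglyMeasurable (K ^ 2)
    (hK.mono fun x hx => ?_)
  rw [Real.norm_eq_abs, abs_pow]
  exact pow_le_pow_left₀ (abs_nonneg _) hx 2

theorem T0g_sq (μ : Measure X) [IsProbabilityMeasure μ] {u : X → ℝ} (hu : Measurable u) {K : ℝ}
    (hK : ∀ᵐ x ∂μ, |u x| ≤ K) :
    Integrable (fun M : Fin D → X => (∑ c, u (M c)) ^ 2) (Measure.pi fun _ : Fin D => μ) ∧
    ∫ M, (∑ c, u (M c)) ^ 2 ∂(Measure.pi fun _ : Fin D => μ) =
      D * ∫ x, u x ^ 2 ∂μ + D * (D - 1) * (∫ x, u x ∂μ) ^ 2 := by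
  have e : (fun M : Fin D → X => (∑ c, u (M c)) ^ 2) =
      fun M => ∑ c, ∑ c', u (M c) * u (M c') := by
    funext M
    rw [sq, Finset.sum_mul_sum]
  have hi : ∀ c c' : Fin D, Integrable (fun M : Fin D → X => u (M c) * u (M c'))
      (Measure.pi fun _ : Fin D => μ) := by
    intro c c'
    refine Integrable.of_bound ((hu.comp (measurable_pi_apply c)).mul
      (hu.comp (measurable_pi_apply c'))).aestronglyMeasurable (K * K)
      ((ae_pi_forall (D := D) μ hK).mono fun M hM => ?_)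
    rw [Real.norm_eq_abs, abs_mul]
    exact mul_le_mul (hM _) (hM _) (abs_nonneg _) ((abs_nonneg _).trans (hM c))
  rw [e]
  refine ⟨integrable_finsetSum _ fun c _ => integrable_finsetSum _ fun c' _ => hi c c', ?_⟩
  rw [integral_finsetSum _ fun c _ => integrable_finsetSum _ fun c' _ => hi c c']
  have h1 : ∀ c : Fin D, ∫ M, ∑ c', u (M c) * u (M c') ∂(Measure.pi fun _ : Fin D => μ) =
      ∫ x, u x ^ 2 ∂μ + (D - 1) * (∫ x, u x ∂μ) ^ 2 := by
    intro c
    rw [integral_finsetSum _ fun c' _ => hi c c']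
    have h2 : ∀ c' ∈ (Finset.univ : Finset (Fin D)),
        ∫ M, u (M c) * u (M c') ∂(Measure.pi fun _ : Fin D => μ) =
        (if c = c' then ∫ x, u x ^ 2 ∂μ - (∫ x, u x ∂μ) ^ 2 else 0) + (∫ x, u x ∂μ) ^ 2 := by
      intro c' _
      split_ifs with h
      · subst h
        rw [integral_comp_eval (μ := fun _ : Fin D => μ) (f := fun x => u x * u x)
          (hu.mul hu).aestronglyMeasurable]
        simp only [← sq]
        ring
      · rw [integral_pi_pair μ hu hu h, zero_add, sq]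
    rw [Finset.sum_congr rfl h2]
    simp only [Finset.sum_add_distrib, Finset.sum_ite_eq, Finset.mem_univ, if_true,
      Finset.sum_const, Finset.card_univ, Fintype.card_fin, nsmul_eq_mul]
    ring
  rw [Finset.sum_congr rfl fun c _ => h1 c]
  simp only [Finset.sum_const, Finset.card_univ, Fintype.card_fin, nsmul_eq_mul]
  ring

/-- `E |Σ ξ(M c)|² = D E|ξ|² + D (D - 1) |E ξ|²` (expand with real and imaginary parts) -/
theorem integral_pi_sum_sq (μ : Measure X) [IsProbabilityMeasure μ] {ξ : X → ℂ}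
    (hξ : Measurable ξ) {B : ℝ} (hB : ∀ᵐ x ∂μ, ‖ξ x‖ ≤ B) :
    ∫ M, ‖∑ c, ξ (M c)‖ ^ 2 ∂(Measure.pi fun _ : Fin D => μ) =
      D * (∫ x, ‖ξ x‖ ^ 2 ∂μ) + D * (D - 1) * ‖∫ x, ξ x ∂μ‖ ^ 2 := by
  have hn : ∀ w : ℂ, ‖w‖ ^ 2 = w.re ^ 2 + w.im ^ 2 := fun w => by
    rw [Complex.sq_norm, Complex.normSq_apply]; ring
  have hre : Measurable fun x => (ξ x).re := Complex.measurable_re.comp hξ
  have him : Measurable fun x => (ξ x).im := Complex.measurable_im.comp hξ
  have bre : ∀ᵐ x ∂μ, |(ξ x).re| ≤ B := hB.mono fun x hx => (Complex.abs_re_le_norm _).trans hx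
  have bim : ∀ᵐ x ∂μ, |(ξ x).im| ≤ B := hB.mono fun x hx => (Complex.abs_im_le_norm _).trans hx
  obtain ⟨i1, h1⟩ := T0g_sq (D := D) μ hre bre
  obtain ⟨i2, h2⟩ := T0g_sq (D := D) μ him bim
  have hi : Integrable ξ μ := integrable_of_ae_bdd μ hξ hB
  simp only [hn, Complex.re_sum, Complex.im_sum]
  rw [integral_add i1 i2, integral_add (T0g_int_sq μ hre bre) (T0g_int_sq μ him bim)]
  have e1 : (∫ x, ξ x ∂μ).re = ∫ x, (ξ x).re ∂μ := (integral_re hi).symm
  have e2 : (∫ x, ξ x ∂μ).im = ∫ x, (ξ x).im ∂μ := (integral_im hi).symm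
  rw [e1, e2, h1, h2]
  ring

/-- linear part plus an error: mean and second moment.
`|a + b|² ≤ (3/2) |a|² + 3 |b|²`, `D |m|⁴ ≤ 1/D ≤ 1/2`, `D (D-1) |m|⁴ ≤ 1`. -/
theorem ab_abstract (hD : 2 ≤ D) (μ : Measure X) [IsProbabilityMeasure μ] {ξ : X → ℂ}
    (hξ : Measurable ξ) {B : ℝ} (hB : ∀ᵐ x ∂μ, ‖ξ x‖ ≤ B) {m : ℂ} (hm : D * ‖m‖ ^ 2 ≤ 1)
    {ξ' : (Fin D → X) → ℂ} (hξ' : Measurable ξ') {Err : (Fin D → X) → ℝ} (hE : Measurable Err)
    {B' : ℝ} (hB' : ∀ᵐ M ∂(Measure.pi fun _ : Fin D => μ), ‖Err M‖ ≤ B')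
    (h : ∀ᵐ M ∂(Measure.pi fun _ : Fin D => μ), ‖ξ' M - m ^ 2 * ∑ c, ξ (M c)‖ ≤ Err M) :
    ‖(∫ M, ξ' M ∂(Measure.pi fun _ : Fin D => μ)) - D * m ^ 2 * ∫ x, ξ x ∂μ‖ ≤
        ∫ M, Err M ∂(Measure.pi fun _ : Fin D => μ) ∧
      ∫ M, ‖ξ' M‖ ^ 2 ∂(Measure.pi fun _ : Fin D => μ) ≤
        3 / 4 * (∫ x, ‖ξ x‖ ^ 2 ∂μ) + 3 / 2 * ‖∫ x, ξ x ∂μ‖ ^ 2 +
          3 * ∫ M, Err M ^ 2 ∂(Measure.pi fun _ : Fin D => μ) := by
  have hall := ae_pi_forall (D := D) μ hB
  have hic : ∀ c : Fin D, Integrable (fun M : Fin D → X => ξ (M c))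
      (Measure.pi fun _ : Fin D => μ) := fun c =>
    integrable_of_ae_bdd _ (hξ.comp (measurable_pi_apply c)) (hall.mono fun M hM => hM c)
  have hEi : Integrable Err (Measure.pi fun _ : Fin D => μ) := integrable_of_ae_bdd _ hE hB'
  have hS : Integrable (fun M : Fin D → X => m ^ 2 * ∑ c, ξ (M c))
      (Measure.pi fun _ : Fin D => μ) := (integrable_finsetSum _ fun c _ => hic c).const_mul _
  constructor
  · have hd : Integrable (fun M : Fin D → X => ξ' M - m ^ 2 * ∑ c, ξ (M c))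
        (Measure.pi fun _ : Fin D => μ) :=
      hEi.mono' (hξ'.aestronglyMeasurable.sub hS.aestronglyMeasurable) h
    have hGi : Integrable ξ' (Measure.pi fun _ : Fin D => μ) :=
      (hd.add hS).congr (ae_of_all _ fun M => by simp)
    have e1 : ∫ M, m ^ 2 * ∑ c, ξ (M c) ∂(Measure.pi fun _ : Fin D => μ) =
        D * m ^ 2 * ∫ x, ξ x ∂μ := by
      rw [integral_const_mul, integral_finsetSum _ fun c _ => hic c]
      simp only [integral_comp_eval (μ := fun _ : Fin D => μ) hξ.aestronglyMeasurable,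
        Finset.sum_const, Finset.card_univ, Fintype.card_fin, nsmul_eq_mul]
      ring
    rw [← e1, ← integral_sub hGi hS]
    exact norm_integral_le_of_norm_le hEi h
  · have i1 : Integrable (fun M : Fin D → X => ‖∑ c, ξ (M c)‖ ^ 2)
        (Measure.pi fun _ : Fin D => μ) := by
      refine T0g_int_sq _ (u := fun M : Fin D → X => ‖∑ c, ξ (M c)‖)
        (Finset.measurable_sum _ fun c _ => hξ.comp (measurable_pi_apply c)).norm (K := D * B)
        (hall.mono fun M hM => ?_)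
      rw [abs_norm]
      refine (norm_sum_le _ _).trans ((Finset.sum_le_card_nsmul _ _ B fun c _ => hM c).trans ?_)
      simp
    have i2 : Integrable (fun M => Err M ^ 2) (Measure.pi fun _ : Fin D => μ) :=
      T0g_int_sq _ hE hB'
    have h1 := integral_pi_sum_sq (D := D) μ hξ hB
    have hI : Integrable (fun M : Fin D → X => 3 / 2 * ‖m‖ ^ 4 * ‖∑ c, ξ (M c)‖ ^ 2 +
        3 * Err M ^ 2) (Measure.pi fun _ : Fin D => μ) := (i1.const_mul _).add (i2.const_mul _)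
    refine (integral_mono_of_nonneg (ae_of_all _ fun M => sq_nonneg _) hI ?_).trans ?_
    · filter_upwards [h] with M hM
      have e1 : ‖ξ' M‖ ≤ ‖m‖ ^ 2 * ‖∑ c, ξ (M c)‖ + Err M := by
        have := norm_add_le (m ^ 2 * ∑ c, ξ (M c)) (ξ' M - m ^ 2 * ∑ c, ξ (M c))
        rw [add_sub_cancel, norm_mul, norm_pow] at this
        linarith
      have e2 := pow_le_pow_left₀ (norm_nonneg _) e1 2
      nlinarith [sq_nonneg (‖m‖ ^ 2 * ‖∑ c, ξ (M c)‖ - 2 * Err M)]
    · rw [integral_add (i1.const_mul _) (i2.const_mul _), integral_const_mul, integral_const_mul,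
        h1]
      have ha0 : 0 ≤ ∫ x, ‖ξ x‖ ^ 2 ∂μ := integral_nonneg fun x => sq_nonneg _
      have hD' : (2 : ℝ) ≤ D := by exact_mod_cast hD
      have hm2 : ‖m‖ ^ 2 ≤ 1 / 2 := by nlinarith [sq_nonneg ‖m‖]
      have q1 : ‖m‖ ^ 4 * D ≤ 1 / 2 := by nlinarith [sq_nonneg ‖m‖]
      have q2 : ‖m‖ ^ 4 * (D * (D - 1)) ≤ 1 := by
        have : (D * ‖m‖ ^ 2) ^ 2 ≤ 1 := pow_le_one₀ (by positivity) hm
        have h4 : 0 ≤ ‖m‖ ^ 4 * D := by positivity
        nlinarith
      have r3 := mul_le_mul_of_nonneg_right q1 ha0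
      have r4 := mul_le_mul_of_nonneg_right q2 (sq_nonneg ‖∫ x, ξ x ∂μ‖)
      nlinarith

/-- Cauchy–Schwarz on a probability space -/
theorem sq_integral_le (μ : Measure X) [IsProbabilityMeasure μ] {f : X → ℝ} (hf : Measurable f)
    {B : ℝ} (hB : ∀ᵐ x ∂μ, ‖f x‖ ≤ B) : (∫ x, f x ∂μ) ^ 2 ≤ ∫ x, f x ^ 2 ∂μ := by
  have hi : Integrable f μ := integrable_of_ae_bdd μ hf hB
  have hi2 : Integrable (fun x => f x ^ 2) μ := T0g_int_sq μ hf hB
  have h1 : ∫ x, 2 * (∫ y, f y ∂μ) * f x ∂μ ≤ ∫ x, f x ^ 2 + (∫ y, f y ∂μ) ^ 2 ∂μ :=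
    integral_mono (hi.const_mul _) (hi2.add (integrable_const _)) fun x => by
      simp only []
      nlinarith [sq_nonneg (f x - ∫ y, f y ∂μ)]
  rw [integral_const_mul, integral_add hi2 (integrable_const _), integral_const] at h1
  simp only [probReal_univ, smul_eq_mul, one_mul] at h1
  nlinarith

/-- a bounded nonnegative function that is `≤ t₀` off an event of probability `≤ τ`:
`(E L)² ≤ 2 t₀² + 2 τ E L²` -/
theorem sq_integral_le_split (μ : Measure X) [IsProbabilityMeasure μ] {L : X → ℝ}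
    (hL : Measurable L) {B : ℝ} (hB : ∀ᵐ x ∂μ, 0 ≤ L x ∧ L x ≤ B) {S : Set X}
    (hS : MeasurableSet S) {t₀ τ : ℝ} (ht : 0 ≤ t₀) (hτ : μ.real S ≤ τ)
    (h : ∀ᵐ x ∂μ, x ∉ S → L x ≤ t₀) :
    (∫ x, L x ∂μ) ^ 2 ≤ 2 * t₀ ^ 2 + 2 * τ * ∫ x, L x ^ 2 ∂μ := by
  have hB' : ∀ᵐ x ∂μ, |L x| ≤ B := hB.mono fun x hx => by rw [abs_of_nonneg hx.1]; exact hx.2
  have hi : Integrable L μ := integrable_of_ae_bdd μ hL hB'
  have hi2 : Integrable (fun x => L x ^ 2) μ := T0g_int_sq μ hL hB'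
  have hiS : Integrable (S.indicator L) μ := hi.indicator hS
  have hi1 : Integrable (S.indicator fun _ => (1 : ℝ)) μ := (integrable_const _).indicator hS
  have e1 : ∫ x, S.indicator (fun _ => (1 : ℝ)) x ∂μ = μ.real S := by
    rw [integral_indicator_const _ hS, smul_eq_mul, mul_one]
  have hb0 : 0 ≤ ∫ x, L x ^ 2 ∂μ := integral_nonneg fun x => sq_nonneg _
  have h1 : ∀ a : ℝ, 0 ≤ μ.real S * (a * a) + (-2 * ∫ x, S.indicator L x ∂μ) * a +
      ∫ x, L x ^ 2 ∂μ := by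
    intro a
    have h2 : ∫ x, 2 * a * S.indicator L x ∂μ ≤
        ∫ x, L x ^ 2 + a * a * S.indicator (fun _ => (1 : ℝ)) x ∂μ :=
      integral_mono (hiS.const_mul _) (hi2.add (hi1.const_mul _)) fun x => by
        by_cases hx : x ∈ S
        · simp only [Set.indicator_of_mem hx]
          nlinarith [sq_nonneg (L x - a)]
        · simp only [Set.indicator_of_notMem hx]
          nlinarith [sq_nonneg (L x)]
    rw [integral_const_mul, integral_add hi2 (hi1.const_mul _), integral_const_mul, e1] at h2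
    linarith
  have h2 := discrim_le_zero h1
  rw [discrim] at h2
  have h3 : ∫ x, L x ∂μ ≤ ∫ x, t₀ + S.indicator L x ∂μ := by
    refine integral_mono_ae hi ((integrable_const _).add hiS) ?_
    filter_upwards [h] with x hx
    by_cases hxS : x ∈ S
    · simp only [Set.indicator_of_mem hxS]
      linarith
    · simp only [Set.indicator_of_notMem hxS]
      linarith [hx hxS]
  rw [integral_add (integrable_const _) hiS, integral_const] at h3
  simp only [probReal_univ, smul_eq_mul, one_mul] at h3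
  have h4 : 0 ≤ ∫ x, L x ∂μ := integral_nonneg_of_ae (hB.mono fun x hx => hx.1)
  have h5 := pow_le_pow_left₀ h4 h3 2
  have h6 := mul_le_mul_of_nonneg_right hτ hb0
  nlinarith [sq_nonneg (t₀ - ∫ x, S.indicator L x ∂μ)]

end

theorem measurable_zeta (m : ℂ) : Measurable (zeta m) := by
  unfold zeta; fun_prop

theorem measurable_recF {D : ℕ} (z : ℂ) :
    Measurable fun p : ℂ × (Fin D → ℂ) => recF z p.1 p.2 := by
  unfold recF; fun_prop

theorem recF_im_pos {D : ℕ} (hD : 1 ≤ D) {z t : ℂ} {M : Fin D → ℂ} (hz : 0 ≤ z.im) (ht : 0 ≤ t.im)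
    (hM : ∀ c, 0 < (M c).im) : 0 < (recF z t M).im := by
  have h1 : 0 < (z + t + ∑ c, M c).im := by
    rw [Complex.add_im, Complex.add_im, Complex.im_sum]
    have : 0 < ∑ c, (M c).im :=
      Finset.sum_pos (fun c _ => hM c) ⟨⟨0, hD⟩, Finset.mem_univ _⟩
    linarith
  have h2 : z + t + ∑ c, M c ≠ 0 := fun e => by simp [e] at h1
  unfold recF
  rw [neg_div, one_div, Complex.neg_im, Complex.inv_im, neg_div, neg_neg]
  exact div_pos h1 (Complex.normSq_pos.2 h2)

/-- elementary consequences of `Ref` -/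
theorem Ref.bounds {D : ℕ} (hD : 2 ≤ D) {c₀ : ℝ} (hc : 0 < c₀) {z m : ℂ} (h : Ref D c₀ z m) :
    m ≠ 0 ∧ c₀ ≤ ‖m‖ ∧ ‖m‖ ≤ 1 ∧ c₀ ≤ 1 ∧ ‖1 / m‖ ≤ 1 / c₀ ∧ ‖z‖ ≤ 2 / c₀ ∧
      (1 / m).im ≤ -c₀ ∧ z + D * m = -(1 / m) := by
  have hD' : (2 : ℝ) ≤ D := by exact_mod_cast hD
  have h1 : c₀ ≤ ‖m‖ := h.mim.trans ((le_abs_self _).trans (Complex.abs_im_le_norm m))
  have h0 : 0 < ‖m‖ := hc.trans_le h1
  have hm : m ≠ 0 := norm_pos_iff.1 h0
  have hn := h.nsq
  have h2 : ‖m‖ ≤ 1 := by nlinarith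
  have him : 0 < m.im := hc.trans_le h.mim
  have h5 : ‖1 / m‖ ≤ 1 / c₀ := by
    rw [norm_div, norm_one]
    exact one_div_le_one_div_of_le hc h1
  have h7 : z + D * m = -(1 / m) := by
    have := h.eqn
    field_simp
    linear_combination this
  refine ⟨hm, h1, h2, h1.trans h2, h5, ?_, ?_, h7⟩
  · have e : z = -(1 / m) - D * m := by rw [← h7]; ring
    have h8 : ‖(D : ℂ) * m‖ ≤ 1 / c₀ := by
      rw [norm_mul, Complex.norm_natCast, le_div_iff₀ hc]
      have := mul_le_mul_of_nonneg_left h1 (show (0 : ℝ) ≤ D * ‖m‖ by positivity)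
      nlinarith
    rw [e]
    refine (norm_sub_le _ _).trans ?_
    rw [norm_neg]
    have : 2 / c₀ = 1 / c₀ + 1 / c₀ := by ring
    linarith
  · rw [one_div, Complex.inv_im, Complex.normSq_eq_norm_sq, div_le_iff₀ (by positivity)]
    have h9 : ‖m‖ ^ 2 ≤ 1 := pow_le_one₀ h0.le h2
    nlinarith [h.mim]

end Crest.Agent.R166
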