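import Crest.Agent.R166.T0f
import Crest.Agent.R166.T0g

/-! # The tree law is a fixed point of the recursion -/

set_option autoImplicit false
set_option linter.unusedVariables false
set_option linter.unusedSectionVars false

open MeasureTheory ProbabilityTheory Filter Topology Matrix
open scoped ENNReal BoundedContinuousFunction

namespace Crest.Agent.R166

theorem T0h_split (D : ℕ) (β : Measure J) [IsProbabilityMeasure β] :
    MeasurePreserving (fun e : Env D => (e [], fun c => e.sub c)) (envLaw D β)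
      (β.prod (Measure.pi fun _ : Fin D => envLaw D β)) :=
  ⟨(measurable_pi_apply _).prodMk (measurable_pi_lambda _ fun c =>
    measurable_pi_lambda _ fun l => measurable_pi_apply _), envLaw_split D β⟩

section
variable {D : ℕ} {V : Type} [NormedAddCommGroup V] [NormedSpace ℝ V] [CompleteSpace V]
  [MeasurableSpace V] [BorelSpace V] [SecondCountableTopology V]

/-- `envLaw_split`, `integral_map`, `integral_prod` and `Measure.pi_map_pi` -/
theorem integral_tree_fix (β : Measure J) [IsProbabilityMeasure β] {X : Type} [MeasurableSpace X]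
    {F : Env D → X} (hF : Measurable F) {ψ : J × (Fin D → X) → V} (hψ : Measurable ψ)
    (hi : Integrable (fun e : Env D => ψ (e [], fun c => F (e.sub c))) (envLaw D β)) :
    ∫ e, ψ (e [], fun c => F (e.sub c)) ∂(envLaw D β) =
      ∫ v, ∫ M, ψ (v, M) ∂(Measure.pi fun _ : Fin D => (envLaw D β).map F) ∂β := by
  have : IsProbabilityMeasure ((envLaw D β).map F) :=
    Measure.isProbabilityMeasure_map hF.aemeasurable
  have h1 : MeasurePreserving (fun e : Env D => (e [], fun c => F (e.sub c))) (envLaw D β)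
      (β.prod (Measure.pi fun _ : Fin D => (envLaw D β).map F)) :=
    ((MeasurePreserving.id β).prod (measurePreserving_pi (fun _ : Fin D => envLaw D β)
      (fun _ : Fin D => (envLaw D β).map F) (f := fun _ => F)
      fun _ => hF.measurePreserving _)).comp (T0h_split D β)
  have h2 := (h1.integrable_comp hψ.aestronglyMeasurable).1 hi
  rw [← integral_prod _ h2, ← h1.map_eq,
    integral_map h1.measurable.aemeasurable hψ.aestronglyMeasurable]

theorem integral_envLaw_comb (β : Measure J) [IsProbabilityMeasure β] {φ : Env D → V}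
    (hφ : Measurable φ) (hi : Integrable φ (envLaw D β)) :
    ∫ e, φ e ∂(envLaw D β) =
      ∫ v, ∫ f, φ (comb v f) ∂(Measure.pi fun _ : Fin D => envLaw D β) ∂β := by
  have h1 := T0b_comb D β
  have h2 := h1.integrable_comp_of_integrable hi
  rw [← h1.map_eq, integral_map h1.measurable.aemeasurable hφ.aestronglyMeasurable, h1.map_eq]
  exact integral_prod _ h2

end

/-- the recursion of `mT` in the form `recF`, around any base point `z₀` -/
theorem mT_eq_recF {D : ℕ} {s : ℝ} {z : ℂ} (hz : 0 < z.im) (z₀ : ℂ) (e : Env D) :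
    mT s z e = recF z₀ (z - z₀ - ((s * (e [] : ℝ) : ℝ) : ℂ)) fun c => mT s z (e.sub c) := by
  rw [mT_rec hz e, recF, neg_div, ← div_neg]
  congr 1
  ring

theorem mT_comb_recF {D : ℕ} {s : ℝ} {z : ℂ} (hz : 0 < z.im) (z₀ : ℂ) (v : J) (f : Fin D → Env D) :
    mT s z (comb v f) = recF z₀ (z - z₀ - ((s * (v : ℝ) : ℝ) : ℂ)) fun c => mT s z (f c) :=
  mT_eq_recF hz z₀ (comb v f)

/-- an a.e. property of environments holds a.e. for all sub-environments -/
theorem ae_envSub {D : ℕ} (β : Measure J) [IsProbabilityMeasure β] {P : Env D → Prop}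
    (h : ∀ᵐ e ∂(envLaw D β), P e) : ∀ᵐ e ∂(envLaw D β), ∀ c, P (e.sub c) := by
  refine ae_all_iff.2 fun c => ?_
  exact (((measurePreserving_eval (fun _ : Fin D => envLaw D β) c).comp
    measurePreserving_snd).comp (T0h_split D β)).quasiMeasurePreserving.ae h

theorem ae_star {D : ℕ} (β : Measure J) [IsProbabilityMeasure β] {P : Env D → Prop}
    (h : ∀ᵐ e ∂(envLaw D β), P e) :
    ∀ᵐ σ ∂(starLaw D β), (∀ i, P (σ.2 i)) ∧ ∀ i, P (outEnv σ i) := by
  refine Eventually.and (ae_all_iff.2 fun i => ?_) (ae_all_iff.2 fun i => ?_)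
  · exact (measurePreserving_snd.comp (T0b_edge D β i)).quasiMeasurePreserving.ae h
  · exact (measurePreserving_fst.comp (T0b_edge D β i)).quasiMeasurePreserving.ae h

/-- the recursion at the real energy -/
theorem m0_rec {D : ℕ} (hD : 1 ≤ D) {s E : ℝ} {β : Measure J} [IsProbabilityMeasure β]
    (hT : TreeOK D s β E) : ∀ᵐ e ∂(envLaw D β),
      m0 s E e = 1 / (((s * (e [] : ℝ) : ℝ) : ℂ) - E - ∑ c, m0 s E (e.sub c)) := by
  filter_upwards [hT.1, ae_envSub β hT.1] with e h1 h2
  refine tendsto_nhds_unique h1.1 ?_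
  have hne : ((s * (e [] : ℝ) : ℝ) : ℂ) - E - ∑ c, m0 s E (e.sub c) ≠ 0 := by
    intro h0
    have h3 := congrArg Complex.im h0
    simp only [Complex.sub_im, Complex.ofReal_im, Complex.im_sum, Complex.zero_im] at h3
    have h4 : 0 < ∑ c, (m0 s E (e.sub c)).im :=
      Finset.sum_pos (fun c _ => (h2 c).2) ⟨⟨0, hD⟩, Finset.mem_univ _⟩
    linarith
  refine (tendsto_const_nhds.div ((tendsto_const_nhds.sub (tendsto_zj E)).sub
    (tendsto_finsetSum _ fun c _ => (h2 c).1)) hne).congr fun j => ?_
  exact (mT_rec (zj_im_pos E j) e).symm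

/-- the edge Green function averages like the star Green function (`starLaw_edge`, `gC_edge`,
`mT_comb`; for `D = 0` compute directly) -/
theorem integral_gE_eq_gO {D : ℕ} (hD : 1 ≤ D) (s : ℝ) (β : Measure J) [IsProbabilityMeasure β]
    {z : ℂ} (hz : 0 < z.im) :
    ∫ e, gE (mT s z e.1) (mT s z e.2) 0 0 ∂((envLaw D β).prod (envLaw D β)) =
      ∫ σ, gO (((s * (σ.1 : ℝ) : ℝ) : ℂ)) z (fun i => mT s z (σ.2 i)) ∂(starLaw D β) := by
  have h1 := T0b_edge D β 0
  have hm : Measurable fun e : Env D × Env D => gE (mT s z e.1) (mT s z e.2) 0 0 :=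
    measurable_gE00.comp (((measurable_mT hz).comp measurable_fst).prodMk
      ((measurable_mT hz).comp measurable_snd))
  rw [← h1.map_eq, integral_map h1.measurable.aemeasurable hm.aestronglyMeasurable]
  refine integral_congr_ae (ae_of_all _ fun σ => ?_)
  have h2 := gC_edge (t := ((s * (σ.1 : ℝ) : ℝ) : ℂ)) (z := z) (m := fun i => mT s z (σ.2 i))
    (Complex.ofReal_im _) hz.le (fun i => mT_im_pos hz _) hD 0 0 0
  simp only [outEnv, mT_comb hz]
  exact h2

end Crest.Agent.R166
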