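import Crest.Agent.R166.Gauss
import Crest.Agent.R166.T0a
import Crest.Agent.R166.T0b
import Crest.Agent.R166.T0c
import Crest.Agent.R166.T0d
import Crest.Agent.R166.T0e
import Crest.Agent.R166.T0f
import Crest.Agent.R166.T0g
import Crest.Agent.R166.T0h

/-! Part T0 -/
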