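import Crest.Agent.R166.Defs

/-! # Resolvent identities -/

set_option autoImplicit false
set_option linter.unusedVariables false
set_option linter.unusedSectionVars false

open MeasureTheory ProbabilityTheory Filter Topology Matrix
open scoped ENNReal BoundedContinuousFunction

namespace Crest.Agent.R166

section
variable {ι : Type} [Fintype ι] [DecidableEq ι] {H : Matrix ι ι ℝ} {z : ℂ}

theorem spec1_herm (hH : H.IsSymm) : H.IsHermitian := herm_of_symm fun a b => (hH.apply a b).symm

theorem res_mul (hH : H.IsSymm) (hz : z.im ≠ 0) : res H z * (cx H - z • 1) = 1 := by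
  exact res_mul_sub (spec1_herm hH) hz

theorem mul_res (hH : H.IsSymm) (hz : z.im ≠ 0) : (cx H - z • 1) * res H z = 1 := by
  exact sub_mul_res (spec1_herm hH) hz

theorem res_symm' (hH : H.IsSymm) (z : ℂ) (x y : ι) : res H z x y = res H z y x := by
  have : (res H z)ᵀ = res H z := by
    rw [res, Matrix.transpose_nonsing_inv, Matrix.transpose_sub, Matrix.transpose_smul,
      Matrix.transpose_one, ← cx_transpose, hH.eq]
  exact (congrFun (congrFun this x) y).symm

theorem res_conj (z : ℂ) (x y : ι) :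
    res H ((starRingEnd ℂ) z) x y = (starRingEnd ℂ) (res H z x y) := by
  have : ((res H z)ᴴ)ᵀ = res H ((starRingEnd ℂ) z) := by
    rw [res, res, Matrix.conjTranspose_nonsing_inv, Matrix.transpose_nonsing_inv]
    congr 1
    ext a b
    by_cases h : a = b
    · simp [h]
    · simp [h, Ne.symm h]
  rw [← this]
  rfl

/-- second resolvent identity -/
theorem res_sub_res' {H' : Matrix ι ι ℝ} (hH : H.IsSymm) (hH' : H'.IsSymm) (hz : z.im ≠ 0) :
    res H' z - res H z = -(res H z * cx (H' - H) * res H' z) := by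
  have := res_sub_res (spec1_herm hH) (spec1_herm hH') hz hz
  rw [sub_self, zero_smul, add_zero, ← cx_sub] at this
  rw [← this, neg_sub]

/-- first resolvent identity -/
theorem res_sub_res_z {z' : ℂ} (hH : H.IsSymm) (hz : z.im ≠ 0) (hz' : z'.im ≠ 0) :
    res H z - res H z' = (z - z') • (res H z * res H z') := by
  have := res_sub_res (spec1_herm hH) (spec1_herm hH) hz hz'
  rw [this, sub_self, zero_add, Matrix.mul_smul, Matrix.mul_one, Matrix.smul_mul]

/-- Ward identity, bilinear form -/
theorem ward_bilin (hH : H.IsSymm) (hz : z.im ≠ 0) (x y : ι) :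
    (((res H z x y).im : ℝ) : ℂ) = z.im * ∑ v, res H z v x * (starRingEnd ℂ) (res H z v y) := by
  have hz' : ((starRingEnd ℂ) z).im ≠ 0 := by simpa using hz
  have h := congrFun (congrFun (res_sub_res_z hH hz hz') x) y
  rw [Matrix.sub_apply, res_conj, Complex.sub_conj, Complex.sub_conj, Matrix.smul_apply,
    Matrix.mul_apply, smul_eq_mul] at h
  have e : ∑ v, res H z x v * res H ((starRingEnd ℂ) z) v y =
      ∑ v, res H z v x * (starRingEnd ℂ) (res H z v y) :=
    Finset.sum_congr rfl fun v _ => by rw [res_conj, res_symm' hH z x v]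
  rw [e] at h
  push_cast at h
  apply mul_left_cancel₀ (mul_ne_zero (two_ne_zero (α := ℂ)) Complex.I_ne_zero)
  linear_combination h

theorem ward_diag (hH : H.IsSymm) (hz : z.im ≠ 0) (x : ι) :
    (res H z x x).im = z.im * ∑ v, ‖res H z v x‖ ^ 2 := by
  rw [← ward (spec1_herm hH) hz x]
  simp only [res_symm' hH z x]

/-- `‖G q‖ ≤ ‖q‖ / Im z` -/
theorem res_mulVec_sq_le (hH : H.IsSymm) (hz : 0 < z.im) (q : ι → ℂ) :
    z.im ^ 2 * ∑ v, ‖(res H z *ᵥ q) v‖ ^ 2 ≤ ∑ v, ‖q v‖ ^ 2 := by
  set w := res H z *ᵥ q with hw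
  have hq : ∀ v, q v = ∑ y, (H v y : ℂ) * w y - z * w v := by
    intro v
    have : (cx H - z • 1) *ᵥ w = q := by
      rw [hw, Matrix.mulVec_mulVec, mul_res hH hz.ne', Matrix.one_mulVec]
    rw [← this, Matrix.sub_mulVec, Matrix.smul_mulVec, Matrix.one_mulVec]
    rfl
  have hsym : ∑ v, (∑ y, H v y * (w y).re) * (w v).im = ∑ v, (∑ y, H v y * (w y).im) * (w v).re := by
    simp only [Finset.sum_mul]
    rw [Finset.sum_comm]
    exact Finset.sum_congr rfl fun a _ => Finset.sum_congr rfl fun b _ => by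
      rw [hH.apply a b]; ring
  have key : ∀ v, z.im ^ 2 * ‖w v‖ ^ 2 + 2 * z.im * ((∑ y, H v y * (w y).re) * (w v).im -
      (∑ y, H v y * (w y).im) * (w v).re) ≤ ‖q v‖ ^ 2 := by
    intro v
    rw [hq v, Complex.sq_norm, Complex.sq_norm, Complex.normSq_apply, Complex.normSq_apply]
    simp only [Complex.sub_re, Complex.sub_im, Complex.re_sum, Complex.im_sum, Complex.re_ofReal_mul,
      Complex.im_ofReal_mul, Complex.mul_re z, Complex.mul_im z]
    nlinarith [sq_nonneg (∑ y, H v y * (w y).re - z.re * (w v).re),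
      sq_nonneg (∑ y, H v y * (w y).im - z.re * (w v).im)]
  have := Finset.sum_le_sum fun v (_ : v ∈ Finset.univ) => key v
  rwa [Finset.sum_add_distrib, ← Finset.mul_sum, ← Finset.mul_sum, Finset.sum_sub_distrib, hsym,
    sub_self, mul_zero, add_zero] at this

theorem spec1_form (hA : H.IsHermitian) (hz : z.im ≠ 0) (q : ι → ℝ) :
    q ⬝ᵥ imM (res H z) *ᵥ q = ∑ k, (∑ a, evec hA a k * q a) ^ 2 *
      (z.im / ((hA.eigenvalues k - z.re) ^ 2 + z.im ^ 2)) := by
  have h := congrArg Complex.im (res_form hA hz q q)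
  simp only [Complex.im_sum, Complex.im_mul_ofReal, Complex.im_ofReal_mul] at h
  have e : q ⬝ᵥ imM (res H z) *ᵥ q = ∑ a, ∑ b, q a * (res H z a b).im * q b := by
    simp only [dotProduct, Matrix.mulVec, imM, Matrix.of_apply, Finset.mul_sum, mul_assoc]
  rw [e, h]
  refine Finset.sum_congr rfl fun k _ => ?_
  rw [Complex.inv_im, Complex.normSq_apply]
  simp only [Complex.sub_im, Complex.ofReal_im, zero_sub, neg_neg, Complex.sub_re,
    Complex.ofReal_re]
  ring_nf

theorem imM_res_posDef (hH : H.IsSymm) (hz : 0 < z.im) : (imM (res H z)).PosDef := by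
  have hA := spec1_herm hH
  refine Matrix.PosDef.of_dotProduct_mulVec_pos
    (herm_of_symm fun a b => by simp only [imM, Matrix.of_apply, res_symm' hH z a b]) fun q hq => ?_
  rw [star_trivial, spec1_form hA hz.ne']
  have hpos : ∀ k, 0 < z.im / ((hA.eigenvalues k - z.re) ^ 2 + z.im ^ 2) := fun k => by positivity
  by_contra hcon
  apply hq
  have h0 : ∀ k, ∑ a, evec hA a k * q a = 0 := by
    intro k
    have h1 := (Finset.sum_eq_zero_iff_of_nonneg fun k _ =>
      mul_nonneg (sq_nonneg (∑ a, evec hA a k * q a)) (hpos k).le).1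
      (le_antisymm (not_lt.1 hcon) (Finset.sum_nonneg fun k _ =>
        mul_nonneg (sq_nonneg _) (hpos k).le)) k (Finset.mem_univ k)
    exact pow_eq_zero_iff two_ne_zero |>.1 ((mul_eq_zero.1 h1).resolve_right (hpos k).ne')
  funext b
  calc q b = ∑ a, (if b = a then 1 else 0) * q a := by simp
    _ = ∑ k, evec hA b k * ∑ a, evec hA a k * q a := by
        simp only [← evec_row hA, Finset.sum_mul, Finset.mul_sum]
        rw [Finset.sum_comm]
        exact Finset.sum_congr rfl fun k _ => Finset.sum_congr rfl fun a _ => by ring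
    _ = 0 := by simp [h0]

/-- `η ↦ η Im G(E + iη)` increases and `η ↦ Im G(E + iη) / η` decreases, as quadratic forms -/
theorem im_res_mono (hH : H.IsSymm) (E : ℝ) {η η' : ℝ} (hη : 0 < η) (h : η ≤ η') (q : ι → ℝ) :
    η * (q ⬝ᵥ imM (res H (E + η * Complex.I)) *ᵥ q) ≤
        η' * (q ⬝ᵥ imM (res H (E + η' * Complex.I)) *ᵥ q) ∧
      η * (q ⬝ᵥ imM (res H (E + η' * Complex.I)) *ᵥ q) ≤
        η' * (q ⬝ᵥ imM (res H (E + η * Complex.I)) *ᵥ q) := by
  have hA := spec1_herm hH
  have hη' : 0 < η' := lt_of_lt_of_le hη h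
  rw [spec1_form hA (by simpa using hη.ne'), spec1_form hA (by simpa using hη'.ne')]
  simp only [Complex.add_im, Complex.ofReal_im, Complex.mul_im, Complex.ofReal_re, Complex.I_im,
    mul_one, Complex.I_re, mul_zero, add_zero, zero_add, Complex.add_re, Complex.mul_re, sub_self,
    Finset.mul_sum]
  have hsq : η ^ 2 ≤ η' ^ 2 := by gcongr
  constructor
  · refine Finset.sum_le_sum fun k _ => ?_
    rw [mul_left_comm, mul_left_comm η']
    refine mul_le_mul_of_nonneg_left ?_ (sq_nonneg _)
    rw [← mul_div_assoc, ← mul_div_assoc, div_le_div_iff₀ (by positivity) (by positivity)]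
    nlinarith [mul_le_mul_of_nonneg_right hsq (sq_nonneg (hA.eigenvalues k - E))]
  · refine Finset.sum_le_sum fun k _ => ?_
    rw [mul_left_comm, mul_left_comm η']
    refine mul_le_mul_of_nonneg_left ?_ (sq_nonneg _)
    rw [← mul_div_assoc, ← mul_div_assoc, mul_comm η' η]
    gcongr

/-- continuity of resolvent entries in a symmetric family -/
theorem continuous_res' {X : Type} [TopologicalSpace X] {A : X → Matrix ι ι ℝ} (hA : Continuous A)
    (hs : ∀ t, (A t).IsSymm) (hz : z.im ≠ 0) (x y : ι) : Continuous fun t => res (A t) z x y := by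
  exact continuous_res (fun a b => hA.matrix_elem a b) (fun t => spec1_herm (hs t)) hz x y

end

end Crest.Agent.R166
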