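import Crest.Agent.R166.PartT0

/-! # Lyapunov function: definitions, continuity in the bounded coordinate -/

set_option autoImplicit false
set_option linter.unusedVariables false
set_option linter.unusedSectionVars false

open MeasureTheory ProbabilityTheory Filter Topology Matrix
open scoped ENNReal BoundedContinuousFunction

namespace Crest.Agent.R166

/-- truncated `|g - n|² / Im g` (`n = 1/m`) -/
noncomputable def fA (n : ℂ) (T : ℝ) (g : ℂ) : ℝ := min (‖g - n‖ ^ 2 / g.im) T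

/-- truncated `(|g|² + κ |g - n|²) / Im g` -/
noncomputable def fW (n : ℂ) (κ T : ℝ) (g : ℂ) : ℝ := min ((‖g‖ ^ 2 + κ * ‖g - n‖ ^ 2) / g.im) T

/-- truncated `|g - n|² / T` -/
noncomputable def fB (n : ℂ) (T : ℝ) (g : ℂ) : ℝ := min (‖g - n‖ ^ 2 / T) T

/-- the Lyapunov function -/
noncomputable def lyap (n : ℂ) (lam κ T : ℝ) (g : ℂ) : ℝ :=
  lam ^ 2 * fA n T g + lam * fW n κ T g + fB n T g

theorem measurable_fA (n : ℂ) (T : ℝ) : Measurable (fA n T) := by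
  unfold fA; fun_prop

theorem measurable_lyap (n : ℂ) (lam κ T : ℝ) : Measurable (lyap n lam κ T) := by
  unfold lyap fA fW fB; fun_prop

theorem fA_nonneg (n : ℂ) {T : ℝ} (hT : 0 ≤ T) {g : ℂ} (hg : 0 < g.im) : 0 ≤ fA n T g :=
  le_min (by positivity) hT

theorem fW_nonneg (n : ℂ) {κ T : ℝ} (hκ : 0 ≤ κ) (hT : 0 ≤ T) {g : ℂ} (hg : 0 < g.im) :
    0 ≤ fW n κ T g :=
  le_min (by positivity) hT

theorem fB_nonneg (n : ℂ) {T : ℝ} (hT : 0 ≤ T) (g : ℂ) : 0 ≤ fB n T g :=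
  le_min (by positivity) hT

theorem lyap_mem (n : ℂ) {lam κ T : ℝ} (hl : 0 ≤ lam) (hl' : lam ≤ 1) (hκ : 0 ≤ κ) (hT : 0 ≤ T)
    {g : ℂ} (hg : 0 < g.im) : 0 ≤ lyap n lam κ T g ∧ lyap n lam κ T g ≤ 3 * T := by
  have a := fA_nonneg n hT hg
  have b := fW_nonneg n hκ hT hg
  have c := fB_nonneg n hT g
  have a' : fA n T g ≤ T := min_le_right _ _
  have b' : fW n κ T g ≤ T := min_le_right _ _
  have c' : fB n T g ≤ T := min_le_right _ _
  have h1 := mul_le_of_le_one_left a (pow_le_one₀ hl hl' (n := 2))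
  have h2 := mul_le_of_le_one_left b hl'
  unfold lyap
  exact ⟨by positivity, by linarith⟩

theorem T1a_min {N E T : ℝ} (hN : 0 < N) (hE : 0 < E) (hT : 0 < T) :
    min (N / E) T = N / max E (N / T) := by
  rcases le_total (N / E) T with h | h
  · rw [min_eq_left h, max_eq_left]
    rw [div_le_iff₀ hE] at h
    rw [div_le_iff₀ hT]
    linarith
  · rw [min_eq_right h, max_eq_right]
    · field_simp
    · rw [le_div_iff₀ hE] at h
      rw [le_div_iff₀ hT]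
      linarith

/-- `lyap` is a continuous function of `ζ`.  With `n = 1/m`, `y = (1 - ζ)/(m - n) = 1/(g - n)`,
`q₀ = |y|²`, `q₁ = |1 + n y|²`, `v = Im n |y|² - Im y` one has `Im g / |g-n|² = v`,
`|g|²/|g-n|² = q₁`, and `min (N / Dn) T = N / max Dn (N / T)` for `N, Dn, T > 0`; so
`fA = 1 / max v (1/T)`, `fW = (q₁+κ) / max v ((q₁+κ)/T)`, `fB = 1 / max (T q₀) (1/T)`. -/
theorem lyap_cont {D : ℕ} (hD : 2 ≤ D) {c₀ : ℝ} (hc : 0 < c₀) {z m : ℂ} (h : Ref D c₀ z m)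
    (lam : ℝ) {κ T : ℝ} (hκ : 0 < κ) (hT : 0 < T) :
    ∃ φ : C(ℂ, ℝ), ∀ g : ℂ, 0 < g.im → φ (zeta m g) = lyap (1 / m) lam κ T g := by
  obtain ⟨-, -, -, -, -, -, hmn, -⟩ := T0d_basic hD hc h
  have hmn' : m - 1 / m ≠ 0 := norm_pos_iff.mp (lt_of_lt_of_le hc hmn)
  generalize hn : 1 / m = n at hmn'
  let Φ : ℂ → ℝ := fun y => lam ^ 2 * (1 / max (n.im * ‖y‖ ^ 2 - y.im) (1 / T)) +
    lam * ((‖1 + n * y‖ ^ 2 + κ) / max (n.im * ‖y‖ ^ 2 - y.im) ((‖1 + n * y‖ ^ 2 + κ) / T)) +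
    1 / max (T * ‖y‖ ^ 2) (1 / T)
  have hΦ : Continuous Φ := by
    refine ((continuous_const.mul (Continuous.div (by fun_prop) (by fun_prop) fun y => ?_)).add
      (continuous_const.mul (Continuous.div (by fun_prop) (by fun_prop) fun y => ?_))).add
      (Continuous.div (by fun_prop) (by fun_prop) fun y => ?_) <;>
    exact (lt_max_of_lt_right (by positivity)).ne'
  refine ⟨⟨fun ζ => Φ ((1 - ζ) / (m - n)), by fun_prop⟩, fun g hg => ?_⟩
  have hu : g - n ≠ 0 := by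
    rw [← hn]; exact norm_pos_iff.mp (lt_of_lt_of_le hc (T0d_den hD hc h hg.le).1)
  have hg0 : 0 < ‖g - n‖ := norm_pos_iff.mpr hu
  have e0 : (1 - zeta m g) / (m - n) = (g - n)⁻¹ := by
    unfold zeta
    rw [hn]
    field_simp
    ring
  have e1 : n.im * ‖(g - n)⁻¹‖ ^ 2 - (g - n)⁻¹.im = g.im / ‖g - n‖ ^ 2 := by
    rw [Complex.inv_im, Complex.normSq_eq_norm_sq, norm_inv, Complex.sub_im]
    field_simp
    ring
  have e2 : ‖1 + n * (g - n)⁻¹‖ ^ 2 + κ = (‖g‖ ^ 2 + κ * ‖g - n‖ ^ 2) / ‖g - n‖ ^ 2 := by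
    rw [show 1 + n * (g - n)⁻¹ = g / (g - n) by field_simp; ring, norm_div]
    field_simp
  show Φ ((1 - zeta m g) / (m - n)) = _
  rw [e0]
  simp only [Φ]
  rw [e1, e2, norm_inv, ← T1a_min one_pos (by positivity) hT,
    ← T1a_min (by positivity) (by positivity) hT, ← T1a_min one_pos (by positivity) hT]
  unfold lyap fA fW fB
  rw [one_div_div, div_div_div_cancel_right₀ (by positivity),
    show 1 / (T * ‖g - n‖⁻¹ ^ 2) = ‖g - n‖ ^ 2 / T by field_simp]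

/-- near the reference value the Lyapunov function is bounded (`Im g ≥ c₀/2`,
`|g - n| ≤ 2 + 1/c₀`, `|g| ≤ 2`) -/
theorem lyap_good {D : ℕ} (hD : 2 ≤ D) {c₀ : ℝ} (hc : 0 < c₀) : ∃ t₀ : ℝ, 0 ≤ t₀ ∧
    ∀ z m : ℂ, Ref D c₀ z m → ∀ lam κ T : ℝ, 0 ≤ lam → lam ≤ 1 → 0 ≤ κ → κ ≤ 1 → 1 ≤ T →
      ∀ g : ℂ, ‖g - m‖ ≤ c₀ / 2 → lyap (1 / m) lam κ T g ≤ t₀ := by
  refine ⟨(2 + 1 / c₀) ^ 2 / (c₀ / 2) + (2 ^ 2 + (2 + 1 / c₀) ^ 2) / (c₀ / 2) + (2 + 1 / c₀) ^ 2,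
    by positivity, fun z m h lam κ T hl hl' hκ hκ' hT g hg => ?_⟩
  obtain ⟨-, -, b1, b2, b3, -⟩ := h.bounds hD hc
  have g1 : c₀ / 2 ≤ g.im := by
    have := (abs_le.mp ((Complex.abs_im_le_norm (g - m)).trans hg)).1
    rw [Complex.sub_im] at this
    linarith [h.mim]
  have g0 : 0 < g.im := lt_of_lt_of_le (by positivity) g1
  have g2 : ‖g‖ ≤ 2 := by
    have := norm_le_norm_add_norm_sub' g m
    linarith
  have g3 : ‖g - 1 / m‖ ≤ 2 + 1 / c₀ := (norm_sub_le _ _).trans (by linarith)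
  have a := fA_nonneg (1 / m) (by linarith : 0 ≤ T) g0
  have b := fW_nonneg (1 / m) hκ (by linarith : 0 ≤ T) g0
  have a' : fA (1 / m) T g ≤ (2 + 1 / c₀) ^ 2 / (c₀ / 2) :=
    (min_le_left _ _).trans (by gcongr)
  have b' : fW (1 / m) κ T g ≤ (2 ^ 2 + 1 * (2 + 1 / c₀) ^ 2) / (c₀ / 2) :=
    (min_le_left _ _).trans (by gcongr)
  have c' : fB (1 / m) T g ≤ (2 + 1 / c₀) ^ 2 :=
    (min_le_left _ _).trans ((div_le_self (by positivity) hT).trans (by gcongr))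
  have h1 := mul_le_of_le_one_left a (pow_le_one₀ hl hl' (n := 2))
  have h2 := mul_le_of_le_one_left b hl'
  rw [one_mul] at b'
  unfold lyap
  linarith

/-- `Im g ≤ Im (g - n) ≤ |g - n|` gives `|g - n| ≤ |g - n|² / Im g` -/
theorem min_norm_le_fA {D : ℕ} (hD : 2 ≤ D) {c₀ : ℝ} (hc : 0 < c₀) {z m : ℂ} (h : Ref D c₀ z m)
    (T : ℝ) {g : ℂ} (hg : 0 < g.im) : min ‖g - m‖ T ≤ fA (1 / m) T g + 2 / c₀ := by
  obtain ⟨-, -, -, -, -, b1, -, b2⟩ := T0d_basic hD hc h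
  have h1 : g.im ≤ ‖g - 1 / m‖ := by
    have := Complex.im_le_norm (g - 1 / m)
    rw [Complex.sub_im] at this
    rw [Complex.neg_im] at b2
    linarith
  have h2 : ‖g - 1 / m‖ ≤ ‖g - 1 / m‖ ^ 2 / g.im := by
    rw [le_div_iff₀ hg, sq]
    exact mul_le_mul_of_nonneg_left h1 (norm_nonneg _)
  have h3 : ‖g - m‖ ≤ ‖g - 1 / m‖ + ‖m - 1 / m‖ := by
    have := norm_sub_le (g - 1 / m) (m - 1 / m)
    rwa [sub_sub_sub_cancel_right] at this
  have h4 : 0 ≤ 2 / c₀ := by positivity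
  rw [← div_eq_mul_inv] at b1
  unfold fA
  rw [← min_add_add_right]
  exact min_le_min (by linarith) (by linarith)

/-- continuous functions of the bounded coordinate are integrable -/
theorem integrable_zeta {D : ℕ} (hD : 2 ≤ D) {c₀ : ℝ} (hc : 0 < c₀) {z m : ℂ} (h : Ref D c₀ z m)
    {X : Type} [MeasurableSpace X] (μ : Measure X) [IsFiniteMeasure μ] {g g' : X → ℂ}
    (hg : Measurable g) (hg' : Measurable g') (hi : ∀ᵐ x ∂μ, 0 ≤ (g x).im ∧ 0 ≤ (g' x).im)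
    {V : Type} [NormedAddCommGroup V] [MeasurableSpace V] [BorelSpace V]
    [SecondCountableTopology V] {φ : ℂ × ℂ → V} (hφ : Continuous φ) :
    Integrable (fun x => φ (zeta m (g x), zeta m (g' x))) μ := by
  obtain ⟨C, -, hC⟩ := zeta_pointwise hD hc
  obtain ⟨B, hB⟩ := ((isCompact_closedBall (0 : ℂ) C).prod
    (isCompact_closedBall (0 : ℂ) C)).exists_bound_of_continuousOn hφ.continuousOn
  refine integrable_of_ae_bdd μ (hφ.measurable.comp (((measurable_zeta m).comp hg).prodMk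
    ((measurable_zeta m).comp hg'))) (B := B) ?_
  filter_upwards [hi] with x hx
  exact hB _ ⟨mem_closedBall_zero_iff.mpr ((hC z m h).1 _ hx.1).1,
    mem_closedBall_zero_iff.mpr ((hC z m h).1 _ hx.2).1⟩

end Crest.Agent.R166
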