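import Crest.Agent.R166.T1a

/-! # Lyapunov function: the pointwise step -/

set_option autoImplicit false
set_option linter.unusedVariables false
set_option linter.unusedSectionVars false

open MeasureTheory ProbabilityTheory Filter Topology Matrix
open scoped ENNReal BoundedContinuousFunction

namespace Crest.Agent.R166

theorem T1b_trunc {D : ℕ} {x T K S : ℝ} {u : Fin D → ℝ} (hK : 1 ≤ K) (hS : 0 ≤ S) (hT : 0 ≤ T)
    (hu : ∀ c, 0 ≤ u c) (h : (∀ c, u c < T) → x ≤ K * (S + ∑ c, u c)) :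
    min x T ≤ K * (S + ∑ c, min (u c) T) := by
  by_cases h1 : ∀ c, u c < T
  · have : ∑ c, min (u c) T = ∑ c, u c := Finset.sum_congr rfl fun c _ => min_eq_left (h1 c).le
    rw [this]
    exact (min_le_left _ _).trans (h h1)
  · push Not at h1
    obtain ⟨c, hc⟩ := h1
    have h2 : min (u c) T ≤ ∑ c, min (u c) T :=
      Finset.single_le_sum (f := fun c => min (u c) T) (fun c _ => le_min (hu c) hT)
        (Finset.mem_univ c)
    rw [min_eq_right hc] at h2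
    calc min x T ≤ 1 * T := by rw [one_mul]; exact min_le_right _ _
      _ ≤ _ := mul_le_mul hK (by linarith) hT (by linarith)

theorem T1b_sq (g n : ℂ) {ν : ℝ} (hn : ‖n‖ ≤ ν) : ‖g - n‖ ^ 2 ≤ 2 * ‖g‖ ^ 2 + 2 * ν ^ 2 := by
  have h1 : ‖g - n‖ ≤ ‖g‖ + ν := (norm_sub_le _ _).trans (by linarith)
  have h2 := pow_le_pow_left₀ (norm_nonneg _) h1 2
  nlinarith [sq_nonneg (‖g‖ - ν)]

theorem T1b_inv {w : ℂ} (hw : 0 < w.im) :
    ‖-1 / w‖ ^ 2 / (-1 / w).im = 1 / w.im ∧ 1 / (-1 / w).im = ‖w‖ ^ 2 / w.im ∧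
      0 < (-1 / w).im ∧ ‖-1 / w‖ ≤ 1 / w.im := by
  have h0 : w.im ≤ ‖w‖ := (le_abs_self _).trans (Complex.abs_im_le_norm w)
  have h1 : 0 < ‖w‖ := hw.trans_le h0
  have h2 : (-1 / w).im = w.im / ‖w‖ ^ 2 := by
    rw [neg_div, one_div, Complex.neg_im, Complex.inv_im, Complex.normSq_eq_norm_sq, neg_div, neg_neg]
  have h3 : ‖-1 / w‖ = 1 / ‖w‖ := by rw [norm_div, norm_neg, norm_one]
  rw [h2, h3]
  refine ⟨by field_simp, by field_simp, by positivity, one_div_le_one_div_of_le hw h0⟩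

theorem T1b_z {D : ℕ} (hD : 2 ≤ D) {c : ℝ} (hc : 0 < c) {z m : ℂ} (h : Ref D c z m) :
    ‖z‖ ≤ 2 * c⁻¹ := by
  obtain ⟨h0, -, -, -, h4, -⟩ := T0d_basic hD hc h
  have e : z = -(D * m + 1 / m) := by
    field_simp
    linear_combination h.eqn
  have h1 : c ≤ ‖m‖ := h.mim.trans ((le_abs_self _).trans (Complex.abs_im_le_norm m))
  have h2 : D * ‖m‖ ≤ c⁻¹ := by
    rw [← one_div, le_div_iff₀ hc]
    have := h.nsq
    have h3 : (D : ℝ) * ‖m‖ * c ≤ D * ‖m‖ * ‖m‖ := by gcongr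
    nlinarith
  rw [e, norm_neg]
  refine (norm_add_le _ _).trans ?_
  rw [norm_mul, Complex.norm_natCast]
  linarith

set_option maxHeartbeats 1000000 in
/-- One step of the recursion.  Write `g' = recF z t M = -1/w`, `w = z + t + Σ M c`, `a = Σ Im (M c) ≤ Im w`,
`S = min (1/a) T`, `n = 1/m`, `A = 2/c₀ + 1 ≥ |z| + |t|`.  Then `Im g' = Im w/|w|²`, `|g'| ≤ 1/a`,
`|g'|²/Im g' = 1/Im w ≤ 1/a`, `1/Im g' = |w|²/Im w ≤ (D+1)(A²/a + Σ |M c|²/Im (M c))`.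
Use `min (x+y) T ≤ min x T + min y T` (`x, y ≥ 0`), `min (K x) T ≤ K min x T` (`K ≥ 1`).
(B) `min (|g'|²/T) T ≤ S` (if `1/a < T` then `|g'|²/T ≤ (1/a)(1/(aT)) ≤ 1/a`).
(W) `κ|g'-n|²/Im g' ≤ 2/Im w + 2κ|n|²|w|²/Im w`; if `κ|n|²|w|² ≤ 1` this is `≤ 4/a`; otherwise
`|w| > c₀/√κ = A + D (T + 1/c₀)` (choice of `κ`), so some `|M c - n| ≥ T` and `fB (M c) = T`.
(S) `1/a ≤ 1/Im (M c) ≤ |M c - n|²/(c₀² Im (M c))`. -/
theorem lyap_parts {D : ℕ} (hD : 2 ≤ D) {c₀ : ℝ} (hc : 0 < c₀) : ∃ K : ℝ, 1 ≤ K ∧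
    ∀ z m : ℂ, Ref D c₀ z m → ∀ T : ℝ, 1 ≤ T → ∃ κ : ℝ, 0 < κ ∧ κ ≤ 1 ∧
      ∀ (t : ℂ) (M : Fin D → ℂ), 0 ≤ t.im → ‖t‖ ≤ 1 → (∀ c, 0 < (M c).im) →
        fB (1 / m) T (recF z t M) ≤ K * (1 + min (1 / ∑ c, (M c).im) T) ∧
        fW (1 / m) κ T (recF z t M) ≤
          K * (min (1 / ∑ c, (M c).im) T + ∑ c, fB (1 / m) T (M c)) ∧
        fA (1 / m) T (recF z t M) ≤
          K * (min (1 / ∑ c, (M c).im) T + ∑ c, fW (1 / m) κ T (M c)) ∧
        ∀ c, min (1 / ∑ c, (M c).im) T ≤ K * fA (1 / m) T (M c) := by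
  set ν := c₀⁻¹ with hν
  set A := 2 * ν + 1 with hA
  have hν0 : 0 < ν := inv_pos.2 hc
  have hA1 : 1 ≤ A := by linarith
  set K := 5 + 4 * ν ^ 2 * A ^ 2 with hK
  have hK0 : 4 * ν ^ 2 ≤ 4 * ν ^ 2 * A ^ 2 :=
    le_mul_of_one_le_right (by positivity) (one_le_pow₀ hA1)
  have hν2 : 0 ≤ ν ^ 2 := sq_nonneg ν
  have hK5 : 5 ≤ K := by nlinarith
  have hK1 : 1 ≤ K := by linarith
  refine ⟨K, hK1, fun z m h T hT => ?_⟩
  obtain ⟨-, -, hν1, -, hn, -, -, hni⟩ := T0d_basic hD hc h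
  have hz := T1b_z hD hc h
  rw [← hν] at hν1 hn hz
  generalize 1 / m = n at *
  clear_value K A ν
  have hT0 : 0 < T := by linarith
  set R := A + D * (T + ν) with hR
  have hR1 : 1 ≤ R := by
    have : 0 ≤ (D : ℝ) * (T + ν) := by positivity
    linarith
  have hνR : 1 ≤ ν * R := one_le_mul_of_one_le_of_one_le hν1 hR1
  have hκ0 : 0 < 1 / (ν * R) ^ 2 := by positivity
  have hκ1 : 1 / (ν * R) ^ 2 ≤ 1 := by
    rw [div_le_one (by positivity)]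
    exact one_le_pow₀ hνR
  refine ⟨1 / (ν * R) ^ 2, hκ0, hκ1, fun t M ht ht1 hM => ?_⟩
  have hκR : 1 / (ν * R) ^ 2 * ν ^ 2 * R ^ 2 = 1 := by field_simp
  generalize 1 / (ν * R) ^ 2 = κ at *
  set a := ∑ c, (M c).im with ha
  have hne : (Finset.univ : Finset (Fin D)).Nonempty := ⟨⟨0, by omega⟩, Finset.mem_univ _⟩
  have ha0 : 0 < a := Finset.sum_pos (fun c _ => hM c) hne
  set w := z + t + ∑ c, M c with hw
  have hwa : a ≤ w.im := by
    rw [hw, Complex.add_im, Complex.add_im, Complex.im_sum]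
    linarith [h.zim]
  have hw0 : 0 < w.im := ha0.trans_le hwa
  have hwn : ‖w‖ ≤ A + ∑ c, ‖M c‖ := by
    refine (norm_add_le _ _).trans (add_le_add ((norm_add_le _ _).trans ?_) (norm_sum_le _ _))
    linarith
  have hg : recF z t M = -1 / w := rfl
  obtain ⟨g1, g2, g3, g4⟩ := T1b_inv hw0
  rw [hg]
  clear hg
  generalize -1 / w = g at *
  clear_value w R
  have hab : 1 / w.im ≤ 1 / a := one_div_le_one_div_of_le ha0 hwa
  have ha1 : 0 < 1 / a := by positivity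
  have hS0 : 0 ≤ min (1 / a) T := le_min ha1.le hT0.le
  have hsq := T1b_sq g n hn
  have hx : ‖g - n‖ ^ 2 / g.im ≤ 2 * (1 / a) + 2 * ν ^ 2 * (‖w‖ ^ 2 / a) := by
    calc ‖g - n‖ ^ 2 / g.im ≤ (2 * ‖g‖ ^ 2 + 2 * ν ^ 2) / g.im := by gcongr
      _ = 2 * (‖g‖ ^ 2 / g.im) + 2 * ν ^ 2 * (1 / g.im) := by ring
      _ = 2 * (1 / w.im) + 2 * ν ^ 2 * (‖w‖ ^ 2 / w.im) := by rw [g1, g2]
      _ ≤ _ := by gcongr
  have hB0 : ∀ c, 0 ≤ ‖M c - n‖ ^ 2 / T := fun c => by positivity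
  have hW0 : ∀ c, 0 ≤ (‖M c‖ ^ 2 + κ * ‖M c - n‖ ^ 2) / (M c).im := fun c => by
    have := hM c
    positivity
  have triv : ∀ x y : ℝ, T ≤ 1 / a → 0 ≤ y → min x T ≤ K * (min (1 / a) T + y) := by
    intro x y h1 hy
    rw [min_eq_right h1]
    calc min x T ≤ 1 * T := by rw [one_mul]; exact min_le_right _ _
      _ ≤ _ := mul_le_mul hK1 (by linarith) hT0.le (by linarith)
  refine ⟨?_, ?_, ?_, fun c => ?_⟩
  · unfold fB
    rcases le_total T (1 / a) with h1 | h1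
    · rw [add_comm]
      exact triv _ _ h1 zero_le_one
    · rw [min_eq_left h1]
      refine (min_le_left _ _).trans ?_
      rw [div_le_iff₀ hT0]
      have h2 : ‖g‖ ^ 2 ≤ 1 / a * T := by
        have h3 : ‖g‖ ≤ 1 / a := g4.trans hab
        calc ‖g‖ ^ 2 ≤ (1 / a) ^ 2 := by gcongr
          _ = 1 / a * (1 / a) := sq _
          _ ≤ _ := by gcongr
      have h3 : ν ^ 2 ≤ ν ^ 2 * T := le_mul_of_one_le_right hν2 hT
      have h4 : 2 * (1 / a * T) ≤ K * (1 / a * T) := by gcongr; linarith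
      have h5 : 2 * ν ^ 2 * T ≤ K * T := by gcongr; linarith
      nlinarith
  · unfold fW fB
    rcases le_total T (1 / a) with h1 | h1
    · exact triv _ _ h1 (Finset.sum_nonneg fun c _ => le_min (hB0 c) hT0.le)
    · rw [min_eq_left h1]
      refine T1b_trunc hK1 ha1.le hT0.le hB0 fun hlt => ?_
      have h2 : ∀ c, ‖M c‖ ≤ T + ν := fun c => by
        have h3 : ‖M c - n‖ ^ 2 < T ^ 2 := by
          have := hlt c
          rwa [div_lt_iff₀ hT0, ← sq] at this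
        have h4 : ‖M c - n‖ < T := lt_of_pow_lt_pow_left₀ 2 hT0.le h3
        have h5 := norm_add_le (M c - n) n
        rw [sub_add_cancel] at h5
        linarith
      have h3 : ‖w‖ ≤ R := by
        rw [hR]
        refine hwn.trans (add_le_add le_rfl ((Finset.sum_le_sum fun c _ => h2 c).trans (le_of_eq ?_)))
        simp only [Finset.sum_const, Finset.card_univ, Fintype.card_fin, nsmul_eq_mul]
      have h4 : κ * (2 * ν ^ 2 * (‖w‖ ^ 2 / a)) ≤ 2 * (1 / a) := by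
        calc κ * (2 * ν ^ 2 * (‖w‖ ^ 2 / a)) ≤ κ * (2 * ν ^ 2 * (R ^ 2 / a)) := by gcongr
          _ = 2 * (κ * ν ^ 2 * R ^ 2) * (1 / a) := by ring
          _ = _ := by rw [hκR, mul_one]
      have h5 : κ * (2 * (1 / a)) ≤ 1 * (2 * (1 / a)) := by gcongr
      have h6 : 0 ≤ ∑ c, ‖M c - n‖ ^ 2 / T := Finset.sum_nonneg fun c _ => hB0 c
      calc (‖g‖ ^ 2 + κ * ‖g - n‖ ^ 2) / g.im = ‖g‖ ^ 2 / g.im + κ * (‖g - n‖ ^ 2 / g.im) := by ring
        _ ≤ 1 / a + κ * (2 * (1 / a) + 2 * ν ^ 2 * (‖w‖ ^ 2 / a)) := by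
            rw [g1]; gcongr
        _ ≤ 5 * (1 / a) := by linarith
        _ ≤ K * (1 / a + ∑ c, ‖M c - n‖ ^ 2 / T) := mul_le_mul hK5 (by linarith) ha1.le (by linarith)
  · unfold fA fW
    rcases le_total T (1 / a) with h1 | h1
    · exact triv _ _ h1 (Finset.sum_nonneg fun c _ => le_min (hW0 c) hT0.le)
    · rw [min_eq_left h1]
      refine T1b_trunc hK1 ha1.le hT0.le hW0 fun _ => hx.trans ?_
      have h2 : (∑ c, ‖M c‖) ^ 2 / a ≤ ∑ c, ‖M c‖ ^ 2 / (M c).im :=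
        Finset.sq_sum_div_le_sum_sq_div _ _ fun c _ => hM c
      have h3 : ∑ c, ‖M c‖ ^ 2 / (M c).im ≤ ∑ c, (‖M c‖ ^ 2 + κ * ‖M c - n‖ ^ 2) / (M c).im :=
        Finset.sum_le_sum fun c _ => by
          have := hM c
          gcongr
          exact le_add_of_nonneg_right (by positivity)
      have h4 : ‖w‖ ^ 2 ≤ 2 * A ^ 2 + 2 * (∑ c, ‖M c‖) ^ 2 := by
        have := pow_le_pow_left₀ (norm_nonneg _) hwn 2
        nlinarith [sq_nonneg (A - ∑ c, ‖M c‖)]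
      have h6 : 0 ≤ ∑ c, (‖M c‖ ^ 2 + κ * ‖M c - n‖ ^ 2) / (M c).im :=
        Finset.sum_nonneg fun c _ => hW0 c
      generalize ∑ c, (‖M c‖ ^ 2 + κ * ‖M c - n‖ ^ 2) / (M c).im = Y at *
      have h5 : ‖w‖ ^ 2 / a ≤ 2 * A ^ 2 * (1 / a) + 2 * Y := by
        calc ‖w‖ ^ 2 / a ≤ (2 * A ^ 2 + 2 * (∑ c, ‖M c‖) ^ 2) / a := by gcongr
          _ = 2 * A ^ 2 * (1 / a) + 2 * ((∑ c, ‖M c‖) ^ 2 / a) := by ring
          _ ≤ _ := by linarith
      calc 2 * (1 / a) + 2 * ν ^ 2 * (‖w‖ ^ 2 / a)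
          ≤ 2 * (1 / a) + 2 * ν ^ 2 * (2 * A ^ 2 * (1 / a) + 2 * Y) := by gcongr
        _ = (2 + 4 * ν ^ 2 * A ^ 2) * (1 / a) + 4 * ν ^ 2 * Y := by ring
        _ ≤ K * (1 / a) + K * Y := by gcongr <;> linarith
        _ = _ := by ring
  · unfold fA
    have hMc := hM c
    have h1 : (M c).im ≤ a := Finset.single_le_sum (f := fun c => (M c).im)
      (fun c _ => (hM c).le) (Finset.mem_univ c)
    have h2 : c₀ ≤ ‖M c - n‖ := by
      refine le_trans ?_ ((le_abs_self _).trans (Complex.abs_im_le_norm _))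
      rw [Complex.sub_im]
      rw [Complex.neg_im] at hni
      linarith
    have h3 : 1 ≤ K * ‖M c - n‖ ^ 2 := by
      calc (1 : ℝ) = ν ^ 2 * c₀ ^ 2 := by rw [hν]; field_simp
        _ ≤ _ := by gcongr; linarith
    have h4 : 1 / a ≤ K * (‖M c - n‖ ^ 2 / (M c).im) := by
      rw [← mul_div_assoc]
      gcongr
    rw [mul_min_of_nonneg _ _ (by linarith : 0 ≤ K)]
    exact min_le_min h4 (le_mul_of_one_le_left hT0.le hK1)

/-- combination of the four parts -/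
theorem lyap_step {D : ℕ} (hD : 2 ≤ D) {c₀ : ℝ} (hc : 0 < c₀) : ∃ K : ℝ, 1 ≤ K ∧
    ∀ z m : ℂ, Ref D c₀ z m → ∀ T : ℝ, 1 ≤ T → ∃ κ : ℝ, 0 < κ ∧ κ ≤ 1 ∧
      ∀ lam : ℝ, 0 < lam → lam ≤ 1 →
      ∀ (t : ℂ) (M : Fin D → ℂ), 0 ≤ t.im → ‖t‖ ≤ 1 → (∀ c, 0 < (M c).im) → ∀ c₁ c₂ : Fin D,
        lyap (1 / m) lam κ T (recF z t M) ≤ K + 3 * K ^ 2 / lam ^ 2 *
          min (lyap (1 / m) lam κ T (M c₁)) (lyap (1 / m) lam κ T (M c₂)) +
          lam * K * ∑ c, lyap (1 / m) lam κ T (M c) := by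
  obtain ⟨K, hK, H⟩ := lyap_parts hD hc
  refine ⟨K, hK, fun z m h T hT => ?_⟩
  obtain ⟨κ, hκ0, hκ1, H⟩ := H z m h T hT
  refine ⟨κ, hκ0, hκ1, fun lam hl0 hl1 t M ht ht1 hM c₁ c₂ => ?_⟩
  obtain ⟨hB, hW, hA, hS⟩ := H t M ht ht1 hM
  have hT0 : 0 ≤ T := by linarith
  have hK0 : 0 ≤ K := by linarith
  have hS0 : 0 ≤ min (1 / ∑ c, (M c).im) T :=
    le_min (one_div_nonneg.2 (Finset.sum_nonneg fun c _ => (hM c).le)) hT0
  generalize min (1 / ∑ c, (M c).im) T = S at *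
  generalize 1 / m = n at *
  have a0 := fun c => fA_nonneg n hT0 (hM c)
  have w0 := fun c => fW_nonneg n hκ0.le hT0 (hM c)
  have b0 := fun c => fB_nonneg n hT0 (M c)
  have h1 : ∀ c, S ≤ K / lam ^ 2 * lyap n lam κ T (M c) := fun c => by
    refine (hS c).trans ?_
    have : lam ^ 2 * fA n T (M c) ≤ lyap n lam κ T (M c) := by
      unfold lyap
      have := mul_nonneg hl0.le (w0 c)
      linarith [b0 c]
    calc K * fA n T (M c) = K / lam ^ 2 * (lam ^ 2 * fA n T (M c)) := by field_simp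
      _ ≤ _ := by gcongr
  have h2 : S ≤ K / lam ^ 2 * min (lyap n lam κ T (M c₁)) (lyap n lam κ T (M c₂)) := by
    rw [mul_min_of_nonneg _ _ (by positivity)]
    exact le_min (h1 c₁) (h1 c₂)
  have h3 : lam * ∑ c, fW n κ T (M c) + ∑ c, fB n T (M c) ≤ ∑ c, lyap n lam κ T (M c) := by
    rw [Finset.mul_sum, ← Finset.sum_add_distrib]
    refine Finset.sum_le_sum fun c _ => ?_
    unfold lyap
    have := mul_nonneg (sq_nonneg lam) (a0 c)
    linarith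
  have hKS : 0 ≤ K * S := mul_nonneg hK0 hS0
  have h4 : lam ^ 2 * (K * S) ≤ 1 * (K * S) := by
    gcongr
    exact pow_le_one₀ hl0.le hl1
  have h5 : lam * (K * S) ≤ 1 * (K * S) := by gcongr
  calc lyap n lam κ T (recF z t M)
      ≤ lam ^ 2 * (K * (S + ∑ c, fW n κ T (M c))) + lam * (K * (S + ∑ c, fB n T (M c))) +
        K * (1 + S) := by
        unfold lyap
        gcongr
    _ = K + (lam ^ 2 * (K * S) + lam * (K * S) + K * S) +
        lam * K * (lam * ∑ c, fW n κ T (M c) + ∑ c, fB n T (M c)) := by ring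
    _ ≤ K + 3 * K * S + lam * K * ∑ c, lyap n lam κ T (M c) := by
        gcongr
        linarith
    _ ≤ K + 3 * K * (K / lam ^ 2 * min (lyap n lam κ T (M c₁)) (lyap n lam κ T (M c₂))) +
        lam * K * ∑ c, lyap n lam κ T (M c) := by gcongr
    _ = _ := by ring

end Crest.Agent.R166
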