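import Crest.Agent.R166.T1b

/-! # Moment bound for approximate fixed points -/

set_option autoImplicit false
set_option linter.unusedVariables false
set_option linter.unusedSectionVars false

open MeasureTheory ProbabilityTheory Filter Topology Matrix
open scoped ENNReal BoundedContinuousFunction

namespace Crest.Agent.R166

theorem T1c_three {a b c : ℝ} (ha : 0 ≤ a) (hb : 0 ≤ b) (hc : 0 ≤ c) :
    (a + b + c) ^ 8 ≤ 3 ^ 7 * (a ^ 8 + b ^ 8 + c ^ 8) := by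
  have := pow_sum_le_card_mul_sum_pow (s := Finset.univ) (f := ![a, b, c])
    (fun i _ => by fin_cases i <;> simpa) 7
  simpa [Fin.sum_univ_three] using this

/-- Abstract moment closure.  `(a+b+c)^8 ≤ 3^7 (a^8+b^8+c^8)`, `min(x,y)^8 ≤ x^4 y^4`,
`(Σ L_c)^8 ≤ D^7 Σ L_c^8`, `integral_pi_pair`, `integral_pi_eval`, `sq_integral_le_split` for `L^4`;
`3^7/4^8 ≤ 1/4`.  The outer integral is bounded with `integral_mono_of_nonneg`
(no measurability in `y` needed). -/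
theorem lyap_abstract {D : ℕ} {X Y : Type} [MeasurableSpace X] [MeasurableSpace Y]
    (μ : Measure X) (θ : Measure Y) [IsProbabilityMeasure μ] [IsProbabilityMeasure θ]
    {L : X → ℝ} (hL : Measurable L) {B : ℝ} (hB : ∀ᵐ x ∂μ, 0 ≤ L x ∧ L x ≤ B)
    {S : Set X} (hS : MeasurableSet S) {t₀ τ K A lam : ℝ} (ht : 0 ≤ t₀) (hτ : μ.real S ≤ τ)
    (hgood : ∀ᵐ x ∂μ, x ∉ S → L x ≤ t₀) (hK : 0 ≤ K) (hA : 0 ≤ A) (hlam : 0 ≤ lam)
    (hlamD : lam * D ≤ 1 / 4) (hτA : 8 * 3 ^ 7 * A ^ 8 * τ ≤ 1) {c₁ c₂ : Fin D} (hc : c₁ ≠ c₂)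
    {L' : Y → (Fin D → X) → ℝ}
    (hstep : ∀ᵐ y ∂θ, ∀ᵐ M ∂(Measure.pi fun _ : Fin D => μ), 0 ≤ L' y M ∧
      L' y M ≤ K + A * min (L (M c₁)) (L (M c₂)) + lam * ∑ c, L (M c))
    (hfix : ∫ x, L x ^ 8 ∂μ ≤ 1 + ∫ y, ∫ M, L' y M ^ 8 ∂(Measure.pi fun _ : Fin D => μ) ∂θ) :
    ∫ x, L x ^ 8 ∂μ ≤ 2 * (1 + 3 ^ 7 * K ^ 8 + 2 * 3 ^ 7 * A ^ 8 * t₀ ^ 8) := by
  have hBk : ∀ k : ℕ, ∀ᵐ x ∂μ, ‖L x ^ k‖ ≤ B ^ k := fun k => hB.mono fun x hx => by
    rw [Real.norm_eq_abs, abs_pow, abs_of_nonneg hx.1]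
    exact pow_le_pow_left₀ hx.1 hx.2 k
  set I := ∫ x, L x ^ 8 ∂μ with hI
  have hI0 : 0 ≤ I := integral_nonneg fun x => by positivity
  have hsplit := sq_integral_le_split μ (L := fun x => L x ^ 4) (hL.pow_const 4) (B := B ^ 4)
    (hB.mono fun x hx => ⟨by positivity, pow_le_pow_left₀ hx.1 hx.2 4⟩) hS (t₀ := t₀ ^ 4)
    (by positivity) hτ (by
      filter_upwards [hB, hgood] with x hx hg hxS
      exact pow_le_pow_left₀ hx.1 (hg hxS) 4)
  have e8 : (fun x => (L x ^ 4) ^ 2) = fun x => L x ^ 8 := by funext x; ring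
  rw [e8, ← hI] at hsplit
  have hall := ae_pi_forall (D := D) μ hB
  have i1 : Integrable (fun M : Fin D → X => L (M c₁) ^ 4 * L (M c₂) ^ 4)
      (Measure.pi fun _ : Fin D => μ) :=
    integrable_of_ae_bdd _ (((hL.comp (measurable_pi_apply c₁)).pow_const 4).mul
      ((hL.comp (measurable_pi_apply c₂)).pow_const 4)) (B := B ^ 4 * B ^ 4)
      (hall.mono fun M hM => by
        rw [Real.norm_of_nonneg (by positivity)]
        have h1 := hM c₁
        have h2 := hM c₂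
        have hB0 : 0 ≤ B := h1.1.trans h1.2
        gcongr
        exacts [h1.1, h1.2, h2.1, h2.2])
  have i2 : ∀ c, Integrable (fun M : Fin D → X => L (M c) ^ 8) (Measure.pi fun _ : Fin D => μ) :=
    fun c => integrable_of_ae_bdd _ ((hL.comp (measurable_pi_apply c)).pow_const 8) (B := B ^ 8)
      ((ae_pi_forall (D := D) μ (hBk 8)).mono fun M hM => hM c)
  have i3 : Integrable (fun M : Fin D → X => ∑ c, L (M c) ^ 8) (Measure.pi fun _ : Fin D => μ) :=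
    integrable_finset_sum _ fun c _ => i2 c
  have hR : ∫ M, 3 ^ 7 * (K ^ 8 + A ^ 8 * (L (M c₁) ^ 4 * L (M c₂) ^ 4) +
      lam ^ 8 * D ^ 7 * ∑ c, L (M c) ^ 8) ∂(Measure.pi fun _ : Fin D => μ) =
      3 ^ 7 * (K ^ 8 + A ^ 8 * (∫ x, L x ^ 4 ∂μ) ^ 2 + lam ^ 8 * D ^ 7 * (D * I)) := by
    have i4 : Integrable (fun M : Fin D → X => K ^ 8 + A ^ 8 * (L (M c₁) ^ 4 * L (M c₂) ^ 4))
        (Measure.pi fun _ : Fin D => μ) := (integrable_const _).add (i1.const_mul _)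
    rw [integral_const_mul, integral_add i4 (i3.const_mul _), integral_add (integrable_const _) (i1.const_mul _), integral_const_mul,
      integral_const_mul, integral_finset_sum _ fun c _ => i2 c,
      integral_pi_pair μ (hL.pow_const 4) (hL.pow_const 4) hc]
    simp only [integral_pi_eval μ (hL.pow_const 8), ← hI, integral_const, probReal_univ,
      smul_eq_mul, one_mul, Finset.sum_const, Finset.card_univ, Fintype.card_fin, nsmul_eq_mul]
    ring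
  have hin : ∀ᵐ y ∂θ, ∫ M, L' y M ^ 8 ∂(Measure.pi fun _ : Fin D => μ) ≤
      3 ^ 7 * (K ^ 8 + A ^ 8 * (∫ x, L x ^ 4 ∂μ) ^ 2 + lam ^ 8 * D ^ 7 * (D * I)) := by
    filter_upwards [hstep] with y hy
    rw [← hR]
    refine integral_mono_of_nonneg (Eventually.of_forall fun M => by positivity)
      ((((integrable_const _).add (i1.const_mul _)).add (i3.const_mul _)).const_mul _) ?_
    filter_upwards [hy, hall] with M hM hLM
    have h1 := (hLM c₁).1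
    have h2 := (hLM c₂).1
    have hm0 : 0 ≤ min (L (M c₁)) (L (M c₂)) := le_min h1 h2
    have hs0 : 0 ≤ ∑ c, L (M c) := Finset.sum_nonneg fun c _ => (hLM c).1
    have h3 : min (L (M c₁)) (L (M c₂)) ^ 8 ≤ L (M c₁) ^ 4 * L (M c₂) ^ 4 := by
      calc min (L (M c₁)) (L (M c₂)) ^ 8
          = min (L (M c₁)) (L (M c₂)) ^ 4 * min (L (M c₁)) (L (M c₂)) ^ 4 := by ring
        _ ≤ _ := by gcongr; exacts [min_le_left _ _, min_le_right _ _]
    have h4 : (∑ c, L (M c)) ^ 8 ≤ (D : ℝ) ^ 7 * ∑ c, L (M c) ^ 8 := by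
      simpa using pow_sum_le_card_mul_sum_pow (s := Finset.univ) (f := fun c => L (M c))
        (fun c _ => (hLM c).1) 7
    calc L' y M ^ 8 ≤ (K + A * min (L (M c₁)) (L (M c₂)) + lam * ∑ c, L (M c)) ^ 8 :=
          pow_le_pow_left₀ hM.1 hM.2 8
      _ ≤ 3 ^ 7 * (K ^ 8 + (A * min (L (M c₁)) (L (M c₂))) ^ 8 + (lam * ∑ c, L (M c)) ^ 8) :=
          T1c_three hK (by positivity) (by positivity)
      _ ≤ _ := by
          rw [mul_pow, mul_pow, mul_assoc (lam ^ 8)]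
          gcongr
  have hout : ∫ y, ∫ M, L' y M ^ 8 ∂(Measure.pi fun _ : Fin D => μ) ∂θ ≤
      3 ^ 7 * (K ^ 8 + A ^ 8 * (∫ x, L x ^ 4 ∂μ) ^ 2 + lam ^ 8 * D ^ 7 * (D * I)) := by
    refine (integral_mono_of_nonneg (Eventually.of_forall fun y =>
      integral_nonneg fun M => by positivity) (integrable_const _) hin).trans_eq ?_
    simp
  have h5 : lam ^ 8 * D ^ 7 * (D * I) ≤ (1 / 4) ^ 8 * I := by
    calc lam ^ 8 * D ^ 7 * (D * I) = (lam * D) ^ 8 * I := by ring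
      _ ≤ (1 / 4) ^ 8 * I :=
        mul_le_mul_of_nonneg_right (pow_le_pow_left₀ (by positivity) hlamD 8) hI0
  have h6 : A ^ 8 * (∫ x, L x ^ 4 ∂μ) ^ 2 ≤ A ^ 8 * (2 * (t₀ ^ 4) ^ 2 + 2 * τ * I) :=
    mul_le_mul_of_nonneg_left hsplit (by positivity)
  have h7 : 8 * 3 ^ 7 * A ^ 8 * τ * I ≤ 1 * I := mul_le_mul_of_nonneg_right hτA hI0
  have h8 := hfix.trans (add_le_add_right hout 1)
  have h9 : A ^ 8 * (2 * (t₀ ^ 4) ^ 2 + 2 * τ * I) = 2 * (A ^ 8 * t₀ ^ 8) + 2 * (A ^ 8 * τ * I) := by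
    ring
  have h10 : 8 * 3 ^ 7 * A ^ 8 * τ * I = 8 * 3 ^ 7 * (A ^ 8 * τ * I) := by ring
  have h11 : 2 * 3 ^ 7 * A ^ 8 * t₀ ^ 8 = 2 * 3 ^ 7 * (A ^ 8 * t₀ ^ 8) := by ring
  rw [h9] at h6
  rw [h10] at h7
  rw [h11]
  generalize A ^ 8 * τ * I = u at *
  generalize A ^ 8 * t₀ ^ 8 = v at *
  generalize A ^ 8 * (∫ x, L x ^ 4 ∂μ) ^ 2 = w at *
  generalize lam ^ 8 * D ^ 7 * (D * I) = w' at *
  generalize K ^ 8 = k at *
  linarith

/-- (TAIL) eighth moment of `|g - n|²/Im g`, truncated at any height `T`, for approximate fixed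
points close to the reference.  `lam = 1/(4 K D)`, `δ = c₀/2`, `φ = (lyap_cont)^8`,
`lam² fA ≤ lyap`. -/
theorem lyap_bound {D : ℕ} (hD : 2 ≤ D) {c₀ : ℝ} (hc : 0 < c₀) : ∃ δ τ C₁ : ℝ, 0 < δ ∧ 0 < τ ∧
    0 < C₁ ∧ ∀ z m : ℂ, Ref D c₀ z m → ∀ T : ℝ, 1 ≤ T → ∃ φ : C(ℂ, ℝ),
      ∀ {X Y : Type} [MeasurableSpace X] [MeasurableSpace Y] (μ : Measure X) (θ : Measure Y)
        [IsProbabilityMeasure μ] [IsProbabilityMeasure θ] (g : X → ℂ) (t : Y → ℂ), Measurable g →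
        (∀ᵐ x ∂μ, 0 < (g x).im) → (∀ᵐ y ∂θ, 0 ≤ (t y).im ∧ ‖t y‖ ≤ 1) →
        μ.real {x | δ < ‖g x - m‖} ≤ τ →
        ∫ x, φ (zeta m (g x)) ∂μ ≤ 1 + ∫ y, ∫ M, φ (zeta m (recF z (t y) fun c => g (M c)))
          ∂(Measure.pi fun _ : Fin D => μ) ∂θ →
        ∫ x, fA (1 / m) T (g x) ^ 8 ∂μ ≤ C₁ := by
  obtain ⟨K, hK1, hK⟩ := lyap_step hD hc
  obtain ⟨t₀, ht₀, hgood⟩ := lyap_good hD hc
  have hD' : (2 : ℝ) ≤ D := by exact_mod_cast hD
  set lam : ℝ := 1 / (4 * K * D) with hlam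
  have hlam0 : 0 < lam := by positivity
  have hlam1 : lam ≤ 1 := by rw [hlam, div_le_one (by positivity)]; nlinarith
  set A : ℝ := 3 * K ^ 2 / lam ^ 2 with hA
  have hA0 : 0 < A := by positivity
  refine ⟨c₀ / 2, 1 / (8 * 3 ^ 7 * A ^ 8),
    2 * (1 + 3 ^ 7 * K ^ 8 + 2 * 3 ^ 7 * A ^ 8 * t₀ ^ 8) / lam ^ 16, by positivity, by positivity,
    by positivity, fun z m h T hT => ?_⟩
  obtain ⟨κ, hκ0, hκ1, hstep⟩ := hK z m h T hT
  obtain ⟨φ, hφ⟩ := lyap_cont hD hc h lam hκ0 (show 0 < T by linarith)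
  refine ⟨φ ^ 8, fun {X Y} _ _ μ θ _ _ g t hg hi ht hτ hfix => ?_⟩
  have hT0 : 0 ≤ T := by linarith
  have hall := ae_pi_forall (D := D) μ hi
  have hLm : Measurable fun x => lyap (1 / m) lam κ T (g x) := (measurable_lyap _ _ _ _).comp hg
  have hLB : ∀ᵐ x ∂μ, 0 ≤ lyap (1 / m) lam κ T (g x) ∧ lyap (1 / m) lam κ T (g x) ≤ 3 * T :=
    hi.mono fun x hx => lyap_mem _ hlam0.le hlam1 hκ0.le hT0 hx
  have e1 : ∫ x, (φ ^ 8) (zeta m (g x)) ∂μ = ∫ x, lyap (1 / m) lam κ T (g x) ^ 8 ∂μ :=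
    integral_congr_ae (hi.mono fun x hx => by simp only [ContinuousMap.pow_apply, hφ _ hx])
  have e2 : ∫ y, ∫ M, (φ ^ 8) (zeta m (recF z (t y) fun c => g (M c)))
      ∂(Measure.pi fun _ : Fin D => μ) ∂θ = ∫ y, ∫ M,
        lyap (1 / m) lam κ T (recF z (t y) fun c => g (M c)) ^ 8
      ∂(Measure.pi fun _ : Fin D => μ) ∂θ :=
    integral_congr_ae (ht.mono fun y hy => integral_congr_ae (hall.mono fun M hM => by
      simp only [ContinuousMap.pow_apply, hφ _ (recF_im_pos (by omega) h.zim hy.1 hM)]))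
  rw [e1, e2] at hfix
  have hmain := lyap_abstract (D := D) μ θ hLm hLB (S := {x | c₀ / 2 < ‖g x - m‖})
    (measurableSet_lt measurable_const (hg.sub_const m).norm) ht₀ hτ
    (Eventually.of_forall fun x hx =>
      hgood z m h lam κ T hlam0.le hlam1 hκ0.le hκ1 hT _ (not_lt.1 hx))
    (K := K) (A := A) (lam := lam * K) (by linarith) hA0.le (by positivity)
    (by rw [hlam]; apply le_of_eq; field_simp) (by apply le_of_eq; field_simp)
    (c₁ := ⟨0, by omega⟩) (c₂ := ⟨1, by omega⟩) (by simp)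
    (L' := fun y M => lyap (1 / m) lam κ T (recF z (t y) fun c => g (M c)))
    (ht.mono fun y hy => hall.mono fun M hM =>
      ⟨(lyap_mem _ hlam0.le hlam1 hκ0.le hT0 (recF_im_pos (by omega) h.zim hy.1 hM)).1,
        hstep lam hlam0 hlam1 (t y) (fun c => g (M c)) hy.1 hy.2 hM _ _⟩) hfix
  rw [le_div_iff₀ (by positivity), ← integral_mul_const]
  refine le_trans (integral_mono_of_nonneg (Eventually.of_forall fun x => by positivity)
    (integrable_of_ae_bdd μ (hLm.pow_const 8) (B := (3 * T) ^ 8) (hLB.mono fun x hx => by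
      rw [Real.norm_of_nonneg (by positivity)]; exact pow_le_pow_left₀ hx.1 hx.2 8)) ?_) hmain
  filter_upwards [hi] with x hx
  have h1 := fA_nonneg (1 / m) hT0 hx
  have h2 := fW_nonneg (1 / m) hκ0.le hT0 hx
  have h3 := fB_nonneg (1 / m) hT0 (g x)
  have h4 : lam ^ 2 * fA (1 / m) T (g x) ≤ lyap (1 / m) lam κ T (g x) := by
    unfold lyap
    have := mul_nonneg hlam0.le h2
    linarith
  calc fA (1 / m) T (g x) ^ 8 * lam ^ 16 = (lam ^ 2 * fA (1 / m) T (g x)) ^ 8 := by ring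
    _ ≤ _ := pow_le_pow_left₀ (by positivity) h4 8

/-- consequences of the moment bound: `min |g-m| T ≤ fA + 2/c₀`, so its eighth moment is at most
`C₂ = 2^7 (C₁ + (2/c₀)^8)`; then `sq_integral_le_split`-type splitting and Markov -/
theorem moment_small {D : ℕ} (hD : 2 ≤ D) {c₀ : ℝ} (hc : 0 < c₀) {z m : ℂ} (h : Ref D c₀ z m)
    {X : Type} [MeasurableSpace X] (μ : Measure X) [IsProbabilityMeasure μ] {g : X → ℂ}
    (hg : Measurable g) (hi : ∀ᵐ x ∂μ, 0 < (g x).im) {T C₁ δ τ : ℝ} (hT : 0 < T) (hδ : 0 ≤ δ)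
    (hmom : ∫ x, fA (1 / m) T (g x) ^ 8 ∂μ ≤ C₁) (hτ : μ.real {x | δ < ‖g x - m‖} ≤ τ) :
    (∫ x, min ‖g x - m‖ T ^ 4 ∂μ) ^ 2 ≤
        2 * δ ^ 8 + 2 * τ * (2 ^ 7 * (C₁ + (2 / c₀) ^ 8)) ∧
      μ.real {x | T < ‖g x - m‖} ≤ 2 ^ 7 * (C₁ + (2 / c₀) ^ 8) / T ^ 8 := by
  have hm : Measurable fun x => min ‖g x - m‖ T := (hg.sub_const m).norm.min measurable_const
  have h0 : ∀ x, 0 ≤ min ‖g x - m‖ T := fun x => le_min (norm_nonneg _) hT.le
  have hi8 : Integrable (fun x => min ‖g x - m‖ T ^ 8) μ :=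
    integrable_of_ae_bdd μ (hm.pow_const 8) (B := T ^ 8) (Eventually.of_forall fun x => by
      rw [Real.norm_of_nonneg (by positivity)]
      exact pow_le_pow_left₀ (h0 x) (min_le_right _ _) 8)
  have hA8 : Integrable (fun x => fA (1 / m) T (g x) ^ 8) μ :=
    integrable_of_ae_bdd μ (((measurable_fA _ _).comp hg).pow_const 8) (B := T ^ 8)
      (hi.mono fun x hx => by
        rw [Real.norm_of_nonneg (by positivity)]
        exact pow_le_pow_left₀ (fA_nonneg _ hT.le hx) (min_le_right _ _) 8)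
  have h8 : ∫ x, min ‖g x - m‖ T ^ 8 ∂μ ≤ 2 ^ 7 * (C₁ + (2 / c₀) ^ 8) := by
    calc ∫ x, min ‖g x - m‖ T ^ 8 ∂μ
        ≤ ∫ x, 2 ^ 7 * (fA (1 / m) T (g x) ^ 8 + (2 / c₀) ^ 8) ∂μ := by
          refine integral_mono_ae hi8 ((hA8.add (integrable_const _)).const_mul _) ?_
          filter_upwards [hi] with x hx
          exact (pow_le_pow_left₀ (h0 x) (min_norm_le_fA hD hc h T hx) 8).trans
            (add_pow_le (fA_nonneg _ hT.le hx) (by positivity) 8)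
      _ = 2 ^ 7 * (∫ x, fA (1 / m) T (g x) ^ 8 ∂μ + (2 / c₀) ^ 8) := by
          rw [integral_const_mul, integral_add hA8 (integrable_const _)]; simp
      _ ≤ _ := by gcongr
  constructor
  · have hsplit := sq_integral_le_split μ (L := fun x => min ‖g x - m‖ T ^ 4) (hm.pow_const 4)
      (B := T ^ 4) (Eventually.of_forall fun x =>
        ⟨by positivity, pow_le_pow_left₀ (h0 x) (min_le_right _ _) 4⟩)
      (S := {x | δ < ‖g x - m‖}) (measurableSet_lt measurable_const (hg.sub_const m).norm)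
      (t₀ := δ ^ 4) (by positivity) hτ (Eventually.of_forall fun x hx =>
        pow_le_pow_left₀ (h0 x) ((min_le_left _ _).trans (not_lt.1 hx)) 4)
    have e8 : (fun x => (min ‖g x - m‖ T ^ 4) ^ 2) = fun x => min ‖g x - m‖ T ^ 8 := by
      funext x; ring
    rw [e8] at hsplit
    have hτ0 : 0 ≤ τ := measureReal_nonneg.trans hτ
    have := mul_le_mul_of_nonneg_left h8 (show 0 ≤ 2 * τ by positivity)
    nlinarith
  · rw [le_div_iff₀ (by positivity), mul_comm]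
    have h1 := mul_meas_ge_le_integral_of_nonneg (f := fun x => min ‖g x - m‖ T ^ 8)
      (Eventually.of_forall fun x => by positivity) hi8 (T ^ 8)
    refine le_trans ?_ (h1.trans h8)
    refine mul_le_mul_of_nonneg_left (measureReal_mono fun x hx => ?_) (by positivity)
    simp only [Set.mem_setOf_eq] at hx ⊢
    rw [min_eq_right hx.le]

end Crest.Agent.R166
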