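import Crest.Agent.R166.T1
import Crest.Agent.R166.T2

/-! # Moments and mean-square Lipschitz bound on the tree -/

set_option autoImplicit false
set_option linter.unusedVariables false
set_option linter.unusedSectionVars false

open MeasureTheory ProbabilityTheory Filter Topology Matrix
open scoped ENNReal BoundedContinuousFunction

namespace Crest.Agent.R166

/-- size of a point of the upper half plane -/
noncomputable def bb (g : ℂ) : ℝ := (1 + ‖g‖ ^ 2) / g.im

theorem measurable_bb : Measurable bb := by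
  unfold bb; fun_prop

theorem one_le_bb {g : ℂ} (hg : 0 < g.im) : 1 ≤ bb g := by
  rw [bb, le_div_iff₀ hg, one_mul]
  nlinarith [Complex.im_le_norm g, sq_nonneg (‖g‖ - 1)]

theorem T3a_low {D : ℕ} (s : ℝ) {z : ℂ} (hz : 0 < z.im) :
    ∃ a : ℝ, 0 < a ∧ ∀ e : Env D, a ≤ (mT s z e).im := by
  refine ⟨_, ?_, mT_im_ge hz⟩
  have := hz.trans_le (Complex.im_le_norm z)
  positivity

theorem T3a_t {E E' s a b c : ℝ} {j : ℕ} (hs : 0 ≤ s) (ha : |E - E'| ≤ a) (hb : (2⁻¹ : ℝ) ^ j ≤ b)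
    (hc : s ≤ c) (v : J) : 0 ≤ (zj E' j - E - ((s * (v : ℝ) : ℝ) : ℂ)).im ∧
      ‖zj E' j - E - ((s * (v : ℝ) : ℝ) : ℂ)‖ ≤ a + b + c := by
  constructor
  · simp only [Complex.sub_im, Complex.ofReal_im, sub_zero]
    exact (zj_im_pos E' j).le
  · have e : zj E' j - E - ((s * (v : ℝ) : ℝ) : ℂ) = ((E' - E : ℝ) : ℂ) +
        (((2⁻¹ : ℝ) ^ j : ℝ) : ℂ) * Complex.I - ((s * (v : ℝ) : ℝ) : ℂ) := by
      rw [zj]
      push_cast
      ring
    have h1 : |(v : ℝ)| ≤ 1 := abs_le.2 v.2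
    have h2 := norm_add_le ((E' - E : ℝ) : ℂ) ((((2⁻¹ : ℝ) ^ j : ℝ) : ℂ) * Complex.I)
    rw [norm_mul, Complex.norm_I, mul_one, Complex.norm_real, Complex.norm_real,
      Real.norm_eq_abs, abs_sub_comm, Real.norm_of_nonneg (by positivity)] at h2
    rw [e]
    refine (norm_sub_le _ _).trans ?_
    rw [Complex.norm_real (s * v), Real.norm_eq_abs, abs_mul, abs_of_nonneg hs]
    nlinarith [abs_nonneg (v : ℝ)]

theorem integrable_bb_mT {D : ℕ} (s : ℝ) (β : Measure J) [IsProbabilityMeasure β] {z : ℂ}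
    (hz : 0 < z.im) (p : ℕ) : Integrable (fun e => bb (mT s z e) ^ p) (envLaw D β) := by
  obtain ⟨a, ha, h⟩ := T3a_low (D := D) s hz
  refine integrable_of_ae_bdd _ ((measurable_bb.comp (measurable_mT hz)).pow_const p)
    (B := ((1 + (1 / z.im) ^ 2) / a) ^ p) (ae_of_all _ fun e => ?_)
  have h1 := one_le_bb (mT_im_pos (s := s) hz e)
  rw [Real.norm_of_nonneg (by positivity)]
  refine pow_le_pow_left₀ (by linarith) ?_ p
  have h2 := norm_mT_le (s := s) hz e
  have h3 := h e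
  unfold bb
  gcongr

/-- Reference `(E, mc D E)` (`ref_band`), `lyap_bound` with `X = Env D`, `g = mT s (zj E j)`, `Y = J`,
`t v = zj E j - E - s v`; the fixed point equation is exact (`integral_envLaw_comb`, `mT_comb_recF`),
closeness by `tree_close`; take `T` above the supremum of `|g - n|²/Im g` (`mT_im_ge`, `norm_mT_le`) and use
`1 + |g|² ≤ (1 + |g|)² ≤ 9 c₀⁻⁴ |g - n|²` (`T0d_den`). -/
theorem tree_moment {D : ℕ} (hD : 2 ≤ D) {κ : ℝ} (hκ : 0 < κ) : ∃ (s₀ C : ℝ) (j₀ : ℕ), 0 < s₀ ∧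
    ∀ s : ℝ, 0 ≤ s → s < s₀ → ∀ (β : Measure J) [IsProbabilityMeasure β] (E : ℝ),
      E ^ 2 ≤ 4 * D - κ → ∀ j, j₀ ≤ j → ∫ e, bb (mT s (zj E j) e) ^ 8 ∂(envLaw D β) ≤ C := by
  obtain ⟨c₀, η₁, C₀, hc, -, -, hR⟩ := ref_band hD hκ
  obtain ⟨δ, τ, C₁, hδ, hτ, hC, hL⟩ := lyap_bound hD hc
  obtain ⟨s₀, j₀, hs₀, hcl⟩ := tree_close hD hκ hδ hτ
  refine ⟨min s₀ (1 / 2), (9 * c₀⁻¹ ^ 4) ^ 8 * C₁, max j₀ 1, by positivity,
    fun s hs hs' β _ E hE j hj => ?_⟩
  have hz := zj_im_pos E j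
  have hRef := (hR E hE).1
  obtain ⟨a, ha, hlow⟩ := T3a_low (D := D) s hz
  obtain ⟨φ, hφ⟩ := hL _ _ hRef (max 1 ((1 / (zj E j).im + ‖1 / mc D E‖) ^ 2 / a)) (le_max_left _ _)
  have hm := measurable_mT (D := D) (s := s) hz
  have hj1 : (2⁻¹ : ℝ) ^ j ≤ 1 / 2 := by
    calc (2⁻¹ : ℝ) ^ j ≤ (2⁻¹ : ℝ) ^ 1 :=
          pow_le_pow_of_le_one (by norm_num) (by norm_num) (le_of_max_le_right hj)
      _ = 1 / 2 := by norm_num
  have h1 := hφ (envLaw D β) β (mT s (zj E j)) (fun v => zj E j - E - ((s * (v : ℝ) : ℝ) : ℂ)) hm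
    (ae_of_all _ (mT_im_pos hz))
    (ae_of_all _ fun v => by
      have := T3a_t (E := E) (E' := E) (a := 0) hs (by simp) hj1 (lt_min_iff.1 hs').2.le v
      exact ⟨this.1, by linarith [this.2]⟩)
    (le_trans (measureReal_mono (fun e he => le_of_lt (show δ < _ from he)) (measure_ne_top _ _))
      (hcl s hs (lt_min_iff.1 hs').1 β E hE j (le_of_max_le_left hj)))
    (by
      rw [integral_envLaw_comb β (φ := fun e => φ (zeta (mc D E) (mT s (zj E j) e)))
        (φ.continuous.measurable.comp ((measurable_zeta _).comp hm))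
        (integrable_zeta hD hc hRef _ hm hm (ae_of_all _ fun e => ⟨T0a_mT hz e, T0a_mT hz e⟩)
          (φ.continuous.comp continuous_fst))]
      simp only [mT_comb_recF hz E]
      exact le_add_of_nonneg_left zero_le_one)
  refine le_trans ?_ (mul_le_mul_of_nonneg_left h1 (by positivity))
  rw [← integral_const_mul]
  refine integral_mono (integrable_bb_mT s β hz 8) (Integrable.const_mul ?_ _) fun e => ?_
  · refine integrable_of_ae_bdd _ (((measurable_fA _ _).comp hm).pow_const 8)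
      (B := (max 1 ((1 / (zj E j).im + ‖1 / mc D E‖) ^ 2 / a)) ^ 8) (ae_of_all _ fun e => ?_)
    have h2 := fA_nonneg (1 / mc D E) (T := max 1 ((1 / (zj E j).im + ‖1 / mc D E‖) ^ 2 / a))
      (by positivity) (mT_im_pos (s := s) hz e)
    rw [Real.norm_of_nonneg (by positivity)]
    exact pow_le_pow_left₀ h2 (min_le_right _ _) 8
  · have h2 := mT_im_pos (s := s) hz e
    have h3 := (T0d_den hD hc hRef h2.le).2.1
    have h4 := hlow e
    have h5 := (norm_sub_le (mT s (zj E j) e) (1 / mc D E)).trans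
      (add_le_add (norm_mT_le hz e) le_rfl)
    dsimp only
    rw [← mul_pow]
    refine pow_le_pow_left₀ (zero_le_one.trans (one_le_bb h2)) ?_ 8
    rw [fA, min_eq_left (le_max_of_le_right (by gcongr)), bb, ← mul_div_assoc]
    gcongr
    calc 1 + ‖mT s (zj E j) e‖ ^ 2 ≤ (1 + ‖mT s (zj E j) e‖) ^ 2 := by
          nlinarith [norm_nonneg (mT s (zj E j) e)]
      _ ≤ (3 * c₀⁻¹ ^ 2 * ‖mT s (zj E j) e - 1 / mc D E‖) ^ 2 := by gcongr
      _ = _ := by ring

theorem T3a_ms1 : MeasurableSet {p : ℂ × ℂ | 0 < p.1.im ∧ 0 < p.2.im} := by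
  measurability

theorem T3a_ms2 (a σ : ℝ) : MeasurableSet
    {t : ℂ × ℂ | 0 ≤ t.1.im ∧ 0 ≤ t.2.im ∧ ‖t.1‖ ≤ a ∧ ‖t.2‖ ≤ a ∧ ‖t.1 - t.2‖ ≤ σ} := by
  measurability

/-- `endo` for the exact bivariate fixed point `μ = law (mT z e, mT z' e)`,
`θ = law (z - E - s v, z' - E - s v)`, `σ = |z - z'|` (`integral_tree_fix`, `mT_eq_recF`, `integrable_zeta`),
for every `ε`; closeness of the second marginal by `tree_close` at `E'` (with `δ/2`) and `mc_lip`.
The constant `C` is enlarged so that it also dominates the constant of `zeta_pointwise`. -/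
theorem tree_L2 {D : ℕ} (hD : 2 ≤ D) {κ : ℝ} (hκ : 0 < κ) : ∃ (s₀ C r₀ : ℝ) (j₀ : ℕ), 0 < s₀ ∧
    0 < C ∧ 0 < r₀ ∧ (∀ E : ℝ, E ^ 2 ≤ 4 * D - κ → ∀ M M' : ℂ, 0 ≤ M.im → 0 ≤ M'.im →
      ‖zeta (mc D E) M‖ ≤ C ∧
      ‖M - M'‖ ≤ C * ‖zeta (mc D E) M - zeta (mc D E) M'‖ * ((1 + ‖M‖) * (1 + ‖M'‖))) ∧
    ∀ s : ℝ, 0 ≤ s → s < s₀ → ∀ (β : Measure J) [IsProbabilityMeasure β] (E E' : ℝ),
      E ^ 2 ≤ 4 * D - κ → E' ^ 2 ≤ 4 * D - κ → |E - E'| ≤ r₀ → ∀ j j', j₀ ≤ j → j₀ ≤ j' →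
      ∫ e, ‖zeta (mc D E) (mT s (zj E j) e) - zeta (mc D E) (mT s (zj E' j') e)‖ ^ 2
        ∂(envLaw D β) ≤ C * ‖zj E j - zj E' j'‖ ^ 2 := by
  obtain ⟨c₀, η₁, C₀, hc, -, -, hR⟩ := ref_band hD hκ
  obtain ⟨δ, τ, s₁, C, hδ, hτ, hs₁, hC, hen⟩ := endo hD hc
  obtain ⟨Cz, hCz, hzp⟩ := zeta_pointwise hD hc
  obtain ⟨Cm, hCm, hmc⟩ := mc_lip hD hκ
  obtain ⟨s₀, j₀, hs₀, hcl⟩ := tree_close hD hκ (half_pos hδ) hτ
  obtain ⟨j₁, hj₁⟩ := eventually_atTop.1 ((tendsto_pow_atTop_nhds_zero_of_lt_one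
    (r := (2⁻¹ : ℝ)) (by norm_num) (by norm_num)).eventually
      (ge_mem_nhds (show (0 : ℝ) < s₁ / 3 by positivity)))
  refine ⟨min s₀ (s₁ / 3), max C Cz, min (δ / 2 / Cm) (s₁ / 3), max j₀ j₁, by positivity,
    by positivity, by positivity, fun E hE M M' hM hM' => ⟨?_, ?_⟩,
    fun s hs hs' β _ E E' hE hE' hEE j j' hj hj' => ?_⟩
  · exact ((hzp _ _ (hR E hE).1).1 M hM).1.trans (le_max_right _ _)
  · refine ((hzp _ _ (hR E hE).1).2.1 M M' hM hM').2.trans ?_
    gcongr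
    exact le_max_right _ _
  have hz := zj_im_pos E j
  have hz' := zj_im_pos E' j'
  have hRef := (hR E hE).1
  have hm := measurable_mT (D := D) (s := s) hz
  have hm' := measurable_mT (D := D) (s := s) hz'
  have hF : Measurable fun e : Env D => (mT s (zj E j) e, mT s (zj E' j') e) := hm.prodMk hm'
  have hv : Measurable fun v : J => ((s * (v : ℝ) : ℝ) : ℂ) := by fun_prop
  have hG : Measurable fun v : J => (zj E j - E - ((s * (v : ℝ) : ℝ) : ℂ),
      zj E' j' - E - ((s * (v : ℝ) : ℝ) : ℂ)) := (hv.const_sub _).prodMk (hv.const_sub _)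
  have hζ := measurable_zeta (mc D E)
  have := Measure.isProbabilityMeasure_map (μ := envLaw D β) hF.aemeasurable
  have := Measure.isProbabilityMeasure_map (μ := β) hG.aemeasurable
  refine le_trans (le_of_forall_pos_le_add fun ε hε => ?_)
    (mul_le_mul_of_nonneg_right (le_max_left C Cz) (sq_nonneg _))
  obtain ⟨Φ, ε', hε', h⟩ := hen _ _ hRef ε hε
  have h1 := h ((envLaw D β).map fun e => (mT s (zj E j) e, mT s (zj E' j') e))
    (β.map fun v : J => (zj E j - E - ((s * (v : ℝ) : ℝ) : ℂ),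
      zj E' j' - E - ((s * (v : ℝ) : ℝ) : ℂ))) ‖zj E j - zj E' j'‖
    ((ae_map_iff hF.aemeasurable T3a_ms1).2
      (ae_of_all _ fun e => ⟨mT_im_pos hz e, mT_im_pos hz' e⟩))
    ((ae_map_iff hG.aemeasurable (T3a_ms2 _ _)).2 (ae_of_all _ fun v => by
      have h2 := T3a_t (E := E) (E' := E) (a := 0) hs (by simp) (hj₁ j (le_of_max_le_right hj))
        (lt_min_iff.1 hs').2.le v
      have h3 := T3a_t hs (le_min_iff.1 hEE).2 (hj₁ j' (le_of_max_le_right hj'))
        (lt_min_iff.1 hs').2.le v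
      refine ⟨h2.1, h3.1, by linarith [h2.2], by linarith [h3.2], le_of_eq ?_⟩
      congr 1
      ring))
    (by
      rw [map_measureReal_apply hF
        (measurableSet_lt measurable_const (measurable_fst.sub_const _).norm)]
      refine le_trans (measureReal_mono (fun e he => ?_) (measure_ne_top _ _))
        (hcl s hs (lt_min_iff.1 hs').1 β E hE j (le_of_max_le_left hj))
      exact (half_le_self hδ.le).trans (le_of_lt he))
    (by
      rw [map_measureReal_apply hF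
        (measurableSet_lt measurable_const (measurable_snd.sub_const _).norm)]
      refine le_trans (measureReal_mono (fun e he => ?_) (measure_ne_top _ _))
        (hcl s hs (lt_min_iff.1 hs').1 β E' hE' j' (le_of_max_le_left hj'))
      have h2 : δ < ‖mT s (zj E' j') e - mc D E‖ := he
      have h3 := hmc E E' hE hE'
      have h4 := (le_div_iff₀' hCm).1 (le_min_iff.1 hEE).1
      have h5 := norm_sub_le (mT s (zj E' j') e - mc D E') (mc D E - mc D E')
      rw [sub_sub_sub_cancel_right] at h5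
      show δ / 2 ≤ ‖mT s (zj E' j') e - mc D E'‖
      linarith)
    (fun φ _ => by
      have hψ : Measurable fun q : (ℂ × ℂ) × (Fin D → ℂ × ℂ) =>
          φ (zeta (mc D E) (recF E q.1.1 fun c => (q.2 c).1),
            zeta (mc D E) (recF E q.1.2 fun c => (q.2 c).2)) :=
        φ.continuous.measurable.comp
          ((hζ.comp ((measurable_recF (E : ℂ)).comp (f := fun q : (ℂ × ℂ) × (Fin D → ℂ × ℂ) =>
            (q.1.1, fun c => (q.2 c).1)) (by fun_prop))).prodMk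
          (hζ.comp ((measurable_recF (E : ℂ)).comp (f := fun q : (ℂ × ℂ) × (Fin D → ℂ × ℂ) =>
            (q.1.2, fun c => (q.2 c).2)) (by fun_prop))))
      have hi := integrable_zeta hD hc hRef (envLaw D β) hm hm'
        (ae_of_all _ fun e => ⟨T0a_mT hz e, T0a_mT hz' e⟩) φ.continuous
      have e1 : ∀ e : Env D, φ (zeta (mc D E) (mT s (zj E j) e), zeta (mc D E) (mT s (zj E' j') e)) =
          φ (zeta (mc D E) (recF E (zj E j - E - ((s * (e [] : ℝ) : ℝ) : ℂ))
              fun c => mT s (zj E j) (e.sub c)),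
            zeta (mc D E) (recF E (zj E' j' - E - ((s * (e [] : ℝ) : ℝ) : ℂ))
              fun c => mT s (zj E' j') (e.sub c))) := fun e => by
        rw [← mT_eq_recF hz, ← mT_eq_recF hz']
      have h2 := integral_tree_fix β hF (hψ.comp (hG.prodMap measurable_id)) (by
        simp only [e1] at hi
        exact hi)
      have hφ : Measurable fun p : ℂ × ℂ => φ (zeta (mc D E) p.1, zeta (mc D E) p.2) :=
        φ.continuous.measurable.comp ((hζ.comp measurable_fst).prodMk (hζ.comp measurable_snd))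
      rw [integral_map hF.aemeasurable hφ.aestronglyMeasurable,
        integral_map hG.aemeasurable
          hψ.stronglyMeasurable.integral_prod_right'.aestronglyMeasurable]
      simp only [e1]
      exact (abs_eq_zero.2 (sub_eq_zero.2 h2)).le.trans hε'.le)
  have h2 : Measurable fun p : ℂ × ℂ => ‖zeta (mc D E) p.1 - zeta (mc D E) p.2‖ ^ 2 :=
    ((hζ.comp measurable_fst).sub (hζ.comp measurable_snd)).norm.pow_const 2
  rw [integral_map hF.aemeasurable h2.aestronglyMeasurable] at h1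
  rw [add_comm]
  exact h1

end Crest.Agent.R166
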