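import Crest.Agent.R166.T3a

/-! # `L¹` Lipschitz bounds -/

set_option autoImplicit false
set_option linter.unusedVariables false
set_option linter.unusedSectionVars false

open MeasureTheory ProbabilityTheory Filter Topology Matrix
open scoped ENNReal BoundedContinuousFunction

namespace Crest.Agent.R166

theorem T3b_key (g₁ g₂ : ℂ) : g₁.im + ‖g₁‖ ^ 2 * g₂.im ≤ ‖g₁‖ * ‖1 - g₁ * g₂‖ := by
  have h := Complex.abs_im_le_norm ((starRingEnd ℂ) g₁ * (1 - g₁ * g₂))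
  rw [norm_mul, Complex.norm_conj] at h
  refine le_trans (le_of_eq ?_) ((neg_le_abs _).trans h)
  rw [Complex.sq_norm, Complex.normSq_apply]
  simp
  ring

theorem T3b_gE (g₁ g₂ : ℂ) : gE g₁ g₂ 0 0 = g₁ / (1 - g₁ * g₂) := by
  simp [gE]

theorem T3b_norm_gE {g₁ g₂ : ℂ} (a₁ : 0 < g₁.im) (a₂ : 0 < g₂.im) :
    ‖g₁ / (1 - g₁ * g₂)‖ ≤ 1 / g₂.im := by
  have h := T3b_key g₁ g₂
  have h0 : 0 < ‖1 - g₁ * g₂‖ := norm_pos_iff.2 (T0b_one_sub_ne a₁ a₂)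
  have h1 : 0 < ‖g₁‖ := a₁.trans_le (Complex.im_le_norm _)
  rw [norm_div, div_le_div_iff₀ h0 a₂]
  refine le_of_mul_le_mul_left ?_ h1
  nlinarith

theorem T3b_norm_inv {g₁ g₂ : ℂ} (a₁ : 0 < g₁.im) (a₂ : 0 < g₂.im) :
    ‖(1 - g₁ * g₂)⁻¹‖ ≤ ‖g₁‖ / g₁.im := by
  have h := T3b_key g₁ g₂
  have h0 : 0 < ‖1 - g₁ * g₂‖ := norm_pos_iff.2 (T0b_one_sub_ne a₁ a₂)
  rw [norm_inv, inv_eq_one_div, div_le_div_iff₀ h0 a₁]
  nlinarith [mul_nonneg (sq_nonneg ‖g₁‖) a₂.le]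

theorem T3b_bb1 {g : ℂ} (hg : 0 < g.im) : (1 + ‖g‖) * (‖g‖ / g.im) ≤ 2 * bb g := by
  rw [bb, ← mul_div_assoc, ← mul_div_assoc]
  refine div_le_div_of_nonneg_right ?_ hg.le
  nlinarith [sq_nonneg (‖g‖ - 1)]

theorem T3b_bb2 {g : ℂ} (hg : 0 < g.im) : (1 + ‖g‖) * (1 / g.im) ≤ 2 * bb g := by
  rw [bb, ← mul_div_assoc, ← mul_div_assoc]
  refine div_le_div_of_nonneg_right ?_ hg.le
  nlinarith [sq_nonneg (‖g‖ - 1)]

theorem T3b_zj (E : ℝ) (j : ℕ) : 0 < (zj E j).im := by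
  rw [zj, Complex.add_im, Complex.ofReal_im, Complex.mul_I_im, Complex.ofReal_re, zero_add]
  positivity

/-- `gE g₁ g₂ 0 0 = 1/(1/g₁ - g₂)` has modulus `≤ 1/Im g₂` and `≤ |g₁|²/Im g₁`;
`G - H = G H ((1/h₁ - 1/g₁) + (g₂ - h₂))` -/
theorem gE00_sub_le {g₁ g₂ h₁ h₂ : ℂ} (a₁ : 0 < g₁.im) (a₂ : 0 < g₂.im) (b₁ : 0 < h₁.im)
    (b₂ : 0 < h₂.im) {x₁ x₂ : ℝ} (e₁ : ‖g₁ - h₁‖ ≤ x₁ * ((1 + ‖g₁‖) * (1 + ‖h₁‖)))
    (e₂ : ‖g₂ - h₂‖ ≤ x₂ * ((1 + ‖g₂‖) * (1 + ‖h₂‖))) :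
    ‖gE g₁ g₂ 0 0 - gE h₁ h₂ 0 0‖ ≤ 4 * (x₁ * (bb g₁ * bb h₁) + x₂ * (bb g₂ * bb h₂)) := by
  have n1 := T0b_one_sub_ne a₁ a₂
  have n2 := T0b_one_sub_ne b₁ b₂
  have x1 : 0 ≤ x₁ := nonneg_of_mul_nonneg_left ((norm_nonneg _).trans e₁) (by positivity)
  have x2 : 0 ≤ x₂ := nonneg_of_mul_nonneg_left ((norm_nonneg _).trans e₂) (by positivity)
  have e : g₁ / (1 - g₁ * g₂) - h₁ / (1 - h₁ * h₂) =
      (g₁ - h₁) * ((1 - g₁ * g₂)⁻¹ * (1 - h₁ * h₂)⁻¹) +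
        (g₂ - h₂) * (g₁ / (1 - g₁ * g₂) * (h₁ / (1 - h₁ * h₂))) := by
    field_simp
    ring
  rw [T3b_gE, T3b_gE, e, mul_add]
  refine (norm_add_le _ _).trans (add_le_add ?_ ?_)
  · rw [norm_mul, norm_mul]
    calc _ ≤ x₁ * ((1 + ‖g₁‖) * (1 + ‖h₁‖)) * (‖g₁‖ / g₁.im * (‖h₁‖ / h₁.im)) := by
          gcongr
          · exact T3b_norm_inv a₁ a₂
          · exact T3b_norm_inv b₁ b₂
      _ = x₁ * (((1 + ‖g₁‖) * (‖g₁‖ / g₁.im)) * ((1 + ‖h₁‖) * (‖h₁‖ / h₁.im))) := by ring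
      _ ≤ x₁ * (2 * bb g₁ * (2 * bb h₁)) := by
          have := one_le_bb a₁
          exact mul_le_mul_of_nonneg_left (mul_le_mul (T3b_bb1 a₁) (T3b_bb1 b₁) (by positivity)
            (by positivity)) x1
      _ = _ := by ring
  · rw [norm_mul, norm_mul]
    calc _ ≤ x₂ * ((1 + ‖g₂‖) * (1 + ‖h₂‖)) * (1 / g₂.im * (1 / h₂.im)) := by
          gcongr
          · exact T3b_norm_gE a₁ a₂
          · exact T3b_norm_gE b₁ b₂
      _ = x₂ * (((1 + ‖g₂‖) * (1 / g₂.im)) * ((1 + ‖h₂‖) * (1 / h₂.im))) := by ring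
      _ ≤ x₂ * (2 * bb g₂ * (2 * bb h₂)) := by
          have := one_le_bb a₂
          exact mul_le_mul_of_nonneg_left (mul_le_mul (T3b_bb2 a₂) (T3b_bb2 b₂) (by positivity)
            (by positivity)) x2
      _ = _ := by ring

theorem one_add_norm_le_bb {g : ℂ} (hg : 0 < g.im) : 1 + ‖g‖ ≤ 2 * bb g := by
  refine le_trans (le_mul_of_one_le_right (by positivity) ?_) (T3b_bb1 hg)
  exact (one_le_div hg).2 (Complex.im_le_norm _)

theorem norm_gE00_le_bb {g₁ g₂ : ℂ} (a₁ : 0 < g₁.im) (a₂ : 0 < g₂.im) :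
    ‖gE g₁ g₂ 0 0‖ ≤ bb g₂ := by
  rw [T3b_gE]
  refine (T3b_norm_gE a₁ a₂).trans (div_le_div_of_nonneg_right ?_ a₂.le)
  nlinarith [sq_nonneg ‖g₂‖]

/-- Cauchy–Schwarz in the form `x a b ≤ x²/(2q) + q (a⁴ + b⁴)/4`, `a⁴ ≤ a⁸` for `a ≥ 1`
(for `q = 0` the function `x` vanishes a.e., or let `q ↓`) -/
theorem integral_mul_bb_le {X : Type} [MeasurableSpace X] (μ : Measure X) [IsProbabilityMeasure μ]
    {x a b : X → ℝ} (hx : Measurable x) (ha : Measurable a) (hb : Measurable b) {B q C₁ : ℝ}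
    (hx0 : ∀ p, 0 ≤ x p ∧ x p ≤ B) (ha1 : ∀ p, 1 ≤ a p) (hb1 : ∀ p, 1 ≤ b p)
    (ia : Integrable (fun p => a p ^ 8) μ) (ib : Integrable (fun p => b p ^ 8) μ)
    (hq : 0 ≤ q) (h2 : ∫ p, x p ^ 2 ∂μ ≤ q ^ 2) (ma : ∫ p, a p ^ 8 ∂μ ≤ C₁)
    (mb : ∫ p, b p ^ 8 ∂μ ≤ C₁) :
    Integrable (fun p => x p * (a p * b p)) μ ∧ ∫ p, x p * (a p * b p) ∂μ ≤ q * (1 + C₁) := by
  have hab : ∀ p, (a p * b p) ^ 2 ≤ (a p ^ 8 + b p ^ 8) / 2 := by
    intro p
    have h1 : a p ^ 4 ≤ a p ^ 8 := pow_le_pow_right₀ (ha1 p) (by norm_num)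
    have h2 : b p ^ 4 ≤ b p ^ 8 := pow_le_pow_right₀ (hb1 p) (by norm_num)
    nlinarith [sq_nonneg (a p ^ 2 - b p ^ 2)]
  have hab1 : ∀ p, 1 ≤ a p * b p := fun p => one_le_mul_of_one_le_of_one_le (ha1 p) (hb1 p)
  have ix : Integrable (fun p => x p ^ 2) μ :=
    (integrable_const (B ^ 2)).mono' (hx.pow_const 2).aestronglyMeasurable
      (Eventually.of_forall fun p => by
        rw [Real.norm_of_nonneg (sq_nonneg _)]
        exact pow_le_pow_left₀ (hx0 p).1 (hx0 p).2 2)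
  have hi : Integrable (fun p => x p * (a p * b p)) μ := by
    refine (((ia.add ib).div_const 2).const_mul B).mono'
      (hx.mul (ha.mul hb)).aestronglyMeasurable (Eventually.of_forall fun p => ?_)
    rw [Real.norm_of_nonneg (mul_nonneg (hx0 p).1 (by linarith [hab1 p]))]
    refine mul_le_mul (hx0 p).2 (le_trans ?_ (hab p)) (by linarith [hab1 p])
      ((hx0 p).1.trans (hx0 p).2)
    nlinarith [hab1 p]
  refine ⟨hi, ?_⟩
  have hC : 0 ≤ C₁ := (integral_nonneg fun p => by have := ha1 p; positivity).trans ma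
  have key : ∀ q', q < q' → ∫ p, x p * (a p * b p) ∂μ ≤ q' * (1 + C₁) := by
    intro q' hq'
    have hq0 : 0 < q' := hq.trans_lt hq'
    have h1 : ∫ p, x p * (a p * b p) ∂μ ≤
        ∫ p, (x p ^ 2 / (2 * q') + q' / 4 * (a p ^ 8 + b p ^ 8)) ∂μ := by
      refine integral_mono hi ((ix.div_const _).add ((ia.add ib).const_mul _)) fun p => ?_
      have h3 : x p * (a p * b p) ≤ x p ^ 2 / (2 * q') + q' / 2 * (a p * b p) ^ 2 := by
        rw [← sub_le_iff_le_add, le_div_iff₀ (by positivity)]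
        nlinarith [sq_nonneg (x p - q' * (a p * b p))]
      have h4 := mul_le_mul_of_nonneg_left (hab p) (half_pos hq0).le
      simp only
      linarith
    have iab : Integrable (fun p => a p ^ 8 + b p ^ 8) μ := ia.add ib
    rw [integral_add (ix.div_const _) (iab.const_mul _), integral_div, integral_const_mul,
      integral_add ia ib] at h1
    have h5 : (∫ p, x p ^ 2 ∂μ) / (2 * q') ≤ q' := by
      rw [div_le_iff₀ (by positivity)]
      nlinarith [pow_le_pow_left₀ hq hq'.le 2]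
    nlinarith
  refine le_of_forall_pos_le_add fun ε hε => (key (q + ε / (1 + C₁))
    (lt_add_of_pos_right _ (by positivity))).trans (le_of_eq ?_)
  field_simp

/-- `tree_moment`, `tree_L2`, the three lemmas above; on the product measure use
`measurePreserving_fst/snd` (`integral_fun_fst`, `integral_fun_snd`) -/
theorem tree_L1 {D : ℕ} (hD : 2 ≤ D) {κ : ℝ} (hκ : 0 < κ) : ∃ (s₀ C r₀ : ℝ) (j₀ : ℕ), 0 < s₀ ∧
    0 < C ∧ 0 < r₀ ∧
    ∀ s : ℝ, 0 ≤ s → s < s₀ → ∀ (β : Measure J) [IsProbabilityMeasure β] (E : ℝ),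
      E ^ 2 ≤ 4 * D - κ → ∀ j, j₀ ≤ j →
      ∫ e, bb (mT s (zj E j) e) ^ 8 ∂(envLaw D β) ≤ C ∧
      ∀ E' : ℝ, E' ^ 2 ≤ 4 * D - κ → |E - E'| ≤ r₀ → ∀ j', j₀ ≤ j' →
        ∫ e, ‖mT s (zj E j) e - mT s (zj E' j') e‖ ∂(envLaw D β) ≤ C * ‖zj E j - zj E' j'‖ ∧
        ∫ e, ‖gE (mT s (zj E j) e.1) (mT s (zj E j) e.2) 0 0 -
            gE (mT s (zj E' j') e.1) (mT s (zj E' j') e.2) 0 0‖
          ∂((envLaw D β).prod (envLaw D β)) ≤ C * ‖zj E j - zj E' j'‖ := by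
  obtain ⟨s₁, C₁, j₁, hs₁, h₁⟩ := tree_moment hD hκ
  obtain ⟨s₂, C₂, r₀, j₂, hs₂, hC₂, hr₀, hpt, h₂⟩ := tree_L2 hD hκ
  refine ⟨min s₁ s₂, |C₁| + 8 * (C₂ * √C₂) * (1 + |C₁|), r₀, max j₁ j₂, lt_min hs₁ hs₂,
    by positivity, hr₀, ?_⟩
  intro s hs0 hs β _ E hE j hj
  rw [lt_min_iff] at hs
  rw [max_le_iff] at hj
  have m₁ := (h₁ s hs0 hs.1 β E hE j hj.1).trans (le_abs_self _)
  refine ⟨m₁.trans (le_add_of_nonneg_right (by positivity)), fun E' hE' hr j' hj' => ?_⟩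
  rw [max_le_iff] at hj'
  have m₂ := (h₁ s hs0 hs.1 β E' hE' j' hj'.1).trans (le_abs_self _)
  have l2 := h₂ s hs0 hs.2 β E E' hE hE' hr j j' hj.2 hj'.2
  have hz := T3b_zj E j
  have hz' := T3b_zj E' j'
  have c1 := (continuous_mT (D := D) (s := s) hz).measurable
  have c2 := (continuous_mT (D := D) (s := s) hz').measurable
  set σ := ‖zj E j - zj E' j'‖ with hσ
  have hσ0 : 0 ≤ σ := norm_nonneg _
  let x : Env D → ℝ := fun e =>
    C₂ * ‖zeta (mc D E) (mT s (zj E j) e) - zeta (mc D E) (mT s (zj E' j') e)‖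
  have hx : Measurable x := by
    unfold x zeta
    fun_prop
  have hpt' := fun e : Env D => hpt E hE _ _ (mT_im_pos (s := s) hz e).le (mT_im_pos (s := s) hz' e).le
  obtain ⟨i1, i2⟩ := integral_mul_bb_le (envLaw D β) hx (measurable_bb.comp c1)
    (measurable_bb.comp c2) (B := C₂ * (C₂ + C₂)) (q := C₂ * √C₂ * σ) (C₁ := |C₁|)
    (fun e => ⟨by positivity, mul_le_mul_of_nonneg_left ((norm_sub_le _ _).trans (add_le_add
      (hpt' e).1 (hpt E hE _ 0 (mT_im_pos hz' e).le le_rfl).1)) hC₂.le⟩)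
    (fun e => one_le_bb (mT_im_pos hz e)) (fun e => one_le_bb (mT_im_pos hz' e))
    (integrable_bb_mT s β hz 8) (integrable_bb_mT s β hz' 8) (by positivity) (by
      simp only [x, mul_pow]
      rw [integral_const_mul, Real.sq_sqrt hC₂.le, mul_assoc]
      exact mul_le_mul_of_nonneg_left l2 (sq_nonneg _)) m₁ m₂
  simp only [Function.comp_apply] at i1 i2
  have p1 : 0 ≤ |C₁| * σ := by positivity
  have p2 : 0 ≤ C₂ * √C₂ * σ * (1 + |C₁|) := by positivity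
  constructor
  · refine (integral_mono_of_nonneg (Eventually.of_forall fun e => norm_nonneg _) (i1.const_mul 4)
      (Eventually.of_forall fun e => ?_)).trans ?_
    · refine (hpt' e).2.trans ?_
      have h3 := one_add_norm_le_bb (mT_im_pos (s := s) hz e)
      have h4 := one_add_norm_le_bb (mT_im_pos (s := s) hz' e)
      have h5 := one_le_bb (mT_im_pos (s := s) hz e)
      calc _ ≤ x e * (2 * bb (mT s (zj E j) e) * (2 * bb (mT s (zj E' j') e))) := by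
            simp only [x]
            gcongr
        _ = _ := by ring
    · rw [integral_const_mul]
      nlinarith
  · have j1 := i1.comp_fst (envLaw D β)
    have j2 := i1.comp_snd (envLaw D β)
    refine (integral_mono_of_nonneg (Eventually.of_forall fun e => norm_nonneg _)
      ((j1.add j2).const_mul 4) (Eventually.of_forall fun e => ?_)).trans ?_
    · exact gE00_sub_le (mT_im_pos hz _) (mT_im_pos hz _) (mT_im_pos hz' _) (mT_im_pos hz' _)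
        (hpt' e.1).2 (hpt' e.2).2
    · simp only [Pi.add_apply]
      rw [integral_const_mul, integral_add j1 j2,
        integral_fun_fst fun e => x e * (bb (mT s (zj E j) e) * bb (mT s (zj E' j') e)),
        integral_fun_snd fun e => x e * (bb (mT s (zj E j) e) * bb (mT s (zj E' j') e))]
      simp only [probReal_univ, one_smul]
      nlinarith

end Crest.Agent.R166
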