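import Crest.Agent.R166.TW

/-! # Integrating out one coordinate of the potential -/

set_option autoImplicit false
set_option linter.unusedVariables false
set_option linter.unusedSectionVars false

open MeasureTheory ProbabilityTheory Filter Topology Matrix
open scoped ENNReal BoundedContinuousFunction

namespace Crest.Agent.R166

variable {D : ℕ} (β : Measure J) [IsProbabilityMeasure β]

/-- continuous functions of the potential -/
abbrev CW (D : ℕ) : Type := C(OmW D, ℝ)

theorem continuous_updW (v : Wd (D + 1)) :
    Continuous fun p : OmW D × J => Function.update p.1 v p.2 :=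
  continuous_fst.update v continuous_snd

theorem integrable_updW (F : CW D) (v : Wd (D + 1)) (ω : OmW D) :
    Integrable (fun t => F (Function.update ω v t)) β :=
  (F.continuous.comp (continuous_const.update v continuous_id)).integrable_of_hasCompactSupport
    (HasCompactSupport.of_compactSpace _)

/-- conditional expectation given all coordinates but `v` -/
noncomputable def Ev (v : Wd (D + 1)) : Module.End ℝ (CW D) where
  toFun F := ⟨fun ω => ∫ t, F (Function.update ω v t) ∂β, by
    have := continuous_parametric_integral_of_continuous (μ := β)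
      (f := fun (ω : OmW D) (t : J) => F (Function.update ω v t))
      (F.continuous.comp (continuous_updW v)) isCompact_univ
    simpa only [Measure.restrict_univ] using this⟩
  map_add' F G := by
    ext ω
    exact integral_add (integrable_updW β F v ω) (integrable_updW β G v ω)
  map_smul' c F := by
    ext ω
    exact integral_const_mul c _

theorem Ev_apply (v : Wd (D + 1)) (F : CW D) (ω : OmW D) :
    Ev β v F ω = ∫ t, F (Function.update ω v t) ∂β := rfl

/-- squared `L²` norm -/
noncomputable def n2 (F : OmW D → ℝ) : ℝ := ∫ ω, F ω ^ 2 ∂(PW D β)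

/-- composition with the shift -/
noncomputable def Sh (v : Wd (D + 1)) : Module.End ℝ (CW D) where
  toFun F := F.comp ⟨shiftW v, continuous_shiftW v⟩
  map_add' F G := rfl
  map_smul' c F := rfl

theorem Sh_apply (v : Wd (D + 1)) (F : CW D) (ω : OmW D) : Sh v F ω = F (shiftW v ω) := rfl

/-- the potential at the root -/
noncomputable def Vp (D : ℕ) : CW D :=
  ⟨fun ω => (ω 1 : ℝ), continuous_subtype_val.comp (continuous_apply 1)⟩

theorem Vp_apply (ω : OmW D) : Vp D ω = (ω 1 : ℝ) := rfl

theorem integrable_CW (F : CW D) : Integrable F (PW D β) :=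
  F.continuous.integrable_of_hasCompactSupport (HasCompactSupport.of_compactSpace _)

theorem n2_nonneg (F : OmW D → ℝ) : 0 ≤ n2 β F := integral_nonneg fun _ => sq_nonneg _

/-- resampling one coordinate preserves the law (`Measure.eq_infinitePi` on boxes) -/
theorem measurePreserving_updW (v : Wd (D + 1)) :
    MeasurePreserving (fun p : OmW D × J => Function.update p.1 v p.2) ((PW D β).prod β) (PW D β) := by
  have hm : Measurable fun p : OmW D × J => Function.update p.1 v p.2 :=
    (continuous_updW v).measurable
  refine ⟨hm, Measure.eq_infinitePi (fun _ : Wd (D + 1) => β) fun s t ht => ?_⟩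
  rw [Measure.map_apply hm (MeasurableSet.pi s.countable_toSet fun i _ => ht i)]
  by_cases hv : v ∈ s
  · have h : (fun p : OmW D × J => Function.update p.1 v p.2) ⁻¹' Set.pi s t =
        Set.pi (s.erase v) t ×ˢ t v := by
      ext p
      simp only [Set.mem_preimage, Set.mem_pi, Finset.mem_coe, Set.mem_prod, Finset.mem_erase]
      constructor
      · intro h
        refine ⟨fun i hi => ?_, ?_⟩
        · simpa only [Function.update_of_ne hi.1] using h i hi.2
        · simpa only [Function.update_self] using h v hv
      · rintro ⟨h1, h2⟩ i hi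
        by_cases hiv : i = v
        · subst hiv
          simpa only [Function.update_self] using h2
        · simpa only [Function.update_of_ne hiv] using h1 i ⟨hiv, hi⟩
    rw [h, Measure.prod_prod, PW, Measure.infinitePi_pi _ fun i _ => ht i,
      Finset.prod_erase_mul s (fun i => β (t i)) hv]
  · have h : (fun p : OmW D × J => Function.update p.1 v p.2) ⁻¹' Set.pi s t =
        Set.pi s t ×ˢ Set.univ := by
      ext p
      simp only [Set.mem_preimage, Set.mem_pi, Finset.mem_coe, Set.mem_prod, Set.mem_univ, and_true]
      refine forall_congr' fun i => forall_congr' fun hi => ?_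
      rw [Function.update_of_ne (ne_of_mem_of_not_mem hi hv)]
    rw [h, Measure.prod_prod, PW, Measure.infinitePi_pi _ fun i _ => ht i, measure_univ, mul_one]

/-- Fubini (`integral_integral_swap`, `Function.update_comm`) -/
theorem Ev_comm (v w : Wd (D + 1)) : Commute (Ev β v) (Ev β w) := by
  by_cases h : v = w
  · subst h
    exact Commute.refl _
  · refine LinearMap.ext fun F => ContinuousMap.ext fun ω => ?_
    change ∫ t, ∫ u, F (Function.update (Function.update ω v t) w u) ∂β ∂β =
      ∫ u, ∫ t, F (Function.update (Function.update ω w u) v t) ∂β ∂β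
    rw [integral_integral_swap]
    · simp only [Function.update_comm h]
    · refine Continuous.integrable_of_hasCompactSupport ?_ (HasCompactSupport.of_compactSpace _)
      have h1 : Continuous fun a : J × J => Function.update ω v a.1 :=
        continuous_const.update v continuous_fst
      have h2 : Continuous fun a : J × J => Function.update (Function.update ω v a.1) w a.2 :=
        h1.update w continuous_snd
      exact F.continuous.comp h2

theorem T8a_upd {F : OmW D → ℝ} {S : Set (Wd (D + 1))} (hF : DependsOn F S) {v : Wd (D + 1)}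
    (hv : v ∉ S) (ω : OmW D) (t : J) : F (Function.update ω v t) = F ω :=
  hF fun i hi => Function.update_of_ne (ne_of_mem_of_not_mem hi hv) _ _

theorem Ev_of_dependsOn {F : CW D} {S : Set (Wd (D + 1))} (hF : DependsOn F S) {v : Wd (D + 1)}
    (hv : v ∉ S) : Ev β v F = F := by
  ext ω
  simp only [Ev_apply, T8a_upd hF hv, integral_const, probReal_univ, one_smul]

theorem dependsOn_Ev {F : CW D} {S : Set (Wd (D + 1))} (hF : DependsOn F S) (v : Wd (D + 1)) :
    DependsOn (Ev β v F) S := by
  intro x y h
  simp only [Ev_apply]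
  refine integral_congr_ae (Eventually.of_forall fun t => hF fun i hi => ?_)
  by_cases hiv : i = v
  · subst hiv
    simp only [Function.update_self]
  · simp only [Function.update_of_ne hiv, h i hi]

theorem dependsOn_Ev_compl (F : CW D) (v : Wd (D + 1)) : DependsOn (Ev β v F) {v}ᶜ := by
  intro x y h
  simp only [Ev_apply]
  refine integral_congr_ae (Eventually.of_forall fun t => congrArg F (funext fun i => ?_))
  by_cases hiv : i = v
  · subst hiv
    simp only [Function.update_self]
  · simp only [Function.update_of_ne hiv, h i hiv]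

theorem Ev_idem (v : Wd (D + 1)) (F : CW D) : Ev β v (Ev β v F) = Ev β v F := by
  exact Ev_of_dependsOn β (dependsOn_Ev_compl β F v) (by simp)

theorem Ev_mul {G : CW D} {S : Set (Wd (D + 1))} (hG : DependsOn G S) {v : Wd (D + 1)}
    (hv : v ∉ S) (F : CW D) : Ev β v (G * F) = G * Ev β v F := by
  ext ω
  simp only [Ev_apply, ContinuousMap.mul_apply, T8a_upd hG hv, integral_const_mul]

theorem T8a_int {f : OmW D × J → ℝ} (hf : Continuous f) : Integrable f ((PW D β).prod β) :=
  hf.integrable_of_hasCompactSupport (HasCompactSupport.of_compactSpace _)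

theorem T8a_integral_upd (v : Wd (D + 1)) (F : CW D) :
    ∫ p, F (Function.update p.1 v p.2) ∂((PW D β).prod β) = ∫ ω, F ω ∂(PW D β) := by
  have h := measurePreserving_updW β v
  rw [← integral_map h.measurable.aemeasurable F.continuous.aestronglyMeasurable, h.map_eq]

theorem integral_Ev (v : Wd (D + 1)) (F : CW D) :
    ∫ ω, Ev β v F ω ∂(PW D β) = ∫ ω, F ω ∂(PW D β) := by
  have hu : Continuous fun p : OmW D × J => F (Function.update p.1 v p.2) :=
    F.continuous.comp (continuous_updW v)
  rw [← T8a_integral_upd β v F, integral_prod _ (T8a_int β hu)]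
  rfl

theorem T8a_n2 (F : CW D) : n2 β F = ∫ ω, (F * F) ω ∂(PW D β) := by
  simp only [n2, ContinuousMap.mul_apply, sq]

theorem T8a_orth (v : Wd (D + 1)) (F : CW D) :
    ∫ ω, Ev β v F ω * (F ω - Ev β v F ω) ∂(PW D β) = 0 := by
  have h := integral_Ev β v (Ev β v F * (F - Ev β v F))
  rw [Ev_mul β (dependsOn_Ev_compl β F v) (by simp), map_sub, Ev_idem, sub_self, mul_zero] at h
  simpa using h.symm

/-- Pythagoras for `a E F + b (F - E F)`: `∫ (E F) · F = ∫ (E F)²` by `Ev_mul`, `integral_Ev` -/
theorem n2_Ev_comb (v : Wd (D + 1)) (F : CW D) (a b : ℝ) :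
    n2 β (a • Ev β v F + b • (F - Ev β v F)) =
      a ^ 2 * n2 β (Ev β v F) + b ^ 2 * n2 β (F - Ev β v F) := by
  have h0 := T8a_orth β v F
  have i1 := integrable_CW β (Ev β v F * Ev β v F)
  have i2 := integrable_CW β ((F - Ev β v F) * (F - Ev β v F))
  have i3 := integrable_CW β (Ev β v F * (F - Ev β v F))
  have e : ∀ ω, (a • Ev β v F + b • (F - Ev β v F)) ω ^ 2 =
      a ^ 2 * (Ev β v F * Ev β v F) ω + b ^ 2 * ((F - Ev β v F) * (F - Ev β v F)) ω +
        2 * a * b * (Ev β v F * (F - Ev β v F)) ω := by
    intro ω
    simp only [ContinuousMap.add_apply, ContinuousMap.smul_apply, smul_eq_mul,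
      ContinuousMap.mul_apply, ContinuousMap.sub_apply]
    ring
  unfold n2
  simp only [e]
  have i4 : Integrable (fun ω => a ^ 2 * (Ev β v F * Ev β v F) ω +
      b ^ 2 * ((F - Ev β v F) * (F - Ev β v F)) ω) (PW D β) :=
    (i1.const_mul _).add (i2.const_mul _)
  rw [integral_add i4 (i3.const_mul _),
    integral_add (i1.const_mul _) (i2.const_mul _), integral_const_mul, integral_const_mul,
    integral_const_mul]
  simp only [ContinuousMap.mul_apply, ContinuousMap.sub_apply, h0, sq, mul_zero, add_zero]

theorem n2_Ev_add (v : Wd (D + 1)) (F : CW D) :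
    n2 β F = n2 β (Ev β v F) + n2 β (F - Ev β v F) := by
  have h := n2_Ev_comb β v F 1 1
  simpa using h

theorem n2_resample (v : Wd (D + 1)) (F : CW D) :
    ∫ p, (F p.1 - F (Function.update p.1 v p.2)) ^ 2 ∂((PW D β).prod β) =
      2 * n2 β (F - Ev β v F) := by
  have hu : Continuous fun p : OmW D × J => F (Function.update p.1 v p.2) :=
    F.continuous.comp (continuous_updW v)
  have h1 : Continuous fun p : OmW D × J => F p.1 := F.continuous.comp continuous_fst
  have i1 : Integrable (fun p : OmW D × J => F p.1 * F p.1) ((PW D β).prod β) :=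
    T8a_int β (h1.mul h1)
  have i2 : Integrable (fun p : OmW D × J => F (Function.update p.1 v p.2) *
      F (Function.update p.1 v p.2)) ((PW D β).prod β) := T8a_int β (hu.mul hu)
  have i3 : Integrable (fun p : OmW D × J => F p.1 * F (Function.update p.1 v p.2))
      ((PW D β).prod β) := T8a_int β (h1.mul hu)
  have i4 : Integrable (fun p : OmW D × J => F p.1 * F p.1 + F (Function.update p.1 v p.2) *
      F (Function.update p.1 v p.2)) ((PW D β).prod β) := i1.add i2
  have e : ∀ p : OmW D × J, (F p.1 - F (Function.update p.1 v p.2)) ^ 2 =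
      F p.1 * F p.1 + F (Function.update p.1 v p.2) * F (Function.update p.1 v p.2) -
        2 * (F p.1 * F (Function.update p.1 v p.2)) := fun p => by ring
  have a1 : ∫ p, F p.1 * F p.1 ∂((PW D β).prod β) = n2 β F := by
    rw [integral_prod _ i1]
    simp only [integral_const, probReal_univ, one_smul, n2, sq]
  have a2 : ∫ p, F (Function.update p.1 v p.2) * F (Function.update p.1 v p.2)
      ∂((PW D β).prod β) = n2 β F := by
    rw [T8a_n2]
    exact T8a_integral_upd β v (F * F)
  have a3 : ∫ p, F p.1 * F (Function.update p.1 v p.2) ∂((PW D β).prod β) = n2 β (Ev β v F) := by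
    rw [integral_prod _ i3]
    simp only [integral_const_mul, ← Ev_apply]
    have h0 := T8a_orth β v F
    have j1 := integrable_CW β (Ev β v F * Ev β v F)
    have j3 := integrable_CW β (Ev β v F * (F - Ev β v F))
    have e2 : ∀ ω, F ω * Ev β v F ω =
        (Ev β v F * Ev β v F) ω + (Ev β v F * (F - Ev β v F)) ω := by
      intro ω
      simp only [ContinuousMap.mul_apply, ContinuousMap.sub_apply]
      ring
    simp only [e2]
    rw [integral_add j1 j3, T8a_n2]
    simp only [ContinuousMap.mul_apply, ContinuousMap.sub_apply, h0, add_zero]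
  simp only [e]
  rw [integral_sub i4 (i3.const_mul _), integral_add i1 i2, integral_const_mul, a1, a2, a3]
  linarith [n2_Ev_add β v F]

theorem shiftW_update (g v : Wd (D + 1)) (ω : OmW D) (t : J) :
    shiftW g (Function.update ω (g * v) t) = Function.update (shiftW g ω) v t := by
  funext w
  by_cases h : w = v
  · subst h
    simp only [shiftW, Function.update_self]
  · rw [Function.update_of_ne h]
    simp only [shiftW]
    rw [Function.update_of_ne fun h' => h (mul_left_cancel h')]

theorem Sh_Ev (g v : Wd (D + 1)) (F : CW D) : Sh g (Ev β v F) = Ev β (g * v) (Sh g F) := by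
  ext ω
  simp only [Sh_apply, Ev_apply, shiftW_update]

theorem n2_Sh (g : Wd (D + 1)) (F : CW D) : n2 β (Sh g F) = n2 β F := by
  have h := measurePreserving_shiftW β g
  have hc : Continuous fun ω => F ω ^ 2 := F.continuous.pow 2
  have h2 := integral_map (μ := PW D β) h.measurable.aemeasurable hc.aestronglyMeasurable
  rw [h.map_eq] at h2
  exact h2.symm

theorem dependsOn_Sh {F : CW D} {S : Finset (Wd (D + 1))} (hF : DependsOn F (S : Set _))
    (g : Wd (D + 1)) : DependsOn (Sh g F) (S.image (g * ·) : Finset _) := by
  intro x y h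
  simp only [Sh_apply]
  exact hF fun i hi => h (g * i) (Finset.mem_coe.2 (Finset.mem_image_of_mem _ hi))

theorem dependsOn_Vp : DependsOn (Vp D) {1} := by
  intro x y h
  simp only [Vp_apply, h 1 rfl]

theorem n2_Vp_mul (F : CW D) : n2 β (Vp D * F) ≤ n2 β F := by
  have i1 := integrable_CW β ((Vp D * F) ^ 2)
  have i2 := integrable_CW β (F ^ 2)
  refine integral_mono i1 i2 fun ω => ?_
  change ((ω 1 : ℝ) * F ω) ^ 2 ≤ F ω ^ 2
  rw [mul_pow]
  refine mul_le_of_le_one_left (sq_nonneg _) ?_
  nlinarith [(ω 1).2.1, (ω 1).2.2]

/-- `(a + b)² ≤ (1 + θ) a² + (1 + 1/θ) b²` -/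
theorem n2_add_le {F G : OmW D → ℝ} (hF : MemLp F 2 (PW D β)) (hG : MemLp G 2 (PW D β)) {θ : ℝ}
    (hθ : 0 < θ) : n2 β (F + G) ≤ (1 + θ) * n2 β F + (1 + 1 / θ) * n2 β G := by
  have i1 := hF.integrable_sq
  have i2 := hG.integrable_sq
  unfold n2
  rw [← integral_const_mul, ← integral_const_mul,
    ← integral_add (i1.const_mul _) (i2.const_mul _)]
  refine integral_mono (hF.add hG).integrable_sq ((i1.const_mul _).add (i2.const_mul _)) fun ω => ?_
  simp only [Pi.add_apply]
  have h : (1 + θ) * F ω ^ 2 + (1 + 1 / θ) * G ω ^ 2 - (F ω + G ω) ^ 2 =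
      (θ * F ω - G ω) ^ 2 / θ := by
    field_simp
    ring
  have h2 : 0 ≤ (θ * F ω - G ω) ^ 2 / θ := by positivity
  linarith

theorem memLp_CW (F : CW D) : MemLp F 2 (PW D β) := by
  exact F.continuous.memLp_of_hasCompactSupport (HasCompactSupport.of_compactSpace _)

end Crest.Agent.R166
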