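import Crest.Agent.R166.T8a

/-! # The noise operator -/

set_option autoImplicit false
set_option linter.unusedVariables false
set_option linter.unusedSectionVars false

open MeasureTheory ProbabilityTheory Filter Topology Matrix
open scoped ENNReal BoundedContinuousFunction

namespace Crest.Agent.R166

variable {D : ℕ} (β : Measure J) [IsProbabilityMeasure β]

/-- resample the coordinate `v` with probability `ε` -/
noncomputable def Nv (ε : ℝ) (v : Wd (D + 1)) : Module.End ℝ (CW D) := (1 - ε) • 1 + ε • Ev β v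

theorem Ev_Nv_comm (ε : ℝ) (v w : Wd (D + 1)) : Commute (Ev β w) (Nv β ε v) :=
  ((Commute.one_right _).smul_right _).add_right ((Ev_comm β w v).smul_right _)

theorem Nv_comm (ε : ℝ) (v w : Wd (D + 1)) : Commute (Nv β ε v) (Nv β ε w) :=
  ((Commute.one_left _).smul_left _).add_left ((Ev_Nv_comm β ε w v).smul_left _)

/-- the noise operator on the finite set `S` -/
noncomputable def TS (ε : ℝ) (S : Finset (Wd (D + 1))) : Module.End ℝ (CW D) :=
  S.noncommProd (Nv β ε) fun v _ w _ _ => Nv_comm β ε v w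

theorem TS_empty (ε : ℝ) : TS (D := D) β ε ∅ = 1 := Finset.noncommProd_empty _ _

theorem TS_insert (ε : ℝ) {S : Finset (Wd (D + 1))} {v : Wd (D + 1)} (hv : v ∉ S) :
    TS β ε (insert v S) = Nv β ε v * TS β ε S :=
  Finset.noncommProd_insert_of_notMem _ _ _ _ hv

theorem Ev_TS_comm (ε : ℝ) (S : Finset (Wd (D + 1))) (w : Wd (D + 1)) :
    Commute (Ev β w) (TS β ε S) :=
  Finset.noncommProd_commute _ _ _ _ fun v _ => Ev_Nv_comm β ε v w

/-- `n2` on continuous functions -/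
noncomputable def T8b_q (F : CW D) : ℝ := n2 β F

theorem T8b_nonneg (F : CW D) : 0 ≤ T8b_q β F := n2_nonneg β _

theorem T8b_Nv_apply (ε : ℝ) (v : Wd (D + 1)) (F : CW D) :
    Nv β ε v F = (1 - ε) • F + ε • Ev β v F := rfl

theorem T8b_comb (v : Wd (D + 1)) (F : CW D) (a b : ℝ) :
    T8b_q β (a • Ev β v F + b • (F - Ev β v F)) =
      a ^ 2 * T8b_q β (Ev β v F) + b ^ 2 * T8b_q β (F - Ev β v F) := n2_Ev_comb β v F a b

theorem T8b_add (v : Wd (D + 1)) (F : CW D) :
    T8b_q β F = T8b_q β (Ev β v F) + T8b_q β (F - Ev β v F) := n2_Ev_add β v F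

theorem T8b_add_le (F G : CW D) {θ : ℝ} (hθ : 0 < θ) :
    T8b_q β (F + G) ≤ (1 + θ) * T8b_q β F + (1 + 1 / θ) * T8b_q β G :=
  n2_add_le β (memLp_CW β F) (memLp_CW β G) hθ

theorem T8b_neg (F : CW D) : T8b_q β (-F) = T8b_q β F := by
  simp [T8b_q, n2]

theorem T8b_Nv (ε : ℝ) (v : Wd (D + 1)) (F : CW D) :
    T8b_q β (Nv β ε v F) = T8b_q β F - (2 * ε - ε ^ 2) * T8b_q β (F - Ev β v F) := by
  have e : Nv β ε v F = (1 : ℝ) • Ev β v F + (1 - ε) • (F - Ev β v F) := by
    rw [T8b_Nv_apply]; module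
  rw [e, T8b_comb, T8b_add β v F]
  ring

theorem T8b_Nv_le {ε : ℝ} (h0 : 0 ≤ ε) (h1 : ε ≤ 1) (v : Wd (D + 1)) (F : CW D) :
    T8b_q β (Nv β ε v F) ≤ T8b_q β F := by
  rw [T8b_Nv]
  have := mul_nonneg (show 0 ≤ 2 * ε - ε ^ 2 by nlinarith) (T8b_nonneg β (F - Ev β v F))
  linarith

theorem T8b_insert (ε : ℝ) {S : Finset (Wd (D + 1))} {v : Wd (D + 1)} (hv : v ∉ S) (F : CW D) :
    TS β ε (insert v S) F = Nv β ε v (TS β ε S F) := by
  rw [TS_insert β ε hv]; rfl

theorem T8b_Q (ε : ℝ) (v w : Wd (D + 1)) (X : CW D) :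
    Nv β ε v X - Ev β w (Nv β ε v X) = Nv β ε v (X - Ev β w X) := by
  rw [map_sub]
  congr 1
  exact LinearMap.congr_fun (Ev_Nv_comm β ε v w).eq X

theorem T8b_ind {P : Finset (Wd (D + 1)) → Prop} {S S' : Finset (Wd (D + 1))} (h : S ⊆ S')
    (h0 : P S) (hs : ∀ T v, v ∉ S → v ∉ T → P T → P (insert v T)) : P S' := by
  rw [← Finset.sdiff_union_of_subset h]
  have hd : Disjoint (S' \ S) S := Finset.sdiff_disjoint
  generalize S' \ S = T at hd
  induction T using Finset.induction_on with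
  | empty => simpa using h0
  | insert v T hv ih =>
    rw [Finset.disjoint_insert_left] at hd
    rw [Finset.insert_union]
    exact hs _ v hd.1 (by simp [hv, hd.1]) (ih hd.2)

/-- `N F = E F + (1 - ε)(F - E F)` -/
theorem n2_Nv (ε : ℝ) (v : Wd (D + 1)) (F : CW D) :
    n2 β (Nv β ε v F) = n2 β F - (2 * ε - ε ^ 2) * n2 β (F - Ev β v F) := by
  exact T8b_Nv β ε v F

theorem n2_TS_mono {ε : ℝ} (h0 : 0 ≤ ε) (h1 : ε ≤ 1) {S S' : Finset (Wd (D + 1))} (h : S ⊆ S')
    (F : CW D) : n2 β (TS β ε S' F) ≤ n2 β (TS β ε S F) := by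
  refine T8b_ind (P := fun T => T8b_q β (TS β ε T F) ≤ T8b_q β (TS β ε S F)) h le_rfl
    fun T v _ hv ih => ?_
  rw [T8b_insert β ε hv]
  exact (T8b_Nv_le β h0 h1 v _).trans ih

theorem n2_TS_le {ε : ℝ} (h0 : 0 ≤ ε) (h1 : ε ≤ 1) (S : Finset (Wd (D + 1))) (F : CW D) :
    n2 β (TS β ε S F) ≤ n2 β F := by
  exact n2_TS_mono β h0 h1 (Finset.empty_subset S) F

/-- Telescoping.  Induction on `S`: `Q_w N_v X = N_v Q_w X` has smaller norm than `Q_w X`
(`Q_w = 1 - E_w`), and `‖X‖² - ‖N_v X‖² = (2ε - ε²) ‖Q_v X‖² ≥ ε ‖Q_v N_v X‖²`. -/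
theorem TS_telescope {ε : ℝ} (h0 : 0 ≤ ε) (h1 : ε ≤ 1) (S : Finset (Wd (D + 1))) (F : CW D) :
    ε * ∑ w ∈ S, n2 β (TS β ε S F - Ev β w (TS β ε S F)) ≤ n2 β F - n2 β (TS β ε S F) := by
  change ε * ∑ w ∈ S, T8b_q β (TS β ε S F - Ev β w (TS β ε S F)) ≤
    T8b_q β F - T8b_q β (TS β ε S F)
  induction S using Finset.induction_on with
  | empty => simp [TS_empty]
  | insert v S hv ih =>
    rw [Finset.sum_insert hv, T8b_insert β ε hv]
    simp only [T8b_Q]
    have a1 : ∑ w ∈ S, T8b_q β (Nv β ε v (TS β ε S F - Ev β w (TS β ε S F))) ≤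
        ∑ w ∈ S, T8b_q β (TS β ε S F - Ev β w (TS β ε S F)) :=
      Finset.sum_le_sum fun w _ => T8b_Nv_le β h0 h1 v _
    have a2 := T8b_Nv_le β h0 h1 v (TS β ε S F - Ev β v (TS β ε S F))
    have a3 := T8b_Nv β ε v (TS β ε S F)
    have a4 := mul_nonneg (mul_nonneg h0 (sub_nonneg.2 h1))
      (T8b_nonneg β (TS β ε S F - Ev β v (TS β ε S F)))
    nlinarith [mul_le_mul_of_nonneg_left a1 h0, mul_le_mul_of_nonneg_left a2 h0]

theorem dependsOn_TS (ε : ℝ) (S : Finset (Wd (D + 1))) {F : CW D} {A : Set (Wd (D + 1))}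
    (hF : DependsOn F A) : DependsOn (TS β ε S F) A := by
  induction S using Finset.induction_on with
  | empty => exact hF
  | insert v S hv ih =>
    rw [T8b_insert β ε hv, T8b_Nv_apply]
    intro x y hxy
    change (1 - ε) * TS β ε S F x + ε * Ev β v (TS β ε S F) x =
      (1 - ε) * TS β ε S F y + ε * Ev β v (TS β ε S F) y
    rw [ih hxy, dependsOn_Ev β ih v hxy]

theorem TS_subset (ε : ℝ) {S S' : Finset (Wd (D + 1))} (h : S ⊆ S') {F : CW D}
    (hF : DependsOn F (S : Set _)) : TS β ε S' F = TS β ε S F := by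
  refine T8b_ind (P := fun T => TS β ε T F = TS β ε S F) h rfl fun T v hvS hv ih => ?_
  rw [T8b_insert β ε hv, ih, T8b_Nv_apply,
    Ev_of_dependsOn β (dependsOn_TS β ε S hF) (by simpa using hvS)]
  module

theorem TS_mul (ε : ℝ) {S : Finset (Wd (D + 1))} {G : CW D} {A : Set (Wd (D + 1))}
    (hG : DependsOn G A) (h : ∀ v ∈ S, v ∉ A) (F : CW D) : TS β ε S (G * F) = G * TS β ε S F := by
  induction S using Finset.induction_on with
  | empty => rfl
  | insert v S hv ih =>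
    rw [T8b_insert β ε hv, T8b_insert β ε hv, ih fun w hw => h w (Finset.mem_insert_of_mem hw),
      T8b_Nv_apply, T8b_Nv_apply, Ev_mul β hG (h v (Finset.mem_insert_self _ _)), mul_add,
      mul_smul_comm, mul_smul_comm]

theorem Sh_TS (ε : ℝ) (g : Wd (D + 1)) (S : Finset (Wd (D + 1))) (F : CW D) :
    Sh g (TS β ε S F) = TS β ε (S.image (g * ·)) (Sh g F) := by
  induction S using Finset.induction_on with
  | empty => rfl
  | insert v S hv ih =>
    have hv' : g * v ∉ S.image (g * ·) := by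
      intro h
      obtain ⟨w, hw, e⟩ := Finset.mem_image.1 h
      exact hv (mul_left_cancel e ▸ hw)
    rw [Finset.image_insert, T8b_insert β ε hv, T8b_insert β ε hv', T8b_Nv_apply, T8b_Nv_apply,
      map_add, map_smul, map_smul, Sh_Ev, ih]

/-- `F - N_v T F = (F - T F) + ε Q_v T F`; induction with `n2_add_le` (`θ = 1/|S|`) or the triangle inequality -/
theorem n2_sub_TS {ε : ℝ} (h0 : 0 ≤ ε) (h1 : ε ≤ 1) (S : Finset (Wd (D + 1))) (F : CW D) :
    n2 β (F - TS β ε S F) ≤ (ε * S.card) ^ 2 * n2 β F := by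
  change T8b_q β (F - TS β ε S F) ≤ (ε * S.card) ^ 2 * T8b_q β F
  induction S using Finset.induction_on with
  | empty => simp [TS_empty, T8b_q, n2]
  | insert v S hv ih =>
    have e : F - TS β ε (insert v S) F = (F - TS β ε S F) +
        ((0 : ℝ) • Ev β v (TS β ε S F) + ε • (TS β ε S F - Ev β v (TS β ε S F))) := by
      rw [T8b_insert β ε hv, T8b_Nv_apply]; module
    have a1 : T8b_q β ((0 : ℝ) • Ev β v (TS β ε S F) +
        ε • (TS β ε S F - Ev β v (TS β ε S F))) ≤ ε ^ 2 * T8b_q β F := by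
      rw [T8b_comb, zero_pow two_ne_zero, zero_mul, zero_add]
      refine mul_le_mul_of_nonneg_left ?_ (sq_nonneg ε)
      have b1 := T8b_add β v (TS β ε S F)
      have b2 := T8b_nonneg β (Ev β v (TS β ε S F))
      have b3 : T8b_q β (TS β ε S F) ≤ T8b_q β F := n2_TS_le β h0 h1 S F
      linarith
    rw [e, Finset.card_insert_of_notMem hv]
    rcases S.eq_empty_or_nonempty with rfl | hne
    · have : F - TS β ε ∅ F = 0 := sub_self F
      rw [this, zero_add]
      simpa using a1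
    · have hk : (0 : ℝ) < S.card := by exact_mod_cast hne.card_pos
      refine (T8b_add_le β _ _ (θ := 1 / S.card) (by positivity)).trans ?_
      calc _ ≤ (1 + 1 / (S.card : ℝ)) * ((ε * S.card) ^ 2 * T8b_q β F) +
            (1 + 1 / (1 / (S.card : ℝ))) * (ε ^ 2 * T8b_q β F) := by gcongr
        _ = _ := by push_cast; field_simp; ring

/-- comparison with a fixed cylinder function `u'`:
`u - T u = (u - u') + (u' - T_{S'} u') + T (u' - u)` -/
theorem n2_sub_TS_le {ε : ℝ} (h0 : 0 ≤ ε) (h1 : ε ≤ 1) {S S' : Finset (Wd (D + 1))} (h : S' ⊆ S)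
    (u : CW D) {u' : CW D} (hu' : DependsOn u' (S' : Set _)) :
    n2 β (u - TS β ε S u) ≤ 8 * n2 β (u - u') + 4 * (ε * S'.card) ^ 2 * n2 β u' := by
  change T8b_q β (u - TS β ε S u) ≤ 8 * T8b_q β (u - u') + 4 * (ε * S'.card) ^ 2 * T8b_q β u'
  have e : u - TS β ε S u = ((u - u') + -TS β ε S (u - u')) + (u' - TS β ε S' u') := by
    rw [map_sub, TS_subset β ε h hu']; abel
  have a1 := T8b_add_le β ((u - u') + -TS β ε S (u - u')) (u' - TS β ε S' u') one_pos
  have a2 := T8b_add_le β (u - u') (-TS β ε S (u - u')) one_pos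
  have a3 : T8b_q β (TS β ε S (u - u')) ≤ T8b_q β (u - u') := n2_TS_le β h0 h1 S _
  have a4 : T8b_q β (u' - TS β ε S' u') ≤ (ε * S'.card) ^ 2 * T8b_q β u' :=
    n2_sub_TS β h0 h1 S' u'
  have a5 := mul_nonneg (sq_nonneg (ε * S'.card)) (T8b_nonneg β u')
  rw [T8b_neg] at a2
  rw [e]
  linarith

end Crest.Agent.R166
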