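import Crest.Agent.R166.T8b

/-! # The noisy eigenvalue equation and mass transport -/

set_option autoImplicit false
set_option linter.unusedVariables false
set_option linter.unusedSectionVars false

open MeasureTheory ProbabilityTheory Filter Topology Matrix
open scoped ENNReal BoundedContinuousFunction

namespace Crest.Agent.R166

variable {D : ℕ} (β : Measure J) [IsProbabilityMeasure β]

/-- the Hamiltonian seen from the particle, minus `E` -/
noncomputable def HH (s E : ℝ) (F : CW D) : CW D :=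
  s • (Vp D * F) + ∑ i, Sh (gen i) F - E • F

/-- commutator of the potential and the root expectation -/
noncomputable def RR (G : CW D) : CW D := Vp D * Ev β 1 G - Ev β 1 (Vp D * G)

/-- a set that carries `u`, its neighbours' copies and the root -/
def Carries (S₀ S : Finset (Wd (D + 1))) : Prop :=
  S₀ ⊆ S ∧ 1 ∈ S ∧ ∀ i, S₀.image (gen i * ·) ⊆ S

theorem T8c_HH_apply (s E : ℝ) (F : CW D) (ω : OmW D) :
    HH s E F ω = s * (ω 1 : ℝ) * F ω + ∑ i, F (shiftW (gen i) ω) - E * F ω := by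
  simp [HH, Vp_apply, Sh_apply, mul_assoc]

theorem T8c_n2_Ev (v : Wd (D + 1)) (F : CW D) : n2 β (Ev β v F) ≤ n2 β F := by
  linarith [n2_Ev_add β v F, n2_nonneg β (F - Ev β v F)]

theorem T8c_n2_sub {F G : OmW D → ℝ} (hF : MemLp F 2 (PW D β)) (hG : MemLp G 2 (PW D β)) :
    n2 β (fun ω => F ω - G ω) ≤ 2 * n2 β F + 2 * n2 β G := by
  have h := n2_add_le β hF hG.neg one_pos
  have e : n2 β (-G) = n2 β G := by simp [n2]
  have e' : (fun ω => F ω - G ω) = F + -G := funext fun ω => sub_eq_add_neg _ _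
  rw [e']
  rw [e] at h
  linarith

theorem exists_carries (S₀ S' : Finset (Wd (D + 1))) : ∃ S, Carries S₀ S ∧ S' ⊆ S := by
  refine ⟨S₀ ∪ S' ∪ {1} ∪ Finset.univ.biUnion fun i => S₀.image (gen i * ·),
    ⟨fun w hw => by simp [hw], by simp, fun i => ?_⟩, fun w hw => by simp [hw]⟩
  exact (Finset.subset_biUnion_of_mem (fun i => S₀.image (gen i * ·)) (Finset.mem_univ i)).trans
    Finset.subset_union_right

theorem HH_shift (s E : ℝ) (F : CW D) (ω : OmW D) (v : Wd (D + 1)) :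
    HH s E F (shiftW v ω) =
      opW s ω (fun w => F (shiftW w ω)) v - E * F (shiftW v ω) := by
  rw [T8c_HH_apply]
  simp only [opW, shiftW_shiftW]
  rw [show shiftW v ω 1 = ω v from congrArg ω (mul_one v)]

theorem dependsOn_HH (s E : ℝ) {u : CW D} {S₀ S : Finset (Wd (D + 1))}
    (hu : DependsOn u (S₀ : Set _)) (hS : Carries S₀ S) : DependsOn (HH s E u) (S : Set _) := by
  intro x y h
  rw [T8c_HH_apply, T8c_HH_apply, h 1 hS.2.1, hu.mono (Finset.coe_subset.2 hS.1) h]
  congr 2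
  exact Finset.sum_congr rfl fun i _ =>
    (dependsOn_Sh hu (gen i)).mono (Finset.coe_subset.2 (hS.2.2 i)) h

theorem dependsOn_RR {G : CW D} {S : Finset (Wd (D + 1))} (hG : DependsOn G (S : Set _))
    (h1 : 1 ∈ S) : DependsOn (RR β G) (S : Set _) := by
  have hV : ∀ {F : CW D}, DependsOn F (S : Set _) → DependsOn (Vp D * F) (S : Set _) := by
    intro F hF x y h
    change (x 1 : ℝ) * F x = (y 1 : ℝ) * F y
    rw [h 1 h1, hF h]
  intro x y h
  exact congrArg₂ (· - ·) (hV (dependsOn_Ev β hG 1) h) (dependsOn_Ev β (hV hG) 1 h)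

/-- `Sh g T_S u = Sh g T_{S₀} u = T_{g S₀} Sh g u = T_S Sh g u`; `T_S = N_1 T'`, `T'` commutes with the
potential and `V N_1 G - N_1 (V G) = ε RR G` -/
theorem HH_TS (s E ε : ℝ) {u : CW D} {S₀ S : Finset (Wd (D + 1))}
    (hu : DependsOn u (S₀ : Set _)) (hS : Carries S₀ S) :
    HH s E (TS β ε S u) = TS β ε S (HH s E u) + (s * ε) • RR β (TS β ε (S.erase 1) u) := by
  have h1 : ∀ i, Sh (gen i) (TS β ε S u) = TS β ε S (Sh (gen i) u) := fun i => by
    rw [TS_subset β ε hS.1 hu, Sh_TS, TS_subset β ε (hS.2.2 i) (dependsOn_Sh hu (gen i))]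
  have h2 : TS β ε S = Nv β ε 1 * TS β ε (S.erase 1) := by
    rw [← TS_insert β ε (Finset.notMem_erase 1 S), Finset.insert_erase hS.2.1]
  have h3 : Vp D * TS β ε S u =
      TS β ε S (Vp D * u) + ε • RR β (TS β ε (S.erase 1) u) := by
    rw [h2, Module.End.mul_apply, Module.End.mul_apply,
      TS_mul β ε dependsOn_Vp (fun v hv => Finset.ne_of_mem_erase hv)]
    simp only [Nv, RR, LinearMap.add_apply, LinearMap.smul_apply, Module.End.one_apply, mul_add,
      mul_smul_comm]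
    module
  simp only [HH, h1, h3, map_sub, map_add, map_smul, map_sum]
  module

theorem n2_RR_le (G : CW D) : n2 β (RR β G) ≤ 4 * n2 β G := by
  have h1 := T8c_n2_sub β (memLp_CW β (Vp D * Ev β 1 G)) (memLp_CW β (Ev β 1 (Vp D * G)))
  have h2 := (n2_Vp_mul β (Ev β 1 G)).trans (T8c_n2_Ev β 1 G)
  have h3 := (T8c_n2_Ev β 1 (Vp D * G)).trans (n2_Vp_mul β G)
  change n2 β (fun ω => (Vp D * Ev β 1 G) ω - Ev β 1 (Vp D * G) ω) ≤ _
  linarith

/-- for `w ≠ 1`, `Q_w RR G = RR (Q_w G)` -/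
theorem sum_Q_RR (S : Finset (Wd (D + 1))) (G : CW D) :
    ∑ w ∈ S, n2 β (RR β G - Ev β w (RR β G)) ≤
      4 * ∑ w ∈ S.erase 1, n2 β (G - Ev β w G) + 4 * n2 β G := by
  have h1 : ∀ w ∈ S.erase 1, n2 β (RR β G - Ev β w (RR β G)) ≤ 4 * n2 β (G - Ev β w G) := by
    intro w hw
    have hw1 : w ∉ ({1} : Set (Wd (D + 1))) := Finset.ne_of_mem_erase hw
    have hc : ∀ F, Ev β w (Ev β 1 F) = Ev β 1 (Ev β w F) := fun F =>
      LinearMap.congr_fun (Ev_comm β w 1).eq F
    have e : RR β G - Ev β w (RR β G) = RR β (G - Ev β w G) := by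
      simp only [RR, map_sub, Ev_mul β dependsOn_Vp hw1, hc, mul_sub]
      abel
    have := n2_RR_le β (G - Ev β w G)
    rw [← e] at this
    exact this
  have h2 : n2 β (RR β G - Ev β 1 (RR β G)) ≤ 4 * n2 β G := by
    linarith [n2_Ev_add β 1 (RR β G), n2_RR_le β G, n2_nonneg β (Ev β 1 (RR β G))]
  have h3 := Finset.sum_le_sum h1
  rw [← Finset.mul_sum] at h3
  by_cases h : 1 ∈ S
  · rw [← Finset.sum_erase_add _ _ h]
    exact add_le_add h3 h2
  · rw [Finset.erase_eq_of_notMem h] at h3 ⊢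
    linarith [n2_nonneg β G]

/-- Mass transport: the term of `v` is `2 ‖Q_1 Sh v Φ‖² = 2 ‖Q_{v⁻¹} Φ‖²` (`n2_resample`, `Sh_Ev`, `n2_Sh`) -/
theorem mass_transport (Φ : CW D) (S : Finset (Wd (D + 1))) :
    ∑ v ∈ S.image (·⁻¹), ∫ p, (Φ (shiftW v p.1) - Φ (shiftW v (Function.update p.1 1 p.2))) ^ 2
        ∂((PW D β).prod β) = 2 * ∑ w ∈ S, n2 β (Φ - Ev β w Φ) := by
  rw [Finset.sum_image fun a _ b _ h => inv_injective h, Finset.mul_sum]
  refine Finset.sum_congr rfl fun w _ => (n2_resample β 1 (Sh w⁻¹ Φ)).trans ?_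
  have h := n2_Sh β w⁻¹ (Φ - Ev β w Φ)
  rw [map_sub, Sh_Ev, inv_mul_cancel] at h
  exact congrArg (2 * ·) h

/-- resampling the root changes `Φ ∘ shift v` only if `v⁻¹ ∈ S` -/
theorem resample_eq {Φ : CW D} {S : Finset (Wd (D + 1))} (hΦ : DependsOn Φ (S : Set _))
    {v : Wd (D + 1)} (hv : v ∉ S.image (·⁻¹)) (ω : OmW D) (t : J) :
    Φ (shiftW v ω) = Φ (shiftW v (Function.update ω 1 t)) := by
  refine hΦ fun w hw => ?_
  have h : v * w ≠ 1 := fun h =>
    hv (Finset.mem_image.2 ⟨w, hw, (eq_inv_of_mul_eq_one_left h).symm⟩)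
  simp only [shiftW, Function.update_of_ne h]

/-- if `U` solves the eigenvalue equation a.e., an `L²` approximation solves it approximately:
`HH u = (s V - E)(u - U) + Σ (u - U) ∘ shift` a.e. -/
theorem n2_HH_le (s E : ℝ) (u : CW D) {U : OmW D → ℝ} (hU : Measurable U)
    (h2 : MemLp U 2 (PW D β))
    (heq : ∀ᵐ ω ∂(PW D β), s * (ω 1 : ℝ) * U ω + ∑ i, U (shiftW (gen i) ω) = E * U ω) :
    n2 β (HH s E u) ≤ (D + 2) * (D + 1 + (|s| + |E|) ^ 2) * n2 β (fun ω => u ω - U ω) := by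
  set W : OmW D → ℝ := fun ω => u ω - U ω with hW
  have hWm : MemLp W 2 (PW D β) := (memLp_CW β u).sub h2
  have hi : Integrable (fun ω => W ω ^ 2) (PW D β) := hWm.integrable_sq
  have hi' : ∀ g, Integrable (fun ω => W (shiftW g ω) ^ 2) (PW D β) := fun g =>
    (hWm.comp_measurePreserving (measurePreserving_shiftW β g)).integrable_sq
  have he : ∀ g, ∫ ω, W (shiftW g ω) ^ 2 ∂(PW D β) = n2 β W := fun g => by
    have h := measurePreserving_shiftW β g
    rw [← integral_map (f := fun ω => W ω ^ 2) h.measurable.aemeasurable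
      (by rw [h.map_eq]; exact hi.aestronglyMeasurable), h.map_eq, n2]
  have hb : ∀ᵐ ω ∂(PW D β), HH s E u ω ^ 2 ≤
      (D + 2) * ((|s| + |E|) ^ 2 * W ω ^ 2 + ∑ i, W (shiftW (gen i) ω) ^ 2) := by
    filter_upwards [heq] with ω hω
    have e : HH s E u ω = (s * (ω 1 : ℝ) - E) * W ω + ∑ i, W (shiftW (gen i) ω) := by
      rw [T8c_HH_apply]
      simp only [hW, Finset.sum_sub_distrib]
      linarith
    have h1 := sq_sum_le_card_mul_sum_sq (s := Finset.univ) (f := (Fin.cons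
      ((s * (ω 1 : ℝ) - E) * W ω) fun i => W (shiftW (gen i) ω) : Fin (D + 2) → ℝ))
    rw [Fin.sum_univ_succ, Fin.sum_univ_succ (n := D + 1)] at h1
    simp only [Fin.cons_zero, Fin.cons_succ, Finset.card_univ, Fintype.card_fin] at h1
    have h3 : |s * (ω 1 : ℝ) - E| ≤ |s| + |E| := by
      refine (abs_sub _ _).trans (add_le_add ?_ le_rfl)
      rw [abs_mul]
      exact mul_le_of_le_one_right (abs_nonneg _) (abs_le.2 (ω 1).2)
    have h4 : ((s * (ω 1 : ℝ) - E) * W ω) ^ 2 ≤ (|s| + |E|) ^ 2 * W ω ^ 2 := by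
      rw [mul_pow]
      exact mul_le_mul_of_nonneg_right (sq_le_sq' (abs_le.1 h3).1 (abs_le.1 h3).2) (sq_nonneg _)
    rw [e]
    push_cast at h1
    rw [add_assoc (D : ℝ), one_add_one_eq_two] at h1
    exact h1.trans (mul_le_mul_of_nonneg_left (add_le_add h4 le_rfl)
      (show (0 : ℝ) ≤ D + 2 by positivity))
  have hs : Integrable (fun ω => ∑ i, W (shiftW (gen i) ω) ^ 2) (PW D β) :=
    integrable_finsetSum _ fun i _ => hi' _
  refine (integral_mono_ae (memLp_CW β _).integrable_sq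
    (((hi.const_mul _).add hs).const_mul _) hb).trans_eq ?_
  rw [integral_const_mul, integral_add' (hi.const_mul _) hs, integral_const_mul,
    integral_finsetSum _ fun i _ => hi' _]
  simp only [he, Finset.sum_const, Finset.card_univ, Fintype.card_fin, nsmul_eq_mul]
  change _ * (_ * n2 β W + _) = _
  push_cast
  ring

/-- continuous cylinder functions are dense in `L²`
(`MemLp.exists_boundedContinuous_integral_rpow_sub_le` or `..._eLpNorm_sub_le`, then compose with the projection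
`ω ↦ fun w => if w ∈ S then ω w else J0`; uniform continuity on the compact space) -/
theorem exists_cylinder {U : OmW D → ℝ} (h2 : MemLp U 2 (PW D β)) {δ : ℝ} (hδ : 0 < δ) :
    ∃ (u : CW D) (S : Finset (Wd (D + 1))), DependsOn u (S : Set _) ∧ n2 β (fun ω => u ω - U ω) ≤ δ := by
  obtain ⟨φ, hφ, -⟩ := MemLp.exists_boundedContinuous_integral_rpow_sub_le (μ := PW D β) (p := 2)
    two_pos (f := U) (by simpa using h2) (ε := δ / 4) (by positivity)
  let A : Subalgebra ℝ (CW D) :=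
    { carrier := {u | ∃ S : Finset (Wd (D + 1)), DependsOn u (S : Set _)}
      mul_mem' := by
        rintro a b ⟨S, hS⟩ ⟨T, hT⟩
        exact ⟨S ∪ T, fun x y h => congrArg₂ (· * ·) (hS.mono (by simp) h) (hT.mono (by simp) h)⟩
      add_mem' := by
        rintro a b ⟨S, hS⟩ ⟨T, hT⟩
        exact ⟨S ∪ T, fun x y h => congrArg₂ (· + ·) (hS.mono (by simp) h) (hT.mono (by simp) h)⟩
      algebraMap_mem' := fun r => ⟨∅, fun x y _ => rfl⟩ }
  have hA : A.SeparatesPoints := by
    intro x y hxy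
    obtain ⟨w, hw⟩ := Function.ne_iff.1 hxy
    refine ⟨_, ⟨⟨fun ω => (ω w : ℝ), continuous_subtype_val.comp (continuous_apply w)⟩,
      ⟨{w}, fun a b h => congrArg Subtype.val (h w (by simp))⟩, rfl⟩, fun h => hw (Subtype.ext h)⟩
  obtain ⟨⟨u, S, hS⟩, hu⟩ := ContinuousMap.exists_mem_subalgebra_near_continuous_of_separatesPoints
    A hA φ φ.continuous √(δ / 4) (Real.sqrt_pos.2 (by positivity))
  refine ⟨u, S, hS, ?_⟩
  have hm := memLp_CW β φ.toContinuousMap
  have h1 := T8c_n2_sub β ((memLp_CW β u).sub hm) (h2.sub hm)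
  have h3 : n2 β (U - ⇑φ.toContinuousMap) ≤ δ / 4 := by
    refine le_trans (le_of_eq ?_) hφ
    exact integral_congr_ae (ae_of_all _ fun x => by simp)
  have h4 : n2 β (⇑u - ⇑φ.toContinuousMap) ≤ δ / 4 := by
    have := integral_mono ((memLp_CW β u).sub hm).integrable_sq (integrable_const (δ / 4))
      fun x => (Real.sq_sqrt (by positivity : 0 ≤ δ / 4)) ▸
        sq_le_sq' (abs_lt.1 (hu x)).1.le (abs_lt.1 (hu x)).2.le
    simpa [n2] using this
  have e : (fun ω => u ω - U ω) = fun ω => (⇑u - ⇑φ.toContinuousMap) ω -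
      (U - ⇑φ.toContinuousMap) ω := by
    funext ω
    simp
  rw [e]
  linarith

end Crest.Agent.R166
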