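import Crest.Agent.R166.TW2

/-! # Pairing with the Green function -/

set_option autoImplicit false
set_option linter.unusedVariables false
set_option linter.unusedSectionVars false

open MeasureTheory ProbabilityTheory Filter Topology Matrix
open scoped ENNReal BoundedContinuousFunction

namespace Crest.Agent.R166

/-- `(A - z) X = c δ_o + q - iη X`, so `X o = c G_oo + (G q)_o - iη (G X)_o`; take imaginary parts, Cauchy–Schwarz
and the Ward identity `Σ_v |G_ov|² = Im G_oo / η` (`ward`): `|c| Im G ≤ √(Im G/η) (‖q‖ + η ‖X‖)` -/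
theorem mat_ineq {ι : Type} [Fintype ι] [DecidableEq ι] {A : Matrix ι ι ℝ} (hA : A.IsHermitian)
    (o : ι) {E η c : ℝ} (hη : 0 < η) {X q : ι → ℝ}
    (h : ∀ v, (A *ᵥ X) v - E * X v = (if v = o then c else 0) + q v) :
    c ^ 2 * (res A (E + η * Complex.I) o o).im ≤ 2 * η * ∑ v, X v ^ 2 + 2 / η * ∑ v, q v ^ 2 := by
  set z : ℂ := E + η * Complex.I with hz
  have hzi : z.im = η := by simp [hz]
  have hz0 : z.im ≠ 0 := by rw [hzi]; exact hη.ne'
  set G := res A z with hG
  have e1 : ∀ v, ((cx A - z • (1 : Matrix ι ι ℂ)) *ᵥ fun w => (X w : ℂ)) v =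
      (if v = o then (c : ℂ) else 0) + ((q v : ℂ) - η * Complex.I * X v) := by
    intro v
    have h1 := congrArg (fun x : ℝ => (x : ℂ)) (h v)
    simp only [Matrix.mulVec, dotProduct] at h1
    push_cast at h1
    rw [Matrix.sub_mulVec, Matrix.smul_mulVec, Matrix.one_mulVec]
    simp only [Pi.sub_apply, Pi.smul_apply, smul_eq_mul, Matrix.mulVec, dotProduct, cx_apply, hz]
    split_ifs at h1 ⊢
    · linear_combination h1
    · push_cast at h1
      linear_combination h1
  have e2 : (X o : ℂ) = G o o * c + ∑ v, G o v * ((q v : ℂ) - η * Complex.I * X v) := by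
    have h1 := congrFun (Matrix.mulVec_mulVec (fun w => (X w : ℂ)) G
      (cx A - z • (1 : Matrix ι ι ℂ))) o
    rw [hG, res_mul_sub hA hz0, Matrix.one_mulVec, ← hG] at h1
    rw [← h1, funext e1]
    simp only [Matrix.mulVec, dotProduct, mul_add, Finset.sum_add_distrib, mul_ite, mul_zero,
      Finset.sum_ite_eq', Finset.mem_univ, if_true]
  have e3 : (G o o).im * c = -(∑ v, G o v * ((q v : ℂ) - η * Complex.I * X v)).im := by
    have h1 := congrArg Complex.im e2
    simp only [Complex.ofReal_im, Complex.add_im, Complex.mul_im, Complex.ofReal_re, mul_zero,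
      zero_add] at h1
    linarith
  have e4 : ((G o o).im * c) ^ 2 ≤ (∑ v, ‖G o v‖ ^ 2) * ∑ v, (q v ^ 2 + η ^ 2 * X v ^ 2) := by
    rw [e3, neg_sq, ← sq_abs]
    refine (pow_le_pow_left₀ (abs_nonneg _) ((Complex.abs_im_le_norm _).trans
      (norm_sum_le _ _)) 2).trans ?_
    refine Finset.sum_sq_le_sum_mul_sum_of_sq_le_mul _ (fun v _ => sq_nonneg _)
      (fun v _ => by positivity) fun v _ => le_of_eq ?_
    rw [norm_mul, mul_pow]
    congr 1
    rw [Complex.sq_norm, Complex.normSq_apply]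
    simp
    ring
  have e5 := ward hA hz0 o
  rw [hzi, ← hG] at e5
  have p1 : 0 ≤ ∑ v, ‖G o v‖ ^ 2 := Finset.sum_nonneg fun v _ => sq_nonneg _
  have p2 : 0 ≤ ∑ v, X v ^ 2 := Finset.sum_nonneg fun v _ => sq_nonneg _
  have p3 : 0 ≤ ∑ v, q v ^ 2 := Finset.sum_nonneg fun v _ => sq_nonneg _
  rw [Finset.sum_add_distrib, ← Finset.mul_sum, ← e5] at e4
  rw [← e5]
  set a := ∑ v, ‖G o v‖ ^ 2
  set x := ∑ v, X v ^ 2
  set y := ∑ v, q v ^ 2
  rcases p1.eq_or_lt with h0 | h0
  · rw [← h0]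
    simp only [mul_zero]
    positivity
  · have k1 : c ^ 2 * (η * a) * η ≤ y + η ^ 2 * x := by
      refine le_of_mul_le_mul_left ?_ h0
      calc _ = (η * a * c) ^ 2 := by ring
        _ ≤ _ := e4
    have k2 : c ^ 2 * (η * a) ≤ (y + η ^ 2 * x) / η := by rwa [le_div_iff₀ hη]
    refine k2.trans ?_
    have k3 : (y + η ^ 2 * x) / η = η * x + 1 / η * y := by field_simp; ring
    have k4 : 0 ≤ 1 / η * y := by positivity
    have k5 : 0 ≤ η * x := by positivity
    have k6 : 2 / η * y = 2 * (1 / η * y) := by ring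
    rw [k3, k6]
    linarith

/-- Green function of the whole tree at the root -/
noncomputable def gW {D : ℕ} (s : ℝ) (z : ℂ) (ω : OmW D) : ℂ :=
  gO (((s * (ω 1 : ℝ) : ℝ) : ℂ)) z fun i => mT s z ((starW ω 1).2 i)

theorem continuous_gW {D : ℕ} (s : ℝ) {z : ℂ} (hz : 0 < z.im) : Continuous (gW (D := D) s z) := by
  refine (HL_res_tendsto s hz).continuous (Frequently.of_forall fun L => ?_)
  exact continuous_res (continuous_HL s L) (fun ω => HL_herm s ω L) hz.ne' _ _

theorem gW_im_nonneg {D : ℕ} (s : ℝ) {z : ℂ} (hz : 0 < z.im) (ω : OmW D) : 0 ≤ (gW s z ω).im := by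
  refine ge_of_tendsto' ((Complex.continuous_im.tendsto _).comp
    ((HL_res_tendsto s hz).tendsto_at ω)) fun L => ?_
  have := ward (HL_herm s ω L) hz.ne' (rootB D L)
  simp only [Function.comp]
  rw [← this]
  exact mul_nonneg hz.le (Finset.sum_nonneg fun v _ => sq_nonneg _)

/-- `mat_ineq` on every ball containing `B` (`HL_mulVec`), then `L → ∞` (`HL_res_tendsto`) -/
theorem tree_ineq {D : ℕ} (s : ℝ) (ω : OmW D) {E η c : ℝ} (hη : 0 < η) (B : Finset (Wd (D + 1)))
    {X q : Wd (D + 1) → ℝ} (hX : ∀ v, v ∉ B → X v = 0) (hq : ∀ v, v ∉ B → q v = 0)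
    (h : ∀ v, opW s ω X v - E * X v = (if v = 1 then c else 0) + q v) :
    c ^ 2 * (gW s (E + η * Complex.I) ω).im ≤
      2 * η * ∑ v ∈ B, X v ^ 2 + 2 / η * ∑ v ∈ B, q v ^ 2 := by
  have hz : 0 < ((E : ℂ) + η * Complex.I).im := by simpa using hη
  refine le_of_tendsto (((Complex.continuous_im.tendsto _).comp
    ((HL_res_tendsto s hz).tendsto_at ω)).const_mul (c ^ 2)) ?_
  filter_upwards [eventually_ge_atTop (B.sup fun w => w.1.length)] with L hL
  have hB : ∀ v ∈ B, v.1.length ≤ L := fun v hv =>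
    (Finset.le_sup (f := fun w : Wd (D + 1) => w.1.length) hv).trans hL
  have hsum : ∀ f : Wd (D + 1) → ℝ, (∀ v, v ∉ B → f v = 0) →
      ∑ v : Ball D L, f v.1 ^ 2 = ∑ v ∈ B, f v ^ 2 := by
    intro f hf
    symm
    refine Finset.sum_bij_ne_zero (fun v hv _ => ⟨v, hB v hv⟩) (fun _ _ _ => Finset.mem_univ _)
      (fun _ _ _ _ _ _ h => congrArg Subtype.val h) (fun v _ hv => ?_) fun _ _ _ => rfl
    have : v.1 ∈ B := by
      by_contra hn
      exact hv (by rw [hf _ hn]; ring)
    exact ⟨v.1, this, hv, rfl⟩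
  have key := mat_ineq (HL_herm s ω L) (rootB D L) (E := E) (c := c) hη (X := fun v => X v.1)
    (q := fun v => q v.1) fun v => by
      rw [HL_mulVec s ω L v fun i hi => hX _ fun hb => absurd (hB _ hb) (not_le.2 hi), h]
      congr 2
      exact propext ⟨fun e => Subtype.ext e, fun e => congrArg Subtype.val e⟩
  rw [hsum X hX, hsum q hq] at key
  exact key

end Crest.Agent.R166
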