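import Crest.Agent.R166.T8c
import Crest.Agent.R166.T8d

/-! # The noise inequality -/

set_option autoImplicit false
set_option linter.unusedVariables false
set_option linter.unusedSectionVars false

open MeasureTheory ProbabilityTheory Filter Topology Matrix
open scoped ENNReal BoundedContinuousFunction

namespace Crest.Agent.R166

variable {D : ℕ} (β : Measure J) [IsProbabilityMeasure β]

theorem T8e_int {f : OmW D × J → ℝ} (hf : Continuous f) : Integrable f ((PW D β).prod β) :=
  hf.integrable_of_hasCompactSupport (HasCompactSupport.of_compactSpace _)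

theorem T8e_cont (Φ : CW D) (v : Wd (D + 1)) : Continuous fun p : OmW D × J =>
    (Φ (shiftW v p.1) - Φ (shiftW v (Function.update p.1 1 p.2))) ^ 2 :=
  ((Φ.continuous.comp ((continuous_shiftW v).comp continuous_fst)).sub
    (Φ.continuous.comp ((continuous_shiftW v).comp (continuous_updW 1)))).pow 2

theorem T8e_n2_add (F G : CW D) : n2 β (F + G) ≤ 2 * n2 β F + 2 * n2 β G := by
  have := n2_add_le β (memLp_CW β F) (memLp_CW β G) one_pos
  norm_num at this
  exact this

theorem T8e_n2_smul (c : ℝ) (F : CW D) : n2 β (c • F) = c ^ 2 * n2 β F := by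
  unfold n2
  rw [← integral_const_mul]
  refine integral_congr_ae (ae_of_all _ fun ω => ?_)
  simp only [ContinuousMap.smul_apply, smul_eq_mul]
  ring

/-- the pointwise inequality -/
theorem T8e_point (s E : ℝ) {ε : ℝ} (h0 : 0 < ε) {F : CW D} {S₀ S : Finset (Wd (D + 1))}
    (hF : DependsOn F (S₀ : Set _)) (hS : Carries S₀ S) (ω : OmW D) (t : J) :
    (s * ((ω 1 : ℝ) - (t : ℝ)) * F (Function.update ω 1 t)) ^ 2 *
        (gW s (E + ε * Complex.I) ω).im ≤
      2 * ε * ∑ v ∈ S.image (·⁻¹), (F (shiftW v ω) - F (shiftW v (Function.update ω 1 t))) ^ 2 +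
        2 / ε * ∑ v ∈ S.image (·⁻¹), (HH s E F (shiftW v ω) -
          HH s E F (shiftW v (Function.update ω 1 t))) ^ 2 := by
  have hF' : DependsOn F (S : Set _) := hF.mono (Finset.coe_subset.2 hS.1)
  have key := tree_ineq s ω (E := E) (c := -(s * ((ω 1 : ℝ) - (t : ℝ)) * F (Function.update ω 1 t)))
    h0 (S.image (·⁻¹))
    (X := fun v => F (shiftW v ω) - F (shiftW v (Function.update ω 1 t)))
    (q := fun v => HH s E F (shiftW v ω) - HH s E F (shiftW v (Function.update ω 1 t)))
    (fun v hv => sub_eq_zero.2 (resample_eq hF' hv ω t))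
    (fun v hv => sub_eq_zero.2 (resample_eq (dependsOn_HH s E hF hS) hv ω t)) ?_
  · rwa [neg_sq] at key
  · intro v
    simp only [HH_shift, opW, Finset.sum_sub_distrib]
    by_cases hv : v = 1
    · subst hv
      simp only [Function.update_self, shiftW_one, if_true]
      ring
    · simp only [Function.update_of_ne hv, if_neg hv]
      ring

/-- `F₀ = T_S u`, `Φ = HH F₀ = T_S err + s ε R` (`HH_TS`).  For `p = (ω, t)`, `ω' = update ω 1 t`,
`X v = F₀ (shift v ω) - F₀ (shift v ω')`, `q v = Φ (shift v ω) - Φ (shift v ω')`, `c = -s (ω 1 - t) F₀ ω'`,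
`B = S⁻¹`: `HH_shift` for `ω` and `ω'` gives the hypothesis of `tree_ineq`, `resample_eq` the supports.
Integrate over `p` (all integrands are continuous on a compact space); `mass_transport`, `TS_telescope` for
`u`, `err` (on `S`) and `u` (on `S.erase 1`, with `n2_TS_mono`), `sum_Q_RR`, `(a+b)² ≤ 2a² + 2b²`. -/
theorem noise_ineq (s E : ℝ) {ε : ℝ} (h0 : 0 < ε) (h1 : ε ≤ 1) {u : CW D}
    {S₀ S : Finset (Wd (D + 1))} (hu : DependsOn u (S₀ : Set _)) (hS : Carries S₀ S) :
    ∫ p, (s * ((p.1 1 : ℝ) - (p.2 : ℝ)) * TS β ε S u (Function.update p.1 1 p.2)) ^ 2 *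
        (gW s (E + ε * Complex.I) p.1).im ∂((PW D β).prod β) ≤
      (4 + 32 * s ^ 2) * (n2 β u - n2 β (TS β ε S u)) + 8 / ε ^ 2 * n2 β (HH s E u) +
        32 * s ^ 2 * ε * n2 β u := by
  set F := TS β ε S u with hFdef
  set G := TS β ε (S.erase 1) u with hGdef
  set e := TS β ε S (HH s E u) with hedef
  have hF : DependsOn F (S₀ : Set _) := dependsOn_TS β ε S hu
  have hz : 0 < ((E : ℂ) + ε * Complex.I).im := by simpa using h0
  have i0 : Integrable (fun p : OmW D × J =>
      (s * ((p.1 1 : ℝ) - (p.2 : ℝ)) * F (Function.update p.1 1 p.2)) ^ 2 *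
        (gW s (E + ε * Complex.I) p.1).im) ((PW D β).prod β) := by
    refine T8e_int β (Continuous.mul (Continuous.pow (Continuous.mul (continuous_const.mul
      (Continuous.sub ?_ ?_)) (F.continuous.comp (continuous_updW 1))) 2) ?_)
    · exact continuous_subtype_val.comp ((continuous_apply 1).comp continuous_fst)
    · exact continuous_subtype_val.comp continuous_snd
    · exact Complex.continuous_im.comp ((continuous_gW s hz).comp continuous_fst)
  have i1 := fun (Φ : CW D) (v : Wd (D + 1)) => T8e_int β (T8e_cont Φ v)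
  have i2 := fun (Φ : CW D) => integrable_finsetSum (S.image (·⁻¹)) fun v _ => i1 Φ v
  have step := integral_mono i0 (((i2 F).const_mul (2 * ε)).add ((i2 (HH s E F)).const_mul (2 / ε)))
    fun p => T8e_point s E h0 hF hS p.1 p.2
  rw [integral_add' ((i2 F).const_mul (2 * ε)) ((i2 (HH s E F)).const_mul (2 / ε)),
    integral_const_mul, integral_const_mul, integral_finsetSum _ fun v _ => i1 F v,
    integral_finsetSum _ fun v _ => i1 (HH s E F) v, mass_transport, mass_transport] at step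
  refine step.trans ?_
  have t1 := TS_telescope β h0.le h1 S u
  have t2 := TS_telescope β h0.le h1 S (HH s E u)
  have t3 := TS_telescope β h0.le h1 (S.erase 1) u
  have t4 := n2_TS_mono β h0.le h1 (Finset.erase_subset 1 S) u
  have t5 := n2_TS_le β h0.le h1 (S.erase 1) u
  have t6 := sum_Q_RR β S G
  have t7 : ∑ w ∈ S, n2 β (HH s E F - Ev β w (HH s E F)) ≤
      2 * ∑ w ∈ S, n2 β (e - Ev β w e) +
        2 * (s * ε) ^ 2 * ∑ w ∈ S, n2 β (RR β G - Ev β w (RR β G)) := by
    rw [Finset.mul_sum, Finset.mul_sum, ← Finset.sum_add_distrib]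
    refine Finset.sum_le_sum fun w _ => ?_
    have e1 : HH s E F - Ev β w (HH s E F) =
        (e - Ev β w e) + (s * ε) • (RR β G - Ev β w (RR β G)) := by
      rw [hFdef, HH_TS β s E ε hu hS, map_add, map_smul, smul_sub]
      abel
    rw [e1]
    refine (T8e_n2_add β _ _).trans (le_of_eq ?_)
    rw [T8e_n2_smul]
    ring
  rw [← hFdef] at t1 t4
  rw [← hedef] at t2
  rw [← hGdef] at t3 t4 t5
  have p1 := n2_nonneg β e
  set a := ∑ w ∈ S, n2 β (F - Ev β w F)
  set b := ∑ w ∈ S, n2 β (HH s E F - Ev β w (HH s E F))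
  set c := ∑ w ∈ S, n2 β (e - Ev β w e)
  set r := ∑ w ∈ S, n2 β (RR β G - Ev β w (RR β G))
  set g := ∑ w ∈ S.erase 1, n2 β (G - Ev β w G)
  have u1 : 2 / ε * (2 * b) ≤ 8 / ε ^ 2 * (ε * c) + 8 * s ^ 2 * (ε * r) := by
    calc 2 / ε * (2 * b) ≤ 2 / ε * (2 * (2 * c + 2 * (s * ε) ^ 2 * r)) := by gcongr
      _ = _ := by field_simp; ring
  have u2 : 8 / ε ^ 2 * (ε * c) ≤ 8 / ε ^ 2 * n2 β (HH s E u) := by
    gcongr
    linarith
  have u3 : ε * r ≤ 4 * (n2 β u - n2 β F) + 4 * (ε * n2 β u) := by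
    have : ε * r ≤ ε * (4 * g + 4 * n2 β G) := by gcongr
    have h5 : ε * n2 β G ≤ ε * n2 β u := by gcongr
    nlinarith
  have u4 : 8 * s ^ 2 * (ε * r) ≤ 8 * s ^ 2 * (4 * (n2 β u - n2 β F) + 4 * (ε * n2 β u)) := by
    gcongr
  nlinarith

end Crest.Agent.R166
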