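import Crest.Agent.R166.PartT0

/-! # The whole tree as a group of reduced words (most recent letter first) -/

set_option autoImplicit false
set_option linter.unusedVariables false
set_option linter.unusedSectionVars false

open MeasureTheory ProbabilityTheory Filter Topology Matrix
open scoped ENNReal BoundedContinuousFunction

namespace Crest.Agent.R166

/-- right multiplication of a word by a generator -/
def rmul {d : ℕ} (l : List (Fin d)) (b : Fin d) : List (Fin d) :=
  if l.head? = some b then l.tail else b :: l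

/-- product of two words -/
def lmul {d : ℕ} (v l : List (Fin d)) : List (Fin d) := l.foldr (fun b acc => rmul acc b) v

theorem rmul_chain {d : ℕ} {l : List (Fin d)} (h : l.IsChain (· ≠ ·)) (b : Fin d) :
    (rmul l b).IsChain (· ≠ ·) := by
  unfold rmul
  split_ifs with hb
  · exact h.tail
  · cases l with
    | nil => simp
    | cons a l =>
      refine List.IsChain.cons_cons ?_ h
      rintro rfl
      simp at hb

theorem rmul_rmul {d : ℕ} {l : List (Fin d)} (h : l.IsChain (· ≠ ·)) (b : Fin d) :
    rmul (rmul l b) b = l := by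
  by_cases hb : l.head? = some b
  · cases l with
    | nil => simp at hb
    | cons a l =>
      obtain rfl : a = b := by simpa using hb
      have h1 : rmul (a :: l) a = l := by simp [rmul]
      rw [h1]
      cases l with
      | nil => simp [rmul]
      | cons c l =>
        have : a ≠ c := (List.isChain_cons_cons.1 h).1
        simp [rmul, this.symm]
  · have h1 : rmul l b = b :: l := by simp [rmul, hb]
    rw [h1]
    simp [rmul]

theorem lmul_chain {d : ℕ} {v : List (Fin d)} (h : v.IsChain (· ≠ ·)) (l : List (Fin d)) :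
    (lmul v l).IsChain (· ≠ ·) := by
  induction l with
  | nil => exact h
  | cons b l ih => exact rmul_chain ih b

theorem lmul_rmul {d : ℕ} {v : List (Fin d)} (h : v.IsChain (· ≠ ·)) (l : List (Fin d))
    (b : Fin d) : lmul v (rmul l b) = rmul (lmul v l) b := by
  by_cases hb : l.head? = some b
  · cases l with
    | nil => simp at hb
    | cons a l =>
      obtain rfl : a = b := by simpa using hb
      have h1 : rmul (a :: l) a = l := by simp [rmul]
      rw [h1]
      exact (rmul_rmul (lmul_chain h l) a).symm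
  · have h1 : rmul l b = b :: l := by simp [rmul, hb]
    rw [h1]
    rfl

theorem lmul_assoc {d : ℕ} {u : List (Fin d)} (h : u.IsChain (· ≠ ·)) (v l : List (Fin d)) :
    lmul (lmul u v) l = lmul u (lmul v l) := by
  induction l with
  | nil => rfl
  | cons b l ih =>
    change rmul (lmul (lmul u v) l) b = lmul u (rmul (lmul v l) b)
    rw [ih, lmul_rmul h]

theorem lmul_reverse {d : ℕ} (v : List (Fin d)) : lmul v v.reverse = [] := by
  unfold lmul
  rw [List.foldr_reverse]
  induction v with
  | nil => rfl
  | cons b v ih =>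
    rw [List.foldl_cons]
    have h1 : rmul (b :: v) b = v := by simp [rmul]
    rw [h1, ih]

/-- reduced words = vertices of the `d`-regular tree -/
def Wd (d : ℕ) : Type := {l : List (Fin d) // l.IsChain (· ≠ ·)}

instance (d : ℕ) : DecidableEq (Wd d) := by unfold Wd; infer_instance
instance (d : ℕ) : Countable (Wd d) := by unfold Wd; infer_instance
instance (d : ℕ) : Mul (Wd d) := ⟨fun u v => ⟨lmul u.1 v.1, lmul_chain u.2 v.1⟩⟩
instance (d : ℕ) : One (Wd d) := ⟨⟨[], List.IsChain.nil⟩⟩
instance (d : ℕ) : Inv (Wd d) :=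
  ⟨fun u => ⟨u.1.reverse, List.isChain_reverse.2 (u.2.imp fun _ _ h => h.symm)⟩⟩

instance (d : ℕ) : Group (Wd d) :=
  Group.ofRightAxioms (fun u v w => Subtype.ext (lmul_assoc u.2 v.1 w.1))
    (fun u => Subtype.ext rfl) fun u => Subtype.ext (lmul_reverse u.1)

/-- the generators -/
def gen {d : ℕ} (b : Fin d) : Wd d := ⟨[b], List.IsChain.singleton b⟩

theorem Wd.one_val (d : ℕ) : (1 : Wd d).1 = [] := rfl

theorem Wd.mul_gen_val {d : ℕ} (x : Wd d) (b : Fin d) : (x * gen b).1 = rmul x.1 b := rfl

theorem Wd.inv_val {d : ℕ} (x : Wd d) : (x⁻¹).1 = x.1.reverse := rfl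

theorem mul_gen_gen {d : ℕ} (x : Wd d) (b : Fin d) : x * gen b * gen b = x :=
  Subtype.ext (rmul_rmul x.2 b)

/-- vertex reached from the half-edge `h` by a non-backtracking word -/
def vtxW {D : ℕ} : Wd (D + 1) × Fin (D + 1) → List (Fin D) → Wd (D + 1)
  | h, [] => h.1
  | h, c :: l => vtxW (h.1 * gen (h.2.succAbove c), h.2.succAbove c) l

/-- potentials on the whole tree -/
abbrev OmW (D : ℕ) : Type := Wd (D + 1) → J

/-- their law -/
noncomputable def PW (D : ℕ) (β : Measure J) : Measure (OmW D) := Measure.infinitePi fun _ => β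

instance (D : ℕ) (β : Measure J) [IsProbabilityMeasure β] : IsProbabilityMeasure (PW D β) := by
  unfold PW; infer_instance

def envW {D : ℕ} (ω : OmW D) (h : Wd (D + 1) × Fin (D + 1)) : Env D := fun l => ω (vtxW h l)

def starW {D : ℕ} (ω : OmW D) (x : Wd (D + 1)) : StarEnv D :=
  (ω x, fun i => envW ω (x * gen i, i))

/-- the potential seen from `v` -/
def shiftW {D : ℕ} (v : Wd (D + 1)) (ω : OmW D) : OmW D := fun w => ω (v * w)

theorem vtxW_mul {D : ℕ} (v x : Wd (D + 1)) (i : Fin (D + 1)) (l : List (Fin D)) :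
    vtxW (v * x, i) l = v * vtxW (x, i) l := by
  induction l generalizing x i with
  | nil => rfl
  | cons c l ih =>
    simp only [vtxW]
    rw [mul_assoc, ih]

theorem envW_shift {D : ℕ} (v x : Wd (D + 1)) (i : Fin (D + 1)) (ω : OmW D) :
    envW (shiftW v ω) (x, i) = envW ω (v * x, i) := by
  funext l
  simp only [envW, shiftW, vtxW_mul]

theorem starW_shift {D : ℕ} (v x : Wd (D + 1)) (ω : OmW D) :
    starW (shiftW v ω) x = starW ω (v * x) := by
  simp only [starW, envW_shift, mul_assoc]
  rfl

theorem shiftW_shiftW {D : ℕ} (v w : Wd (D + 1)) (ω : OmW D) :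
    shiftW w (shiftW v ω) = shiftW (v * w) ω := by
  funext x
  simp only [shiftW, mul_assoc]

theorem shiftW_one {D : ℕ} (ω : OmW D) : shiftW 1 ω = ω := by
  funext x
  simp only [shiftW, one_mul]

theorem envW_nil {D : ℕ} (ω : OmW D) (x : Wd (D + 1)) (i : Fin (D + 1)) :
    envW ω (x, i) [] = ω x := rfl

theorem envW_sub {D : ℕ} (ω : OmW D) (x : Wd (D + 1)) (i : Fin (D + 1)) (c : Fin D) :
    (envW ω (x, i)).sub c = envW ω (x * gen (i.succAbove c), i.succAbove c) := rfl

theorem outEnv_starW {D : ℕ} (ω : OmW D) (x : Wd (D + 1)) (j : Fin (D + 1)) :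
    outEnv (starW ω x) j = envW ω (x, j) := by
  funext l
  cases l <;> rfl

theorem continuous_shiftW {D : ℕ} (v : Wd (D + 1)) : Continuous (shiftW v) :=
  continuous_pi fun w => continuous_apply (v * w)

theorem continuous_envW {D : ℕ} (h : Wd (D + 1) × Fin (D + 1)) :
    Continuous fun ω : OmW D => envW ω h :=
  continuous_pi fun l => continuous_apply (vtxW h l)

theorem continuous_starW {D : ℕ} (x : Wd (D + 1)) : Continuous fun ω : OmW D => starW ω x :=
  (continuous_apply x).prodMk (continuous_pi fun i => continuous_envW _)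

theorem measurePreserving_shiftW {D : ℕ} (β : Measure J) [IsProbabilityMeasure β]
    (v : Wd (D + 1)) : MeasurePreserving (shiftW v) (PW D β) (PW D β) :=
  ⟨(continuous_shiftW v).measurable,
    Measure.map_infinitePi_infinitePi_of_inj (P := fun _ : Wd (D + 1) => β)
      (mul_right_injective v)⟩

/-- words of length at most `L` -/
abbrev Ball (D L : ℕ) : Type := {w : Wd (D + 1) // w.1.length ≤ L}

instance (D L : ℕ) : Finite (Ball D L) := by
  have := (List.finite_length_le (Fin (D + 1)) L).to_subtype
  refine Finite.of_injective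
    (fun w : Ball D L => (⟨w.1.1, w.2⟩ : {l : List (Fin (D + 1)) | l.length ≤ L})) ?_
  intro u v h
  exact Subtype.ext (Subtype.ext (congrArg (fun x : {l : List (Fin (D + 1)) | l.length ≤ L} => x.1) h))

noncomputable instance (D L : ℕ) : Fintype (Ball D L) := Fintype.ofFinite _

/-- the root of the ball -/
def rootB (D L : ℕ) : Ball D L := ⟨1, Nat.zero_le L⟩

/-- the Hamiltonian restricted to the ball -/
noncomputable def HL {D : ℕ} (s : ℝ) (ω : OmW D) (L : ℕ) : Matrix (Ball D L) (Ball D L) ℝ :=
  Matrix.of fun u v => (if u = v then s * (ω u.1 : ℝ) else 0) +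
    ∑ i, if u.1 * gen i = v.1 then 1 else 0

/-- the Hamiltonian acting on functions on the tree -/
def opW {D : ℕ} (s : ℝ) (ω : OmW D) (φ : Wd (D + 1) → ℝ) : Wd (D + 1) → ℝ :=
  fun w => s * (ω w : ℝ) * φ w + ∑ i, φ (w * gen i)

/-- `⟨δ_root, H^k δ_root⟩` -/
def momW {D : ℕ} (s : ℝ) (ω : OmW D) (k : ℕ) : ℝ :=
  (opW s ω)^[k] (fun w => if w = 1 then 1 else 0) 1

end Crest.Agent.R166
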