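import Crest.Agent.R166.X1

/-! # Part X: raw jets, Woodbury, switching -/

set_option autoImplicit false
set_option linter.unusedVariables false
set_option linter.unusedSectionVars false

open MeasureTheory ProbabilityTheory Filter Topology Matrix
open scoped ENNReal BoundedContinuousFunction

namespace Crest.Agent.R166

noncomputable section

theorem X2_im (E c : ℝ) (w : ℂ) : ((E : ℂ) + w / c).im = w.im / c := by
  simp [Complex.div_ofReal_im]

theorem X2_pos (E : ℝ) {c : ℝ} (hc : 0 < c) {w : ℂ} (hw : 0 < w.im) :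
    0 < ((E : ℂ) + w / c).im := by
  rw [X2_im]; positivity

theorem X2_den (E : ℝ) {c : ℝ} (hc : 0 < c) (w : ℂ) (l : ℝ) :
    ((c * (l - E) : ℝ) : ℂ) - w = c * ((l : ℂ) - (E + w / c)) := by
  have : (c : ℂ) ≠ 0 := by exact_mod_cast hc.ne'
  push_cast
  field_simp
  ring

theorem X2_wood {n N : ℕ} {G G' : Matrix (Fin n) (Fin n) ℂ} {T : Matrix (Fin n) (Fin N) ℂ}
    {B : Matrix (Fin N) (Fin N) ℂ} (hG : Gᵀ = G) (hG' : G'ᵀ = G')
    (h : G - G' = G' * (T * B * Tᵀ) * G) :
    Tᵀ * G' * T = Tᵀ * G * T * (B * (Tᵀ * G * T) + 1)⁻¹ ∧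
    Tᵀ * (G' * G') * T =
      ((B * (Tᵀ * G * T) + 1)⁻¹)ᵀ * (Tᵀ * (G * G) * T) * (B * (Tᵀ * G * T) + 1)⁻¹ ∧
    G'.trace = G.trace - ((B * (Tᵀ * G * T) + 1)⁻¹ * B * (Tᵀ * (G * G) * T)).trace := by
  set j := B * (Tᵀ * G * T) + 1 with hj
  have h1 : G' * T * j = G * T := by
    have : G' * T * j = G' * (T * B * Tᵀ) * G * T + G' * T := by
      simp only [hj, Matrix.mul_add, Matrix.mul_one, Matrix.mul_assoc]
    rw [this, ← h, Matrix.sub_mul, sub_add_cancel]
  have h2 : (1 - B * (Tᵀ * G' * T)) * j = 1 := by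
    have : B * (Tᵀ * G' * T) * j = B * Tᵀ * (G' * T * j) := by simp only [Matrix.mul_assoc]
    rw [Matrix.sub_mul, Matrix.one_mul, this, h1, hj]
    simp only [Matrix.mul_assoc, add_sub_cancel_left]
  have hu : IsUnit j.det := Matrix.isUnit_det_of_left_inverse h2
  have h3 : G' * T = G * T * j⁻¹ := by
    rw [← h1, Matrix.mul_nonsing_inv_cancel_right _ _ hu]
  refine ⟨?_, ?_, ?_⟩
  · rw [Matrix.mul_assoc, h3]
    simp only [Matrix.mul_assoc]
  · have e : Tᵀ * (G' * G') * T = (G' * T)ᵀ * (G' * T) := by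
      simp only [Matrix.transpose_mul, hG', Matrix.mul_assoc]
    rw [e, h3]
    simp only [Matrix.transpose_mul, hG, Matrix.mul_assoc]
  · have e : G' = G - G' * T * (B * Tᵀ * G) := by
      have : G' * T * (B * Tᵀ * G) = G' * (T * B * Tᵀ) * G := by simp only [Matrix.mul_assoc]
      rw [this, ← h, sub_sub_cancel]
    have e2 : (G' * T * (B * Tᵀ * G)).trace = (j⁻¹ * B * (Tᵀ * (G * G) * T)).trace := by
      rw [h3, Matrix.mul_assoc (G * T), Matrix.trace_mul_comm]
      simp only [Matrix.mul_assoc]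
    rw [← e2, ← Matrix.trace_sub, ← e]

/-- selection matrix -/
def X2_T {n N : ℕ} (S : Fin N → Fin n) : Matrix (Fin n) (Fin N) ℂ :=
  Matrix.of fun x b => if x = S b then 1 else 0

theorem X2_T_sub {n N : ℕ} (S : Fin N → Fin n) (G : Matrix (Fin n) (Fin n) ℂ) :
    (X2_T S)ᵀ * G * X2_T S = Matrix.of fun b b' => G (S b) (S b') := by
  ext b b'
  simp [X2_T, Matrix.mul_apply]

theorem X2_T_pert {n N : ℕ} (S : Fin N → Fin n) (B : Matrix (Fin N) (Fin N) ℝ) :
    cx (∑ b, ∑ b', Matrix.single (S b) (S b') (B b b')) = X2_T S * cx B * (X2_T S)ᵀ := by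
  ext x y
  simp only [cx_apply, Matrix.sum_apply, Matrix.single_apply, X2_T, Matrix.mul_apply,
    Matrix.transpose_apply, Matrix.of_apply, Finset.sum_mul, Complex.ofReal_sum]
  rw [Finset.sum_comm]
  refine Finset.sum_congr rfl fun b' _ => Finset.sum_congr rfl fun b _ => ?_
  by_cases h1 : x = S b <;> by_cases h2 : y = S b' <;> simp [h1, h2, eq_comm]

theorem X2_pert_symm {n N : ℕ} (S : Fin N → Fin n) {B : Matrix (Fin N) (Fin N) ℝ}
    (hB : B.IsSymm) : (∑ b, ∑ b', Matrix.single (S b) (S b') (B b b')).IsSymm := by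
  ext x y
  simp only [Matrix.transpose_apply, Matrix.sum_apply, Matrix.single_apply]
  rw [Finset.sum_comm]
  refine Finset.sum_congr rfl fun b _ => Finset.sum_congr rfl fun b' _ => ?_
  rw [hB.apply]
  simp only [and_comm]

theorem X2_resT {n : ℕ} {H : Matrix (Fin n) (Fin n) ℝ} (hH : H.IsSymm) (z : ℂ) :
    (res H z)ᵀ = res H z := by
  ext x y
  exact res_symm' hH z y x

end

section
variable {n N : ℕ} {H : Matrix (Fin n) (Fin n) ℝ} {E c a : ℝ} {w : ℂ}

theorem rawJ_eq_jetV {U : Matrix (Fin n) (Fin n) ℝ} {lam : Fin n → ℝ} (hU : Uᵀ * U = 1)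
    (hU' : U * Uᵀ = 1) (h : ∀ i, H *ᵥ U i = lam i • U i) (hc : 0 < c) (S : Fin N → Fin n)
    (hw : 0 < w.im) :
    rawJ H E c a S w =
      jetV (fun i => c * (lam i - E), a) (fun b i => √c * U i (S b)) (fun _ _ => 0) w := by
  have hz := (X2_pos E hc hw).ne'
  have hc' : (c : ℂ) ≠ 0 := by exact_mod_cast hc.ne'
  have hs : ∀ x y : ℝ, ((√c * x * (√c * y) : ℝ) : ℂ) = c * ((x * y : ℝ) : ℂ) := fun x y => by
    rw [← Complex.ofReal_mul, mul_mul_mul_comm, Real.mul_self_sqrt hc.le]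
  refine Prod.ext ?_ (Prod.ext ?_ ?_)
  · funext b b'
    simp only [rawJ, jetV, res_eq_sum hU hU' h hz, hs, X2_den E hc, Complex.ofReal_zero, sub_zero]
    exact Finset.sum_congr rfl fun i _ => (mul_div_mul_left _ _ hc').symm
  · funext b b'
    simp only [rawJ, jetV, res_sq_eq_sum hU hU' h hz, hs, X2_den E hc, Finset.sum_div]
    refine Finset.sum_congr rfl fun i _ => ?_
    rw [mul_pow, pow_two (c : ℂ), mul_assoc, mul_div_mul_left _ _ hc', div_div, mul_comm (c : ℂ)]
  · simp only [rawJ, jetV, sF, X2_den E hc, Matrix.trace, Matrix.diag, res_eq_sum hU hU' h hz]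
    congr 1
    rw [Finset.sum_comm, Finset.sum_div]
    refine Finset.sum_congr rfl fun i _ => ?_
    have e : ∑ x, U i x * U i x = 1 := by
      simpa [Matrix.mul_apply] using congrFun (congrFun hU' i) i
    rw [← Finset.sum_div, ← Complex.ofReal_sum, e, Complex.ofReal_one, div_div, mul_comm (c : ℂ)]

theorem rawJ_mem_Sieg (hH : H.IsSymm) (hc : 0 < c) {S : Fin N → Fin n} (hS : Function.Injective S)
    (hw : 0 < w.im) : rawJ H E c a S w ∈ Sieg N := by
  refine ⟨?_, ?_, (imM_res_posDef hH (X2_pos E hc hw)).submatrix hS⟩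
  · ext b b'
    exact res_symm' hH _ _ _
  · ext b b'
    have e : (res H (E + w / c) * res H (E + w / c))ᵀ = res H (E + w / c) * res H (E + w / c) := by
      rw [Matrix.transpose_mul, X2_resT hH]
    exact congrArg (· / (c : ℂ)) (congrFun (congrFun e _) _)

/-- a perturbation supported on `S` acts by a shear -/
theorem rawJ_woodbury (hH : H.IsSymm) (hc : 0 < c) (S : Fin N → Fin n)
    {B : Matrix (Fin N) (Fin N) ℝ} (hB : B.IsSymm) (hw : 0 < w.im) :
    rawJ (H + ∑ b, ∑ b', Matrix.single (S b) (S b') (B b b')) E c a S w =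
      mob ⟨1, 0, B, 1⟩ (rawJ H E c a S w) := by
  have hz := (X2_pos E hc hw).ne'
  set H' := H + ∑ b, ∑ b', Matrix.single (S b) (S b') (B b b') with hH'd
  have hH' : H'.IsSymm := hH.add (X2_pert_symm S hB)
  have key := res_sub_res' hH' hH hz
  have e0 : cx (H - H') = -(X2_T S * cx B * (X2_T S)ᵀ) := by
    rw [hH'd, cx_sub, cx_add, X2_T_pert]
    abel
  rw [e0, Matrix.mul_neg, Matrix.neg_mul, neg_neg] at key
  obtain ⟨k1, k2, k3⟩ := X2_wood (X2_resT hH _) (X2_resT hH' _) key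
  simp only [X2_T_sub] at k1 k2 k3
  have ej : jfac ⟨1, 0, B, 1⟩ (rawJ H E c a S w) =
      cx B * (Matrix.of fun b b' => res H (E + w / c) (S b) (S b')) + 1 := by
    simp only [jfac, cx_one, rawJ]
  have e2 : Matrix.of (rawJ H E c a S w).2.1 = (c : ℂ)⁻¹ •
      Matrix.of fun b b' => (res H (E + w / c) * res H (E + w / c)) (S b) (S b') := by
    ext b b'
    simp only [rawJ, Matrix.of_apply, Matrix.smul_apply, smul_eq_mul, div_eq_inv_mul]
  unfold mob
  rw [ej, e2]
  refine Prod.ext ?_ (Prod.ext ?_ ?_)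
  · simp only [cx_one, Mob1_cx_zero, Matrix.one_mul, add_zero]
    exact congrArg Matrix.of.symm k1
  · simp only [Matrix.mul_smul, Matrix.smul_mul, ← k2]
    funext b b'
    simp only [rawJ, Matrix.of_apply, Matrix.smul_apply, smul_eq_mul, div_eq_inv_mul,
      Matrix.of_symm_apply]
  · simp only [Matrix.mul_smul, Matrix.trace_smul, smul_eq_mul, rawJ, k3]
    ring

theorem rawJ_perm (S : Fin N → Fin n) (τ : Equiv.Perm (Fin N)) :
    rawJ H E c a (S ∘ τ) w = mob (orthQ (pm τ)) (rawJ H E c a S w) := by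
  have e : ∀ (M : Fin N → Fin N → ℂ), Matrix.of.symm (cx (pm τ) * Matrix.of M * (cx (pm τ))ᵀ) =
      fun b c => M (τ b) (τ c) := by
    intro M
    funext b c
    simp [pm, Matrix.mul_apply, apply_ite ((↑) : ℝ → ℂ)]
  have ho : pm τ * (pm τ)ᵀ = 1 := by
    ext b c
    simp [pm, Matrix.mul_apply, Matrix.one_apply, eq_comm]
  rw [Mob3_mob_orth ho, e, e]
  rfl

/-- a rank-one perturbation moves the trace of the resolvent by at most `1 / Im z` -/
theorem trace_res_rank_one (hH : H.IsSymm) (κ : ℝ) (v : Fin n → ℝ) {z : ℂ} (hz : 0 < z.im) :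
    ‖Matrix.trace (res (H + κ • Matrix.vecMulVec v v) z) - Matrix.trace (res H z)‖ ≤ 1 / z.im := by
  set H' := H + κ • Matrix.vecMulVec v v with hH'd
  have hH' : H'.IsSymm := by
    refine hH.add ?_
    ext x y
    simp [Matrix.vecMulVec_apply, mul_comm]
  set V : Fin n → ℂ := fun x => v x with hV
  have key := res_sub_res' hH' hH hz.ne'
  have e0 : cx (H - H') = -((κ : ℂ) • Matrix.vecMulVec V V) := by
    ext x y
    simp [hH'd, hV, Matrix.vecMulVec_apply]
  rw [e0] at key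
  simp only [Matrix.mul_neg, Matrix.neg_mul, neg_neg, Matrix.mul_smul, Matrix.smul_mul,
    Matrix.mul_vecMulVec, Matrix.vecMulVec_mul] at key
  rw [← X2_resT hH z, Matrix.vecMul_transpose, X2_resT hH z] at key
  set u := res H z *ᵥ V with hu
  set u' := res H' z *ᵥ V with hu'
  set m := u ⬝ᵥ V with hm
  have k1 : ∀ x, u x = (1 + κ * m) * u' x := by
    intro x
    have := congrFun (congrArg (· *ᵥ V) key) x
    simp only [Matrix.sub_mulVec, Matrix.smul_mulVec, Matrix.vecMulVec_mulVec, ← hu, ← hu', ← hm,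
      Pi.sub_apply, Pi.smul_apply, smul_eq_mul, MulOpposite.smul_eq_mul_unop,
      MulOpposite.unop_op] at this
    linear_combination this
  have k2 : (res H z).trace - (res H' z).trace = κ * (u' ⬝ᵥ u) := by
    rw [← Matrix.trace_sub, key, Matrix.trace_smul, Matrix.trace_vecMulVec, smul_eq_mul]
  have hj : (1 + κ * m : ℂ) ≠ 0 := by
    intro h0
    have : m = 0 := by
      rw [hm, show u = 0 from funext fun x => by rw [k1, h0, zero_mul]; rfl, zero_dotProduct]
    rw [this] at h0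
    simp at h0
  have k3 : (1 + κ * m) * ((res H z).trace - (res H' z).trace) = κ * ∑ x, u x ^ 2 := by
    rw [k2, dotProduct, Finset.mul_sum, Finset.mul_sum, Finset.mul_sum]
    refine Finset.sum_congr rfl fun x _ => ?_
    rw [pow_two]
    nth_rewrite 2 [k1 x]
    ring
  have k4 : m.im = z.im * ∑ x, ‖u x‖ ^ 2 := by
    have e1 : m.im = ∑ x, ∑ y, (res H z x y).im * v y * v x := by
      simp [hm, hu, hV, dotProduct, Matrix.mulVec, Finset.sum_mul, Complex.im_sum]
    have e2 : ∀ t, ((‖u t‖ ^ 2 : ℝ) : ℂ) =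
        ∑ x, ∑ y, res H z t x * (starRingEnd ℂ) (res H z t y) * v y * v x := by
      intro t
      rw [← Complex.normSq_eq_norm_sq, ← Complex.mul_conj]
      simp only [hu, hV, Matrix.mulVec, dotProduct, map_sum, map_mul, Complex.conj_ofReal,
        Finset.sum_mul_sum]
      exact Finset.sum_congr rfl fun x _ => Finset.sum_congr rfl fun y _ => by ring
    refine Complex.ofReal_injective ?_
    rw [e1, Complex.ofReal_mul, Complex.ofReal_sum, Complex.ofReal_sum]
    simp only [e2, Complex.ofReal_sum, Complex.ofReal_mul, ward_bilin hH hz.ne', Finset.mul_sum,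
      Finset.sum_mul]
    conv_rhs => rw [Finset.sum_comm]
    refine Finset.sum_congr rfl fun x _ => ?_
    conv_rhs => rw [Finset.sum_comm]
    exact Finset.sum_congr rfl fun y _ => Finset.sum_congr rfl fun t _ => by ring
  have k5 : |κ| * (z.im * ∑ x, ‖u x‖ ^ 2) ≤ ‖(1 + κ * m : ℂ)‖ := by
    refine le_trans ?_ (Complex.abs_im_le_norm _)
    have : (1 + κ * m : ℂ).im = κ * m.im := by simp
    rw [this, abs_mul, k4]
    exact mul_le_mul_of_nonneg_left (le_abs_self _) (abs_nonneg _)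
  have k6 : ‖(1 + κ * m : ℂ)‖ * ‖(res H z).trace - (res H' z).trace‖ ≤ |κ| * ∑ x, ‖u x‖ ^ 2 := by
    rw [← norm_mul, k3, norm_mul, Complex.norm_real, Real.norm_eq_abs]
    refine mul_le_mul_of_nonneg_left ((norm_sum_le _ _).trans_eq ?_) (abs_nonneg _)
    simp only [norm_pow]
  rw [norm_sub_rev, le_div_iff₀ hz]
  refine le_of_mul_le_mul_left ?_ (norm_pos_iff.2 hj)
  nlinarith

end

theorem X2_sel {N q n D : ℕ} (ι : Fin N ≃ Fin 2 × Fin (q + 2)) {o : Om n D}
    {a : Fin (q + 2) → HE n D} (hE : EdgeOK o.1.1 (a 0) (a 1))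
    (hS : Function.Injective (selV ι o.1.1 a)) :
    selV ι (swO a o).1.1 a = selV ι o.1.1 a ∘ swP ι := by
  obtain ⟨-, -, c1, c2, -, -, c5, -⟩ := hE.spec
  have hinj : ∀ (i i' : Fin 2) (l l' : Fin (q + 2)),
      ends o.1.1 (a l) i = ends o.1.1 (a l') i' → i = i' ∧ l = l' := by
    intro i i' l l' e
    have := hS (a₁ := ι.symm (i, l)) (a₂ := ι.symm (i', l')) (by simpa [selV] using e)
    simpa using this
  funext b
  obtain ⟨⟨i, l⟩, rfl⟩ := ι.symm.surjective b
  have hne : ∀ p p' : Fin 2 × Fin (q + 2), p ≠ p' → ι.symm p ≠ ι.symm p' :=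
    fun p p' h => ι.symm.injective.ne h
  have hi : i = 0 ∨ i = 1 := by omega
  rcases hi with rfl | rfl
  · rw [Function.comp_apply, swP, Equiv.swap_apply_of_ne_of_ne (hne _ _ (by simp))
      (hne _ _ (by simp))]
    simp [selV, ends]
  · by_cases l0 : l = 0
    · subst l0
      rw [Function.comp_apply, swP, Equiv.swap_apply_left]
      simpa [selV, ends, swO] using congrArg Prod.fst c1
    by_cases l1 : l = 1
    · subst l1
      rw [Function.comp_apply, swP, Equiv.swap_apply_right]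
      simpa [selV, ends, swO] using congrArg Prod.fst c2
    rw [Function.comp_apply, swP, Equiv.swap_apply_of_ne_of_ne (hne _ _ (by simp [l0]))
      (hne _ _ (by simp [l1]))]
    have := c5 (a l) (fun e => l0 (hinj 0 0 l 0 (by simp [ends, e])).2)
      (fun e => l1 (hinj 0 0 l 1 (by simp [ends, e])).2)
      (fun e => l0 (hinj 0 1 l 0 (by simp [ends, e])).2)
      (fun e => l1 (hinj 0 1 l 1 (by simp [ends, e])).2)
    simpa [selV, ends, swO] using congrArg Prod.fst this

theorem X2_ham {N q n D : ℕ} (ι : Fin N ≃ Fin 2 × Fin (q + 2)) {o : Om n D}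
    {a : Fin (q + 2) → HE n D} (hE : EdgeOK o.1.1 (a 0) (a 1)) (s : ℝ) :
    ham s (swO a o).1.1 o.2 = ham s o.1.1 o.2 + ∑ b, ∑ b',
      Matrix.single (selV ι o.1.1 a b) (selV ι o.1.1 a b') (swB ι b b') := by
  obtain ⟨-, -, -, -, -, -, -, h⟩ := hE.spec
  have e : ∑ b, ∑ b', Matrix.single (selV ι o.1.1 a b) (selV ι o.1.1 a b') (swB ι b b') =
      ∑ p : Fin 2 × Fin (q + 2), ∑ p' : Fin 2 × Fin (q + 2),
        Matrix.single (ends o.1.1 (a p.2) p.1) (ends o.1.1 (a p'.2) p'.1)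
          (if p.1 = p'.1 then (0 : ℝ) else -(sg01 p.2 * sg01 p'.2)) := by
    refine Fintype.sum_equiv ι _ _ fun b => Fintype.sum_equiv ι _ _ fun b' => rfl
  have s0 : sg01 (0 : Fin (q + 2)) = 1 := by simp [sg01]
  have s1 : sg01 (1 : Fin (q + 2)) = -1 := by simp [sg01]
  have s2 : ∀ l : Fin q, sg01 l.succ.succ = 0 := fun l => by
    have h1 : l.succ.succ ≠ 1 := fun e => Fin.succ_ne_zero l (Fin.succ_injective _ e)
    simp [sg01, h1]
  rw [e, ham, ham, show adj (swO a o).1.1 = _ from h]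
  simp only [Fintype.sum_prod_type, Fin.sum_univ_two]
  simp only [Fin.sum_univ_succ, s0, s1, s2, ends, if_true, zero_ne_one, one_ne_zero, if_false,
    Matrix.single_zero, Finset.sum_const_zero, mul_zero, neg_zero, add_zero, zero_add,
    edgeM, mul_one, mul_neg, neg_neg, ← Matrix.single_neg, Fin.succ_zero_eq_one]
  abel

theorem X2_ham2 {q n D : ℕ} {o : Om n D}
    {a : Fin (q + 2) → HE n D} (hE : EdgeOK o.1.1 (a 0) (a 1)) (s : ℝ) :
    ∃ u v : Fin n → ℝ, ham s (swO a o).1.1 o.2 = ham s o.1.1 o.2 +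
      (-2⁻¹ : ℝ) • Matrix.vecMulVec u u + (2⁻¹ : ℝ) • Matrix.vecMulVec v v := by
  obtain ⟨-, -, -, -, -, -, -, h⟩ := hE.spec
  refine ⟨Pi.single (a 0).1 1 - Pi.single (a 1).1 1 +
      (Pi.single (o.1.1 (a 0)).1 1 - Pi.single (o.1.1 (a 1)).1 1),
    Pi.single (a 0).1 1 - Pi.single (a 1).1 1 -
      (Pi.single (o.1.1 (a 0)).1 1 - Pi.single (o.1.1 (a 1)).1 1), ?_⟩
  rw [ham, ham, show adj (swO a o).1.1 = _ from h]
  ext x y
  simp only [edgeM, Matrix.single_eq_single_vecMulVec_single, Matrix.add_apply, Matrix.sub_apply,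
    Matrix.smul_apply, Matrix.vecMulVec_apply, Pi.add_apply, Pi.sub_apply, smul_eq_mul]
  ring

theorem X2_aK {n D : ℕ} (hn : 0 < n) (s E : ℝ) {ρ : ℝ} (hρ : 0 < ρ) (K : ℕ) (o : Om n D) :
    (confH s E ρ K o).2 = (Matrix.trace (res (ham s o.1.1 o.2)
      (E + (((K : ℝ) + 1 : ℝ) : ℂ) * Complex.I / ((n * ρ : ℝ) : ℂ)))).re / (n * ρ) := by
  have hc : (0 : ℝ) < n * ρ := by positivity
  have hw : 0 < ((((K : ℝ) + 1 : ℝ) : ℂ) * Complex.I).im := by
    simp only [Complex.mul_im, Complex.ofReal_re, Complex.I_im, Complex.ofReal_im, Complex.I_re]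
    positivity
  rw [trace_res_evs (ham_isSymm o.1.2.1 s o.2) (X2_pos E hc hw).ne', ← Complex.div_ofReal_re,
    Finset.sum_div]
  simp only [confH, aK, sF, xH, X2_den E hc, Complex.ofReal_zero, sub_zero, div_div,
    mul_comm ((n * ρ : ℝ) : ℂ)]

theorem X2_raw_shift {n N : ℕ} (H : Matrix (Fin n) (Fin n) ℝ) (E c t t' : ℝ) (S : Fin N → Fin n)
    (w : ℂ) : rawJ H E c t' S w = rawJ H E c t S w + (0, 0, ((t - t' : ℝ) : ℂ)) := by
  refine Prod.ext (add_zero _).symm (Prod.ext (add_zero _).symm ?_)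
  simp only [rawJ, Prod.snd_add, Complex.ofReal_sub]
  ring

theorem X2_nrm_shift {N q : ℕ} (ι : Fin N ≃ Fin 2 × Fin q) (e : Lab q) (Z : Jet N) (τ : ℂ) :
    nrm ι e (Z + (0, 0, τ)) = nrm ι e Z + (0, 0, τ) := by
  simp [nrm]

section
variable {N q n D : ℕ} (ι : Fin N ≃ Fin 2 × Fin (q + 2))

/-- the raw jet after a switch -/
theorem rawJ_switch {o : Om n D} {a : Fin (q + 2) → HE n D} (hE : EdgeOK o.1.1 (a 0) (a 1))
    (hS : Function.Injective (selV ι o.1.1 a)) (s E c t : ℝ) (hc : 0 < c) {w : ℂ} (hw : 0 < w.im) :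
    rawJ (ham s (swO a o).1.1 o.2) E c t (selV ι (swO a o).1.1 a) w =
      mob (swQ ι) (rawJ (ham s o.1.1 o.2) E c t (selV ι o.1.1 a) w) := by
  have hH := ham_isSymm o.1.2.1 s o.2
  rw [X2_sel ι hE hS, rawJ_perm, X2_ham ι hE, rawJ_woodbury hH hc _ (swB_isSymm ι) hw, swQ,
    mob_mul (orthQ_isSymp (pm_orth _)) (shear_isSymp (swB_isSymm ι)) (rawJ_mem_Sieg hH hc hS hw)]

/-- the regularising shift moves little under a switch -/
theorem aK_switch {o : Om n D} {a : Fin (q + 2) → HE n D} (hE : EdgeOK o.1.1 (a 0) (a 1))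
    (s E ρ : ℝ) (hρ : 0 < ρ) (K : ℕ) :
    |(confH s E ρ K (swO a o)).2 - (confH s E ρ K o).2| ≤ 2 / ((K : ℝ) + 1) := by
  have hn : 0 < n := Fin.pos (a 0).1
  have hc : (0 : ℝ) < n * ρ := by positivity
  have hK : (0 : ℝ) < (K : ℝ) + 1 := by positivity
  have hw : ((((K : ℝ) + 1 : ℝ) : ℂ) * Complex.I).im = (K : ℝ) + 1 := by
    simp only [Complex.mul_im, Complex.ofReal_re, Complex.I_im, Complex.ofReal_im, Complex.I_re]
    ring
  have hH := ham_isSymm o.1.2.1 s o.2
  obtain ⟨u, v, huv⟩ := X2_ham2 hE s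
  rw [X2_aK hn s E hρ, X2_aK hn s E hρ, show (swO a o).2 = o.2 from rfl, huv]
  have hz := X2_pos E hc (hK.trans_eq hw.symm)
  have hH' : (ham s o.1.1 o.2 + (-2⁻¹ : ℝ) • Matrix.vecMulVec u u).IsSymm := by
    refine hH.add ?_
    ext x y
    simp [Matrix.vecMulVec_apply, mul_comm]
  have h1 := trace_res_rank_one hH (-2⁻¹) u hz
  have h2 := trace_res_rank_one hH' 2⁻¹ v hz
  rw [X2_im, hw] at h1 h2
  rw [← sub_div, abs_div, abs_of_pos hc, ← Complex.sub_re, div_le_iff₀ hc]
  refine (Complex.abs_re_le_norm _).trans ((norm_sub_le_norm_sub_add_norm_sub _ _ _).trans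
    ((add_le_add h2 h1).trans_eq ?_))
  field_simp
  ring

/-- the normalised jet after a switch -/
theorem trueJ_switch {o : Om n D} {a : Fin (q + 2) → HE n D} (hE : EdgeOK o.1.1 (a 0) (a 1))
    (hS : Function.Injective (selV ι o.1.1 a)) (s E ρ : ℝ) (hρ : 0 < ρ) (K j : ℕ) {w : ℂ}
    (hw : 0 < w.im) :
    trueJ ι s E ρ K j (swO a o) a w =
      mob (Wq ι (labH s E j o a) (labH s E j (swO a o) a)) (trueJ ι s E ρ K j o a w) +
        (0, 0, (((confH s E ρ K o).2 - (confH s E ρ K (swO a o)).2 : ℝ) : ℂ)) := by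
  have hn : 0 < n := Fin.pos (a 0).1
  have hc : (0 : ℝ) < n * ρ := by positivity
  have hl : ∀ o : Om n D, LabH (labH s E j o a) := fun o l =>
    ⟨mT_im_pos (zj_im_pos E j) _, mT_im_pos (zj_im_pos E j) _⟩
  have g1 := gQ_isSymp ι (hl o)
  have g2 := gQ_isSymp ι (hl (swO a o))
  have hr := rawJ_mem_Sieg (E := E) (a := (confH s E ρ K o).2) (ham_isSymm o.1.2.1 s o.2) hc hS hw
  have hr' := mob_mem_Sieg g1.inv.1 hr
  rw [trueJ, trueJ, show (swO a o).2 = o.2 from rfl, X2_raw_shift _ _ _ (confH s E ρ K o).2,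
    X2_nrm_shift, rawJ_switch ι hE hS s E _ _ hc hw, ← mob_gQ_inv ι (hl o),
    ← mob_gQ_inv ι (hl (swO a o)), Wq, mob_mul g2.inv.1 ((swQ_isSymp ι).mul g1) hr',
    mob_mul (swQ_isSymp ι) g1 hr', ← mob_mul g1 g1.inv.1 hr, g1.inv.2.2, mob_one]

end

theorem X2_blk {N q : ℕ} (ι : Fin N ≃ Fin 2 × Fin q) {X : Type} [TopologicalSpace X]
    {f : X → Fin q → Matrix (Fin 2) (Fin 2) ℝ} (hf : ∀ l, Continuous fun x => f x l) :
    Continuous fun x => blk ι (f x) := by
  refine continuous_matrix fun b c => ?_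
  simp only [blk_apply]
  split_ifs
  · exact (hf _).matrix_elem _ _
  · exact continuous_const

theorem X2_lab {q n D : ℕ} (s E : ℝ) (j : ℕ) (a : Fin q → HE n D) (π : Pairing n D) :
    Continuous fun ω : Fin n → J => labH s E j (π, ω) a :=
  continuous_pi fun l =>
    ((continuous_mT (zj_im_pos E j)).comp (measurable_envH π.1 (a l))).prodMk
      ((continuous_mT (zj_im_pos E j)).comp (measurable_envH π.1 (π.1 (a l))))

theorem X2_conf {n D : ℕ} (s E ρ : ℝ) (K : ℕ) (π : Pairing n D) :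
    Continuous fun ω : Fin n → J => confH s E ρ K (π, ω) := by
  have h0 := continuous_evs (continuous_ham π.1 s) fun ω => ham_isSymm π.2.1 s ω
  have h1 : Continuous fun ω : Fin n → J => xH s E ρ (π, ω) :=
    continuous_pi fun i => continuous_const.mul
      (((continuous_apply i).comp h0).sub continuous_const)
  have hK : ((K : ℝ) + 1) ≠ 0 := by positivity
  have h2 : Continuous fun x : Fin n → ℝ => aK ((K : ℝ) + 1) x :=
    Complex.continuous_re.comp ((continuous_sF (w := (((K : ℝ) + 1 : ℝ) : ℂ) * Complex.I)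
      (by simpa using hK)).comp (continuous_id.prodMk continuous_const))
  exact h1.prodMk (h2.comp h1)

section
variable {N q n D : ℕ} (ι : Fin N ≃ Fin 2 × Fin q)

theorem labH_pos (s E : ℝ) (j : ℕ) (o : Om n D) (a : Fin q → HE n D) : LabH (labH s E j o a) := by
  exact fun l => ⟨mT_im_pos (zj_im_pos E j) _, mT_im_pos (zj_im_pos E j) _⟩

theorem trueJ_mem_cSieg (s E ρ : ℝ) (hρ : 0 < ρ) (K j : ℕ) (o : Om n D) (a : Fin q → HE n D)
    (hn : 0 < n) {w : ℂ} (hw : 0 < w.im) : trueJ ι s E ρ K j o a w ∈ cSieg N := by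
  have hc : (0 : ℝ) < n * ρ := by positivity
  obtain ⟨U, h1, h2, h3⟩ := exists_eigenbasis (ham_isSymm o.1.2.1 s o.2)
  rw [trueJ, rawJ_eq_jetV h2 h1 h3 hc _ hw, nrm_jetV]
  refine jetV_mem_cSieg _ _ _ (fun b c => ?_) hw
  have e : (Li ι (labH s E j o a) * Rm ι (labH s E j o a) * (Li ι (labH s E j o a))ᵀ).IsSymm := by
    rw [Matrix.IsSymm, Matrix.transpose_mul, Matrix.transpose_mul, Matrix.transpose_transpose,
      Rm_isSymm, Matrix.mul_assoc]
  exact e.apply c b

theorem measurable_labH (s E : ℝ) (j : ℕ) (a : Fin q → HE n D) :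
    Measurable fun o : Om n D => labH s E j o a := by
  exact measurable_from_prod_countable_right fun π => (X2_lab s E j a π).measurable

theorem measurable_confH (s E ρ : ℝ) (K : ℕ) : Measurable (confH (n := n) (D := D) s E ρ K) := by
  exact measurable_from_prod_countable_right fun π => (X2_conf s E ρ K π).measurable

theorem measurable_trueJ (s E ρ : ℝ) (hρ : 0 < ρ) (K j : ℕ) (a : Fin q → HE n D) (hn : 0 < n)
    {w : ℂ} (hw : 0 < w.im) : Measurable fun o : Om n D => trueJ ι s E ρ K j o a w := by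
  have hc : (0 : ℝ) < n * ρ := by positivity
  refine measurable_from_prod_countable_right fun π => Continuous.measurable ?_
  have hl : ∀ l, Continuous fun ω : Fin n → J => labH s E j (π, ω) a l := fun l =>
    (continuous_apply l).comp (X2_lab s E j a π)
  have h1 : Continuous fun ω : Fin n → J => cx (Li ι (labH s E j (π, ω) a)) :=
    mob2_cx (X2_blk ι fun l => continuousOn_L2.2.1.comp_continuous (hl l)
      fun ω => labH_pos s E j (π, ω) a l)
  have h2 : Continuous fun ω : Fin n → J => cx (Rm ι (labH s E j (π, ω) a)) :=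
    mob2_cx (X2_blk ι fun l => continuousOn_L2.2.2.1.comp_continuous (hl l)
      fun ω => labH_pos s E j (π, ω) a l)
  have h3 : Continuous fun ω : Fin n → J => res (ham s π.1 ω) (E + w / ((n * ρ : ℝ) : ℂ)) :=
    continuous_matrix fun x y => continuous_res' (continuous_ham π.1 s)
      (fun ω => ham_isSymm π.2.1 s ω) (X2_pos E hc hw).ne' x y
  have h4 : Continuous fun ω : Fin n → J => (Matrix.of (rawJ (ham s π.1 ω) E (n * ρ)
      (confH s E ρ K (π, ω)).2 (selV ι π.1 a) w).1) :=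
    continuous_matrix fun b c => h3.matrix_elem _ _
  have h5 : Continuous fun ω : Fin n → J => (Matrix.of (rawJ (ham s π.1 ω) E (n * ρ)
      (confH s E ρ K (π, ω)).2 (selV ι π.1 a) w).2.1) :=
    continuous_matrix fun b c => ((h3.matrix_mul h3).matrix_elem _ _).div_const _
  exact ((h1.matrix_mul (h4.sub h2)).matrix_mul h1.matrix_transpose).prodMk
    (((h1.matrix_mul h5).matrix_mul h1.matrix_transpose).prodMk
      ((h3.matrix_trace.div_const _).sub
        (Complex.continuous_ofReal.comp (X2_conf s E ρ K π).snd)))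

end

end Crest.Agent.R166
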