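import Crest.Agent.R166.XDefs

/-! # Part X: weak neighbourhoods of the Gaussian wave -/

set_option autoImplicit false
set_option linter.unusedVariables false
set_option linter.unusedSectionVars false

open MeasureTheory ProbabilityTheory Filter Topology Matrix
open scoped ENNReal BoundedContinuousFunction

namespace Crest.Agent.R166

/-- integrals of a compact family of test functions are uniformly continuous in the law -/
theorem unif_nhds {X Θ : Type} [MeasurableSpace X] [TopologicalSpace X] [BorelSpace X]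
    [SecondCountableTopology X] [TopologicalSpace.PseudoMetrizableSpace X]
    [MetricSpace Θ] [SecondCountableTopology Θ] {C : Set Θ} (hC : IsCompact C)
    {f : Θ × X → ℝ} (hf : Continuous f) {B : ℝ} (hb : ∀ x, |f x| ≤ B)
    (ν : ProbabilityMeasure X) {ε : ℝ} (hε : 0 < ε) :
    ∀ᶠ μ : ProbabilityMeasure X in 𝓝 ν, ∀ θ ∈ C,
      |∫ x, f (θ, x) ∂(μ : Measure X) - ∫ x, f (θ, x) ∂(ν : Measure X)| ≤ ε := by
  borelize Θ
  let F : Θ × X →ᵇ ℝ := BoundedContinuousFunction.ofNormedAddCommGroup f hf B hb
  have hc : Continuous fun z : ProbabilityMeasure X × Θ => ∫ x, f (z.2, x) ∂(z.1 : Measure X) := by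
    have h1 : Continuous fun z : ProbabilityMeasure X × Θ => (diracProba z.2).prod z.1 :=
      ProbabilityMeasure.continuous_prod.comp
        ((continuous_diracProba.comp continuous_snd).prodMk continuous_fst)
    refine ((ProbabilityMeasure.continuous_integral_boundedContinuousFunction F).comp h1).congr
      fun z => ?_
    change ∫ x, f x ∂((Measure.dirac z.2).prod (z.1 : Measure X)) = _
    rw [Measure.dirac_prod, integral_map measurable_prodMk_left.aemeasurable
      hf.aestronglyMeasurable]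
  refine hC.eventually_forall_of_forall_eventually fun θ _ => ?_
  have h2 : Continuous fun z : ProbabilityMeasure X × Θ =>
      |∫ x, f (z.2, x) ∂(z.1 : Measure X) - ∫ x, f (z.2, x) ∂(ν : Measure X)| :=
    (hc.sub (hc.comp (continuous_const.prodMk continuous_snd))).abs
  exact (h2.tendsto (ν, θ)).eventually (ge_mem_nhds (by simpa using hε))

/-- environments of an edge and `P` wave values at its ends -/
abbrev WS (D P : ℕ) : Type := (Env D × Env D) × (Fin 2 × Fin P → ℝ)

/-- the map defining the Gaussian wave -/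
noncomputable def waveMap (D : ℕ) (s : ℝ) (β : Measure J) (E : ℝ) (P : ℕ) (x : WS D P) : WS D P :=
  (x.1, fun q => (∑ c, chol (imM (gE (m0 s E x.1.1) (m0 s E x.1.2))) q.1 c * x.2 (c, q.2)) /
    √(Real.pi * rho D s β E))

theorem measurable_waveMap (D : ℕ) (s : ℝ) (β : Measure J) (E : ℝ) (P : ℕ) :
    Measurable (waveMap D s β E P) := by
  refine measurable_fst.prodMk (measurable_pi_lambda _ fun q => ?_)
  have h1 : Measurable fun x : WS D P => m0 s E x.1.1 :=
    (measurable_m0 E).comp measurable_fst.fst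
  have h2 : Measurable fun x : WS D P => m0 s E x.1.2 :=
    (measurable_m0 E).comp measurable_fst.snd
  have h3 : ∀ b c, Measurable fun x : WS D P => imM (gE (m0 s E x.1.1) (m0 s E x.1.2)) b c := by
    intro b c
    refine Complex.measurable_im.comp ?_
    unfold gE
    split_ifs <;> fun_prop
  have h4 : ∀ b c, Measurable fun x : WS D P =>
      chol (imM (gE (m0 s E x.1.1) (m0 s E x.1.2))) b c := by
    intro b c
    fin_cases b <;> fin_cases c
    · exact (h3 0 0).sqrt
    · exact measurable_const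
    · exact (h3 1 0).div (h3 0 0).sqrt
    · exact ((h3 1 1).sub (((h3 1 0).pow_const 2).div (h3 0 0))).sqrt
  exact (Finset.measurable_sum _ fun c _ =>
    (h4 q.1 c).mul ((measurable_pi_apply _).comp measurable_snd)).div_const _

/-- law of the Gaussian wave -/
noncomputable def waveM (D : ℕ) (s : ℝ) (β : Measure J) (E : ℝ) (P : ℕ) : Measure (WS D P) :=
  (((envLaw D β).prod (envLaw D β)).prod (gpi (Fin 2 × Fin P))).map (waveMap D s β E P)

instance (D : ℕ) (s : ℝ) (β : Measure J) [IsProbabilityMeasure β] (E : ℝ) (P : ℕ) :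
    IsProbabilityMeasure (waveM D s β E P) :=
  Measure.isProbabilityMeasure_map (measurable_waveMap D s β E P).aemeasurable

/-- what a half-edge sees -/
def edgeObs {n D P : ℕ} (o : Om n D) (X : Fin P → Fin n → ℝ) (h : HE n D) : WS D P :=
  ((envH o.1.1 o.2 h, envH o.1.1 o.2 (o.1.1 h)), fun q => X q.2 (ends o.1.1 h q.1))

theorem X5_pi_nhds {X Θ : Type} [MeasurableSpace X] [TopologicalSpace X] [BorelSpace X]
    [SecondCountableTopology X] [TopologicalSpace.PseudoMetrizableSpace X]
    [MetricSpace Θ] [SecondCountableTopology Θ] {C : Set Θ} (hC : IsCompact C) {q : ℕ}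
    {f : Θ × (Fin q → X) → ℝ} (hf : Continuous f) {B : ℝ} (hb : ∀ x, |f x| ≤ B)
    (ν : ProbabilityMeasure X) {ε : ℝ} (hε : 0 < ε) :
    ∀ᶠ μ : ProbabilityMeasure X in 𝓝 ν, ∀ θ ∈ C,
      |∫ x, f (θ, x) ∂(Measure.pi fun _ => (μ : Measure X)) -
        ∫ x, f (θ, x) ∂(Measure.pi fun _ => (ν : Measure X))| ≤ ε := by
  have h2 : Continuous fun μ : ProbabilityMeasure X => ProbabilityMeasure.pi fun _ : Fin q => μ :=
    ProbabilityMeasure.continuous_pi.comp (continuous_pi fun _ => continuous_id')
  exact (h2.tendsto ν).eventually (unif_nhds hC hf hb _ hε)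

theorem X5_waveInt {D : ℕ} {s E : ℝ} {β : Measure J} [IsProbabilityMeasure β] {P : ℕ}
    (f : WS D P →ᵇ ℝ) : ∫ y, f y ∂(waveM D s β E P) = waveInt D s β E P f := by
  have hm := (measurable_waveMap D s β E P).aemeasurable
    (μ := ((envLaw D β).prod (envLaw D β)).prod (gpi (Fin 2 × Fin P)))
  have hi := (integrable_map_measure f.continuous.aestronglyMeasurable hm).1
    (f.integrable (waveM D s β E P))
  rw [waveM, integral_map hm f.continuous.aestronglyMeasurable]
  exact integral_prod _ hi

/-- sets which contain the empirical laws with high probability -/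
def X5_fil (D : ℕ) (s E : ℝ) (β : Measure J) (P : ℕ) (R : ℝ) :
    Filter (ProbabilityMeasure (WS D P)) where
  sets := {U | ∀ ε : ℝ, 0 < ε → ∀ᶠ n in atTop, POm n D β {o | ∃ X : Fin P → Fin n → ℝ,
    EigSys (ham s o.1.1 o.2) E R P X ∧ ∃ μ : ProbabilityMeasure (WS D P),
      (μ : Measure (WS D P)) = (uniformOn Set.univ).map (edgeObs o X) ∧ μ ∉ U} ≤ ENNReal.ofReal ε}
  univ_sets ε _ := Eventually.of_forall fun n => by simp
  sets_of_superset h hUV ε hε := (h ε hε).mono fun n hn => by
    refine le_trans (measure_mono ?_) hn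
    rintro o ⟨X, h1, μ, h2, h3⟩
    exact ⟨X, h1, μ, h2, fun h4 => h3 (hUV h4)⟩
  inter_sets {U V} hU hV ε hε := by
    filter_upwards [hU (ε / 2) (by positivity), hV (ε / 2) (by positivity)] with n h1 h2
    rw [← add_halves ε, ENNReal.ofReal_add (by positivity) (by positivity)]
    refine le_trans (measure_mono ?_) ((measure_union_le _ _).trans (add_le_add h1 h2))
    rintro o ⟨X, a, μ, b, c⟩
    by_cases h : μ ∈ U
    · exact Or.inr ⟨X, a, μ, b, fun h' => c ⟨h, h'⟩⟩
    · exact Or.inl ⟨X, a, μ, b, h⟩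

theorem X5_fil_le {D : ℕ} {s E : ℝ} {β : Measure J} [IsProbabilityMeasure β]
    (hG : GaussEig D s β E) (P : ℕ) (R : ℝ) :
    X5_fil D s E β P R ≤ 𝓝 ⟨waveM D s β E P, inferInstance⟩ := by
  refine tendsto_id'.1 (ProbabilityMeasure.tendsto_iff_forall_integral_tendsto.2 fun f => ?_)
  refine Metric.tendsto_nhds.2 fun δ hδ ε hε => ?_
  filter_upwards [hG P R f (min ε (δ / 2)) (by positivity)] with n hn
  refine le_trans (measure_mono ?_) (hn.trans (ENNReal.ofReal_le_ofReal (min_le_left _ _)))
  rintro o ⟨X, a, μ, b, c⟩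
  refine ⟨X, a, (min_le_right _ _).trans_lt ((half_lt_self hδ).trans_le (not_lt.1 fun h => c ?_))⟩
  change dist (∫ y, f y ∂(μ : Measure (WS D P))) (∫ y, f y ∂(waveM D s β E P)) < δ
  rw [b, integral_map Measurable.of_discrete.aemeasurable f.continuous.aestronglyMeasurable,
    integral_uniformOn_univ, X5_waveInt, Real.dist_eq]
  exact h

/-- quenched Gaussianity for `q` independent edges and a compact family of test functions -/
theorem gauss_sel {D : ℕ} {s E : ℝ} {β : Measure J} [IsProbabilityMeasure β]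
    (hG : GaussEig D s β E) (q P : ℕ) (R : ℝ) {Θ : Type} [MetricSpace Θ] [SecondCountableTopology Θ]
    {C : Set Θ} (hC : IsCompact C) {f : Θ × (Fin q → WS D P) → ℝ} (hf : Continuous f)
    (hb : ∀ x, |f x| ≤ 1) {ε : ℝ} (hε : 0 < ε) : ∀ᶠ n in atTop,
      POm n D β {o | ∃ X : Fin P → Fin n → ℝ, EigSys (ham s o.1.1 o.2) E R P X ∧ ∃ θ ∈ C,
        ε < |(avg fun a : Fin q → HE n D => f (θ, fun l => edgeObs o X (a l))) -
          ∫ y, f (θ, y) ∂(Measure.pi fun _ : Fin q => waveM D s β E P)|} ≤ ENNReal.ofReal ε := by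
  have h3 := X5_fil_le hG P R (X5_pi_nhds hC hf hb _ hε) ε hε
  filter_upwards [h3, eventually_gt_atTop 0] with n hn hn0
  refine le_trans (measure_mono ?_) hn
  rintro o ⟨X, a, θ, hθ, b⟩
  have : Nonempty (HE n D) := ⟨(⟨0, hn0⟩, 0)⟩
  have hm : Measurable (edgeObs o X) := Measurable.of_discrete
  refine ⟨X, a, ⟨(uniformOn Set.univ).map (edgeObs o X),
    Measure.isProbabilityMeasure_map hm.aemeasurable⟩, rfl, fun h => ?_⟩
  refine absurd (h θ hθ) (not_le.2 (b.trans_eq ?_))
  congr 2
  change _ = ∫ y, f (θ, y) ∂(Measure.pi fun _ : Fin q => (uniformOn Set.univ).map (edgeObs o X))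
  rw [← Measure.pi_map_pi fun _ => hm.aemeasurable, pi_uniformOn_univ,
    integral_map (f := fun y => f (θ, y)) Measurable.of_discrete.aemeasurable
      (hf.comp (Continuous.prodMk_right θ)).aestronglyMeasurable, integral_uniformOn_univ]

end Crest.Agent.R166
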