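import Crest.Agent.R166.X2

/-! # Part X: the switch on one configuration and on average -/

set_option autoImplicit false
set_option linter.unusedVariables false
set_option linter.unusedSectionVars false

open MeasureTheory ProbabilityTheory Filter Topology Matrix
open scoped ENNReal BoundedContinuousFunction

namespace Crest.Agent.R166

/-- a selection for which the switch is valid and does not change the depth-`k` explorations -/
def SelOK {n D q : ℕ} (π : Pairing n D) (a : Fin (q + 2) → HE n D) (k : ℕ) : Prop :=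
  EdgeOK π.1 (a 0) (a 1) ∧
  Function.Injective (fun x : Fin 2 × Fin (q + 2) => ends π.1 (a x.2) x.1) ∧
  ∀ l (u : List (Fin D)), u.length ≤ k →
    vtx (switchP (Equiv.swap (a 0) (a 1)) π).1 (a l) u = vtx π.1 (a l) u ∧
    vtx (switchP (Equiv.swap (a 0) (a 1)) π).1 (π.1 (a l)) u = vtx π.1 (π.1 (a l)) u

theorem X9_selOK {n D q k : ℕ} {π : Pairing n D} {a : Fin (q + 2) → HE n D}
    (hE : EdgeOK π.1 (a 0) (a 1))
    (hT : ∀ l, TreeLike π.1 (a l).1 (k + 1) ∧ TreeLike π.1 (π.1 (a l)).1 (k + 1))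
    (hS : ∀ l l', l ≠ l' → ∀ v, (v = (a l').1 ∨ v = (π.1 (a l')).1) →
      ¬ G6_Sees π.1 k (a l) v ∧ ¬ G6_Sees π.1 k (π.1 (a l)) v) : SelOK π a k := by
  refine ⟨hE, ?_, fun l => ?_⟩
  · rintro ⟨x, l⟩ ⟨x', l'⟩ e
    simp only [ends] at e
    by_cases hl : l = l'
    · subst hl
      have h1 := π.2.2.1 (a l)
      have : x = x' := by
        fin_cases x <;> fin_cases x'
        · rfl
        · simp at e; exact absurd e.symm h1
        · simp at e; exact absurd e h1
        · rfl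
      rw [this]
    · exfalso
      have h1 := hS l l' hl _ (Or.inl rfl)
      have h2 := hS l l' hl _ (Or.inr rfl)
      split_ifs at e
      · exact h1.1 (Or.inl e)
      · exact h2.1 (Or.inl e)
      · exact h1.2 (Or.inl e)
      · exact h2.2 (Or.inl e)
  · obtain ⟨-, -, -, -, -, -, c5, -⟩ := hE.spec
    have main : ∀ h : HE n D, (h = a l ∨ h = π.1 (a l)) → ∀ u : List (Fin D), u.length ≤ k →
        vtx (switchP (Equiv.swap (a 0) (a 1)) π).1 h u = vtx π.1 h u := by
      intro h hh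
      have hTh : TreeLike π.1 h.1 (k + 1) := by
        rcases hh with rfl | rfl
        · exact (hT l).1
        · exact (hT l).2
      refine vtx_congr fun u hu i hi => ?_
      have hb := hTh.branch u hu.le
      have n1 : (vtx π.1 h u, i) ≠ h := by
        intro e
        by_cases hu0 : u = []
        · exact hi hu0 (congrArg Prod.snd e)
        · exact hb.2 hu0 (congrArg Prod.fst e)
      have n2 : (vtx π.1 h u, i) ≠ π.1 h := fun e => hb.1 (congrArg Prod.fst e)
      have hsee : G6_Sees π.1 k (π.1 h) (vtx π.1 h u) :=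
        Or.inr ⟨u, hu.le, by rw [π.2.1]⟩
      have hall : ∀ l', (vtx π.1 h u, i) ≠ a l' ∧ (vtx π.1 h u, i) ≠ π.1 (a l') := by
        intro l'
        by_cases hl : l = l'
        · subst hl
          rcases hh with rfl | rfl
          · exact ⟨n1, n2⟩
          · rw [π.2.1] at n2
            exact ⟨n2, n1⟩
        · have hno : ∀ v, (v = (a l').1 ∨ v = (π.1 (a l')).1) → ¬ G6_Sees π.1 k (π.1 h) v := by
            intro v hv
            rcases hh with rfl | rfl
            · exact (hS l l' hl v hv).2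
            · rw [π.2.1]
              exact (hS l l' hl v hv).1
          exact ⟨fun e => hno _ (Or.inl (congrArg Prod.fst e)) hsee,
            fun e => hno _ (Or.inr (congrArg Prod.fst e)) hsee⟩
      exact c5 _ (hall 0).1 (hall 1).1 (hall 0).2 (hall 1).2
    exact fun u hu => ⟨main _ (Or.inl rfl) u hu, main _ (Or.inr rfl) u hu⟩

theorem sel_good (D q k : ℕ) : ∃ C : ℝ, ∀ n : ℕ,
    (avg fun π : Pairing n D => frac fun a : Fin (q + 2) → HE n D => ¬ SelOK π a k) ≤ C / n := by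
  classical
  obtain ⟨C₁, hC₁⟩ := frac_not_edgeOK D
  obtain ⟨C₂, hC₂⟩ := treeLike_mean D (k + 1)
  obtain ⟨C₃, hC₃0, hC₃⟩ := G6_frac_sees D k
  refine ⟨|C₁| + (((q : ℝ) + 2) * 2 * C₂ + ((q : ℝ) + 2) * (((q : ℝ) + 2) * (4 * C₃))), fun n => ?_⟩
  rcases Nat.eq_zero_or_pos n with rfl | hn0
  · rw [Nat.cast_zero, div_zero]
    refine G6_avg_le le_rfl fun π => ?_
    unfold frac
    exact G6_avg_le le_rfl fun a => (a 0).1.elim0
  have : Nonempty (HE n D) := ⟨(⟨0, hn0⟩, 0)⟩
  have hn : (0 : ℝ) < n := by exact_mod_cast hn0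
  have key : ∀ π : Pairing n D, frac (fun a : Fin (q + 2) → HE n D => ¬ SelOK π a k) ≤
      |C₁| / n + (((q : ℝ) + 2) * 2 * frac (fun x => ¬ TreeLike π.1 x (k + 1)) +
        ((q : ℝ) + 2) * (((q : ℝ) + 2) * (4 * C₃ / n))) := by
    intro π
    have h1 : frac (fun a : Fin (q + 2) → HE n D => ¬ EdgeOK π.1 (a 0) (a 1)) ≤ |C₁| / n := by
      refine G6_frac_update 1 _ (by positivity) fun α => ?_
      simp only [Function.update_self, Function.update_of_ne (zero_ne_one' (Fin (q + 2)))]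
      exact (hC₁ n π (α 0)).trans (div_le_div_of_nonneg_right (le_abs_self _) hn.le)
    have h2 : frac (fun a : Fin (q + 2) → HE n D => ∃ l, ¬ TreeLike π.1 (a l).1 (k + 1) ∨
        ¬ TreeLike π.1 (π.1 (a l)).1 (k + 1)) ≤
        ((q : ℝ) + 2) * 2 * frac (fun x => ¬ TreeLike π.1 x (k + 1)) := by
      have h0 := G6_frac_exists Finset.univ
        (fun l (a : Fin (q + 2) → HE n D) => ¬ TreeLike π.1 (a l).1 (k + 1) ∨
          ¬ TreeLike π.1 (π.1 (a l)).1 (k + 1))
      simp only [Finset.mem_univ, true_and] at h0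
      refine h0.trans ((Finset.sum_le_card_nsmul _ _
        (2 * frac fun x => ¬ TreeLike π.1 x (k + 1)) fun l _ => ?_).trans
          (le_of_eq (by simp [mul_assoc])))
      refine G6_frac_update l _ (mul_nonneg zero_le_two (G6_frac_nonneg _)) fun α => ?_
      simp only [Function.update_self]
      refine (G6_frac_or _ _).trans (le_of_eq ?_)
      rw [G6_frac_equiv π.1 (fun a : HE n D => ¬ TreeLike π.1 a.1 (k + 1)),
        G6_frac_fst (B := Fin (D + 1)) fun x : Fin n => ¬ TreeLike π.1 x (k + 1), two_mul]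
    have h3 : frac (fun a : Fin (q + 2) → HE n D => ∃ l l', l ≠ l' ∧
        ∃ v, (v = (a l').1 ∨ v = (π.1 (a l')).1) ∧
          (G6_Sees π.1 k (a l) v ∨ G6_Sees π.1 k (π.1 (a l)) v)) ≤
        ((q : ℝ) + 2) * (((q : ℝ) + 2) * (4 * C₃ / n)) := by
      have h0 := G6_frac_exists Finset.univ
        (fun l (a : Fin (q + 2) → HE n D) => ∃ l', l ≠ l' ∧
          ∃ v, (v = (a l').1 ∨ v = (π.1 (a l')).1) ∧
            (G6_Sees π.1 k (a l) v ∨ G6_Sees π.1 k (π.1 (a l)) v))
      simp only [Finset.mem_univ, true_and] at h0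
      refine h0.trans ((Finset.sum_le_card_nsmul _ _ (((q : ℝ) + 2) * (4 * C₃ / n))
        fun l _ => ?_).trans (le_of_eq (by simp)))
      have h0' := G6_frac_exists Finset.univ
        (fun l' (a : Fin (q + 2) → HE n D) => l ≠ l' ∧
          ∃ v, (v = (a l').1 ∨ v = (π.1 (a l')).1) ∧
            (G6_Sees π.1 k (a l) v ∨ G6_Sees π.1 k (π.1 (a l)) v))
      simp only [Finset.mem_univ, true_and] at h0'
      refine h0'.trans ((Finset.sum_le_card_nsmul _ _ (4 * C₃ / n)
        fun l' _ => ?_).trans (le_of_eq (by simp)))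
      refine G6_frac_update l _ (by positivity) fun α => ?_
      have hv : ∀ v, frac (fun a => G6_Sees π.1 k a v ∨ G6_Sees π.1 k (π.1 a) v) ≤
          C₃ / n + C₃ / n := fun v =>
        (G6_frac_or _ _).trans (add_le_add (hC₃ n π.1 v)
          ((G6_frac_equiv π.1 fun a => G6_Sees π.1 k a v).trans_le (hC₃ n π.1 v)))
      refine le_trans (G6_frac_mono (Q := fun a =>
        (G6_Sees π.1 k a (α l').1 ∨ G6_Sees π.1 k (π.1 a) (α l').1) ∨
        (G6_Sees π.1 k a (π.1 (α l')).1 ∨ G6_Sees π.1 k (π.1 a) (π.1 (α l')).1)) ?_)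
        ((G6_frac_or _ _).trans ((add_le_add (hv _) (hv _)).trans (le_of_eq (by ring))))
      rintro a ⟨hll, v, hv1, hv2⟩
      rw [Function.update_self] at hv2
      rw [Function.update_of_ne hll.symm] at hv1
      rcases hv1 with rfl | rfl
      · exact Or.inl hv2
      · exact Or.inr hv2
    refine le_trans (G6_frac_mono fun a ha => ?_)
      ((G6_frac_or _ _).trans (add_le_add h1 ((G6_frac_or _ _).trans (add_le_add h2 h3))))
    by_contra hc
    simp only [not_or, not_exists, not_not, not_and] at hc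
    exact ha (X9_selOK hc.1 hc.2.1 hc.2.2)
  refine (G6_avg_mono key).trans ?_
  rw [G6_avg_add, G6_avg_add, G6_avg_const_mul, add_div, add_div]
  refine add_le_add (G6_avg_le (by positivity) fun _ => le_rfl) (add_le_add ?_ ?_)
  · rw [mul_div_assoc]
    exact mul_le_mul_of_nonneg_left (hC₂ n) (by positivity)
  · refine G6_avg_le (by positivity) fun _ => le_of_eq ?_
    ring

theorem X9_bump_mem (m : ℂ) {δ : ℝ} (hδ : 0 < δ) (x : ℂ) : 0 ≤ bump m δ x ∧ bump m δ x ≤ 1 :=
  ⟨le_max_left _ _, max_le zero_le_one (sub_le_self _ (by positivity))⟩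

theorem X9_bump_ne {m : ℂ} {δ : ℝ} (hδ : 0 < δ) {x : ℂ} : bump m δ x ≠ 0 ↔ ‖x - m‖ < δ := by
  unfold bump
  rw [Ne, max_eq_left_iff, not_le, sub_pos, div_lt_one hδ]

theorem X9_bumpF_ne {q : ℕ} {m : ℂ} {δ : ℝ} (hδ : 0 < δ) {e : Lab q} (h : bumpF m δ e ≠ 0)
    (l : Fin q) : ‖(e l).1 - m‖ < δ ∧ ‖(e l).2 - m‖ < δ := by
  have := mul_ne_zero_iff.1 (Finset.prod_ne_zero_iff.1 h l (Finset.mem_univ l))
  exact ⟨(X9_bump_ne hδ).1 this.1, (X9_bump_ne hδ).1 this.2⟩

theorem continuous_bumpF {q : ℕ} (m : ℂ) (δ : ℝ) : Continuous (bumpF (q := q) m δ) := by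
  unfold bumpF bump
  fun_prop

theorem bumpF_mem {q : ℕ} (m : ℂ) {δ : ℝ} (hδ : 0 < δ) (e : Lab q) :
    0 ≤ bumpF m δ e ∧ bumpF m δ e ≤ 1 := by
  have h := X9_bump_mem m hδ
  exact ⟨Finset.prod_nonneg fun l _ => mul_nonneg (h _).1 (h _).1,
    Finset.prod_le_one (fun l _ => mul_nonneg (h _).1 (h _).1)
      fun l _ => mul_le_one₀ (h _).2 (h _).1 (h _).2⟩

/-- a point of the upper half plane charged by the labels -/
theorem exists_support {D : ℕ} {s E : ℝ} {β : Measure J} [IsProbabilityMeasure β]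
    (hT : TreeOK D s β E) : ∃ m : ℂ, 0 < m.im ∧ ∀ (q : ℕ) (δ : ℝ), 0 < δ →
      0 < ∫ e, bumpF m δ e ∂(labLaw D s β E q) := by
  have hm0 : Measurable (m0 (D := D) s E) := measurable_m0 E
  have : IsProbabilityMeasure ((envLaw D β).map (m0 s E)) :=
    Measure.isProbabilityMeasure_map hm0.aemeasurable
  have h1 : ∀ᵐ x ∂((envLaw D β).map (m0 s E)), 0 < x.im :=
    (ae_map_iff hm0.aemeasurable (measurableSet_lt measurable_const Complex.measurable_im)).2
      (hT.1.mono fun e he => he.2)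
  obtain ⟨m, hm1, hm2⟩ := (h1.and (Measure.support_mem_ae (μ := (envLaw D β).map (m0 s E)))).exists
  refine ⟨m, hm1, fun q δ hδ => ?_⟩
  have hc : Continuous (bump m δ) := by
    unfold bump
    fun_prop
  have h2 : 0 < ∫ x, bump m δ x ∂((envLaw D β).map (m0 s E)) := by
    rw [integral_pos_iff_support_of_nonneg (fun x => (X9_bump_mem m hδ x).1)
      (Integrable.of_bound hc.aestronglyMeasurable 1 (ae_of_all _ fun x => by
        rw [Real.norm_of_nonneg (X9_bump_mem m hδ x).1]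
        exact (X9_bump_mem m hδ x).2))]
    refine (Measure.mem_support_iff_forall m).1 hm2 _ ?_
    filter_upwards [Metric.ball_mem_nhds m hδ] with x hx
    exact (X9_bump_ne hδ).2 (mem_ball_iff_norm.1 hx)
  have e : ((envLaw D β).prod (envLaw D β)).map (fun e => (m0 s E e.1, m0 s E e.2)) =
      ((envLaw D β).map (m0 s E)).prod ((envLaw D β).map (m0 s E)) :=
    (Measure.map_prod_map _ _ hm0 hm0).symm
  unfold bumpF labLaw
  rw [e, integral_fintype_prod_eq_pow (fun x : ℂ × ℂ => bump m δ x.1 * bump m δ x.2),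
    integral_prod_mul]
  positivity

theorem det_switch {N q : ℕ} (ι : Fin N ≃ Fin 2 × Fin (q + 2)) {m : ℂ} (hm : 0 < m.im) {k : ℕ}
    (w : Fin k → ℂ) (hw : ∀ j, 0 < (w j).im) {φ : (Fin k → Jet N) → ℝ} (hφ : TestFn φ)
    (hb : ∀ Z, |φ Z| ≤ 1) {ε : ℝ} (hε : 0 < ε) : ∃ δ : ℝ, 0 < δ ∧ ∀ ε' : ℝ, 0 < ε' →
      ∃ δ' : ℝ, 0 < δ' ∧ ∃ K₀ : ℕ, ∀ K : ℕ, K₀ ≤ K → ∀ (s E ρ : ℝ), 0 < ρ →
      ∀ (j n D : ℕ) (o : Om n D) (a : Fin (q + 2) → HE n D), EdgeOK o.1.1 (a 0) (a 1) →
      Function.Injective (selV ι o.1.1 a) →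
      (∀ l, ‖mT s (zj E j) (envH (swO a o).1.1 o.2 (a l)) -
          mT s (zj E j) (envH o.1.1 o.2 (a l))‖ ≤ δ' ∧
        ‖mT s (zj E j) (envH (swO a o).1.1 o.2 (o.1.1 (a l))) -
          mT s (zj E j) (envH o.1.1 o.2 (o.1.1 (a l)))‖ ≤ δ') →
      |bumpF m δ (labH s E j (swO a o) a) * φ (fun t => trueJ ι s E ρ K j (swO a o) a (w t)) -
        bumpF m δ (labH s E j o a) * φ (fun t => mob (Wq ι (fun _ => (m, m)) fun _ => (m, m))
          (trueJ ι s E ρ K j o a (w t)))| ≤ ε * bumpF m δ (labH s E j o a) + ε' := by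
  have hL : LabH (fun _ : Fin (q + 2) => (m, m)) := fun _ => ⟨hm, hm⟩
  obtain ⟨δ₁, hδ₁, hcl⟩ := hφ.close (Wq_isSymp ι hL hL) hε
  obtain ⟨δ₂, hδ₂, -, hW⟩ := Wq_close ι hm hδ₁
  refine ⟨δ₂ / 2, half_pos hδ₂, fun ε' hε' => ?_⟩
  obtain ⟨η, hη, hφu⟩ := Metric.uniformContinuous_iff.1
    (hφ.2.1.uniformContinuous_of_continuous hφ.1) (ε' / 2) (half_pos hε')
  have hcs : HasCompactSupport (bumpF (q := q + 2) m (δ₂ / 2)) := by
    refine HasCompactSupport.intro (isCompact_closedBall (fun _ => (m, m)) (δ₂ / 2))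
      fun e he => ?_
    by_contra h0
    refine he (Metric.mem_closedBall.2 ((dist_pi_le_iff (half_pos hδ₂).le).2 fun l => ?_))
    have := X9_bumpF_ne (half_pos hδ₂) h0 l
    rw [Prod.dist_eq, dist_eq_norm, dist_eq_norm]
    exact max_le this.1.le this.2.le
  obtain ⟨η', hη', hbu⟩ := Metric.uniformContinuous_iff.1
    (hcs.uniformContinuous_of_continuous (continuous_bumpF _ _)) (ε' / 2) (half_pos hε')
  obtain ⟨K₀, hK₀⟩ := exists_nat_gt (2 / η)
  refine ⟨min (δ₂ / 2) (η' / 2), lt_min (half_pos hδ₂) (half_pos hη'), K₀,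
    fun K hK s E ρ hρ j n D o a hE hS hmT => ?_⟩
  have hn : 0 < n := (a 0).1.pos
  obtain ⟨-, -, c1, c2, -, -, c5, -⟩ := hE.spec
  have hinj : ∀ (x x' : Fin 2) (l l' : Fin (q + 2)),
      ends o.1.1 (a l) x = ends o.1.1 (a l') x' → l = l' := by
    intro x x' l l' h
    have := @hS (ι.symm (x, l)) (ι.symm (x', l')) (by simpa [selV] using h)
    exact congrArg Prod.snd (ι.symm.injective this)
  have hπ' : ∀ l, (swO a o).1.1 (a l) = o.1.1 (a (Equiv.swap 0 1 l)) := by
    intro l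
    by_cases h0 : l = 0
    · rw [h0, Equiv.swap_apply_left]; exact c1
    by_cases h1 : l = 1
    · rw [h1, Equiv.swap_apply_right]; exact c2
    rw [Equiv.swap_apply_of_ne_of_ne h0 h1]
    refine c5 _ (fun e => h0 (hinj 0 0 _ _ ?_)) (fun e => h1 (hinj 0 0 _ _ ?_))
      (fun e => h0 (hinj 0 1 _ _ ?_)) (fun e => h1 (hinj 0 1 _ _ ?_)) <;> simp [ends, e]
  have he := labH_pos s E j o a
  have he' := labH_pos s E j (swO a o) a
  have hd1 : ∀ l, ‖(labH s E j (swO a o) a l).1 - (labH s E j o a l).1‖ ≤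
      min (δ₂ / 2) (η' / 2) := fun l => (hmT l).1
  have hd2 : ∀ l, ‖(labH s E j (swO a o) a l).2 - (labH s E j o a (Equiv.swap 0 1 l)).2‖ ≤
      min (δ₂ / 2) (η' / 2) := fun l => by
    simp only [labH, hπ' l]
    exact (hmT (Equiv.swap 0 1 l)).2
  have hJ : ∀ t, trueJ ι s E ρ K j o a (w t) ∈ cSieg N := fun t =>
    trueJ_mem_cSieg ι s E ρ hρ K j o a hn (hw t)
  have hc := aK_switch hE s E ρ hρ K
  simp only [fun t => trueJ_switch ι hE hS s E ρ hρ K j (hw t)]
  generalize labH s E j (swO a o) a = e' at *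
  generalize labH s E j o a = e at *
  generalize (confH s E ρ K (swO a o)).2 = c' at *
  generalize (confH s E ρ K o).2 = c at *
  generalize trueJ ι s E ρ K j o a = Z at *
  have hb1 : |bumpF m (δ₂ / 2) e' - bumpF m (δ₂ / 2) e| ≤ ε' / 2 := by
    have e1 : bumpF m (δ₂ / 2) (fun l => ((e l).1, (e (Equiv.swap 0 1 l)).2)) =
        bumpF m (δ₂ / 2) e := by
      unfold bumpF
      rw [Finset.prod_mul_distrib, Finset.prod_mul_distrib,
        Equiv.prod_comp (Equiv.swap 0 1) fun l => bump m (δ₂ / 2) (e l).2]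
    rw [← e1, ← Real.dist_eq]
    refine (hbu (lt_of_le_of_lt ((dist_pi_le_iff (half_pos hη').le).2 fun l => ?_)
      (half_lt_self hη'))).le
    rw [Prod.dist_eq, dist_eq_norm, dist_eq_norm]
    exact max_le ((hd1 l).trans (min_le_right _ _)) ((hd2 l).trans (min_le_right _ _))
  have hA1 : |φ (fun t => mob (Wq ι e e') (Z (w t)) + (0, 0, ((c - c' : ℝ) : ℂ))) -
      φ (fun t => mob (Wq ι e e') (Z (w t)))| ≤ ε' / 2 := by
    rw [← Real.dist_eq]
    have hK' : (K₀ : ℝ) ≤ K := by exact_mod_cast hK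
    have h2 : 2 / ((K : ℝ) + 1) < η := by
      rw [div_lt_iff₀ hη] at hK₀
      rw [div_lt_iff₀ (by positivity)]
      nlinarith
    refine (hφu (lt_of_le_of_lt ((dist_pi_le_iff (by positivity)).2 fun t => ?_) h2)).le
    rw [dist_eq_norm, add_sub_cancel_left, Prod.norm_def, Prod.norm_def, norm_zero,
      Complex.norm_real, Real.norm_eq_abs, abs_sub_comm]
    exact max_le (by positivity) (max_le (by positivity) hc)
  obtain ⟨hb0, hb2⟩ := bumpF_mem m (half_pos hδ₂) e
  have hA2 : bumpF m (δ₂ / 2) e * |φ (fun t => mob (Wq ι e e') (Z (w t))) -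
      φ (fun t => mob (Wq ι (fun _ => (m, m)) fun _ => (m, m)) (Z (w t)))| ≤
      bumpF m (δ₂ / 2) e * ε := by
    by_cases h0 : bumpF m (δ₂ / 2) e = 0
    · rw [h0, zero_mul, zero_mul]
    have hne := X9_bumpF_ne (half_pos hδ₂) h0
    refine mul_le_mul_of_nonneg_left (hcl _ (Wq_isSymp ι he he') (hW e e' (fun l => ?_)
      fun l => ?_) _ hJ) hb0
    · exact ⟨by linarith [(hne l).1], by linarith [(hne l).2]⟩
    · constructor
      · have h1 := norm_sub_le_norm_sub_add_norm_sub (e' l).1 (e l).1 m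
        linarith [(hne l).1, (hd1 l).trans (min_le_left _ _)]
      · have h1 := norm_sub_le_norm_sub_add_norm_sub (e' l).2 (e (Equiv.swap 0 1 l)).2 m
        linarith [(hne (Equiv.swap 0 1 l)).2, (hd2 l).trans (min_le_left _ _)]
  have hA3 := hb (fun t => mob (Wq ι e e') (Z (w t)) + (0, 0, ((c - c' : ℝ) : ℂ)))
  generalize φ (fun t => mob (Wq ι e e') (Z (w t)) + (0, 0, ((c - c' : ℝ) : ℂ))) = A at *
  generalize φ (fun t => mob (Wq ι e e') (Z (w t))) = A' at *
  generalize φ (fun t => mob (Wq ι (fun _ => (m, m)) fun _ => (m, m)) (Z (w t))) = B at *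
  generalize bumpF m (δ₂ / 2) e' = b' at *
  generalize bumpF m (δ₂ / 2) e = b at *
  calc |b' * A - b * B| = |(b' - b) * A + (b * (A - A') + b * (A' - B))| := by
        congr 1; ring
    _ ≤ |b' - b| * |A| + (b * |A - A'| + b * |A' - B|) := by
        refine (abs_add_le _ _).trans (add_le_add (abs_mul _ _).le ((abs_add_le _ _).trans ?_))
        rw [abs_mul, abs_mul, abs_of_nonneg hb0]
    _ ≤ ε' / 2 * 1 + (1 * (ε' / 2) + b * ε) :=
        add_le_add (mul_le_mul hb1 hA3 (abs_nonneg _) (half_pos hε').le)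
          (add_le_add (mul_le_mul hb2 hA1 (abs_nonneg _) zero_le_one) hA2)
    _ = ε * b + ε' := by ring

end Crest.Agent.R166
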