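import Crest.Agent.R166.PartT0
import Crest.Agent.R166.PartG
import Crest.Agent.R166.Mob
import Crest.Agent.R166.Gauss
import Crest.Agent.R166.Spec

/-! # Part X: definitions (selections of edges, labels, normalised jets) -/

set_option autoImplicit false
set_option linter.unusedVariables false
set_option linter.unusedSectionVars false

open MeasureTheory ProbabilityTheory Filter Topology Matrix
open scoped ENNReal BoundedContinuousFunction

namespace Crest.Agent.R166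

noncomputable section

/-- labels of `q` selected edges: the two cavity values -/
abbrev Lab (q : ℕ) : Type := Fin q → ℂ × ℂ

def LabH {q : ℕ} (e : Lab q) : Prop := ∀ l, 0 < (e l).1.im ∧ 0 < (e l).2.im

/-- `L Lᵀ = Im gE / π` -/
def L2 (m : ℂ × ℂ) : Matrix (Fin 2) (Fin 2) ℝ := (√Real.pi)⁻¹ • chol (imM (gE m.1 m.2))

def R2 (m : ℂ × ℂ) : Matrix (Fin 2) (Fin 2) ℝ := Matrix.of fun b c => (gE m.1 m.2 b c).re

section
variable {N q : ℕ} (ι : Fin N ≃ Fin 2 × Fin q)

/-- block-diagonal matrix on the channels -/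
def blk (f : Fin q → Matrix (Fin 2) (Fin 2) ℝ) : Matrix (Fin N) (Fin N) ℝ :=
  (Matrix.blockDiagonal f).submatrix ι ι

def Lm (e : Lab q) : Matrix (Fin N) (Fin N) ℝ := blk ι fun l => L2 (e l)
def Li (e : Lab q) : Matrix (Fin N) (Fin N) ℝ := blk ι fun l => (L2 (e l))⁻¹
def Rm (e : Lab q) : Matrix (Fin N) (Fin N) ℝ := blk ι fun l => R2 (e l)

/-- `M ↦ L M Lᵀ + R` -/
def gQ (e : Lab q) : Quad N := ⟨Lm ι e, Rm ι e * (Li ι e)ᵀ, 0, (Li ι e)ᵀ⟩

/-- `M ↦ L⁻¹ (M - R) L⁻ᵀ` on jets -/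
def nrm (e : Lab q) (Z : Jet N) : Jet N :=
  (Matrix.of.symm (cx (Li ι e) * (Matrix.of Z.1 - cx (Rm ι e)) * cx (Li ι e)ᵀ),
   Matrix.of.symm (cx (Li ι e) * Matrix.of Z.2.1 * cx (Li ι e)ᵀ), Z.2.2)

/-- vertices of the selected edges -/
def selV {n D : ℕ} (π : Equiv.Perm (HE n D)) (a : Fin q → HE n D) : Fin N → Fin n :=
  fun b => ends π (a (ι b).2) (ι b).1

end

/-- jet of the Green function on the vertices `S` in the unfolded variable `z = E + w / c` -/
def rawJ {n N : ℕ} (H : Matrix (Fin n) (Fin n) ℝ) (E c a : ℝ) (S : Fin N → Fin n) (w : ℂ) : Jet N :=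
  (fun b b' => res H (E + w / c) (S b) (S b'),
   fun b b' => (res H (E + w / c) * res H (E + w / c)) (S b) (S b') / c,
   Matrix.trace (res H (E + w / c)) / c - a)

def labH {n D q : ℕ} (s E : ℝ) (j : ℕ) (o : Om n D) (a : Fin q → HE n D) : Lab q := fun l =>
  (mT s (zj E j) (envH o.1.1 o.2 (a l)), mT s (zj E j) (envH o.1.1 o.2 (o.1.1 (a l))))

def confH {n D : ℕ} (s E ρ : ℝ) (K : ℕ) (o : Om n D) : Conf n :=
  (xH s E ρ o, aK ((K : ℝ) + 1) (xH s E ρ o))

/-- the normalised jet of the selected edges -/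
def trueJ {N q n D : ℕ} (ι : Fin N ≃ Fin 2 × Fin q) (s E ρ : ℝ) (K j : ℕ) (o : Om n D)
    (a : Fin q → HE n D) (w : ℂ) : Jet N :=
  nrm ι (labH s E j o a)
    (rawJ (ham s o.1.1 o.2) E (n * ρ) (confH s E ρ K o).2 (selV ι o.1.1 a) w)

/-- limiting law of the labels -/
def labLaw (D : ℕ) (s : ℝ) (β : Measure J) (E : ℝ) (q : ℕ) : Measure (Lab q) :=
  Measure.pi fun _ => ((envLaw D β).prod (envLaw D β)).map fun e => (m0 s E e.1, m0 s E e.2)

/-- `iπ` times the identity -/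
def ipi {N : ℕ} (b c : Fin N) : ℂ := if b = c then Real.pi * Complex.I else 0

/-- jets rebuilt from a window of `p` points `y`, values `t` of `s` and channel vectors `u` -/
def winJ {N k p : ℕ} (K : ℝ) (w : Fin k → ℂ) (y : Fin p → ℝ) (t : Fin k → ℂ)
    (u : Fin N × Fin p → ℝ) : Fin k → Jet N := fun j =>
  (fun b c => ipi b c + ∑ i, ((u (b, i) * u (c, i) : ℝ) : ℂ) *
      (1 / ((y i : ℂ) - w j) - 1 / ((y i : ℂ) - K * Complex.I)),
   fun b c => ∑ i, ((u (b, i) * u (c, i) : ℝ) : ℂ) / ((y i : ℂ) - w j) ^ 2,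
   t j)

/-- permutation matrix: `(pm τ * M * (pm τ)ᵀ) b c = M (τ b) (τ c)` -/
def pm {N : ℕ} (τ : Equiv.Perm (Fin N)) : Matrix (Fin N) (Fin N) ℝ :=
  Matrix.of fun b c => if τ b = c then 1 else 0

section
variable {N q : ℕ} (ι : Fin N ≃ Fin 2 × Fin (q + 2))

/-- exchange of the heads of the first two edges -/
def swP : Equiv.Perm (Fin N) := Equiv.swap (ι.symm (1, 0)) (ι.symm (1, 1))

def sg01 (l : Fin (q + 2)) : ℝ := if l = 0 then 1 else if l = 1 then -1 else 0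

/-- change of the adjacency matrix under the switch, on the channels -/
def swB : Matrix (Fin N) (Fin N) ℝ :=
  Matrix.of fun b c => if (ι b).1 = (ι c).1 then 0 else -(sg01 (ι b).2 * sg01 (ι c).2)

def swQ : Quad N := (orthQ (pm (swP ι))).mul ⟨1, 0, swB ι, 1⟩

/-- action of the switch on normalised jets -/
def Wq (e e' : Lab (q + 2)) : Quad N := (gQ ι e').inv.mul ((swQ ι).mul (gQ ι e))

end

/-- the switched configuration -/
def swO {n D q : ℕ} (a : Fin (q + 2) → HE n D) (o : Om n D) : Om n D :=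
  (switchP (Equiv.swap (a 0) (a 1)) o.1, o.2)

def bump (m : ℂ) (δ : ℝ) (x : ℂ) : ℝ := max 0 (1 - ‖x - m‖ / δ)

def bumpF {q : ℕ} (m : ℂ) (δ : ℝ) (e : Lab q) : ℝ := ∏ l, bump m δ (e l).1 * bump m δ (e l).2

end

end Crest.Agent.R166
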